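import Claimed.Agent.R285.Sp.Defs

/-!
# ROW 285, unit MAP: DEFINITIONS of the weak map of [B] s8.2-8.3 (no `sorry`)                          (owner helper202)

Moved verbatim from `R285/Read/B8.lean` (K1 verdicts and contracts are there).  Namespace `Claimed.Agent.R285.B8`, names unchanged.
Contents: `Geo`, `k0`, `org`, `chiX`, `single`, `Kof`, `Step` (`small`, `Hq`, `piece`, `desig`, `Pt`, `Pz`, `lam`, `tz`, `Phi`, `Clin`), `halfShift`, `conjAct`, `Adm`, `EqOn`, `size3`, `StepOK`, `WeakOK`,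
`StepCopy`, `Sc` (towers of tori; `torusGrid_ok`, `lev_ok` PROVED).
CHANGES of 15:30Z in `WeakOK`: `lin`, `parity` assume a finite norm (otherwise `conv` is not additive); `hol` is stated for AFFINE families at the base point (all that the Banach packaging needs);
new fields `add`, `smul`, `adm_lin` (linearity of `Pt`, `Pz`, `Clin`; the class is preserved by `Clin`).
-/

set_option autoImplicit false

namespace Claimed.Agent.R285.B8

open scoped BigOperators ENNReal NNReal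
open MeasureTheory ProbabilityTheory Polynomial Filter Topology
open Claimed.Agent.R285.RG

noncomputable section

/-! ## 0. Constants fixed before everything else -/

/-- kernel constants, radii, threshold, per-block cost: everything which is fixed BEFORE `δ, κ, h₀, L, A` -/
structure Geo where
  Ck : ℝ
  ck : ℝ
  /-- range of a shell in coarse blocks -/
  ρ : ℕ
  /-- microscopic collar of the activities (`≥ 1` because of `e_B^0`) -/
  col : ℕ
  /-- temporary radius -/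
  r : ℕ
  /-- polymer radius -/
  R : ℕ
  /-- small / large threshold of L4.3 -/
  n0 : ℕ
  /-- bound for the separation of the extra regulators -/
  sepV : ℕ
  /-- cost of a shell integration per fine block -/
  cst : ℝ≥0

structure Geo.Ok (c : Geo) : Prop where
  ck_pos : 0 < c.ck
  col_pos : 1 ≤ c.col
  hρ : c.ρ + 1 < c.r
  hs : max 5 c.sepV < c.r
  hrR : c.r + 2 < c.R

/-- `k₀ = 8π` -/
def k0 : ℝ := 8 * Real.pi

/-- the origin -/
def org (G : Geom) : G.V := (⟨0, G.hM⟩, ⟨0, G.hM⟩)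

variable {G : Geom}

/-- the block average of the character `e^{i q α φ}` over the blocks of `X` -/
def chiX (g : Grid G) (α : ℝ) (q : ℤ) (X : Finset g.I) : Fn G := fun z =>
  (1 / (X.card : ℂ)) * ∑ B ∈ X, (((g.m : ℝ) ^ 2)⁻¹ : ℝ) * ∑ x ∈ g.sites {B}, Complex.exp (Complex.I * q * α * z x)

/-! ## 3. The weak map: EXPLICIT definitions (s8.2) -/

/-- the two retained singletons as an activity: `1_{X = {B}} (t e_B^0 / 2 + z c_B^α)` -/
def single (g : Grid G) (α : ℝ) (t z : ℂ) : Act g := fun X =>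
  ∑ B : g.I, if X = {B} then (t / 2) • eBC g B + z • cBC g α B else 0

/-- `(t, z, R) ↦ K` -/
def Kof (g : Grid G) (α : ℝ) (x : ℂ × ℂ × Act g) : Act g := single g α x.1 x.2.1 + x.2.2

/-- the data of one step -/
structure Step (G : Geom) (D0 ℓ : ℕ) where
  P : Pair G D0 ℓ
  Γ : Matrix G.V G.V ℝ
  Vf : Extra P.g
  Vc : Extra P.g'

/-- an anchor site of a polymer -/
def anchor (g : Grid G) (X : Finset g.I) : G.V := if h : (g.sites X).Nonempty then h.choose else org G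

namespace Step

variable {D0 ℓ : ℕ} (S : Step G D0 ℓ) (c : Geo) (ω : ℝ)

/-- `α = 2π/ω` -/
def alpha (ω : ℝ) : ℝ := 2 * Real.pi / ω

open Classical in
/-- the small polymers -/
def small : Finset (Finset S.P.g.I) := Finset.univ.filter fun X => S.P.g.Conn c.R X ∧ X.card ≤ c.n0

/-- `E F_q (· + ζ)` for the activity on `X` -/
def Hq (q : ℤ) (Rm : Act S.P.g) (X : Finset S.P.g.I) : Fn G := conv S.Γ (chargeProj ω q (Rm X))

/-- the piece of the small input `X` which is assigned to the fine block `B ∈ X`; `cosOn = false` : the no-cosine variants -/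
def piece (cosOn : Bool) (Rm : Act S.P.g) (X : Finset S.P.g.I) (B : S.P.g.I) : Fn G :=
  Loc S.P.g X (anchor S.P.g X) (S.Hq ω 0 Rm X) B +
    if cosOn then ((1 / (X.card : ℂ)) * (S.Hq ω 1 Rm X 0 + S.Hq ω (-1) Rm X 0)) • cBC S.P.g (alpha ω) B else 0

open Classical in
/-- **the designated data of the weak map**: a fixed complex-linear function of `(t, z, R)` -/
def desig (cosOn : Bool) (x : ℂ × ℂ × Act S.P.g) : Desig S.P.g' (Fn G) where
  F := fun Y b =>
    (∑ X ∈ (S.small c).filter (fun X => S.P.N.cl X = Y), ∑ B ∈ X.filter (fun B => S.P.N.up B = b), S.piece ω cosOn x.2.2 X B)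
      + if Y = {b} then ∑ B ∈ Finset.univ.filter (fun B => S.P.N.up B = b),
          conv S.Γ ((x.1 / 2) • eBC S.P.g B + x.2.1 • cBC S.P.g (alpha ω) B) else 0
  a := fun b =>
    (∑ X ∈ S.small c, ∑ _B ∈ X.filter (fun B => S.P.N.up B = b), (1 / (X.card : ℂ)) * S.Hq ω 0 x.2.2 X 0)
      + ∑ B ∈ Finset.univ.filter (fun B => S.P.N.up B = b), (x.1 / 2) * conv S.Γ (eBC S.P.g B) 0

/-- the reference block -/
def B0 : S.P.g.I := S.P.g.blk (org G)

open Classical in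
/-- `P_j^t R = d`, `d Id = ∑_{X ∋ B} D^X / |X|` -/
def Pt (Rm : Act S.P.g) : ℂ :=
  (1 / 2) * ∑ i : Fin 2, ∑ X ∈ (S.small c).filter (fun X => S.B0 ∈ X),
    (1 / (X.card : ℂ)) * DX S.P.g (anchor S.P.g X) (S.Hq ω 0 Rm X) i i

open Classical in
/-- `P_j^z R` -/
def Pz (Rm : Act S.P.g) : ℂ :=
  ((2 : ℂ) ^ ℓ) ^ 2 * ∑ X ∈ (S.small c).filter (fun X => S.B0 ∈ X),
    (1 / (X.card : ℂ)) * (S.Hq ω 1 Rm X 0 + S.Hq ω (-1) Rm X 0)

/-- the exact fundamental multiplier `λ_j = L² e^{-α² Γ(0,0)/2}` -/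
def lam : ℝ := ((2 : ℝ) ^ ℓ) ^ 2 * Real.exp (-(alpha ω) ^ 2 * S.Γ (org G) (org G) / 2)

/-- the new scalars -/
def tz (cosOn : Bool) (x : ℂ × ℂ × Act S.P.g) : ℂ × ℂ :=
  (x.1 + S.Pt c ω x.2.2, if cosOn then (S.lam ω : ℂ) * x.2.1 + S.Pz c ω x.2.2 else 0)

/-- **the weak map** `Φ_j : (t, z, R) ↦ (t₊, z₊, R₊)` -/
def Phi (cosOn : Bool) (x : ℂ × ℂ × Act S.P.g) : ℂ × ℂ × Act S.P.g' :=
  ((S.tz c ω cosOn x).1, (S.tz c ω cosOn x).2,
    Kprime S.P c.r c.R (conv S.Γ) (Kof S.P.g (alpha ω) x) (S.desig c ω cosOn x)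
      - single S.P.g' (alpha ω) (S.tz c ω cosOn x).1 (S.tz c ω cosOn x).2)

/-- the linear remainder operator `C_j` -/
def Clin (cosOn : Bool) (Rm : Act S.P.g) : Act S.P.g' :=
  Klin S.P c.R (conv S.Γ) Rm (S.desig c ω cosOn (0, 0, Rm))
    - single S.P.g' (alpha ω) (S.tz c ω cosOn (0, 0, Rm)).1 (S.tz c ω cosOn (0, 0, Rm)).2

end Step

/-- the half-period translation `(𝒮 K)(X, φ) = K (X, φ + ω/2)` -/
def halfShift {g : Grid G} (ω : ℝ) (K : Act g) : Act g := fun X z => K X fun v => z v + ((ω / 2 : ℝ) : ℂ)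

/-- complex conjugation of activities `\bar K (X, z) = \overline{K (X, \bar z)}` (real activities are the fixed points) -/
def conjAct {g : Grid G} (K : Act g) : Act g := fun X z => starRingEnd ℂ (K X fun v => starRingEnd ℂ (z v))

/-- the class of activities of s8: local, periodic, even, covariant (`gs` = observation cells; `gs = g` if there are none) = `RG.Act.Cls` -/
abbrev Adm (p : Par) (c : Geo) (gs : Grid G) {g : Grid G} (K : Act g) : Prop := K.Cls p c.col c.R gs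

/-- equality of activities where they are meaningful (inside the strips) -/
def EqOn (h0 : ℝ≥0) {g : Grid G} (K K' : Act g) : Prop := ∀ X, ∀ z ∈ strip h0 g X, K X z = K' X z

/-- `|t| + |z| + ‖R‖` -/
def size3 (p : Par) (g : Grid G) (V : Extra g) (x : ℂ × ℂ × Act g) : ℝ≥0∞ :=
  (‖x.1‖₊ : ℝ≥0∞) + (‖x.2.1‖₊ : ℝ≥0∞) + actNorm p g V x.2.2

/-- hypotheses on one step (all of them are supplied by `B4`: L4.1/L8.1, L4.3, L4.4/L9.2) -/
structure StepOK (c : Geo) (p : Par) (gs : Grid G) {D0 ℓ : ℕ} (S : Step G D0 ℓ) : Prop where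
  per : G.bc = BC.per
  shell : ShellOK c.Ck c.ck c.ρ S.P S.Γ
  reg : RegStable c.R c.n0 c.cst p.δ p.κ S.P S.Vf S.Vc S.Γ
  adm : p.Adm S.P.g'
  sep : S.Vc.sep ≤ c.sepV
  /-- (fine regulators multiply on the components of a fine set) -/
  sepf : S.Vf.sep ≤ c.sepV
  admf : p.Adm S.P.g
  col : 2 * c.col < S.P.g.m
  /-- the covariance is invariant -/
  inv : ∀ (s : GridSym S.P.g) (v w : G.V), S.Γ (s.σ v) (s.σ w) = S.Γ v w
  /-- .. and has a constant diagonal (full translation invariance of polynomial kernels) -/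
  diag : ∀ v : G.V, S.Γ v v = S.Γ (org G) (org G)
  /-- a symmetry of the coarse grid is a symmetry of the fine grid -/
  nest : ∀ s : GridSym S.P.g', s.Pres gs → ∃ s' : GridSym S.P.g, s'.σ = s.σ ∧ s'.Pres gs
  /-- block translations and the square symmetries of a block exist (full-block torus grids) -/
  trans : ∀ B B' : S.P.g.I, ∃ s : GridSym S.P.g, s.Pres gs ∧ s.τ B = B' ∧ s.ρ = 1
  square : ∀ (B : S.P.g.I), (∃ s : GridSym S.P.g, s.Pres gs ∧ s.τ B = B ∧ s.ρ = Equiv.swap 0 1) ∧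
    ∃ s : GridSym S.P.g, s.Pres gs ∧ s.τ B = B ∧ s.ρ 0 = 2 ∧ s.ρ 2 = 0 ∧ s.ρ 1 = 3 ∧ s.ρ 3 = 1
  /-- L4.3 -/
  half : ∀ X : Finset S.P.g.I, S.P.g.Conn c.R X → c.n0 < X.card → 2 * (S.P.N.cl X).card ≤ X.card
  diam : ∀ X : Finset S.P.g.I, S.P.g.Conn c.R X → X.card ≤ c.n0 → S.P.g'.idiam (S.P.N.cl X) ≤ 1 ∧ S.P.g'.Conn c.r (S.P.N.cl X)

/-- **the conclusions of P8.3 for one step**, constants `θ` (contraction), `C = C_{L,A}`, `ε₀` (radius) -/
structure WeakOK (c : Geo) (p : Par) (gs : Grid G) {D0 ℓ : ℕ} (S : Step G D0 ℓ) (cosOn : Bool) (θ C ε0 : ℝ≥0) : Prop where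
  /-- the linear part of `K'` is triangular: EXACT identity (uses covariance: `∑_{X ∋ B} D^X/|X| = d Id`, `loc_isotropic`, `conv_eBC`, `conv_cBC`) -/
  lin : ∀ x : ℂ × ℂ × Act S.P.g, Adm p c gs x.2.2 → actNorm p S.P.g S.Vf x.2.2 ≠ ⊤ → (cosOn = false → x.2.1 = 0) →
    EqOn p.h0 (Klin S.P c.R (conv S.Γ) (Kof S.P.g (Step.alpha p.ω) x) (S.desig c p.ω cosOn x))
      (single S.P.g' (Step.alpha p.ω) (S.tz c p.ω cosOn x).1 (S.tz c p.ω cosOn x).2 + S.Clin c p.ω cosOn x.2.2)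
  proj : ∀ Rm : Act S.P.g, Adm p c gs Rm →
    (‖S.Pt c p.ω Rm‖₊ : ℝ≥0∞) + (‖S.Pz c p.ω Rm‖₊ : ℝ≥0∞) ≤ C * actNorm p S.P.g S.Vf Rm
  contr : ∀ Rm : Act S.P.g, Adm p c gs Rm → actNorm p S.P.g' S.Vc (S.Clin c p.ω cosOn Rm) ≤ θ * actNorm p S.P.g S.Vf Rm
  /-- (wh:nonlinear) -/
  quad : ∀ x : ℂ × ℂ × Act S.P.g, Adm p c gs x.2.2 → (cosOn = false → x.2.1 = 0) → size3 p S.P.g S.Vf x ≤ ε0 →
    actNorm p S.P.g' S.Vc ((S.Phi c p.ω cosOn x).2.2 - S.Clin c p.ω cosOn x.2.2) ≤ C * size3 p S.P.g S.Vf x ^ 2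
  /-- Lipschitz form of (wh:nonlinear) ("differentiated estimates") -/
  lip : ∀ x y : ℂ × ℂ × Act S.P.g, Adm p c gs x.2.2 → Adm p c gs y.2.2 → (cosOn = false → x.2.1 = 0 ∧ y.2.1 = 0) →
    size3 p S.P.g S.Vf x ≤ ε0 → size3 p S.P.g S.Vf y ≤ ε0 →
    actNorm p S.P.g' S.Vc (((S.Phi c p.ω cosOn x).2.2 - S.Clin c p.ω cosOn x.2.2) - ((S.Phi c p.ω cosOn y).2.2 - S.Clin c p.ω cosOn y.2.2))
      ≤ C * (size3 p S.P.g S.Vf x + size3 p S.P.g S.Vf y) * size3 p S.P.g S.Vf (x - y)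
  /-- the class is preserved -/
  adm : ∀ x : ℂ × ℂ × Act S.P.g, Adm p c gs x.2.2 → size3 p S.P.g S.Vf x ≤ ε0 → Adm p c gs (S.Phi c p.ω cosOn x).2.2
  /-- the map commutes with complex conjugation (all coefficients are real), so real data stay real -/
  conj : ∀ x : ℂ × ℂ × Act S.P.g, Adm p c gs x.2.2 → size3 p S.P.g S.Vf x ≤ ε0 →
    (S.Phi c p.ω cosOn (starRingEnd ℂ x.1, starRingEnd ℂ x.2.1, conjAct x.2.2)).1 = starRingEnd ℂ (S.Phi c p.ω cosOn x).1 ∧
    (S.Phi c p.ω cosOn (starRingEnd ℂ x.1, starRingEnd ℂ x.2.1, conjAct x.2.2)).2.1 = starRingEnd ℂ (S.Phi c p.ω cosOn x).2.1 ∧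
    EqOn p.h0 (S.Phi c p.ω cosOn (starRingEnd ℂ x.1, starRingEnd ℂ x.2.1, conjAct x.2.2)).2.2 (conjAct (S.Phi c p.ω cosOn x).2.2)
  /-- the extracted constants -/
  cst : ∀ x : ℂ × ℂ × Act S.P.g, Adm p c gs x.2.2 → size3 p S.P.g S.Vf x ≤ ε0 → ∀ b,
    (‖(S.desig c p.ω cosOn x).a b‖₊ : ℝ≥0∞) ≤ C * size3 p S.P.g S.Vf x ∧ ‖(S.desig c p.ω cosOn x).a b‖ ≤ 1 / 2
  /-- (rg:exact-map) for the weak map, at COMPLEX backgrounds inside the strip of the whole grid -/
  exact : ∀ x : ℂ × ℂ × Act S.P.g, Adm p c gs x.2.2 → size3 p S.P.g S.Vf x ≤ ε0 → ∀ z ∈ strip p.h0 S.P.g' Finset.univ,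
    conv S.Γ (ZA S.P.g c.R (Kof S.P.g (Step.alpha p.ω) x)) z
      = (∏ b : S.P.g'.I, (1 + (S.desig c p.ω cosOn x).a b)) * ZA S.P.g' c.R (Kof S.P.g' (Step.alpha p.ω) (S.Phi c p.ω cosOn x)) z
  /-- half-period parity: `(t, z, R) ↦ (t, -z, 𝒮 R)` commutes with the map -/
  parity : ∀ x : ℂ × ℂ × Act S.P.g, Adm p c gs x.2.2 → actNorm p S.P.g S.Vf x.2.2 ≠ ⊤ →
    (S.Phi c p.ω cosOn (x.1, -x.2.1, halfShift p.ω x.2.2)).1 = (S.Phi c p.ω cosOn x).1 ∧
    (S.Phi c p.ω cosOn (x.1, -x.2.1, halfShift p.ω x.2.2)).2.1 = -(S.Phi c p.ω cosOn x).2.1 ∧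
    EqOn p.h0 (S.Phi c p.ω cosOn (x.1, -x.2.1, halfShift p.ω x.2.2)).2.2 (halfShift p.ω (S.Phi c p.ω cosOn x).2.2)
  /-- Gateaux holomorphy along complex lines, pointwise in `(Y, z)` (with `quad`, `contr`: local boundedness, hence Fréchet holomorphy in the norms) -/
  hol : ∀ x y : ℂ × ℂ × Act S.P.g, Adm p c gs x.2.2 → Adm p c gs y.2.2 → size3 p S.P.g S.Vf x < ε0 → size3 p S.P.g S.Vf y ≠ ⊤ →
    DifferentiableAt ℂ (fun s : ℂ => (S.Phi c p.ω cosOn (x + s • y)).1) 0 ∧ DifferentiableAt ℂ (fun s : ℂ => (S.Phi c p.ω cosOn (x + s • y)).2.1) 0 ∧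
    ∀ Y, ∀ z ∈ strip p.h0 S.P.g' Y, DifferentiableAt ℂ (fun s : ℂ => (S.Phi c p.ω cosOn (x + s • y)).2.2 Y z) 0
  /-- the linear operators are additive .. -/
  add : ∀ Rm Rm' : Act S.P.g, Adm p c gs Rm → Adm p c gs Rm' → actNorm p S.P.g S.Vf Rm ≠ ⊤ → actNorm p S.P.g S.Vf Rm' ≠ ⊤ →
    S.Pt c p.ω (Rm + Rm') = S.Pt c p.ω Rm + S.Pt c p.ω Rm' ∧ S.Pz c p.ω (Rm + Rm') = S.Pz c p.ω Rm + S.Pz c p.ω Rm' ∧
    EqOn p.h0 (S.Clin c p.ω cosOn (Rm + Rm')) (S.Clin c p.ω cosOn Rm + S.Clin c p.ω cosOn Rm')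
  /-- .. and homogeneous -/
  smul : ∀ (a : ℂ) (Rm : Act S.P.g), Adm p c gs Rm → actNorm p S.P.g S.Vf Rm ≠ ⊤ →
    S.Pt c p.ω (a • Rm) = a * S.Pt c p.ω Rm ∧ S.Pz c p.ω (a • Rm) = a * S.Pz c p.ω Rm ∧
    EqOn p.h0 (S.Clin c p.ω cosOn (a • Rm)) (a • S.Clin c p.ω cosOn Rm)
  /-- the class is preserved by the linear operator -/
  adm_lin : ∀ Rm : Act S.P.g, Adm p c gs Rm → actNorm p S.P.g S.Vf Rm ≠ ⊤ → Adm p c gs (S.Clin c p.ω cosOn Rm)

/-! ## 4. Plane = torus on unwrapped supports (last paragraph of P8.3)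

There is NO plane object (`Base/Spaces.lean`, S2).  Two activities at the same block side on two tori are copies (`RG.Copy h₀ c0`) if they agree on every support which unwraps, with `c0` blocks of padding, in both
tori.  A CONSTANT padding is stable under the map: `K'(Y)` only uses `K (X)`, `\bar X ⊆ N_1 (Y)`, and covariance entries inside `N_{1+ρ} (Y)`; `c0 ≥ 2 (ρ + 4)` works for `L ≥ 2`. -/

/-- two steps on two tori which are copies of each other -/
structure StepCopy {G G' : Geom} {D0 ℓ : ℕ} (S : Step G D0 ℓ) (S' : Step G' D0 ℓ) : Prop where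
  side : S.P.g.m = S'.P.g.m
  /-- `cov_unwrap` -/
  cov : ∀ x y : ℤ × ℤ, max (x.1 - y.1).natAbs (x.2 - y.2).natAbs + S.P.g'.m * (pp + 1) < min G.M G'.M → S.Γ (G.π x) (G.π y) = S'.Γ (G'.π x) (G'.π y)
  /-- full-block grids with the common origin -/
  grid : ∀ x y : ℤ × ℤ, (x.1 / S.P.g.m = y.1 / S.P.g.m ∧ x.2 / S.P.g.m = y.2 / S.P.g.m → S.P.g.blk (G.π x) = S.P.g.blk (G.π y) ∧ S'.P.g.blk (G'.π x) = S'.P.g.blk (G'.π y)) ∧
    (x.1 / S.P.g'.m = y.1 / S.P.g'.m ∧ x.2 / S.P.g'.m = y.2 / S.P.g'.m → S.P.g'.blk (G.π x) = S.P.g'.blk (G.π y) ∧ S'.P.g'.blk (G'.π x) = S'.P.g'.blk (G'.π y))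

/-! ## 5. The towers of tori -/

theorem torusGrid_card (G : Geom) (m : ℕ) (h : m ∣ G.M) (hm : 0 < m) (b : Fin (torusGrid G m h).n) :
    (Finset.univ.filter fun i => (torusGrid G m h).blk1 i = b).card = m := by
  have hb : (b : ℕ) < G.M / m := b.2
  have hbm : (b : ℕ) * m + m ≤ G.M := by
    obtain ⟨k, hk⟩ := h
    have : G.M / m = k := by rw [hk]; exact Nat.mul_div_cancel_left k hm
    rw [this] at hb
    calc (b : ℕ) * m + m = ((b : ℕ) + 1) * m := by ring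
      _ ≤ k * m := Nat.mul_le_mul_right m hb
      _ = G.M := by rw [hk, mul_comm]
  have : (Finset.univ.filter fun i => (torusGrid G m h).blk1 i = b)
      = (Finset.univ : Finset (Fin m)).map ⟨fun r : Fin m => (⟨(b : ℕ) * m + (r : ℕ), by have := r.2; omega⟩ : Fin G.M), by
          intro r r' hr
          have := congrArg Fin.val hr
          simp only at this
          exact Fin.ext (by omega)⟩ := by
    ext i
    simp only [Finset.mem_filter, Finset.mem_univ, true_and, Finset.mem_map]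
    constructor
    · intro hi
      have hi' : (i : ℕ) / m = b := congrArg Fin.val hi
      refine ⟨⟨(i : ℕ) % m, Nat.mod_lt _ hm⟩, Fin.ext ?_⟩
      show (b : ℕ) * m + (i : ℕ) % m = i
      rw [← hi', mul_comm]; exact Nat.div_add_mod _ _
    · rintro ⟨r, rfl⟩
      apply Fin.ext
      show ((b : ℕ) * m + r) / m = b
      rw [mul_comm, Nat.mul_add_div hm, Nat.div_eq_of_lt r.2, add_zero]
  rw [this, Finset.card_map, Finset.card_univ, Fintype.card_fin]

theorem torusGrid_ok (G : Geom) (m : ℕ) (h : m ∣ G.M) (hm : 0 < m) : (torusGrid G m h).Ok where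
  pos := hm
  mono := fun i j hij => Nat.div_le_div_right (c := m) hij
  surj := fun b => by
    have hb : (b : ℕ) < G.M / m := b.2
    have hbm : (b : ℕ) * m < G.M := by
      obtain ⟨k, hk⟩ := h
      have : G.M / m = k := by rw [hk]; exact Nat.mul_div_cancel_left k hm
      rw [this] at hb
      calc (b : ℕ) * m < k * m := Nat.mul_lt_mul_of_pos_right hb hm
        _ = G.M := by rw [hk, mul_comm]
    refine ⟨⟨(b : ℕ) * m, hbm⟩, Fin.ext ?_⟩
    show (b : ℕ) * m / m = b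
    exact Nat.mul_div_cancel _ hm
  size := fun b => by
    have e := torusGrid_card G m h hm b
    have e2 : (torusGrid G m h).m = m := rfl
    rw [e, e2]; omega
  full := fun b _ => torusGrid_card G m h hm b

/-- the scales: `L = 2^ℓ`, block side `L^j` at the absolute index `j`, stopped torus `n_h = D₀ L^h` (`= RG.towerG`) -/
structure Sc where
  ℓ : ℕ
  D0 : ℕ
  hD : 0 < D0

namespace Sc

variable (s : Sc)

def L : ℕ := 2 ^ s.ℓ

theorem L_pos : 0 < s.L := Nat.pos_of_ne_zero (by simp [L])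

/-- the torus stopped at `h` -/
def T (h : ℕ) : Geom := towerG s.L s.D0 s.L_pos s.hD h

theorem dvd (h j : ℕ) : s.L ^ (min j h) ∣ (s.T h).M := Dvd.dvd.mul_left (pow_dvd_pow s.L (min_le_right j h)) s.D0

/-- the full-block grid of side `L^j` on the torus `h ≥ j`.  TOTAL definition (side `L^{min j h}`), so that spaces indexed by `(j, h)` need no proofs in their types;
for `j ≤ h` it is `RG.towerGrid` up to `min j h = j`. -/
def lev (h j : ℕ) : Grid (s.T h) := torusGrid (s.T h) (s.L ^ (min j h)) (s.dvd h j)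

/-- nesting of consecutive levels -/
def nest (h j : ℕ) : Nest (s.lev h j) (s.lev h (j + 1)) where
  up1 := fun a => ⟨(a : ℕ) / s.L ^ (min (j + 1) h - min j h), by
    have ha : (a : ℕ) < (s.T h).M / s.L ^ (min j h) := a.2
    have e : s.L ^ (min (j + 1) h) = s.L ^ (min j h) * s.L ^ (min (j + 1) h - min j h) := by
      rw [← pow_add]; congr 1; omega
    show (a : ℕ) / s.L ^ (min (j + 1) h - min j h) < (s.T h).M / s.L ^ (min (j + 1) h)
    rw [e, ← Nat.div_div_eq_div_mul]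
    apply Nat.div_lt_div_of_lt_of_dvd _ ha
    apply Nat.dvd_div_of_mul_dvd
    rw [← e]; exact s.dvd h (j + 1)⟩
  comm := fun i => by
    apply Fin.ext
    have e : s.L ^ (min (j + 1) h) = s.L ^ (min j h) * s.L ^ (min (j + 1) h - min j h) := by
      rw [← pow_add]; congr 1; omega
    show (i : ℕ) / s.L ^ (min (j + 1) h) = (i : ℕ) / s.L ^ (min j h) / s.L ^ (min (j + 1) h - min j h)
    rw [e, Nat.div_div_eq_div_mul]

theorem lev_ok (h j : ℕ) : (s.lev h j).Ok := torusGrid_ok _ _ _ (Nat.pow_pos s.L_pos)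

/-- the retained pair `(j, j + 1)` on the torus `h`, `j < h`; clearance `D₀ - 1` -/
def pair (h j : ℕ) (hj : j < h) : Pair (s.T h) (s.D0 - 1) s.ℓ where
  g := s.lev h j
  g' := s.lev h (j + 1)
  N := s.nest h j
  ok := s.lev_ok h j
  ok' := s.lev_ok h (j + 1)
  hS := by
    show s.L ^ (min (j + 1) h) = 2 ^ s.ℓ * s.L ^ (min j h)
    rw [min_eq_left hj, min_eq_left hj.le, pow_succ, mul_comm]; rfl
  clear := by
    show (s.D0 - 1) * s.L ^ (min (j + 1) h) < s.D0 * s.L ^ h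
    have h1 : s.L ^ (min (j + 1) h) ≤ s.L ^ h := Nat.pow_le_pow_right s.L_pos (min_le_right _ _)
    have h2 : 0 < s.L ^ h := Nat.pow_pos s.L_pos
    have h3 := s.hD
    calc (s.D0 - 1) * s.L ^ (min (j + 1) h) ≤ (s.D0 - 1) * s.L ^ h := Nat.mul_le_mul_left _ h1
      _ < s.D0 * s.L ^ h := Nat.mul_lt_mul_of_pos_right (by omega) h2

end Sc

end

end Claimed.Agent.R285.B8
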