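import Claimed.Agent.R285.Sp.Defs
import Claimed.Agent.R285.Hol.Tn
import Claimed.Agent.R285.Reg.Grid
import Claimed.Agent.R285.Geo.Grid

/-!
# ROW 285, post BP-MAP-PACK, file S: KIT FOR THE LATTICE SYMMETRIES `RG.GridSym` ON A TORUS      (architect helper114; PROVED helper15: the file is free of open leaves)

Imports only `Base/RG`, `Sp/Defs`, `Hol/Tn`: every package which has to prove `Act.Sym` for a constructed activity (MAP-PACK, the weak map, ENTRY, UV) may cite it.  PAPER-FREE.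

A `GridSym g` is `(σ, τ, ρ)`: a permutation `σ` of the sites with `σ (v + e) = σ v + ρ e` for ONE permutation `ρ` of the four directions, and `τ` = the induced permutation of the blocks.
On a periodic torus of side `M ≥ 3`:
* `ρ` maps opposite directions to opposite directions (`sym_opp`; `σ v = σ ((v + e) - e) = σ v + ρ e + ρ (-e)`, and a sum of two unit vectors vanishes mod `M ≥ 3` only if it vanishes);
* hence `σ (π x) = π (o + T x)`, `T = symT s` a signed permutation matrix (`sym_affine`; induction on `|x.1| + |x.2|`);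
* `σ` is an isometry of `Geom.dist` (`sym_dist`), `τ` of `Grid.idist` (`sym_idist`: for a full-block grid `idist a b = (d + m - 1) / m`, `d` = the minimal distance of a site of `a` and a site of `b`);
* polymers, collars, sites, `D_m`, test-function norms, strips, unwrapped polymers and the two singletons are covariant.

LEAVES (subtasks `L-PK-SYM-*`): A = `sym_opp`, `sym_affine`, `symT_*`, `GridSym.inv*`;  B = `sym_dist`, `sym_idist`;  C = `sym_conn` .. `sym_strip`;  D = `sym_unwr`;  E = `sym_eBC`, `sym_cBC`.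
-/

set_option autoImplicit false

namespace Claimed.Agent.R285.Pack

open scoped BigOperators ENNReal NNReal
open Claimed.Agent.R285.RG

noncomputable section

variable {G : Geom} {g : Grid G}

/-- the linear part of a symmetry: `T (x₁, x₂) = x₁ ρ(e₁) + x₂ ρ(e₂)` -/
def symT (s : GridSym g) (x : ℤ × ℤ) : ℤ × ℤ := x.1 • dir (s.ρ 0) + x.2 • dir (s.ρ 2)

/-! ### periodic folding -/

theorem syml_fold_eq (hG : G.bc = BC.per) (x y : ℤ) : G.fold x = G.fold y ↔ (G.M : ℤ) ∣ x - y := by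
  have h1 := Reg.regl_fold_per G hG x
  have h2 := Reg.regl_fold_per G hG y
  rw [Int.dvd_iff_emod_eq_zero, ← Int.emod_eq_emod_iff_emod_sub_eq_zero, ← h1, ← h2]
  constructor
  · intro h; rw [h]
  · intro h; exact Fin.ext (by exact_mod_cast h)

theorem syml_pi_eq (hG : G.bc = BC.per) (x y : ℤ × ℤ) :
    G.π x = G.π y ↔ (G.M : ℤ) ∣ x.1 - y.1 ∧ (G.M : ℤ) ∣ x.2 - y.2 := by
  unfold Geom.π
  rw [Prod.ext_iff, syml_fold_eq hG, syml_fold_eq hG]

theorem syml_iota_pi (hG : G.bc = BC.per) (x : ℤ × ℤ) :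
    (G.M : ℤ) ∣ (G.ι (G.π x)).1 - x.1 ∧ (G.M : ℤ) ∣ (G.ι (G.π x)).2 - x.2 := by
  rw [← syml_pi_eq hG, Reg.reg_pi_iota]

theorem syml_pi_add (hG : G.bc = BC.per) (x y : ℤ × ℤ) : G.π (G.ι (G.π x) + y) = G.π (x + y) := by
  obtain ⟨h1, h2⟩ := syml_iota_pi hG x
  rw [syml_pi_eq hG]
  constructor
  · have : (G.ι (G.π x) + y).1 - (x + y).1 = (G.ι (G.π x)).1 - x.1 := by simp
    rw [this]; exact h1
  · have : (G.ι (G.π x) + y).2 - (x + y).2 = (G.ι (G.π x)).2 - x.2 := by simp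
    rw [this]; exact h2

/-- the step relation at a general point of the plane -/
theorem syml_step (hG : G.bc = BC.per) (s : GridSym g) (x : ℤ × ℤ) (e : Fin 4) :
    s.σ (G.π (x + dir e)) = G.π (G.ι (s.σ (G.π x)) + dir (s.ρ e)) := by
  rw [← syml_pi_add hG, s.step]

theorem syml_dvd_small {M : ℕ} (hM : 3 ≤ M) {a : ℤ} (h : (M : ℤ) ∣ a) (h1 : -2 ≤ a) (h2 : a ≤ 2) : a = 0 := by
  obtain ⟨k, rfl⟩ := h
  have hM' : (3 : ℤ) ≤ M := by exact_mod_cast hM
  rcases lt_trichotomy k 0 with hk | hk | hk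
  · exfalso; nlinarith
  · rw [hk, mul_zero]
  · exfalso; nlinarith

theorem syml_opp_gen (hG : G.bc = BC.per) (hM : 3 ≤ G.M) (s : GridSym g) (e e' : Fin 4) (h : dir e' = -dir e) :
    dir (s.ρ e') = -dir (s.ρ e) := by
  have v : G.V := (⟨0, G.hM⟩, ⟨0, G.hM⟩)
  have h1 := syml_step hG s (G.ι v) e
  have h2 := syml_step hG s (G.ι v + dir e) e'
  rw [h1, syml_pi_add hG, h, add_neg_cancel_right, Reg.reg_pi_iota] at h2
  have h3 : G.π (G.ι (s.σ v)) = G.π (G.ι (s.σ v) + dir (s.ρ e) + dir (s.ρ e')) := by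
    rw [Reg.reg_pi_iota]; exact h2
  rw [syml_pi_eq hG] at h3
  obtain ⟨h4, h5⟩ := h3
  have e4 : (G.ι (s.σ v)).1 - (G.ι (s.σ v) + dir (s.ρ e) + dir (s.ρ e')).1 = -((dir (s.ρ e)).1 + (dir (s.ρ e')).1) := by
    simp; ring
  have e5 : (G.ι (s.σ v)).2 - (G.ι (s.σ v) + dir (s.ρ e) + dir (s.ρ e')).2 = -((dir (s.ρ e)).2 + (dir (s.ρ e')).2) := by
    simp; ring
  rw [e4] at h4
  rw [e5] at h5
  have b : ∀ k : Fin 4, -1 ≤ (dir k).1 ∧ (dir k).1 ≤ 1 ∧ -1 ≤ (dir k).2 ∧ (dir k).2 ≤ 1 := by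
    intro k; fin_cases k <;> simp [dir]
  have b1 := b (s.ρ e)
  have b2 := b (s.ρ e')
  have z4 := syml_dvd_small hM h4 (by omega) (by omega)
  have z5 := syml_dvd_small hM h5 (by omega) (by omega)
  apply Prod.ext
  · simp only [Prod.fst_neg]; omega
  · simp only [Prod.snd_neg]; omega

theorem sym_opp (hG : G.bc = BC.per) (hM : 3 ≤ G.M) (s : GridSym g) : dir (s.ρ 1) = -dir (s.ρ 0) ∧ dir (s.ρ 3) = -dir (s.ρ 2) :=
  ⟨syml_opp_gen hG hM s 0 1 (by simp [dir]), syml_opp_gen hG hM s 2 3 (by simp [dir])⟩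

theorem symT_dir (hG : G.bc = BC.per) (hM : 3 ≤ G.M) (s : GridSym g) (e : Fin 4) : symT s (dir e) = dir (s.ρ e) := by
  obtain ⟨h1, h3⟩ := sym_opp hG hM s
  unfold symT
  fin_cases e
  · simp [dir]
  · show _ = dir (s.ρ 1)
    rw [h1]; simp [dir]
  · simp [dir]
  · show _ = dir (s.ρ 3)
    rw [h3]; simp [dir]

theorem symT_add (s : GridSym g) (x y : ℤ × ℤ) : symT s (x + y) = symT s x + symT s y := by
  unfold symT
  simp only [Prod.fst_add, Prod.snd_add, add_smul]
  abel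

theorem syml_dir_inj : Function.Injective dir := by
  intro a b h
  fin_cases a <;> fin_cases b <;> simp_all [dir]

theorem symT_norm (hG : G.bc = BC.per) (hM : 3 ≤ G.M) (s : GridSym g) (x : ℤ × ℤ) :
    max (symT s x).1.natAbs (symT s x).2.natAbs = max x.1.natAbs x.2.natAbs := by
  obtain ⟨h1, -⟩ := sym_opp hG hM s
  have n02 : s.ρ 0 ≠ s.ρ 2 := fun h => by have := s.ρ.injective h; simp at this
  have n12 : dir (s.ρ 2) ≠ -dir (s.ρ 0) := fun h => by
    rw [← h1] at h
    have := s.ρ.injective (syml_dir_inj h); simp at this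
  unfold symT
  generalize s.ρ 0 = a at *
  generalize s.ρ 2 = b at *
  obtain ⟨x1, x2⟩ := x
  fin_cases a <;> fin_cases b <;> simp [dir] at n02 n12 ⊢ <;> omega

theorem syml_affine_step (hG : G.bc = BC.per) (hM : 3 ≤ G.M) (s : GridSym g) (x y : ℤ × ℤ) (e : Fin 4)
    (h : s.σ (G.π (x + y)) = G.π (G.ι (s.σ (G.π x)) + symT s y)) :
    s.σ (G.π (x + (y + dir e))) = G.π (G.ι (s.σ (G.π x)) + symT s (y + dir e)) := by
  rw [← add_assoc, syml_step hG, h, syml_pi_add hG, symT_add, symT_dir hG hM, add_assoc]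

theorem sym_affine (hG : G.bc = BC.per) (hM : 3 ≤ G.M) (s : GridSym g) (x y : ℤ × ℤ) :
    s.σ (G.π (x + y)) = G.π (G.ι (s.σ (G.π x)) + symT s y) := by
  obtain ⟨a, b⟩ := y
  have h0 : s.σ (G.π (x + (0, 0))) = G.π (G.ι (s.σ (G.π x)) + symT s (0, 0)) := by
    have e1 : x + ((0 : ℤ), (0 : ℤ)) = x := by simp
    have e2 : symT s ((0 : ℤ), (0 : ℤ)) = 0 := by simp [symT]
    rw [e1, e2, add_zero, Reg.reg_pi_iota]
  have h1 : ∀ a : ℤ, s.σ (G.π (x + (a, 0))) = G.π (G.ι (s.σ (G.π x)) + symT s (a, 0)) := by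
    intro a
    induction a using Int.induction_on with
    | zero => exact h0
    | succ i ih =>
      have := syml_affine_step hG hM s x _ 0 ih
      have e : (((i : ℤ), (0 : ℤ)) : ℤ × ℤ) + dir 0 = ((i : ℤ) + 1, 0) := by simp [dir]
      rwa [e] at this
    | pred i ih =>
      have := syml_affine_step hG hM s x _ 1 ih
      have e : ((-(i : ℤ), (0 : ℤ)) : ℤ × ℤ) + dir 1 = (-(i : ℤ) - 1, 0) := by simp [dir]; ring
      rwa [e] at this
  induction b using Int.induction_on with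
  | zero => exact h1 a
  | succ i ih =>
    have := syml_affine_step hG hM s x _ 2 ih
    have e : ((a, (i : ℤ)) : ℤ × ℤ) + dir 2 = (a, (i : ℤ) + 1) := by simp [dir]
    rwa [e] at this
  | pred i ih =>
    have := syml_affine_step hG hM s x _ 3 ih
    have e : ((a, -(i : ℤ)) : ℤ × ℤ) + dir 3 = (a, -(i : ℤ) - 1) := by simp [dir]; ring
    rwa [e] at this

/-- the inverse symmetry -/
def symInv (s : GridSym g) : GridSym g where
  σ := s.σ.symm
  τ := s.τ.symm
  ρ := s.ρ.symm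
  blk := fun v => by
    rw [Equiv.eq_symm_apply, ← s.blk, Equiv.apply_symm_apply]
  step := fun v e => by
    rw [Equiv.symm_apply_eq, s.step, Equiv.apply_symm_apply, Equiv.apply_symm_apply]

theorem symInv_pres (s : GridSym g) (gs : Grid G) (h : s.Pres gs) : (symInv s).Pres gs := by
  obtain ⟨τs, h⟩ := h
  refine ⟨τs.symm, fun v => ?_⟩
  show gs.blk (s.σ.symm v) = τs.symm (gs.blk v)
  rw [Equiv.eq_symm_apply, ← h, Equiv.apply_symm_apply]

/-! ### full-block grids of a torus are explicit -/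



theorem syml_lower {M : ℕ} (A : Finset (Fin M)) (hA : ∀ i ∈ A, ∀ j, j ≤ i → j ∈ A) (i : Fin M) :
    i ∈ A ↔ (i : ℕ) < A.card := by
  constructor
  · intro hi
    have h1 : Finset.Iic i ⊆ A := fun j hj => hA i hi j (Finset.mem_Iic.1 hj)
    have h2 := Finset.card_le_card h1
    rw [Fin.card_Iic] at h2; omega
  · intro hi
    by_contra hn
    have h1 : A ⊆ Finset.Iio i := fun j hj => Finset.mem_Iio.2 (by
      by_contra h; exact hn (hA j hj i (not_lt.1 h)))
    have h2 := Finset.card_le_card h1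
    rw [Fin.card_Iio] at h2; omega

theorem syml_card_lt (hG : G.bc = BC.per) (hg : g.Ok) (c : ℕ) (hc : c ≤ g.n) :
    (Finset.univ.filter fun i : Fin G.M => (g.blk1 i : ℕ) < c).card = c * g.m := by
  induction c with
  | zero => simp
  | succ c ih =>
    have hc' : c < g.n := hc
    have h1 : (Finset.univ.filter fun i : Fin G.M => (g.blk1 i : ℕ) < c + 1)
        = (Finset.univ.filter fun i : Fin G.M => (g.blk1 i : ℕ) < c) ∪ (Finset.univ.filter fun i => g.blk1 i = ⟨c, hc'⟩) := by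
      ext i
      simp only [Finset.mem_filter, Finset.mem_univ, true_and, Finset.mem_union, Fin.ext_iff]
      omega
    have h2 : Disjoint (Finset.univ.filter fun i : Fin G.M => (g.blk1 i : ℕ) < c) (Finset.univ.filter fun i => g.blk1 i = ⟨c, hc'⟩) := by
      rw [Finset.disjoint_left]
      intro i hi hi'
      simp only [Finset.mem_filter, Finset.mem_univ, true_and, Fin.ext_iff] at hi hi'
      omega
    rw [h1, Finset.card_union_of_disjoint h2, ih (by omega), hg.full _ (Or.inl hG)]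
    ring

theorem syml_blk1_lt (hG : G.bc = BC.per) (hg : g.Ok) (c : ℕ) (hc : c ≤ g.n) (i : Fin G.M) :
    (g.blk1 i : ℕ) < c ↔ (i : ℕ) < c * g.m := by
  have h := syml_lower (Finset.univ.filter fun i : Fin G.M => (g.blk1 i : ℕ) < c) (fun i hi j hj => by
    simp only [Finset.mem_filter, Finset.mem_univ, true_and] at hi ⊢
    exact lt_of_le_of_lt (hg.mono hj) hi) i
  rw [syml_card_lt hG hg c hc] at h
  simpa using h

theorem syml_blk1 (hG : G.bc = BC.per) (hg : g.Ok) (i : Fin G.M) : (g.blk1 i : ℕ) = (i : ℕ) / g.m := by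
  have hn := (g.blk1 i).2
  have h1 := syml_blk1_lt hG hg (g.blk1 i) hn.le i
  have h2 := syml_blk1_lt hG hg (g.blk1 i + 1) hn i
  symm
  apply Nat.div_eq_of_lt_le
  · by_contra h
    exact absurd (h1.2 (not_le.1 h)) (lt_irrefl _)
  · exact h2.1 (Nat.lt_succ_self _)

theorem syml_M (hG : G.bc = BC.per) (hg : g.Ok) : G.M = g.n * g.m := by
  have h := syml_card_lt hG hg g.n le_rfl
  have h2 : (Finset.univ.filter fun i : Fin G.M => (g.blk1 i : ℕ) < g.n) = Finset.univ := by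
    ext i; simp
  rw [h2, Finset.card_univ, Fintype.card_fin] at h
  exact h

theorem syml_arith_A0 (b k r r' m n : ℕ) (ri : r < m) (rj : r' < m) (na : b + k < n) :
    m * min k (n - k) < min (((m * (b + k) + r : ℕ) : ℤ) - ((m * b + r' : ℕ) : ℤ)).natAbs
      (n * m - (((m * (b + k) + r : ℕ) : ℤ) - ((m * b + r' : ℕ) : ℤ)).natAbs) + m := by
  have h1 : m * min k (n - k) ≤ m * k := Nat.mul_le_mul_left _ (min_le_left _ _)
  have h2 : m * min k (n - k) ≤ m * (n - k) := Nat.mul_le_mul_left _ (min_le_right _ _)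
  have h3 : m * (n - k) = n * m - m * k := by rw [Nat.mul_sub, Nat.mul_comm m n]
  have h4 : m * (b + k) = m * b + m * k := Nat.mul_add _ _ _
  have h5 : m * (b + k + 1) ≤ m * n := Nat.mul_le_mul_left _ na
  have h6 : m * (b + k + 1) = m * b + m * k + m := by ring
  have h7 : m * n = n * m := Nat.mul_comm _ _
  generalize m * min k (n - k) = X at *
  generalize m * (n - k) = Y at *
  generalize m * (b + k) = Z at *
  generalize m * (b + k + 1) = Z' at *
  generalize m * n = W at *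
  generalize n * m = N at *
  generalize m * k = K at *
  generalize m * b = P at *
  omega

theorem syml_arith_A (a b r r' m n : ℕ) (ri : r < m) (rj : r' < m) (na : a < n) (nb : b < n) :
    m * min ((a : ℤ) - b).natAbs (n - ((a : ℤ) - b).natAbs) < min (((m * a + r : ℕ) : ℤ) - ((m * b + r' : ℕ) : ℤ)).natAbs
      (n * m - (((m * a + r : ℕ) : ℤ) - ((m * b + r' : ℕ) : ℤ)).natAbs) + m := by
  rcases le_total b a with h | h
  · obtain ⟨k, rfl⟩ := Nat.exists_eq_add_of_le h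
    have := syml_arith_A0 b k r r' m n ri rj na
    have e : (((b + k : ℕ) : ℤ) - b).natAbs = k := by omega
    rw [e]; exact this
  · obtain ⟨k, rfl⟩ := Nat.exists_eq_add_of_le h
    have := syml_arith_A0 a k r' r m n rj ri nb
    have e : ((a : ℤ) - ((a + k : ℕ) : ℤ)).natAbs = k := by omega
    have e2 : (((m * a + r : ℕ) : ℤ) - ((m * (a + k) + r' : ℕ) : ℤ)).natAbs
        = (((m * (a + k) + r' : ℕ) : ℤ) - ((m * a + r : ℕ) : ℤ)).natAbs := by omega
    rw [e, e2]; exact this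

/-- (A) lower bound of the site distance -/
theorem syml_A1 (hG : G.bc = BC.per) (hg : g.Ok) (i j : Fin G.M) :
    g.m * g.idist1 (g.blk1 i) (g.blk1 j) < Reg.regD1 G i j + g.m := by
  have hm := hg.pos
  have hM := syml_M hG hg
  have ha := syml_blk1 hG hg i
  have hb := syml_blk1 hG hg j
  have hi := Nat.div_add_mod (i : ℕ) g.m
  have hj := Nat.div_add_mod (j : ℕ) g.m
  have ri := Nat.mod_lt (i : ℕ) hm
  have rj := Nat.mod_lt (j : ℕ) hm
  have na := (g.blk1 i).2
  have nb := (g.blk1 j).2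
  rw [Geo.geo_idist1_per g hG, Reg.regl_d1_per G hG]
  rw [← ha] at hi
  rw [← hb] at hj
  have key := syml_arith_A (g.blk1 i) (g.blk1 j) _ _ g.m g.n ri rj na nb
  rw [hi, hj, ← hM] at key
  exact key

theorem syml_A (hG : G.bc = BC.per) (hg : g.Ok) (v w : G.V) :
    g.m * g.idist (g.blk v) (g.blk w) < G.dist v w + g.m := by
  have h1 := syml_A1 hG hg v.1 w.1
  have h2 := syml_A1 hG hg v.2 w.2
  have d1 := Reg.reg_d1_le_dist_fst G v w
  have d2 := Reg.reg_d1_le_dist_snd G v w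
  unfold Grid.idist Grid.blk
  rcases le_total (g.idist1 (g.blk1 v.1) (g.blk1 w.1)) (g.idist1 (g.blk1 v.2) (g.blk1 w.2)) with h | h
  · rw [max_eq_right h]; omega
  · rw [max_eq_left h]; omega

/-- (B) two blocks contain sites at distance `≤ m * idist` -/
theorem syml_B1 (hG : G.bc = BC.per) (hg : g.Ok) (a b : Fin g.n) :
    ∃ (i : Fin G.M) (x : ℤ), g.blk1 i = a ∧ g.blk1 (G.fold x) = b ∧ (x - ((i : ℕ) : ℤ)).natAbs ≤ g.m * g.idist1 a b := by
  have hm := hg.pos
  have hM := syml_M hG hg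
  have na := a.2
  have nb := b.2
  have ia : (a : ℕ) * g.m < G.M := by rw [hM]; exact Nat.mul_lt_mul_of_pos_right na hm
  have ib : (b : ℕ) * g.m < G.M := by rw [hM]; exact Nat.mul_lt_mul_of_pos_right nb hm
  obtain ⟨t, ht⟩ : ∃ t : ℤ, ((b : ℤ) - a + t * g.n).natAbs ≤ min ((a : ℤ) - b).natAbs (g.n - ((a : ℤ) - b).natAbs) := by
    by_cases h1 : ((a : ℤ) - b).natAbs ≤ g.n - ((a : ℤ) - b).natAbs
    · exact ⟨0, by omega⟩
    · by_cases h2 : (b : ℕ) < a
      · exact ⟨1, by omega⟩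
      · exact ⟨-1, by omega⟩
  refine ⟨⟨(a : ℕ) * g.m, ia⟩, ((b : ℕ) * g.m : ℕ) + t * G.M, ?_, ?_, ?_⟩
  · apply Fin.ext
    rw [syml_blk1 hG hg]
    exact Nat.mul_div_cancel _ hm
  · have h1 : G.fold ((((b : ℕ) * g.m : ℕ) : ℤ) + t * G.M) = (⟨(b : ℕ) * g.m, ib⟩ : Fin G.M) := by
      rw [← Reg.reg_fold_coe G ⟨(b : ℕ) * g.m, ib⟩, syml_fold_eq hG]
      exact ⟨t, by simp; ring⟩
    rw [h1]
    apply Fin.ext
    rw [syml_blk1 hG hg]
    exact Nat.mul_div_cancel _ hm
  · rw [Geo.geo_idist1_per g hG]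
    have e : ((((b : ℕ) * g.m : ℕ) : ℤ) + t * G.M) - (((a : ℕ) * g.m : ℕ) : ℤ) = (g.m : ℤ) * ((b : ℤ) - a + t * g.n) := by
      rw [hM]; push_cast; ring
    show (((((b : ℕ) * g.m : ℕ) : ℤ) + t * G.M) - (((a : ℕ) * g.m : ℕ) : ℤ)).natAbs ≤ _
    rw [e, Int.natAbs_mul, Int.natAbs_natCast]
    exact Nat.mul_le_mul_left _ ht

theorem syml_B (hG : G.bc = BC.per) (hg : g.Ok) (a b : g.I) :
    ∃ v w : G.V, g.blk v = a ∧ g.blk w = b ∧ G.dist v w ≤ g.m * g.idist a b := by
  obtain ⟨i1, x1, h1, h1', d1⟩ := syml_B1 hG hg a.1 b.1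
  obtain ⟨i2, x2, h2, h2', d2⟩ := syml_B1 hG hg a.2 b.2
  refine ⟨(i1, i2), G.π (x1, x2), Prod.ext h1 h2, Prod.ext h1' h2', ?_⟩
  refine (Reg.regl_dist_le G (i1, i2) (x1, x2)).trans ?_
  have e1 : g.m * g.idist1 a.1 b.1 ≤ g.m * g.idist a b := Nat.mul_le_mul_left _ (le_max_left _ _)
  have e2 : g.m * g.idist1 a.2 b.2 ≤ g.m * g.idist a b := Nat.mul_le_mul_left _ (le_max_right _ _)
  exact max_le (d1.trans e1) (d2.trans e2)

theorem syml_dist_le (hG : G.bc = BC.per) (hM : 3 ≤ G.M) (s : GridSym g) (v w : G.V) : G.dist (s.σ v) (s.σ w) ≤ G.dist v w := by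
  obtain ⟨x, hx, hd⟩ := Reg.regl_dist_spec G v w
  have h1 := sym_affine hG hM s (G.ι v) (x - G.ι v)
  rw [add_sub_cancel, hx, Reg.reg_pi_iota] at h1
  rw [h1, hd]
  refine (Reg.regl_dist_le G (s.σ v) _).trans (le_of_eq ?_)
  have h2 := symT_norm hG hM s (x - G.ι v)
  simpa using h2

/-- `σ` is an isometry -/
theorem sym_dist (hG : G.bc = BC.per) (hM : 3 ≤ G.M) (s : GridSym g) (v w : G.V) : G.dist (s.σ v) (s.σ w) = G.dist v w := by
  refine le_antisymm (syml_dist_le hG hM s v w) ?_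
  have h := syml_dist_le hG hM (symInv s) (s.σ v) (s.σ w)
  have e : ∀ u, (symInv s).σ (s.σ u) = u := fun u => s.σ.symm_apply_apply u
  rwa [e, e] at h

theorem syml_idist_le (hG : G.bc = BC.per) (hM : 3 ≤ G.M) (hg : g.Ok) (s : GridSym g) (a b : g.I) :
    g.idist (s.τ a) (s.τ b) ≤ g.idist a b := by
  obtain ⟨v, w, hv, hw, hd⟩ := syml_B hG hg a b
  have h1 := syml_A hG hg (s.σ v) (s.σ w)
  rw [s.blk, s.blk, hv, hw, sym_dist hG hM] at h1
  have h2 : g.m * g.idist (s.τ a) (s.τ b) < g.m * (g.idist a b + 1) := by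
    rw [Nat.mul_add, Nat.mul_one]; omega
  have h3 := Nat.lt_of_mul_lt_mul_left h2
  omega

/-- `τ` is an isometry of the index distance (full-block grids) -/
theorem sym_idist (hG : G.bc = BC.per) (hM : 3 ≤ G.M) (hg : g.Ok) (s : GridSym g) (a b : g.I) : g.idist (s.τ a) (s.τ b) = g.idist a b := by
  refine le_antisymm (syml_idist_le hG hM hg s a b) ?_
  have h := syml_idist_le hG hM hg (symInv s) (s.τ a) (s.τ b)
  have e : ∀ u, (symInv s).τ (s.τ u) = u := fun u => s.τ.symm_apply_apply u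
  rwa [e, e] at h

theorem syml_map_inv (s : GridSym g) (X : Finset g.I) : (X.map s.τ.toEmbedding).map (symInv s).τ.toEmbedding = X := by
  ext a
  rw [Finset.mem_map_equiv, Finset.mem_map_equiv]
  show s.τ.symm (s.τ.symm.symm a) ∈ X ↔ a ∈ X
  simp

theorem syml_conn (hG : G.bc = BC.per) (hM : 3 ≤ G.M) (hg : g.Ok) (s : GridSym g) (R : ℕ) (X : Finset g.I) (h : g.Conn R X) :
    g.Conn R (X.map s.τ.toEmbedding) := by
  refine ⟨h.1.map, fun a ha b hb => ?_⟩
  rw [Finset.mem_map_equiv] at ha hb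
  have h1 := h.2 _ ha _ hb
  have h2 := Relation.ReflTransGen.lift (r := fun u v => u ∈ X ∧ v ∈ X ∧ g.idist u v ≤ R)
    (p := fun u v => u ∈ X.map s.τ.toEmbedding ∧ v ∈ X.map s.τ.toEmbedding ∧ g.idist u v ≤ R) s.τ
    (fun u v ⟨hu, hv, hd⟩ => ⟨by rw [Finset.mem_map_equiv]; simpa using hu, by rw [Finset.mem_map_equiv]; simpa using hv,
      by rw [sym_idist hG hM hg]; exact hd⟩) _ _ h1
  simpa [Function.onFun] using h2

theorem sym_conn (hG : G.bc = BC.per) (hM : 3 ≤ G.M) (hg : g.Ok) (s : GridSym g) (R : ℕ) (X : Finset g.I) :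
    g.Conn R (X.map s.τ.toEmbedding) ↔ g.Conn R X := by
  refine ⟨fun h => ?_, syml_conn hG hM hg s R X⟩
  have := syml_conn hG hM hg (symInv s) R _ h
  rwa [syml_map_inv] at this

theorem sym_collar (hG : G.bc = BC.per) (hM : 3 ≤ G.M) (hg : g.Ok) (s : GridSym g) (X : Finset g.I) :
    g.collar (X.map s.τ.toEmbedding) = (g.collar X).map s.τ.toEmbedding := by
  classical
  ext b
  rw [Finset.mem_map_equiv]
  simp only [Grid.collar, Finset.mem_filter, Finset.mem_univ, true_and]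
  constructor
  · rintro ⟨a, ha, hd⟩
    rw [Finset.mem_map_equiv] at ha
    refine ⟨_, ha, ?_⟩
    rw [← sym_idist hG hM hg s]
    simpa using hd
  · rintro ⟨a, ha, hd⟩
    refine ⟨s.τ a, by rw [Finset.mem_map_equiv]; simpa using ha, ?_⟩
    rw [← sym_idist hG hM hg s] at hd
    simpa using hd

theorem sym_sites (s : GridSym g) (X : Finset g.I) : g.sites (X.map s.τ.toEmbedding) = (g.sites X).map s.σ.toEmbedding := by
  ext v
  rw [Finset.mem_map_equiv]
  simp only [Grid.sites, Finset.mem_filter, Finset.mem_univ, true_and]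
  rw [Finset.mem_map_equiv]
  have := (symInv s).blk v
  show s.τ.symm (g.blk v) ∈ X ↔ g.blk (s.σ.symm v) ∈ X
  rw [show g.blk (s.σ.symm v) = s.τ.symm (g.blk v) from this]

theorem sym_Dm (hG : G.bc = BC.per) (hM : 3 ≤ G.M) (hg : g.Ok) (s : GridSym g) (X : Finset g.I) :
    g.Dm (X.map s.τ.toEmbedding) = (g.Dm X).map s.σ.toEmbedding := by
  unfold Grid.Dm
  rw [sym_collar hG hM hg, sym_sites]

theorem syml_dl {α : Type} [AddGroup α] (hG : G.bc = BC.per) (s : GridSym g) (l : List (Fin 4)) (f : G.V → α) :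
    ∀ x x' : ℤ × ℤ, G.π x' = s.σ (G.π x) →
      Hol.dl (l.map s.ρ) (G.lift fun w => f (s.σ.symm w)) x' = Hol.dl l (G.lift f) x := by
  induction l with
  | nil =>
    intro x x' h
    show f (s.σ.symm (G.π x')) = f (G.π x)
    rw [h, Equiv.symm_apply_apply]
  | cons e l ih =>
    intro x x' h
    rw [List.map_cons, Hol.dl_cons, Hol.dl_cons]
    unfold dif
    rw [ih x x' h, ih (x + dir e) (x' + dir (s.ρ e)) (by
      rw [syml_step hG, ← h, syml_pi_add hG])]

/-- differences along a word are permuted -/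
theorem sym_difs {α : Type} [AddGroup α] (hG : G.bc = BC.per) (s : GridSym g) {r : ℕ} (a : Fin r → Fin 4) (f : G.V → α) (v : G.V) :
    difs (fun k => s.ρ (a k)) (G.lift fun w => f (s.σ.symm w)) (G.ι (s.σ v)) = difs a (G.lift f) (G.ι v) := by
  rw [Hol.difs_eq_dl, Hol.difs_eq_dl]
  have e : List.ofFn (fun k => s.ρ (a k)) = (List.ofFn a).map s.ρ := by
    rw [List.map_ofFn]; rfl
  rw [e]
  exact syml_dl hG s _ f _ _ (by rw [Reg.reg_pi_iota, Reg.reg_pi_iota])

theorem syml_tnorm_le {α : Type} [NormedAddCommGroup α] (hG : G.bc = BC.per) (hM : 3 ≤ G.M) (hg : g.Ok) (s : GridSym g) (X : Finset g.I) (f : G.V → α) :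
    tnorm g (X.map s.τ.toEmbedding) (fun w => f (s.σ.symm w)) ≤ tnorm g X f := by
  rw [Hol.tnorm_le_iff]
  intro w hw
  rw [sym_Dm hG hM hg, Finset.mem_map_equiv] at hw
  obtain ⟨h0, h1, h2⟩ := Hol.tnorm_spec g X f _ hw
  have key : ∀ {r : ℕ} (a : Fin r → Fin 4), difs a (G.lift fun w => f (s.σ.symm w)) (G.ι w)
      = difs (fun k => s.ρ.symm (a k)) (G.lift f) (G.ι (s.σ.symm w)) := by
    intro r a
    have := sym_difs hG s (fun k => s.ρ.symm (a k)) f (s.σ.symm w)
    simpa using this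
  refine ⟨h0, fun a => ?_, fun a => ?_⟩
  · rw [key]; exact h1 _
  · rw [key]; exact h2 _

theorem sym_tnorm {α : Type} [NormedAddCommGroup α] (hG : G.bc = BC.per) (hM : 3 ≤ G.M) (hg : g.Ok) (s : GridSym g) (X : Finset g.I) (f : G.V → α) :
    tnorm g (X.map s.τ.toEmbedding) (fun w => f (s.σ.symm w)) = tnorm g X f := by
  refine le_antisymm (syml_tnorm_le hG hM hg s X f) ?_
  have h := syml_tnorm_le hG hM hg (symInv s) (X.map s.τ.toEmbedding) (fun w => f (s.σ.symm w))
  rw [syml_map_inv] at h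
  have e : (fun w => (fun w => f (s.σ.symm w)) ((symInv s).σ.symm w)) = f := by
    funext w
    show f (s.σ.symm (s.σ.symm.symm w)) = f w
    simp
  rwa [e] at h

theorem sym_strip (hG : G.bc = BC.per) (hM : 3 ≤ G.M) (hg : g.Ok) (s : GridSym g) (h0 : ℝ≥0) (X : Finset g.I) (z : G.V → ℂ) :
    (fun w => z (s.σ.symm w)) ∈ strip h0 g (X.map s.τ.toEmbedding) ↔ z ∈ strip h0 g X := by
  rw [Hol.mem_strip, Hol.mem_strip]
  have := sym_tnorm hG hM hg s X (fun v => (z v).im)
  rw [this]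

theorem syml_T_sub (s : GridSym g) (x y : ℤ × ℤ) : symT s x - symT s y = symT s (x - y) := by
  have := symT_add s (x - y) y
  rw [sub_add_cancel] at this
  rw [this, add_sub_cancel_right]

theorem syml_unwr (hG : G.bc = BC.per) (hM : 3 ≤ G.M) (s : GridSym g) (c0 : ℕ) (X : Finset g.I) (h : g.Unwr c0 X) :
    g.Unwr c0 (X.map s.τ.toEmbedding) := by
  obtain ⟨S, hS, hd⟩ := h
  refine ⟨S.image fun x => G.ι (s.σ (G.π 0)) + symT s x, ?_, lt_of_le_of_lt (Nat.add_le_add_right ?_ _) hd⟩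
  · rw [← hS, Finset.map_eq_image]
    unfold Grid.foldS
    rw [Finset.image_image, Finset.image_image]
    refine Finset.image_congr fun x _ => ?_
    have h1 := sym_affine hG hM s 0 x
    rw [zero_add] at h1
    show g.blk (G.π (G.ι (s.σ (G.π 0)) + symT s x)) = s.τ (g.blk (G.π x))
    rw [← h1, s.blk]
  · unfold pdiam
    refine Finset.sup_le fun x' hx' => Finset.sup_le fun y' hy' => ?_
    obtain ⟨x, hx, rfl⟩ := Finset.mem_image.1 hx'
    obtain ⟨y, hy, rfl⟩ := Finset.mem_image.1 hy'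
    have h1 := symT_norm hG hM s (x - y)
    rw [← syml_T_sub] at h1
    have h2 : max (x.1 - y.1).natAbs (x.2 - y.2).natAbs
        ≤ S.sup fun x => S.sup fun y => max (x.1 - y.1).natAbs (x.2 - y.2).natAbs :=
      le_trans (Finset.le_sup (f := fun y => max (x.1 - y.1).natAbs (x.2 - y.2).natAbs) hy)
        (Finset.le_sup (f := fun x => S.sup fun y => max (x.1 - y.1).natAbs (x.2 - y.2).natAbs) hx)
    refine le_trans (le_of_eq ?_) h2
    simpa using h1

/-- unwrapped polymers are mapped to unwrapped polymers (`S ↦ ι (σ (π 0)) + T S`, same diameter; converse by `symInv`) -/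
theorem sym_unwr (hG : G.bc = BC.per) (hM : 3 ≤ G.M) (s : GridSym g) (c0 : ℕ) (X : Finset g.I) :
    g.Unwr c0 (X.map s.τ.toEmbedding) ↔ g.Unwr c0 X := by
  refine ⟨fun h => ?_, syml_unwr hG hM s c0 X⟩
  have := syml_unwr hG hM (symInv s) c0 _ h
  rwa [syml_map_inv] at this

theorem syml_sites_single (s : GridSym g) (B : g.I) : g.sites {s.τ B} = (g.sites {B}).map s.σ.toEmbedding := by
  rw [← sym_sites, Finset.map_singleton]
  rfl

theorem sym_eBC (hG : G.bc = BC.per) (s : GridSym g) (B : g.I) (z : G.V → ℂ) : eBC g (s.τ B) (fun w => z (s.σ.symm w)) = eBC g B z := by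
  unfold eBC
  rw [syml_sites_single, Finset.sum_map]
  congr 1
  refine Finset.sum_congr rfl fun v _ => ?_
  rw [← Equiv.sum_comp s.ρ]
  refine Finset.sum_congr rfl fun e _ => ?_
  congr 1
  show z (s.σ.symm (G.π (G.ι (s.σ v) + dir (s.ρ e)))) - z (s.σ.symm (G.π (G.ι (s.σ v)))) = z (G.π (G.ι v + dir e)) - z (G.π (G.ι v))
  rw [← s.step, Equiv.symm_apply_apply, Reg.reg_pi_iota, Reg.reg_pi_iota, Equiv.symm_apply_apply]

theorem sym_cBC (s : GridSym g) (α : ℝ) (B : g.I) (z : G.V → ℂ) : cBC g α (s.τ B) (fun w => z (s.σ.symm w)) = cBC g α B z := by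
  unfold cBC
  rw [syml_sites_single, Finset.sum_map]
  congr 1
  refine Finset.sum_congr rfl fun v _ => ?_
  show Complex.cos (α * z (s.σ.symm (s.σ v))) = _
  rw [Equiv.symm_apply_apply]

end

end Claimed.Agent.R285.Pack
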