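import Claimed.Agent.R285.Base.RG
import Claimed.Agent.R285.Ker.Fold

/-!
# ROW 285, post BP-TOWER (#14968), part 1: full-block grids of a torus and their symmetries      (architect helper290)

Elementary arithmetic on `Fin M × Fin M` (no analysis, no paper).  Imports only `Base/RG` (definitions) and `Ker/Fold` (the folding map, PROVED: `ker_fold_eq_iff`, `ker_pi_iota`, `ker_pi_eq_iff`).
ALL PROVED (0 sorry).  Consumer: `R285/Map/Tower.lean` (fields `nest`, `trans`, `square` of `B8.StepOK`, field `cells` of `B8.Cfg.TowerOK`).   Helper lemmas: prefix `tw_`.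

## Route
* every symmetry is `v ↦ π (f (ι v))`, `f : ℤ² → ℤ²` affine with a signed permutation as linear part; `tw_mk` builds a `GridSym` (with `Pres`) from `f`, its inverse `f'`, and three properties on `ℤ²`.
  `τ` is NOT constructed by hand: `tw_tau` (a permutation of the sites which respects the fibres of a surjection onto a finite type descends to a permutation).
* `tw_sym_nest`: a symmetry of the coarse grid is affine (`tw_sym_affine`, induction on the coordinates), the two images of the axes are not parallel (injectivity),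
  and the offset is `≡ 0` (direct) or `≡ -1` (reflected) modulo the coarse side (`tw_good_of`: at least two coarse blocks), hence modulo the fine side.
-/

set_option autoImplicit false

namespace Claimed.Agent.R285.Tow

open scoped BigOperators
open Claimed.Agent.R285.RG Claimed.Agent.R285.Ker

variable {G : Geom}

/-! ## 1. Nesting, alignment -/

/-- nesting of the full-block grids of sides `m ∣ m'` -/
def tgNest (G : Geom) (m m' : ℕ) (h : m ∣ G.M) (h' : m' ∣ G.M) (hmm : m ∣ m') :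
    Nest (torusGrid G m h) (torusGrid G m' h') where
  up1 := fun a => ⟨(a : ℕ) / (m' / m), by
    have ha : (a : ℕ) < G.M / m := a.2
    have e : m' = m * (m' / m) := (Nat.mul_div_cancel' hmm).symm
    show (a : ℕ) / (m' / m) < G.M / m'
    conv_rhs => rw [e, ← Nat.div_div_eq_div_mul]
    apply Nat.div_lt_div_of_lt_of_dvd _ ha
    apply Nat.dvd_div_of_mul_dvd
    rw [← e]; exact h'⟩
  comm := fun i => by
    apply Fin.ext
    have e : m' = m * (m' / m) := (Nat.mul_div_cancel' hmm).symm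
    show (i : ℕ) / m' = (i : ℕ) / m / (m' / m)
    conv_lhs => rw [e]
    rw [Nat.div_div_eq_div_mul]

theorem tw_emod_ediv (x m k : ℤ) (hm : 0 < m) (hk : 0 < k) : x % (m * k) / m = x / m % k := by
  have h1 := Int.emod_nonneg x (mul_pos hm hk).ne'
  have h2 := Int.emod_lt_of_pos x (mul_pos hm hk)
  have h3 : x = x % (m * k) + m * (k * (x / (m * k))) := by
    have := Int.emod_add_mul_ediv x (m * k)
    linarith
  conv_rhs => rw [h3, Int.add_mul_ediv_left _ _ hm.ne', Int.add_mul_emod_self_left]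
  rw [Int.emod_eq_of_lt (Int.ediv_nonneg h1 hm.le) (Int.ediv_lt_of_lt_mul hm (by linarith))]

theorem tw_fold_val (hG : G.bc = BC.per) (x : ℤ) : ((G.fold x : ℕ) : ℤ) = x % G.M := by
  obtain ⟨bc, M, hM⟩ := G
  simp only at hG
  subst hG
  have h0 : (0 : ℤ) < M := by exact_mod_cast hM
  simp only [Geom.fold]
  exact Int.toNat_of_nonneg (Int.emod_nonneg x h0.ne')

theorem tw_fold_eq (hG : G.bc = BC.per) (x y : ℤ) : G.fold x = G.fold y ↔ (G.M : ℤ) ∣ x - y := by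
  rw [Fin.ext_iff, ← Int.natCast_inj, tw_fold_val hG, tw_fold_val hG, ker_dvd_sub_iff]

theorem tw_pi_eq (hG : G.bc = BC.per) (x y : ℤ × ℤ) : G.π x = G.π y ↔ (G.M : ℤ) ∣ x.1 - y.1 ∧ (G.M : ℤ) ∣ x.2 - y.2 := by
  simp only [Geom.π, Prod.ext_iff, tw_fold_eq hG]

/-- the block index of a folded integer -/
theorem tw_blk1_val (hG : G.bc = BC.per) (m : ℕ) (h : m ∣ G.M) (hm : 0 < m) (x : ℤ) :
    (((torusGrid G m h).blk1 (G.fold x) : ℕ) : ℤ) = x / m % ((G.M / m : ℕ) : ℤ) := by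
  have hk : 0 < G.M / m := Nat.div_pos (Nat.le_of_dvd G.hM h) hm
  have e : (G.M : ℤ) = (m : ℤ) * ((G.M / m : ℕ) : ℤ) := by exact_mod_cast (Nat.mul_div_cancel' h).symm
  show (((G.fold x : ℕ) / m : ℕ) : ℤ) = _
  rw [Int.natCast_div, tw_fold_val hG, e, tw_emod_ediv _ _ _ (by exact_mod_cast hm) (by exact_mod_cast hk)]

theorem tw_blk1_eq (hG : G.bc = BC.per) (m : ℕ) (h : m ∣ G.M) (hm : 0 < m) (x y : ℤ) :
    (torusGrid G m h).blk1 (G.fold x) = (torusGrid G m h).blk1 (G.fold y) ↔ ((G.M / m : ℕ) : ℤ) ∣ x / m - y / m := by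
  rw [Fin.ext_iff, ← Int.natCast_inj, tw_blk1_val hG m h hm, tw_blk1_val hG m h hm, ker_dvd_sub_iff]

theorem tw_blk_eq (hG : G.bc = BC.per) (m : ℕ) (h : m ∣ G.M) (hm : 0 < m) (x y : ℤ × ℤ) :
    (torusGrid G m h).blk (G.π x) = (torusGrid G m h).blk (G.π y) ↔
      ((G.M / m : ℕ) : ℤ) ∣ x.1 / m - y.1 / m ∧ ((G.M / m : ℕ) : ℤ) ∣ x.2 / m - y.2 / m := by
  simp only [Grid.blk, Geom.π, Prod.ext_iff, tw_blk1_eq hG m h hm]

theorem tw_cells (hG : G.bc = BC.per) (sd : ℕ) (h : sd ∣ G.M) (hsd : 0 < sd) (x y : ℤ × ℤ)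
    (h1 : x.1 / (sd : ℤ) = y.1 / (sd : ℤ)) (h2 : x.2 / (sd : ℤ) = y.2 / (sd : ℤ)) :
    (torusGrid G sd h).blk (G.π x) = (torusGrid G sd h).blk (G.π y) := by
  rw [tw_blk_eq hG sd h hsd, h1, h2]
  simp

theorem tw_tau {V I : Type} [Finite I] (blk : V → I) (hs : Function.Surjective blk) (σ : Equiv.Perm V)
    (h : ∀ v w, blk v = blk w → blk (σ v) = blk (σ w)) : ∃ τ : Equiv.Perm I, ∀ v, blk (σ v) = τ (blk v) := by
  classical
  let τ0 : I → I := fun b => blk (σ (Function.surjInv hs b))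
  have h0 : ∀ v, τ0 (blk v) = blk (σ v) := fun v => h _ _ (Function.surjInv_eq hs (blk v))
  have hsurj : Function.Surjective τ0 := by
    intro b
    obtain ⟨v, rfl⟩ := hs b
    exact ⟨blk (σ.symm v), by rw [h0]; simp⟩
  exact ⟨Equiv.ofBijective τ0 (Finite.injective_iff_bijective.1 (Finite.injective_iff_surjective.2 hsurj)), fun v => (h0 v).symm⟩

theorem tw_blk_surj (m : ℕ) (h : m ∣ G.M) (hm : 0 < m) : Function.Surjective (torusGrid G m h).blk := by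
  have h1 : Function.Surjective (torusGrid G m h).blk1 := by
    intro b
    have hb : (b : ℕ) < G.M / m := b.2
    have hbm : (b : ℕ) * m < G.M := by
      obtain ⟨k, hk⟩ := h
      have : G.M / m = k := by rw [hk]; exact Nat.mul_div_cancel_left k hm
      rw [this] at hb
      calc (b : ℕ) * m < k * m := Nat.mul_lt_mul_of_pos_right hb hm
        _ = G.M := by rw [hk, mul_comm]
    refine ⟨⟨(b : ℕ) * m, hbm⟩, Fin.ext ?_⟩
    show (b : ℕ) * m / m = b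
    exact Nat.mul_div_cancel _ hm
  rintro ⟨a, b⟩
  obtain ⟨i, rfl⟩ := h1 a
  obtain ⟨j, rfl⟩ := h1 b
  exact ⟨(i, j), rfl⟩


/-! ### one-dimensional affine maps which respect the blocks -/

/-- `x ↦ c + ε x` maps blocks of side `m` to blocks of side `m` -/
def TwGood (m c ε : ℤ) : Prop := (ε = 1 ∧ m ∣ c) ∨ (ε = -1 ∧ m ∣ c + 1)

theorem tw_good_dvd {n m c ε : ℤ} (h : n ∣ m) (hg : TwGood m c ε) : TwGood n c ε := by
  rcases hg with ⟨h1, h2⟩ | ⟨h1, h2⟩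
  · exact Or.inl ⟨h1, h.trans h2⟩
  · exact Or.inr ⟨h1, h.trans h2⟩

theorem tw_sub_ediv {m c : ℤ} (hm : 0 < m) (hc : m ∣ c + 1) (x : ℤ) : (c - x) / m = (c + 1) / m - 1 - x / m := by
  obtain ⟨q, hq⟩ := hc
  have h1 := Int.emod_nonneg x hm.ne'
  have h2 := Int.emod_lt_of_pos x hm
  have h3 := Int.emod_add_mul_ediv x m
  have e : (c - x) / m = q - 1 - x / m ∧ (c - x) % m = m - 1 - x % m := by
    rw [Int.ediv_emod_unique hm]
    refine ⟨?_, by omega, by omega⟩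
    have : c = m * q - 1 := by linarith
    rw [this]
    linarith [h3]
  rw [e.1, hq, Int.mul_ediv_cancel_left _ hm.ne']

theorem tw_good_blk {m c ε : ℤ} (hm : 0 < m) (hg : TwGood m c ε) (k x y : ℤ) (h : k ∣ x / m - y / m) :
    k ∣ (c + ε * x) / m - (c + ε * y) / m := by
  rcases hg with ⟨rfl, h2⟩ | ⟨rfl, h2⟩
  · rw [one_mul, one_mul, Int.add_ediv_of_dvd_left h2, Int.add_ediv_of_dvd_left h2]
    simpa using h
  · have e : ∀ z : ℤ, c + -1 * z = c - z := fun z => by ring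
    rw [e, e, tw_sub_ediv hm h2, tw_sub_ediv hm h2]
    have : (c + 1) / m - 1 - x / m - ((c + 1) / m - 1 - y / m) = -(x / m - y / m) := by ring
    rw [this]
    exact (dvd_neg).2 h

theorem tw_good_of {m c ε k : ℤ} (hε : ε = 1 ∨ ε = -1) (hm : 0 < m) (hk : 2 ≤ k)
    (h : k ∣ (c + ε * 0) / m - (c + ε * (m - 1)) / m) : TwGood m c ε := by
  rcases hε with rfl | rfl
  · left
    refine ⟨rfl, ?_⟩
    by_contra hc
    have h1 := Int.emod_nonneg c hm.ne'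
    have h2 := Int.emod_lt_of_pos c hm
    have h3 := Int.emod_add_mul_ediv c m
    have h4 : c % m ≠ 0 := fun h0 => hc (Int.dvd_of_emod_eq_zero h0)
    have e : (c + 1 * (m - 1)) / m = c / m + 1 ∧ (c + 1 * (m - 1)) % m = c % m - 1 := by
      rw [Int.ediv_emod_unique hm]
      refine ⟨by linarith, by omega, by omega⟩
    rw [e.1, mul_zero, add_zero] at h
    have : c / m - (c / m + 1) = -1 := by ring
    rw [this] at h
    have := Int.le_of_dvd one_pos ((dvd_neg).1 h)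
    omega
  · right
    refine ⟨rfl, ?_⟩
    by_contra hc
    have h1 := Int.emod_nonneg (c + 1) hm.ne'
    have h2 := Int.emod_lt_of_pos (c + 1) hm
    have h3 := Int.emod_add_mul_ediv (c + 1) m
    have h4 : (c + 1) % m ≠ 0 := fun h0 => hc (Int.dvd_of_emod_eq_zero h0)
    have e : (c + -1 * (m - 1)) / m = (c + 1) / m - 1 ∧ (c + -1 * (m - 1)) % m = (c + 1) % m := by
      rw [Int.ediv_emod_unique hm]
      refine ⟨by linarith, by omega, by omega⟩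
    have e' : c / m = (c + 1) / m ∧ c % m = (c + 1) % m - 1 := by
      rw [Int.ediv_emod_unique hm]
      refine ⟨by linarith, by omega, by omega⟩
    rw [e.1, mul_zero, add_zero, e'.1] at h
    have : (c + 1) / m - ((c + 1) / m - 1) = 1 := by ring
    rw [this] at h
    have := Int.le_of_dvd one_pos h
    omega

/-! ### construction of a symmetry from an affine map of `ℤ²` -/

theorem tw_pi_add (hG : G.bc = BC.per) {x y : ℤ × ℤ} (h : G.π x = G.π y) (d : ℤ × ℤ) : G.π (x + d) = G.π (y + d) := by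
  rw [tw_pi_eq hG] at h ⊢
  simpa using h

theorem tw_mk (hG : G.bc = BC.per) (f f' : ℤ × ℤ → ℤ × ℤ) (ρ : Equiv.Perm (Fin 4))
    (hper : ∀ x y, G.π x = G.π y → G.π (f x) = G.π (f y))
    (hper' : ∀ x y, G.π x = G.π y → G.π (f' x) = G.π (f' y))
    (hinv : ∀ x, f' (f x) = x) (hinv' : ∀ x, f (f' x) = x)
    (hstep : ∀ x e, f (x + dir e) = f x + dir (ρ e))
    (g : Grid G) (hgs : Function.Surjective g.blk)
    (hblk : ∀ x y, g.blk (G.π x) = g.blk (G.π y) → g.blk (G.π (f x)) = g.blk (G.π (f y))) :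
    ∃ s : GridSym g, (∀ x, s.σ (G.π x) = G.π (f x)) ∧ s.ρ = ρ := by
  let σ : Equiv.Perm G.V :=
    { toFun := fun v => G.π (f (G.ι v))
      invFun := fun v => G.π (f' (G.ι v))
      left_inv := fun v => by
        show G.π (f' (G.ι (G.π (f (G.ι v))))) = v
        rw [hper' _ (f (G.ι v)) (ker_pi_iota G _), hinv, ker_pi_iota]
      right_inv := fun v => by
        show G.π (f (G.ι (G.π (f' (G.ι v))))) = v
        rw [hper _ (f' (G.ι v)) (ker_pi_iota G _), hinv', ker_pi_iota] }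
  have hσ : ∀ x, σ (G.π x) = G.π (f x) := fun x => hper _ _ (ker_pi_iota G _)
  obtain ⟨τ, hτ⟩ := tw_tau g.blk hgs σ (fun v w hvw => by
    have := hblk (G.ι v) (G.ι w) (by rw [ker_pi_iota, ker_pi_iota]; exact hvw)
    exact this)
  refine ⟨⟨σ, τ, ρ, hτ, fun v e => ?_⟩, hσ, rfl⟩
  rw [hσ, hstep]
  exact (tw_pi_add hG (ker_pi_iota G _) _).symm


/-- the affine maps with a signed permutation as linear part (`sw`: the coordinates are exchanged) -/
def twAff (sw : Bool) (c ε x : ℤ × ℤ) : ℤ × ℤ :=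
  (c.1 + ε.1 * (if sw then x.2 else x.1), c.2 + ε.2 * (if sw then x.1 else x.2))

theorem tw_aff_per (hG : G.bc = BC.per) (sw : Bool) (c ε x y : ℤ × ℤ) (h : G.π x = G.π y) : G.π (twAff sw c ε x) = G.π (twAff sw c ε y) := by
  rw [tw_pi_eq hG] at h ⊢
  obtain ⟨h1, h2⟩ := h
  cases sw
  · refine ⟨?_, ?_⟩
    · have : (twAff false c ε x).1 - (twAff false c ε y).1 = ε.1 * (x.1 - y.1) := by simp [twAff]; ring
      rw [this]; exact Dvd.dvd.mul_left h1 _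
    · have : (twAff false c ε x).2 - (twAff false c ε y).2 = ε.2 * (x.2 - y.2) := by simp [twAff]; ring
      rw [this]; exact Dvd.dvd.mul_left h2 _
  · refine ⟨?_, ?_⟩
    · have : (twAff true c ε x).1 - (twAff true c ε y).1 = ε.1 * (x.2 - y.2) := by simp [twAff]; ring
      rw [this]; exact Dvd.dvd.mul_left h2 _
    · have : (twAff true c ε x).2 - (twAff true c ε y).2 = ε.2 * (x.1 - y.1) := by simp [twAff]; ring
      rw [this]; exact Dvd.dvd.mul_left h1 _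

theorem tw_aff_blk (hG : G.bc = BC.per) (n : ℕ) (hn : n ∣ G.M) (hn0 : 0 < n) (sw : Bool) (c ε : ℤ × ℤ)
    (h1 : TwGood n c.1 ε.1) (h2 : TwGood n c.2 ε.2) (x y : ℤ × ℤ)
    (h : (torusGrid G n hn).blk (G.π x) = (torusGrid G n hn).blk (G.π y)) :
    (torusGrid G n hn).blk (G.π (twAff sw c ε x)) = (torusGrid G n hn).blk (G.π (twAff sw c ε y)) := by
  rw [tw_blk_eq hG n hn hn0] at h ⊢
  have hn' : (0 : ℤ) < n := by exact_mod_cast hn0
  cases sw
  · exact ⟨tw_good_blk hn' h1 _ _ _ h.1, tw_good_blk hn' h2 _ _ _ h.2⟩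
  · exact ⟨tw_good_blk hn' h1 _ _ _ h.2, tw_good_blk hn' h2 _ _ _ h.1⟩

theorem tw_mk_aff (hG : G.bc = BC.per) (m sd : ℕ) (h : m ∣ G.M) (hs : sd ∣ G.M) (hsm : sd ∣ m) (hm : 0 < m) (sw : Bool) (c ε : ℤ × ℤ)
    (hε1 : ε.1 = 1 ∨ ε.1 = -1) (hε2 : ε.2 = 1 ∨ ε.2 = -1) (h1 : TwGood m c.1 ε.1) (h2 : TwGood m c.2 ε.2) (ρ : Equiv.Perm (Fin 4))
    (hstep : ∀ x e, twAff sw c ε (x + dir e) = twAff sw c ε x + dir (ρ e)) :
    ∃ s : GridSym (torusGrid G m h), s.Pres (torusGrid G sd hs) ∧ (∀ x, s.σ (G.π x) = G.π (twAff sw c ε x)) ∧ s.ρ = ρ := by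
  have hsd0 : 0 < sd := Nat.pos_of_dvd_of_pos hsm hm
  have q1 : ε.1 * ε.1 = 1 := by rcases hε1 with e | e <;> rw [e] <;> norm_num
  have q2 : ε.2 * ε.2 = 1 := by rcases hε2 with e | e <;> rw [e] <;> norm_num
  have hsm' : (sd : ℤ) ∣ (m : ℤ) := by exact_mod_cast hsm
  obtain ⟨f', hper', hinv, hinv'⟩ : ∃ f' : ℤ × ℤ → ℤ × ℤ, (∀ x y, G.π x = G.π y → G.π (f' x) = G.π (f' y)) ∧
      (∀ x, f' (twAff sw c ε x) = x) ∧ ∀ x, twAff sw c ε (f' x) = x := by
    cases sw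
    · refine ⟨twAff false (-(ε.1 * c.1), -(ε.2 * c.2)) ε, tw_aff_per hG _ _ _, fun x => ?_, fun x => ?_⟩
      · apply Prod.ext
        · simp only [twAff, Bool.false_eq_true, if_false]
          linear_combination x.1 * q1
        · simp only [twAff, Bool.false_eq_true, if_false]
          linear_combination x.2 * q2
      · apply Prod.ext
        · simp only [twAff, Bool.false_eq_true, if_false]
          linear_combination (x.1 - c.1) * q1
        · simp only [twAff, Bool.false_eq_true, if_false]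
          linear_combination (x.2 - c.2) * q2
    · refine ⟨twAff true (-(ε.2 * c.2), -(ε.1 * c.1)) (ε.2, ε.1), tw_aff_per hG _ _ _, fun x => ?_, fun x => ?_⟩
      · apply Prod.ext
        · simp only [twAff, if_true]
          linear_combination x.1 * q2
        · simp only [twAff, if_true]
          linear_combination x.2 * q1
      · apply Prod.ext
        · simp only [twAff, if_true]
          linear_combination (x.1 - c.1) * q1
        · simp only [twAff, if_true]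
          linear_combination (x.2 - c.2) * q2
  obtain ⟨s, hs1, hs2⟩ := tw_mk hG (twAff sw c ε) f' ρ (tw_aff_per hG _ _ _) hper' hinv hinv' hstep (torusGrid G m h)
    (tw_blk_surj m h hm) (tw_aff_blk hG m h hm sw c ε h1 h2)
  refine ⟨s, ?_, hs1, hs2⟩
  refine tw_tau _ (tw_blk_surj sd hs hsd0) s.σ (fun v w hvw => ?_)
  have := tw_aff_blk hG sd hs hsd0 sw c ε (tw_good_dvd hsm' h1) (tw_good_dvd hsm' h2) (G.ι v) (G.ι w)
    (by rw [ker_pi_iota, ker_pi_iota]; exact hvw)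
  rw [← hs1, ← hs1, ker_pi_iota, ker_pi_iota] at this
  exact this

theorem tw_blk_of (hG : G.bc = BC.per) (m : ℕ) (h : m ∣ G.M) (hm : 0 < m) (x : ℤ × ℤ) (B : (torusGrid G m h).I)
    (h1 : x.1 / m = (B.1 : ℕ)) (h2 : x.2 / m = (B.2 : ℕ)) : (torusGrid G m h).blk (G.π x) = B := by
  have hb1 : ((B.1 : ℕ) : ℤ) < ((G.M / m : ℕ) : ℤ) := by exact_mod_cast B.1.2
  have hb2 : ((B.2 : ℕ) : ℤ) < ((G.M / m : ℕ) : ℤ) := by exact_mod_cast B.2.2
  apply Prod.ext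
  · apply Fin.ext
    have := tw_blk1_val hG m h hm x.1
    rw [h1, Int.emod_eq_of_lt (by positivity) hb1] at this
    exact_mod_cast this
  · apply Fin.ext
    have := tw_blk1_val hG m h hm x.2
    rw [h2, Int.emod_eq_of_lt (by positivity) hb2] at this
    exact_mod_cast this

theorem tw_tau_of (hG : G.bc = BC.per) (m : ℕ) (h : m ∣ G.M) (hm : 0 < m) (s : GridSym (torusGrid G m h)) (f : ℤ × ℤ → ℤ × ℤ)
    (hs : ∀ x, s.σ (G.π x) = G.π (f x)) (B B' : (torusGrid G m h).I)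
    (h1 : (f (((B.1 : ℕ) : ℤ) * m, ((B.2 : ℕ) : ℤ) * m)).1 / m = (B'.1 : ℕ))
    (h2 : (f (((B.1 : ℕ) : ℤ) * m, ((B.2 : ℕ) : ℤ) * m)).2 / m = (B'.2 : ℕ)) : s.τ B = B' := by
  have hm' : (m : ℤ) ≠ 0 := by exact_mod_cast hm.ne'
  have e : (torusGrid G m h).blk (G.π (((B.1 : ℕ) : ℤ) * m, ((B.2 : ℕ) : ℤ) * m)) = B :=
    tw_blk_of hG m h hm _ B (Int.mul_ediv_cancel _ hm') (Int.mul_ediv_cancel _ hm')
  rw [← e, ← s.blk, hs]
  exact tw_blk_of hG m h hm _ B' h1 h2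

theorem tw_trans (hG : G.bc = BC.per) (m sd : ℕ) (h : m ∣ G.M) (hs : sd ∣ G.M) (hsm : sd ∣ m) (hm : 0 < m)
    (B B' : (torusGrid G m h).I) :
    ∃ s : GridSym (torusGrid G m h), s.Pres (torusGrid G sd hs) ∧ s.τ B = B' ∧ s.ρ = 1 := by
  have hm' : (m : ℤ) ≠ 0 := by exact_mod_cast hm.ne'
  obtain ⟨s, h1, h2, h3⟩ := tw_mk_aff hG m sd h hs hsm hm false
    ((((B'.1 : ℕ) : ℤ) - (B.1 : ℕ)) * m, (((B'.2 : ℕ) : ℤ) - (B.2 : ℕ)) * m) (1, 1) (Or.inl rfl) (Or.inl rfl)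
    (Or.inl ⟨rfl, Dvd.intro_left _ rfl⟩) (Or.inl ⟨rfl, Dvd.intro_left _ rfl⟩) 1
    (fun x e => by apply Prod.ext <;> simp [twAff] <;> ring)
  refine ⟨s, h1, tw_tau_of hG m h hm s _ h2 B B' ?_ ?_, h3⟩
  · have : (twAff false ((((B'.1 : ℕ) : ℤ) - (B.1 : ℕ)) * m, (((B'.2 : ℕ) : ℤ) - (B.2 : ℕ)) * m) (1, 1)
        (((B.1 : ℕ) : ℤ) * m, ((B.2 : ℕ) : ℤ) * m)).1 = ((B'.1 : ℕ) : ℤ) * m := by simp [twAff]; ring
    rw [this, Int.mul_ediv_cancel _ hm']
  · have : (twAff false ((((B'.1 : ℕ) : ℤ) - (B.1 : ℕ)) * m, (((B'.2 : ℕ) : ℤ) - (B.2 : ℕ)) * m) (1, 1)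
        (((B.1 : ℕ) : ℤ) * m, ((B.2 : ℕ) : ℤ) * m)).2 = ((B'.2 : ℕ) : ℤ) * m := by simp [twAff]; ring
    rw [this, Int.mul_ediv_cancel _ hm']

theorem tw_refl (hG : G.bc = BC.per) (m sd : ℕ) (h : m ∣ G.M) (hs : sd ∣ G.M) (hsm : sd ∣ m) (hm : 0 < m)
    (B : (torusGrid G m h).I) :
    ∃ s : GridSym (torusGrid G m h), s.Pres (torusGrid G sd hs) ∧ s.τ B = B ∧ s.ρ = Equiv.swap 0 1 := by
  have hm' : (m : ℤ) ≠ 0 := by exact_mod_cast hm.ne'
  have hm0 : (0 : ℤ) < m := by exact_mod_cast hm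
  obtain ⟨s, h1, h2, h3⟩ := tw_mk_aff hG m sd h hs hsm hm false
    ((2 * ((B.1 : ℕ) : ℤ) + 1) * m - 1, 0) (-1, 1) (Or.inr rfl) (Or.inl rfl)
    (Or.inr ⟨rfl, ⟨2 * ((B.1 : ℕ) : ℤ) + 1, by ring⟩⟩) (Or.inl ⟨rfl, dvd_zero _⟩) (Equiv.swap 0 1)
    (fun x e => by
      fin_cases e
      · apply Prod.ext <;> simp [twAff, dir]; ring
      · apply Prod.ext <;> simp [twAff, dir]; ring
      · have : (Equiv.swap (0 : Fin 4) 1) 2 = 2 := by decide
        apply Prod.ext <;> simp [twAff, dir, this]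
      · have : (Equiv.swap (0 : Fin 4) 1) 3 = 3 := by decide
        apply Prod.ext <;> simp [twAff, dir, this])
  refine ⟨s, h1, tw_tau_of hG m h hm s _ h2 B B ?_ ?_, h3⟩
  · have : (twAff false ((2 * ((B.1 : ℕ) : ℤ) + 1) * m - 1, 0) (-1, 1)
        (((B.1 : ℕ) : ℤ) * m, ((B.2 : ℕ) : ℤ) * m)).1 = ((m : ℤ) - 1) + m * ((B.1 : ℕ) : ℤ) := by simp [twAff]; ring
    rw [this, Int.add_mul_ediv_left _ _ hm', Int.ediv_eq_zero_of_lt (by omega) (by omega), zero_add]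
  · have : (twAff false ((2 * ((B.1 : ℕ) : ℤ) + 1) * m - 1, 0) (-1, 1)
        (((B.1 : ℕ) : ℤ) * m, ((B.2 : ℕ) : ℤ) * m)).2 = ((B.2 : ℕ) : ℤ) * m := by simp [twAff]
    rw [this, Int.mul_ediv_cancel _ hm']

theorem tw_swap (hG : G.bc = BC.per) (m sd : ℕ) (h : m ∣ G.M) (hs : sd ∣ G.M) (hsm : sd ∣ m) (hm : 0 < m)
    (B : (torusGrid G m h).I) :
    ∃ s : GridSym (torusGrid G m h), s.Pres (torusGrid G sd hs) ∧ s.τ B = B ∧ s.ρ 0 = 2 ∧ s.ρ 2 = 0 ∧ s.ρ 1 = 3 ∧ s.ρ 3 = 1 := by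
  have hm' : (m : ℤ) ≠ 0 := by exact_mod_cast hm.ne'
  obtain ⟨ρ, r0, r1, r2, r3⟩ : ∃ ρ : Equiv.Perm (Fin 4), ρ 0 = 2 ∧ ρ 1 = 3 ∧ ρ 2 = 0 ∧ ρ 3 = 1 :=
    ⟨Equiv.swap 0 2 * Equiv.swap 1 3, by decide, by decide, by decide, by decide⟩
  obtain ⟨s, h1, h2, h3⟩ := tw_mk_aff hG m sd h hs hsm hm true
    ((((B.1 : ℕ) : ℤ) - (B.2 : ℕ)) * m, (((B.2 : ℕ) : ℤ) - (B.1 : ℕ)) * m) (1, 1) (Or.inl rfl) (Or.inl rfl)
    (Or.inl ⟨rfl, Dvd.intro_left _ rfl⟩) (Or.inl ⟨rfl, Dvd.intro_left _ rfl⟩) ρ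
    (fun x e => by
      have key : ∀ e e' : Fin 4, ρ e = e' → (dir e).2 = (dir e').1 → (dir e).1 = (dir e').2 →
          twAff true ((((B.1 : ℕ) : ℤ) - (B.2 : ℕ)) * m, (((B.2 : ℕ) : ℤ) - (B.1 : ℕ)) * m) (1, 1) (x + dir e)
            = twAff true ((((B.1 : ℕ) : ℤ) - (B.2 : ℕ)) * m, (((B.2 : ℕ) : ℤ) - (B.1 : ℕ)) * m) (1, 1) x + dir (ρ e) := by
        intro e e' he k1 k2
        rw [he]
        apply Prod.ext
        · simp only [twAff, if_true, Prod.snd_add, Prod.fst_add, k1]; ring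
        · simp only [twAff, if_true, Prod.snd_add, Prod.fst_add, k2]; ring
      fin_cases e
      · exact key 0 2 r0 (by simp [dir]) (by simp [dir])
      · exact key 1 3 r1 (by simp [dir]) (by simp [dir])
      · exact key 2 0 r2 (by simp [dir]) (by simp [dir])
      · exact key 3 1 r3 (by simp [dir]) (by simp [dir]))
  refine ⟨s, h1, tw_tau_of hG m h hm s _ h2 B B ?_ ?_, by rw [h3]; exact r0, by rw [h3]; exact r2, by rw [h3]; exact r1, by rw [h3]; exact r3⟩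
  · have : (twAff true ((((B.1 : ℕ) : ℤ) - (B.2 : ℕ)) * m, (((B.2 : ℕ) : ℤ) - (B.1 : ℕ)) * m) (1, 1)
        (((B.1 : ℕ) : ℤ) * m, ((B.2 : ℕ) : ℤ) * m)).1 = ((B.1 : ℕ) : ℤ) * m := by simp [twAff]; ring
    rw [this, Int.mul_ediv_cancel _ hm']
  · have : (twAff true ((((B.1 : ℕ) : ℤ) - (B.2 : ℕ)) * m, (((B.2 : ℕ) : ℤ) - (B.1 : ℕ)) * m) (1, 1)
        (((B.1 : ℕ) : ℤ) * m, ((B.2 : ℕ) : ℤ) * m)).2 = ((B.2 : ℕ) : ℤ) * m := by simp [twAff]; ring
    rw [this, Int.mul_ediv_cancel _ hm']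


/-! ### classification -/

theorem tw_sym_step (hG : G.bc = BC.per) {g : Grid G} (s : GridSym g) {x y : ℤ × ℤ} (h : s.σ (G.π x) = G.π y) (e : Fin 4) :
    s.σ (G.π (x + dir e)) = G.π (y + dir (s.ρ e)) := by
  have h1 : G.π (x + dir e) = G.π (G.ι (G.π x) + dir e) := (tw_pi_add hG (ker_pi_iota G _) _).symm
  rw [h1, s.step, h]
  exact tw_pi_add hG (ker_pi_iota G _) _

theorem tw_sym_lin (hG : G.bc = BC.per) {g : Grid G} (s : GridSym g) (i j : ℕ) :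
    s.σ (G.π ((i : ℤ), (j : ℤ))) = G.π ((G.ι (s.σ (G.π 0))).1 + i * (dir (s.ρ 0)).1 + j * (dir (s.ρ 2)).1,
      (G.ι (s.σ (G.π 0))).2 + i * (dir (s.ρ 0)).2 + j * (dir (s.ρ 2)).2) := by
  induction j with
  | zero =>
    induction i with
    | zero =>
      have : (((0 : ℕ) : ℤ), ((0 : ℕ) : ℤ)) = (0 : ℤ × ℤ) := rfl
      rw [this]
      simp only [Nat.cast_zero, zero_mul, add_zero, Prod.mk.eta, ker_pi_iota]
    | succ i ih =>
      have e : (((i + 1 : ℕ) : ℤ), ((0 : ℕ) : ℤ)) = ((i : ℤ), ((0 : ℕ) : ℤ)) + dir 0 := by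
        apply Prod.ext <;> simp [dir]
      rw [e, tw_sym_step hG s ih 0]
      congr 1
      apply Prod.ext <;> simp <;> ring
  | succ j ih =>
    have e : ((i : ℤ), ((j + 1 : ℕ) : ℤ)) = ((i : ℤ), (j : ℤ)) + dir 2 := by
      apply Prod.ext <;> simp [dir]
    rw [e, tw_sym_step hG s ih 2]
    congr 1
    apply Prod.ext <;> simp <;> ring

theorem tw_sym_affine (hG : G.bc = BC.per) (hM : 2 ≤ G.M) {g : Grid G} (s : GridSym g) :
    ∃ (sw : Bool) (c ε : ℤ × ℤ), (ε.1 = 1 ∨ ε.1 = -1) ∧ (ε.2 = 1 ∨ ε.2 = -1) ∧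
      ∀ i j : ℕ, s.σ (G.π ((i : ℤ), (j : ℤ))) = G.π (twAff sw c ε ((i : ℤ), (j : ℤ))) := by
  have H := tw_sym_lin hG s
  have hne : s.ρ 0 ≠ s.ρ 2 := fun h => by
    have := s.ρ.injective h
    exact absurd this (by decide)
  -- opposite directions are impossible
  have hbad : dir (s.ρ 0) + dir (s.ρ 2) = 0 → False := by
    intro h0
    have h1 := H 1 1
    have h2 := H 0 0
    have e1 : (dir (s.ρ 0)).1 + (dir (s.ρ 2)).1 = 0 := congrArg Prod.fst h0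
    have e2 : (dir (s.ρ 0)).2 + (dir (s.ρ 2)).2 = 0 := congrArg Prod.snd h0
    have e3 : ((G.ι (s.σ (G.π 0))).1 + ((1 : ℕ) : ℤ) * (dir (s.ρ 0)).1 + ((1 : ℕ) : ℤ) * (dir (s.ρ 2)).1,
        (G.ι (s.σ (G.π 0))).2 + ((1 : ℕ) : ℤ) * (dir (s.ρ 0)).2 + ((1 : ℕ) : ℤ) * (dir (s.ρ 2)).2)
        = ((G.ι (s.σ (G.π 0))).1 + ((0 : ℕ) : ℤ) * (dir (s.ρ 0)).1 + ((0 : ℕ) : ℤ) * (dir (s.ρ 2)).1,
        (G.ι (s.σ (G.π 0))).2 + ((0 : ℕ) : ℤ) * (dir (s.ρ 0)).2 + ((0 : ℕ) : ℤ) * (dir (s.ρ 2)).2) := by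
      apply Prod.ext
      · simp only [Nat.cast_one, Nat.cast_zero]; linarith
      · simp only [Nat.cast_one, Nat.cast_zero]; linarith
    rw [e3, ← h2] at h1
    have h3 := s.σ.injective h1
    rw [tw_pi_eq hG] at h3
    have h4 : (G.M : ℤ) ∣ 1 := by simpa using h3.1
    have := Int.le_of_dvd one_pos h4
    omega
  generalize s.ρ 0 = e0 at H hne hbad
  generalize s.ρ 2 = e2 at H hne hbad
  generalize G.ι (s.σ (G.π 0)) = a at H
  have hD : ∀ p q : ℤ, (p = 1 ∨ p = -1) → (q = 1 ∨ q = -1) → dir e0 = (p, 0) → dir e2 = (0, q) →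
      ∃ (sw : Bool) (c ε : ℤ × ℤ), (ε.1 = 1 ∨ ε.1 = -1) ∧ (ε.2 = 1 ∨ ε.2 = -1) ∧
      ∀ i j : ℕ, s.σ (G.π ((i : ℤ), (j : ℤ))) = G.π (twAff sw c ε ((i : ℤ), (j : ℤ))) := by
    intro p q hp hq h0 h2
    refine ⟨false, a, (p, q), hp, hq, fun i j => ?_⟩
    rw [H, h0, h2]
    congr 1
    apply Prod.ext <;> simp [twAff] <;> ring
  have hS : ∀ p q : ℤ, (p = 1 ∨ p = -1) → (q = 1 ∨ q = -1) → dir e0 = (0, q) → dir e2 = (p, 0) →
      ∃ (sw : Bool) (c ε : ℤ × ℤ), (ε.1 = 1 ∨ ε.1 = -1) ∧ (ε.2 = 1 ∨ ε.2 = -1) ∧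
      ∀ i j : ℕ, s.σ (G.π ((i : ℤ), (j : ℤ))) = G.π (twAff sw c ε ((i : ℤ), (j : ℤ))) := by
    intro p q hp hq h0 h2
    refine ⟨true, a, (p, q), hp, hq, fun i j => ?_⟩
    rw [H, h0, h2]
    congr 1
    apply Prod.ext <;> simp [twAff] <;> ring
  have d0 : dir 0 = (1, 0) := rfl
  have d1 : dir 1 = (-1, 0) := rfl
  have d2 : dir 2 = (0, 1) := rfl
  have d3 : dir 3 = (0, -1) := rfl
  fin_cases e0 <;> fin_cases e2
  · exact absurd rfl hne
  · exact (hbad (by decide)).elim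
  · exact hD 1 1 (Or.inl rfl) (Or.inl rfl) d0 d2
  · exact hD 1 (-1) (Or.inl rfl) (Or.inr rfl) d0 d3
  · exact (hbad (by decide)).elim
  · exact absurd rfl hne
  · exact hD (-1) 1 (Or.inr rfl) (Or.inl rfl) d1 d2
  · exact hD (-1) (-1) (Or.inr rfl) (Or.inr rfl) d1 d3
  · exact hS 1 1 (Or.inl rfl) (Or.inl rfl) d2 d0
  · exact hS (-1) 1 (Or.inr rfl) (Or.inl rfl) d2 d1
  · exact absurd rfl hne
  · exact (hbad (by decide)).elim
  · exact hS 1 (-1) (Or.inl rfl) (Or.inr rfl) d3 d0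
  · exact hS (-1) (-1) (Or.inr rfl) (Or.inr rfl) d3 d1
  · exact (hbad (by decide)).elim
  · exact absurd rfl hne

theorem tw_sym_nest (hG : G.bc = BC.per) (m m' : ℕ) (h : m ∣ G.M) (h' : m' ∣ G.M) (hmm : m ∣ m') (hm : 0 < m) (h2 : 2 * m' ≤ G.M)
    (s : GridSym (torusGrid G m' h')) : ∃ s' : GridSym (torusGrid G m h), s'.σ = s.σ := by
  have hm'0 : 0 < m' := Nat.pos_of_ne_zero (by
    rintro rfl
    have h0 := Nat.eq_zero_of_zero_dvd h'
    have h1 := G.hM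
    omega)
  have hM : 2 ≤ G.M := by omega
  have hmz : (0 : ℤ) < m' := by exact_mod_cast hm'0
  have hk : (2 : ℤ) ≤ ((G.M / m' : ℕ) : ℤ) := by exact_mod_cast (Nat.le_div_iff_mul_le hm'0).2 h2
  obtain ⟨sw, c, ε, hε1, hε2, H⟩ := tw_sym_affine hG hM s
  -- images of two sites of the same coarse block
  have key : ∀ i j : ℕ, i < m' → j < m' →
      ((G.M / m' : ℕ) : ℤ) ∣ (twAff sw c ε (((0 : ℕ) : ℤ), ((0 : ℕ) : ℤ))).1 / m' - (twAff sw c ε ((i : ℤ), (j : ℤ))).1 / m' ∧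
      ((G.M / m' : ℕ) : ℤ) ∣ (twAff sw c ε (((0 : ℕ) : ℤ), ((0 : ℕ) : ℤ))).2 / m' - (twAff sw c ε ((i : ℤ), (j : ℤ))).2 / m' := by
    intro i j hi hj
    have e : (torusGrid G m' h').blk (G.π (((0 : ℕ) : ℤ), ((0 : ℕ) : ℤ))) = (torusGrid G m' h').blk (G.π ((i : ℤ), (j : ℤ))) := by
      rw [tw_blk_eq hG m' h' hm'0]
      have e1 : (i : ℤ) / m' = 0 := Int.ediv_eq_zero_of_lt (by positivity) (by exact_mod_cast hi)
      have e2 : (j : ℤ) / m' = 0 := Int.ediv_eq_zero_of_lt (by positivity) (by exact_mod_cast hj)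
      simp [e1, e2]
    have e' := congrArg s.τ e
    rw [← s.blk, ← s.blk, H, H, tw_blk_eq hG m' h' hm'0] at e'
    exact e'
  have cast1 : ((m' - 1 : ℕ) : ℤ) = (m' : ℤ) - 1 := by
    rw [Nat.cast_sub hm'0]; simp
  have g1 : TwGood m' c.1 ε.1 := by
    apply tw_good_of hε1 hmz hk
    cases sw
    · have := (key (m' - 1) 0 (by omega) hm'0).1
      simpa [twAff, cast1] using this
    · have := (key 0 (m' - 1) hm'0 (by omega)).1
      simpa [twAff, cast1] using this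
  have g2 : TwGood m' c.2 ε.2 := by
    apply tw_good_of hε2 hmz hk
    cases sw
    · have := (key 0 (m' - 1) hm'0 (by omega)).2
      simpa [twAff, cast1] using this
    · have := (key (m' - 1) 0 (by omega) hm'0).2
      simpa [twAff, cast1] using this
  have hmm' : (m : ℤ) ∣ (m' : ℤ) := by exact_mod_cast hmm
  obtain ⟨τ, hτ⟩ := tw_tau (torusGrid G m h).blk (tw_blk_surj m h hm) s.σ (fun v w hvw => by
    have := tw_aff_blk hG m h hm sw c ε (tw_good_dvd hmm' g1) (tw_good_dvd hmm' g2) (G.ι v) (G.ι w)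
      (by rw [ker_pi_iota, ker_pi_iota]; exact hvw)
    have ev : ∀ u : G.V, G.π (twAff sw c ε (G.ι u)) = s.σ u := fun u => by
      have := H (u.1 : ℕ) (u.2 : ℕ)
      have e : (((u.1 : ℕ) : ℤ), ((u.2 : ℕ) : ℤ)) = G.ι u := rfl
      rw [e, ker_pi_iota] at this
      exact this.symm
    rw [ev, ev] at this
    exact this)
  exact ⟨⟨s.σ, τ, s.ρ, hτ, s.step⟩, rfl⟩

end Claimed.Agent.R285.Tow
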