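import Claimed.Agent.R285.Reg.En
import Claimed.Agent.R285.Ker.Fold

/-!
# ROW 285, post BP-TOWER (#14968), part 2: the regulator energy of the background `w q_n`, `q_n (x) = cos (2π x₁ / n)`      (architect helper290)

Consumer: `R285/Map/Tower.lean` (`B8.Cfg.TermOK`: hypothesis `U + bondE ≤ Ctr |X|` of `Obs.terminal_moment`).   Helper lemmas: prefix `tw_`.
Imports: `Reg/En`, `Reg/Grid` (kit of L4.4, helper15: `reg_PE_inner`, `reg_Dm_card`, `reg_collar_card`, `reg_n2_le`, `reg_TE_eq`), `Ker/Fold`.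
-/

set_option autoImplicit false

namespace Claimed.Agent.R285.Tow

open scoped BigOperators
open Claimed.Agent.R285.RG Claimed.Agent.R285.Reg

variable {G : Geom}

/-- LEAF `L-TOW-B1`: a field with `|∇f| ≤ a/m`, `|∇²f| ≤ b/m²` costs `O(1)` per block.
PLAN: `Dm X = g.sites (g.collar X)` (rfl); `reg_PE_inner`: `PE ≤ 4 gE + 64 TE`; `bondE ≤ gE` termwise; `gE ≤ ½ |D| 4 (a/m)²`, `reg_Dm_card`: `|D| ≤ 100 m² |X|`;
`TE = ∑_{b ∈ collar X} m⁴ regN2²` (`reg_TE_eq`), `reg_n2_le`, `reg_collar_card`. -/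
theorem tw_U_smooth (g : Grid G) (hg : g.Ok) (δ : ℝ) (hδ : 0 ≤ δ) (X : Finset g.I) (f : G.V → ℝ) (a b : ℝ) (ha : 0 ≤ a) (hb : 0 ≤ b)
    (h1 : ∀ v e, |dif (dir e) (G.lift f) (G.ι v)| ≤ a / g.m)
    (h2 : ∀ v e e', |dif (dir e) (dif (dir e') (G.lift f)) (G.ι v)| ≤ b / (g.m : ℝ) ^ 2) :
    U g δ X f + bondE (g.Dm X) f ≤ ((2 + 4 * δ) * (200 * a ^ 2) + (1 + 64 * δ) * (25 * b ^ 2)) * X.card := by
  have hm : (0 : ℝ) < g.m := by exact_mod_cast hg.pos
  have hsq : ∀ v e, dif (dir e) (G.lift f) (G.ι v) ^ 2 ≤ (a / g.m) ^ 2 := fun v e =>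
    sq_le_sq' (by linarith [(abs_le.1 (h1 v e)).1]) (abs_le.1 (h1 v e)).2
  have hcard : ((g.Dm X).card : ℝ) ≤ 100 * (g.m : ℝ) ^ 2 * X.card := by exact_mod_cast reg_Dm_card g hg X
  have hgE : gE G (g.Dm X) f ≤ 200 * a ^ 2 * X.card := by
    unfold gE
    calc (1 / 2) * ∑ v ∈ g.Dm X, ∑ e : Fin 4, dif (dir e) (G.lift f) (G.ι v) ^ 2
        ≤ (1 / 2) * ∑ v ∈ g.Dm X, ∑ _e : Fin 4, (a / g.m) ^ 2 := by
          refine mul_le_mul_of_nonneg_left (Finset.sum_le_sum fun v _ => Finset.sum_le_sum fun e _ => hsq v e) (by norm_num)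
      _ = (1 / 2) * (((g.Dm X).card : ℝ) * (4 * (a / g.m) ^ 2)) := by
          simp [Finset.sum_const, nsmul_eq_mul]
      _ ≤ (1 / 2) * ((100 * (g.m : ℝ) ^ 2 * X.card) * (4 * (a / g.m) ^ 2)) := by gcongr
      _ = 200 * a ^ 2 * X.card := by field_simp; ring
  have hbond : bondE (g.Dm X) f ≤ gE G (g.Dm X) f := by
    unfold bondE gE
    gcongr with v _ e _
    split_ifs
    · exact le_rfl
    · positivity
  have hTE : TE g (g.collar X) f ≤ 25 * b ^ 2 * X.card := by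
    rw [reg_TE_eq]
    calc ∑ c ∈ g.collar X, (g.m : ℝ) ^ 4 * regN2 g c f ^ 2 ≤ ∑ _c ∈ g.collar X, b ^ 2 := by
          apply Finset.sum_le_sum
          intro c _
          have h3 : regN2 g c f ≤ b / (g.m : ℝ) ^ 2 := reg_n2_le g c f (by positivity) (fun v _ e e' => h2 v e e')
          have h4 := reg_n2_nonneg g c f
          calc (g.m : ℝ) ^ 4 * regN2 g c f ^ 2 ≤ (g.m : ℝ) ^ 4 * (b / (g.m : ℝ) ^ 2) ^ 2 := by gcongr
            _ = b ^ 2 := by field_simp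
      _ = ((g.collar X).card : ℝ) * b ^ 2 := by simp
      _ ≤ (25 * X.card : ℝ) * b ^ 2 := by
          gcongr
          exact_mod_cast reg_collar_card g X
      _ = 25 * b ^ 2 * X.card := by ring
  have hPE : PE G g.m (g.Dm X) f ≤ 4 * gE G (g.Dm X) f + 64 * TE g (g.collar X) f := reg_PE_inner g hg (g.collar X) f
  unfold U
  have k1 : δ * PE G g.m (g.Dm X) f ≤ δ * (4 * gE G (g.Dm X) f + 64 * TE g (g.collar X) f) := mul_le_mul_of_nonneg_left hPE hδ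
  have k2 : (2 + 4 * δ) * gE G (g.Dm X) f ≤ (2 + 4 * δ) * (200 * a ^ 2 * X.card) := mul_le_mul_of_nonneg_left hgE (by positivity)
  have k3 : (1 + 64 * δ) * TE g (g.collar X) f ≤ (1 + 64 * δ) * (25 * b ^ 2 * X.card) := mul_le_mul_of_nonneg_left hTE (by positivity)
  nlinarith [k1, k2, k3, hbond]

theorem tw_bg_fold_val (hG : G.bc = BC.per) (x : ℤ) : ((G.fold x : ℕ) : ℤ) = x % G.M := by
  have h0 : (0 : ℤ) < G.M := by exact_mod_cast G.hM
  have h1 := Int.emod_nonneg x h0.ne'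
  obtain ⟨bc, M, hM⟩ := G
  simp only at hG
  subst hG
  simp only [Geom.fold]
  exact Int.toNat_of_nonneg h1

/-- LEAF `L-TOW-B2`: the lift of the first mode is the first mode (`fold x = x % M`, periodicity of `cos`) -/
theorem tw_cos_lift (hG : G.bc = BC.per) (w : ℝ) (x : ℤ × ℤ) :
    G.lift (fun v : G.V => w * Real.cos (2 * Real.pi * ((v.1 : ℕ) : ℝ) / G.M)) x = w * Real.cos (2 * Real.pi * (x.1 : ℝ) / G.M) := by
  have hM : (G.M : ℝ) ≠ 0 := by exact_mod_cast G.hM.ne'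
  have h1 := tw_bg_fold_val hG x.1
  have h2 : x.1 = ((G.fold x.1 : ℕ) : ℤ) + G.M * (x.1 / G.M) := by
    rw [h1]; exact (Int.emod_add_mul_ediv x.1 G.M).symm
  have h3 : (x.1 : ℝ) = ((G.fold x.1 : ℕ) : ℝ) + G.M * ((x.1 / G.M : ℤ) : ℝ) := by exact_mod_cast h2
  show w * Real.cos (2 * Real.pi * ((G.fold x.1 : ℕ) : ℝ) / G.M) = _
  congr 1
  have h4 : 2 * Real.pi * (x.1 : ℝ) / G.M = 2 * Real.pi * ((G.fold x.1 : ℕ) : ℝ) / G.M + ((x.1 / G.M : ℤ) : ℝ) * (2 * Real.pi) := by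
    rw [h3]; field_simp
  rw [h4, Real.cos_add_int_mul_two_pi]

theorem tw_lift_eq (hG : G.bc = BC.per) (w : ℝ) :
    G.lift (fun v : G.V => w * Real.cos (2 * Real.pi * ((v.1 : ℕ) : ℝ) / G.M)) = fun x : ℤ × ℤ => w * Real.cos (2 * Real.pi * (x.1 : ℝ) / G.M) :=
  funext (tw_cos_lift hG w)

theorem tw_dir_fst (e : Fin 4) : |(((dir e).1 : ℤ) : ℝ)| ≤ 1 := by
  fin_cases e <;> simp [dir]

/-- LEAF `L-TOW-B2`: first differences (`|cos s - cos t| ≤ |s - t|`) -/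
theorem tw_cos_dif1 (hG : G.bc = BC.per) (w : ℝ) (hw : |w| ≤ 1) (x : ℤ × ℤ) (e : Fin 4) :
    |dif (dir e) (G.lift (fun v : G.V => w * Real.cos (2 * Real.pi * ((v.1 : ℕ) : ℝ) / G.M))) x| ≤ 2 * Real.pi / G.M := by
  have hM : (0 : ℝ) < G.M := by exact_mod_cast G.hM
  have hpi := Real.pi_pos
  rw [tw_lift_eq hG w]
  simp only [dif, Prod.fst_add, Int.cast_add]
  rw [← mul_sub, abs_mul]
  have h1 := Real.abs_cos_sub_cos_le (2 * Real.pi * ((x.1 : ℝ) + ((dir e).1 : ℤ)) / G.M) (2 * Real.pi * (x.1 : ℝ) / G.M)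
  have h2 : 2 * Real.pi * ((x.1 : ℝ) + ((dir e).1 : ℤ)) / G.M - 2 * Real.pi * (x.1 : ℝ) / G.M = (2 * Real.pi / G.M) * ((dir e).1 : ℤ) := by
    field_simp; ring
  rw [h2, abs_mul, abs_of_pos (by positivity : 0 < 2 * Real.pi / G.M)] at h1
  have h3 := tw_dir_fst e
  calc |w| * _ ≤ 1 * (2 * Real.pi / G.M * 1) := by
        refine mul_le_mul hw (h1.trans ?_) (abs_nonneg _) zero_le_one
        exact mul_le_mul_of_nonneg_left h3 (by positivity)
    _ = _ := by ring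

theorem tw_trig (A s t : ℝ) : Real.cos (A + s + t) - Real.cos (A + s) - (Real.cos (A + t) - Real.cos A)
    = -4 * Real.sin (s / 2) * Real.sin (t / 2) * Real.cos (A + (s + t) / 2) := by
  have e1 := Real.cos_sub_cos (A + s + t) (A + s)
  have e2 := Real.cos_sub_cos (A + t) A
  rw [e1, e2]
  have a1 : (A + s + t + (A + s)) / 2 = A + s + t / 2 := by ring
  have a2 : (A + s + t - (A + s)) / 2 = t / 2 := by ring
  have a3 : (A + t + A) / 2 = A + t / 2 := by ring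
  have a4 : (A + t - A) / 2 = t / 2 := by ring
  rw [a1, a2, a3, a4]
  have e3 := Real.sin_sub_sin (A + s + t / 2) (A + t / 2)
  have a5 : (A + s + t / 2 - (A + t / 2)) / 2 = s / 2 := by ring
  have a6 : (A + s + t / 2 + (A + t / 2)) / 2 = A + (s + t) / 2 := by ring
  rw [a5, a6] at e3
  linear_combination (-2 * Real.sin (t / 2)) * e3

/-- LEAF `L-TOW-B2`: second differences (`cos (A+s+t) - cos (A+s) - cos (A+t) + cos A = -4 sin (s/2) sin (t/2) cos (A + (s+t)/2)`) -/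
theorem tw_cos_dif2 (hG : G.bc = BC.per) (w : ℝ) (hw : |w| ≤ 1) (x : ℤ × ℤ) (e e' : Fin 4) :
    |dif (dir e) (dif (dir e') (G.lift (fun v : G.V => w * Real.cos (2 * Real.pi * ((v.1 : ℕ) : ℝ) / G.M)))) x| ≤ (2 * Real.pi / G.M) ^ 2 := by
  have hM : (0 : ℝ) < G.M := by exact_mod_cast G.hM
  have hpi := Real.pi_pos
  have hk : 0 < 2 * Real.pi / G.M := by positivity
  rw [tw_lift_eq hG w]
  simp only [dif, Prod.fst_add, Int.cast_add]
  set k := 2 * Real.pi / G.M with hkdef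
  set s : ℝ := k * ((dir e).1 : ℤ) with hs
  set t : ℝ := k * ((dir e').1 : ℤ) with ht
  set A : ℝ := k * x.1 with hA
  have b1 : 2 * Real.pi * ((x.1 : ℝ) + ((dir e).1 : ℤ) + ((dir e').1 : ℤ)) / G.M = A + s + t := by
    rw [hA, hs, ht, hkdef]; ring
  have b2 : 2 * Real.pi * ((x.1 : ℝ) + ((dir e).1 : ℤ)) / G.M = A + s := by
    rw [hA, hs, hkdef]; ring
  have b3 : 2 * Real.pi * ((x.1 : ℝ) + ((dir e').1 : ℤ)) / G.M = A + t := by
    rw [hA, ht, hkdef]; ring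
  have b4 : 2 * Real.pi * (x.1 : ℝ) / G.M = A := by
    rw [hA, hkdef]; ring
  rw [b1, b2, b3, b4]
  have e0 : w * Real.cos (A + s + t) - w * Real.cos (A + s) - (w * Real.cos (A + t) - w * Real.cos A)
      = w * (-4 * Real.sin (s / 2) * Real.sin (t / 2) * Real.cos (A + (s + t) / 2)) := by
    rw [← tw_trig]; ring
  rw [e0]
  have hs1 : |Real.sin (s / 2)| ≤ k / 2 := by
    refine (Real.abs_sin_le_abs).trans ?_
    rw [hs, abs_div, abs_mul, abs_of_pos hk, abs_of_pos (by norm_num : (0 : ℝ) < 2)]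
    have := tw_dir_fst e
    have : k * |(((dir e).1 : ℤ) : ℝ)| ≤ k * 1 := mul_le_mul_of_nonneg_left this hk.le
    linarith
  have ht1 : |Real.sin (t / 2)| ≤ k / 2 := by
    refine (Real.abs_sin_le_abs).trans ?_
    rw [ht, abs_div, abs_mul, abs_of_pos hk, abs_of_pos (by norm_num : (0 : ℝ) < 2)]
    have := tw_dir_fst e'
    have : k * |(((dir e').1 : ℤ) : ℝ)| ≤ k * 1 := mul_le_mul_of_nonneg_left this hk.le
    linarith
  have hc := Real.abs_cos_le_one (A + (s + t) / 2)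
  rw [abs_mul, abs_mul, abs_mul, abs_mul]
  have h4 : |(-4 : ℝ)| = 4 := by norm_num
  rw [h4]
  calc |w| * (4 * |Real.sin (s / 2)| * |Real.sin (t / 2)| * |Real.cos (A + (s + t) / 2)|)
      ≤ 1 * (4 * (k / 2) * (k / 2) * 1) := by gcongr
    _ = k ^ 2 := by ring

/-- the constant of the background -/
noncomputable def bgC (δ : ℝ) : ℝ := (2 + 4 * δ) * (200 * (2 * Real.pi) ^ 2) + (1 + 64 * δ) * (25 * ((2 * Real.pi) ^ 2) ^ 2)

/-- **the energy of the background** (PROVED from the leaves) -/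
theorem tw_cos_energy (hG : G.bc = BC.per) (g : Grid G) (hg : g.Ok) (hgM : g.m ≤ G.M) (δ : ℝ) (hδ : 0 ≤ δ) (X : Finset g.I) (w : ℝ) (hw : |w| ≤ 1) :
    U g δ X (fun v : G.V => w * Real.cos (2 * Real.pi * ((v.1 : ℕ) : ℝ) / G.M))
      + bondE (g.Dm X) (fun v : G.V => w * Real.cos (2 * Real.pi * ((v.1 : ℕ) : ℝ) / G.M)) ≤ bgC δ * X.card := by
  have hm : (0 : ℝ) < g.m := by exact_mod_cast hg.pos
  have hM : (0 : ℝ) < G.M := by exact_mod_cast G.hM
  have hmM : (g.m : ℝ) ≤ G.M := by exact_mod_cast hgM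
  have hpi := Real.pi_pos
  have k1 : 2 * Real.pi / G.M ≤ 2 * Real.pi / g.m := div_le_div_of_nonneg_left (by positivity) hm hmM
  refine tw_U_smooth g hg δ hδ X _ (2 * Real.pi) ((2 * Real.pi) ^ 2) (by positivity) (by positivity) (fun v e => ?_) (fun v e e' => ?_)
  · exact (tw_cos_dif1 hG w hw _ e).trans k1
  · refine (tw_cos_dif2 hG w hw _ e e').trans ?_
    rw [← div_pow]
    exact pow_le_pow_left₀ (by positivity) k1 2

end Claimed.Agent.R285.Tow
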