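import Claimed.Agent.R285.Read.B8b
import Claimed.Agent.R285.F4a.Map
import Claimed.Agent.R285.Obs.TermA
import Claimed.Agent.R285.Map.TorSym
import Claimed.Agent.R285.Map.TowBg

/-!
# ROW 285, post BP-TOWER (#14968): THE TOWER OF TORI WITH OBSERVATION REGULATORS      (architect helper290)

Produces the hypotheses `TowerOK`, `TermOK` of `B8.raw_system` (`Read/B8b.lean`) for the regulators `W^κ e^{V_obs}` of [B] L9.2 / [F] (eq:observation-regulator).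
VERSION 2 (16:20Z): follows `B8.Reg.hmin` (helper27); the theorem is stated for EVERY `𝓡 : Reg s` which `IsObsTower` (nothing depends on `hmin`), so it applies to `Asm.obsReg` (`Asm/ConcDefs.lean`): see `Asm/TowConc.lean`.

* `IsObsTower s o sd j0 𝓡`: `𝓡.gs h` = full-block grid of side `sd` (`j0 ≤ h`), `𝓡.V h j` is `IsObs` with `sep ≤ 2p + 8` (`j0 ≤ j ≤ h`).
* `obsGs s sd h`   = observation cells of side `sd` on the torus `h` (junk: cells of side one if `sd ∤ n_h`).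
* `tw_obs_exists`: the observation regulator EXISTS at the level `j` of the torus `h`, for `sd ∣ L^{j0}`, `j0 ≤ j ≤ h`.
* `obsReg s o sd hmin : B8.Reg s`, `obsReg_tower : IsObsTower ..`.
* `geoObs Ck ck col n0 cst : B8.Geo` = the geometry (`ρ = p + 1`, `r = r0`, `R = RR`, `sepV = 2p + 8`);   `geoObs_ok`.
* **`tower_obs`** (v3): `IsObsTower → TowerOK ∧ TermOK`, and `F4a.StepHyp` for all retained pairs with observation regulators.  ORDER OF THE CONSTANTS: `n0, Ck, ck`; `o`; `D1`; `δ ≤ δ0`; `κ ≤ κ0`; `cst, cT, ℓ0`; then everything else (`col, h0, A, c0, ℓ ≥ ℓ0, D0 ≥ D1, sd, j0, 𝓡`).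
  = TOWER-1 .. TOWER-4 of the parameter protocol of `Asm/ConcDefs.lean`.  Nothing here depends on `h0, A, c0, col, hmin`.

PROVED here from the contracts `B4.shellOK_of_fam`, `B4.geometry_closure`, `B4.obs_extra`, `B4.obs_regulator`, `B4.regulator_mono`, `B4.exists_terminal`, `B4.entry_adm`, `B8.cov_sym`, `Obs.terminal_moment`, `Reg.reg_U_nonneg`
and `Map/TorSym.lean` (0 sorry), `Map/TowBg.lean` (`L-TOW-B2`).  No `sorry` in this file.
-/

set_option autoImplicit false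

namespace Claimed.Agent.R285.Tow

open scoped BigOperators ENNReal NNReal
open MeasureTheory ProbabilityTheory
open Claimed.Agent.R285.RG Claimed.Agent.R285.B4 Claimed.Agent.R285.B8 Claimed.Agent.R285.F4a

noncomputable section

/-! ## 1. Definitions -/

/-- observation cells of side `sd` on the torus `h` (junk: cells of side one) -/
def obsGs (s : Sc) (sd h : ℕ) : Grid (s.T h) :=
  if hd : sd ∣ (s.T h).M then torusGrid (s.T h) sd hd else s.lev h 0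

open Classical in
/-- the observation regulator at the level `j` of the torus `h` (junk: no regulator) -/
def obsV (s : Sc) (o : ObsPar) (sd h j : ℕ) : Extra (s.lev h j) :=
  if hx : ∃ V : Extra (s.lev h j), V.sep ≤ 2 * pp + 8 ∧ IsObs o (obsGs s sd h) (s.lev h j) V then hx.choose else Extra.zero _

/-- a tower with observation regulators (`hmin` = the smallest retained torus, arbitrary) -/
def obsReg (s : Sc) (o : ObsPar) (sd hmin : ℕ) : Reg s := ⟨obsGs s sd, obsV s o sd, hmin⟩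

/-- **`𝓡` is a tower of observation regulators** with cells of side `sd`, from the level `j0` on -/
structure IsObsTower (s : Sc) (o : ObsPar) (sd j0 : ℕ) (𝓡 : Reg s) : Prop where
  gs : ∀ h, j0 ≤ h → ∀ hd : sd ∣ (s.T h).M, 𝓡.gs h = torusGrid (s.T h) sd hd
  obs : ∀ h j, j0 ≤ j → j ≤ h → IsObs o (𝓡.gs h) (s.lev h j) (𝓡.V h j)
  sep : ∀ h j, j0 ≤ j → j ≤ h → (𝓡.V h j).sep ≤ 2 * pp + 8

/-- the geometry: range `p + 1`, radii `r0 < RR`, separation `2 p + 8` -/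
def geoObs (Ck ck : ℝ) (col n0 : ℕ) (cst : ℝ≥0) : Geo := ⟨Ck, ck, pp + 1, col, r0, RR, n0, 2 * pp + 8, cst⟩

theorem geoObs_ok {Ck ck : ℝ} {col n0 : ℕ} {cst : ℝ≥0} (hck : 0 < ck) (hcol : 1 ≤ col) : (geoObs Ck ck col n0 cst).Ok where
  ck_pos := hck
  col_pos := hcol
  hρ := by simp [geoObs, r0, pp]
  hs := by simp [geoObs, r0, pp]
  hrR := by simp [geoObs, r0, RR, pp]

/-! ## 2. Elementary facts -/

theorem tw_lev_m (s : Sc) {h j : ℕ} (hj : j ≤ h) : (s.lev h j).m = s.L ^ j := by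
  show s.L ^ min j h = _
  rw [min_eq_left hj]

theorem tw_sd_dvd (s : Sc) {sd j0 h : ℕ} (hsd : sd ∣ s.L ^ j0) (hj : j0 ≤ h) : sd ∣ (s.T h).M :=
  (hsd.trans (pow_dvd_pow _ hj)).mul_left _

theorem tw_gs_eq (s : Sc) {sd h : ℕ} (hd : sd ∣ (s.T h).M) : obsGs s sd h = torusGrid (s.T h) sd hd := dif_pos hd

theorem tw_gs_nest (s : Sc) {sd j0 h j : ℕ} (hsd : sd ∣ s.L ^ j0) (hj0 : j0 ≤ j) (hj : j ≤ h) (hd : sd ∣ (s.T h).M) :
    Nonempty (Nest (torusGrid (s.T h) sd hd) (s.lev h j)) :=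
  ⟨tgNest _ _ _ hd (s.dvd h j) (by rw [min_eq_left hj]; exact hsd.trans (pow_dvd_pow _ hj0))⟩

/-- **the observation regulator exists** -/
theorem tw_obs_exists (s : Sc) (o : ObsPar) {sd j0 h j : ℕ} (hsd0 : 0 < sd) (hsd : sd ∣ s.L ^ j0) (hj0 : j0 ≤ j) (hj : j ≤ h) :
    ∃ V : Extra (s.lev h j), V.sep ≤ 2 * pp + 8 ∧ IsObs o (obsGs s sd h) (s.lev h j) V := by
  have hd : sd ∣ (s.T h).M := tw_sd_dvd s hsd (hj0.trans hj)
  obtain ⟨N⟩ := tw_gs_nest s hsd hj0 hj hd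
  rw [tw_gs_eq s hd]
  obtain ⟨V, h1, h2, _⟩ := B4.obs_extra o (torusGrid (s.T h) sd hd) (s.lev h j) (torusGrid_ok _ _ _ hsd0) (s.lev_ok h j) N
  exact ⟨V, h1, h2⟩

theorem obsReg_tower (s : Sc) (o : ObsPar) (hmin : ℕ) {sd j0 : ℕ} (hsd0 : 0 < sd) (hsd : sd ∣ s.L ^ j0) :
    IsObsTower s o sd j0 (obsReg s o sd hmin) := by
  have key : ∀ h j, j0 ≤ j → j ≤ h → (obsV s o sd h j).sep ≤ 2 * pp + 8 ∧ IsObs o (obsGs s sd h) (s.lev h j) (obsV s o sd h j) := by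
    intro h j hj0 hj
    have hx := tw_obs_exists s o hsd0 hsd hj0 hj
    unfold obsV
    rw [dif_pos hx]
    exact hx.choose_spec
  exact ⟨fun h _ hd => tw_gs_eq s hd, fun h j hj0 hj => (key h j hj0 hj).2, fun h j hj0 hj => (key h j hj0 hj).1⟩

theorem tw_whole (G : Geom) (m : ℕ) (h : m ∣ G.M) (hm : 0 < m) (h2 : 2 * m ≤ G.M) : Whole (torusGrid G m h) where
  pos := hm
  mono := (torusGrid_ok G m h hm).mono
  size := torusGrid_card G m h hm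
  two := (Nat.le_div_iff_mul_le hm).2 h2

/-! ## 3. The symmetries of one step -/

/-- the fields `nest`, `trans`, `square` of `B8.StepOK` -/
theorem tw_step_sym (s : Sc) (hD2 : 2 ≤ s.D0) {sd j0 h j : ℕ} (hsd : sd ∣ s.L ^ j0) (hj0 : j0 ≤ j) (hj : j < h) (hd : sd ∣ (s.T h).M) :
    (∀ t : GridSym (s.lev h (j + 1)), t.Pres (torusGrid (s.T h) sd hd) → ∃ t' : GridSym (s.lev h j), t'.σ = t.σ ∧ t'.Pres (torusGrid (s.T h) sd hd)) ∧
    (∀ B B' : (s.lev h j).I, ∃ t : GridSym (s.lev h j), t.Pres (torusGrid (s.T h) sd hd) ∧ t.τ B = B' ∧ t.ρ = 1) ∧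
    ∀ B : (s.lev h j).I, (∃ t : GridSym (s.lev h j), t.Pres (torusGrid (s.T h) sd hd) ∧ t.τ B = B ∧ t.ρ = Equiv.swap 0 1) ∧
      ∃ t : GridSym (s.lev h j), t.Pres (torusGrid (s.T h) sd hd) ∧ t.τ B = B ∧ t.ρ 0 = 2 ∧ t.ρ 2 = 0 ∧ t.ρ 1 = 3 ∧ t.ρ 3 = 1 := by
  have hsm : sd ∣ s.L ^ min j h := by rw [min_eq_left hj.le]; exact hsd.trans (pow_dvd_pow _ hj0)
  have hpos : 0 < s.L ^ min j h := Nat.pow_pos s.L_pos
  refine ⟨fun t ht => ?_, fun B B' => tw_trans rfl _ _ (s.dvd h j) hd hsm hpos B B', fun B =>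
    ⟨tw_refl rfl _ _ (s.dvd h j) hd hsm hpos B, tw_swap rfl _ _ (s.dvd h j) hd hsm hpos B⟩⟩
  have h2 : 2 * s.L ^ min (j + 1) h ≤ (s.T h).M := by
    show 2 * s.L ^ min (j + 1) h ≤ s.D0 * s.L ^ h
    exact Nat.mul_le_mul hD2 (Nat.pow_le_pow_right s.L_pos (min_le_right _ _))
  obtain ⟨t', ht'⟩ := tw_sym_nest rfl (s.L ^ min j h) (s.L ^ min (j + 1) h) (s.dvd h j) (s.dvd h (j + 1))
    (pow_dvd_pow _ (min_le_min_right h (Nat.le_succ j))) hpos h2 t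
  refine ⟨t', ht', ?_⟩
  obtain ⟨τs, hτ⟩ := ht
  exact ⟨τs, fun v => by rw [ht']; exact hτ v⟩

/-- polynomial kernels have a constant diagonal (translations = symmetries of the grid of side `1`) -/
theorem tw_diag {G : Geom} (hG : G.bc = BC.per) (P : Polynomial ℝ) (v : G.V) : cov G P v v = cov G P (org G) (org G) := by
  obtain ⟨t, _, ht, _⟩ := tw_trans hG 1 1 (one_dvd _) (one_dvd _) (one_dvd _) Nat.one_pos
    ((torusGrid G 1 (one_dvd _)).blk (org G)) ((torusGrid G 1 (one_dvd _)).blk v)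
  have hinj : Function.Injective (torusGrid G 1 (one_dvd _)).blk := by
    intro a b hab
    have h1 : ((a.1 : ℕ) / 1) = ((b.1 : ℕ) / 1) := congrArg (fun x : (torusGrid G 1 (one_dvd _)).I => (x.1 : ℕ)) hab
    have h2 : ((a.2 : ℕ) / 1) = ((b.2 : ℕ) / 1) := congrArg (fun x : (torusGrid G 1 (one_dvd _)).I => (x.2 : ℕ)) hab
    rw [Nat.div_one, Nat.div_one] at h1 h2
    exact Prod.ext (Fin.ext h1) (Fin.ext h2)
  have e : t.σ (org G) = v := hinj (by rw [t.blk, ht])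
  rw [← e]
  exact B8.cov_sym _ t P (org G) (org G)

/-! ## 4. The theorem -/

/-- **THE TOWER WITH OBSERVATION REGULATORS SATISFIES THE HYPOTHESES OF `B8.raw_system`.**
VERSION 3 (helper241, 18:00Z): `n0, Ck, ck` are chosen BEFORE `o`; second conjunct = the hypotheses `F4a.StepHyp` of [F] P4.1 for EVERY retained pair with observation regulators
(tori AND free squares, any whole cells `c`), with the SAME `n0, Ck, ck, cst`, uniformly in `κ' ∈ [κ, κ0]` (for the paired squares of [F] L6.2; the second norm is the instance `oT` at `κ' = (1 + e) κ`). -/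
theorem tower_obs : ∃ (n0 : ℕ) (Ck ck : ℝ), 0 < ck ∧ ∀ o : ObsPar, ∃ D1 : ℕ, ∃ δ0 > (0 : ℝ), ∀ δ ∈ Set.Ioc 0 δ0, ∃ κ0 > (0 : ℝ), ∀ κ ∈ Set.Ioc 0 κ0,
    ∃ (cst cT : ℝ≥0) (ℓ0 : ℕ), (∀ (col : ℕ) (h0 : ℝ≥0) (A : ℝ) (c0 ℓ D0 : ℕ) (hD : 0 < D0), ℓ0 ≤ ℓ → D1 ≤ D0 →
      ∀ sd j0 : ℕ, 0 < sd → sd ∣ (2 ^ ℓ) ^ j0 → 2 * col < (2 ^ ℓ) ^ j0 →
      ∀ 𝓡 : Reg (cfg8 (geoObs Ck ck col n0 cst) δ κ h0 A c0 ℓ D0 hD).s, IsObsTower _ o sd j0 𝓡 →
        (cfg8 (geoObs Ck ck col n0 cst) δ κ h0 A c0 ℓ D0 hD).TowerOK 𝓡 j0 ∧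
        (cfg8 (geoObs Ck ck col n0 cst) δ κ h0 A c0 ℓ D0 hD).TermOK 𝓡 j0 cT) ∧
      ∀ κ' ∈ Set.Icc κ κ0, ∀ (h0 : ℝ≥0) (A ω : ℝ), ∀ ℓ ≥ ℓ0, ∀ D0 ≥ D1,
        ∀ (G : Geom) (P : Pair G D0 ℓ) (c : Grid G), Whole c → Nonempty (Nest c P.g) →
        ∀ (Vf : Extra P.g) (Vc : Extra P.g'), IsObs o c P.g Vf → IsObs o c P.g' Vc →
          F4a.StepHyp ⟨δ, κ', h0, A, ω⟩ (pp + 1) r0 RR n0 Ck ck cst P (RG.shell G Fam.entry P.g.m P.g'.m) Vf Vc := by
  obtain ⟨Ds, Ck, ck, hck, hshell⟩ := B4.shellOK_of_fam 1 1 64 0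
  obtain ⟨C0, n0, ℓg, Dg, hgeo⟩ := B4.geometry_closure r0 RR (by norm_num [r0, pp])
  refine ⟨n0, Ck, ck, hck, fun o => ?_⟩
  obtain ⟨Dr, δr, hδr, hreg⟩ := B4.obs_regulator o Ck ck RR n0
  obtain ⟨δm, hδm, hmono⟩ := B4.regulator_mono
  obtain ⟨pseg, hp, δt, hδt, hterm⟩ := Obs.terminal_moment o
  refine ⟨max (max Ds Dg) Dr + 2, min (min δr δm) δt, lt_min (lt_min hδr hδm) hδt, fun δ hδ => ?_⟩
  have hδ1 : δ ≤ δr := hδ.2.trans ((min_le_left _ _).trans (min_le_left _ _))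
  have hδ2 : δ ≤ δm := hδ.2.trans ((min_le_left _ _).trans (min_le_right _ _))
  have hδ3 : δ ≤ δt := hδ.2.trans (min_le_right _ _)
  obtain ⟨κr, hκr, hreg⟩ := hreg δ ⟨hδ.1, hδ1⟩
  obtain ⟨κt, hκt, hterm⟩ := hterm δ ⟨hδ.1, hδ3⟩
  refine ⟨min κr κt, lt_min hκr hκt, fun κ hκ => ?_⟩
  obtain ⟨cst, ℓr, hreg⟩ := hreg κ hκ.1
  obtain ⟨cT, hterm⟩ := hterm (bgC δ)
  refine ⟨cst, cT, max (max ℓg ℓr) 1, fun col h0 A c0 ℓ D0 hD hℓ hD1 sd j0 hsd0 hsd hcol 𝓡 hT => ?_,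
    fun κ' hκ' h0 A ω ℓ hℓ D0 hD1 G P c hc hN Vf Vc hVf hVc => ?_⟩
  swap
  · -- the hypotheses of [F] P4.1 for an arbitrary retained pair
    obtain ⟨N⟩ := hN
    have hℓ1 : ℓg ≤ ℓ := ((le_max_left _ _).trans (le_max_left _ _)).trans hℓ
    have hℓ2 : ℓr ≤ ℓ := ((le_max_right _ _).trans (le_max_left _ _)).trans hℓ
    have hℓ3 : 1 ≤ ℓ := (le_max_right _ _).trans hℓ
    have hDs : Ds ≤ D0 := by have := (le_max_left Ds Dg).trans (le_max_left _ Dr); omega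
    have hDg : Dg ≤ D0 := by have := (le_max_right Ds Dg).trans (le_max_left _ Dr); omega
    have hDr : Dr ≤ D0 := by have := le_max_right (max Ds Dg) Dr; omega
    have hsh := hshell D0 hDs G Fam.entry B4.entry_adm (by norm_num [Fam.entry]) ℓ hℓ3 P (Nat.zero_le _)
    exact
      { shell := hsh
        reg := hreg D0 hDr G ℓ hℓ2 P c (F4a.whole_ok hc) N hsh Vf Vc hVf hVc κ' ⟨hκ'.1, hκ'.2.trans (min_le_left _ _)⟩
        adm := ⟨hδ.1, lt_of_lt_of_le hκ.1 hκ'.1, fun X X' hX φ => hmono δ ⟨hδ.1, hδ2⟩ _ _ P.ok' X X' hX φ⟩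
        geo := fun X hX => ⟨(hgeo D0 hDg G ℓ hℓ1 P X hX).2.2.1, (hgeo D0 hDg G ℓ hℓ1 P X hX).2.2.2.2,
          (hgeo D0 hDg G ℓ hℓ1 P X hX).2.2.2.1⟩ }
  have hℓ1 : ℓg ≤ ℓ := ((le_max_left _ _).trans (le_max_left _ _)).trans hℓ
  have hℓ2 : ℓr ≤ ℓ := ((le_max_right _ _).trans (le_max_left _ _)).trans hℓ
  have hℓ3 : 1 ≤ ℓ := (le_max_right _ _).trans hℓ
  have hDs : Ds ≤ D0 - 1 := by have := (le_max_left Ds Dg).trans (le_max_left _ Dr); omega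
  have hDg : Dg ≤ D0 - 1 := by have := (le_max_right Ds Dg).trans (le_max_left _ Dr); omega
  have hDr : Dr ≤ D0 - 1 := by have := le_max_right (max Ds Dg) Dr; omega
  have hD2 : 2 ≤ D0 := by omega
  set s : Sc := ⟨ℓ, D0, hD⟩ with hs
  have hsd' : sd ∣ s.L ^ j0 := hsd
  change Reg s at 𝓡
  change IsObsTower s o sd j0 𝓡 at hT
  refine ⟨⟨fun h j hj0 hj => ?_, sd, hsd0, fun h hh => ?_⟩, fun h hh X w hw => ?_⟩
  · -- one step
    have em : (s.pair h j hj).g.m = s.L ^ j := tw_lev_m s hj.le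
    have em' : (s.pair h j hj).g'.m = s.L ^ (j + 1) := tw_lev_m s hj
    have hsh : ShellOK Ck ck (pp + 1) (s.pair h j hj) (shell (s.T h) Fam.entry (s.L ^ j) (s.L ^ (j + 1))) := by
      have := hshell (D0 - 1) hDs (s.T h) Fam.entry B4.entry_adm le_rfl ℓ hℓ3 (s.pair h j hj) (Nat.zero_le _)
      rwa [em, em'] at this
    have hd : sd ∣ (s.T h).M := tw_sd_dvd s hsd' (hj0.trans hj.le)
    obtain ⟨N⟩ := tw_gs_nest s hsd' hj0 hj.le hd
    have e : 𝓡.gs h = torusGrid (s.T h) sd hd := hT.gs h (hj0.trans hj.le) hd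
    have hVf := hT.obs h j hj0 hj.le
    have hVc := hT.obs h (j + 1) (hj0.trans (Nat.le_succ j)) hj
    rw [e] at hVf hVc
    have hrg : RegStable RR n0 cst δ κ (s.pair h j hj) (𝓡.V h j) (𝓡.V h (j + 1))
        (shell (s.T h) Fam.entry (s.L ^ j) (s.L ^ (j + 1))) := by
      have := hreg (D0 - 1) hDr (s.T h) ℓ hℓ2 (s.pair h j hj) (torusGrid (s.T h) sd hd) (torusGrid_ok _ _ _ hsd0) N
        (by rw [em, em']; exact hsh) (𝓡.V h j) (𝓡.V h (j + 1)) hVf hVc κ ⟨le_rfl, hκ.2.trans (min_le_left _ _)⟩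
      rwa [em, em'] at this
    obtain ⟨y1, y2, y3⟩ := tw_step_sym s hD2 hsd' hj0 hj hd
    show StepOK _ _ (𝓡.gs h) _
    rw [e]
    exact {
      per := rfl
      shell := hsh
      reg := hrg
      adm := ⟨hδ.1, hκ.1, fun X X' hX φ => hmono δ ⟨hδ.1, hδ2⟩ _ _ (s.lev_ok h (j + 1)) X X' hX φ⟩
      sep := hT.sep h (j + 1) (hj0.trans (Nat.le_succ j)) hj
      sepf := hT.sep h j hj0 hj.le
      admf := ⟨hδ.1, hκ.1, fun X X' hX φ => hmono δ ⟨hδ.1, hδ2⟩ _ _ (s.lev_ok h j) X X' hX φ⟩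
      col := by
        show 2 * col < (s.pair h j hj).g.m
        rw [em]
        exact lt_of_lt_of_le hcol (Nat.pow_le_pow_right s.L_pos hj0)
      inv := fun t v w => B8.cov_sym _ t _ v w
      diag := fun v => tw_diag rfl _ v
      nest := y1
      trans := y2
      square := y3
      half := fun X hX hn => (hgeo (D0 - 1) hDg (s.T h) ℓ hℓ1 (s.pair h j hj) X hX).2.2.2.1 hn
      diam := fun X hX hn => ⟨(hgeo (D0 - 1) hDg (s.T h) ℓ hℓ1 (s.pair h j hj) X hX).2.2.2.2 hn,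
        (hgeo (D0 - 1) hDg (s.T h) ℓ hℓ1 (s.pair h j hj) X hX).2.2.1⟩ }
  · -- the cells
    have hd : sd ∣ (s.T h).M := tw_sd_dvd s hsd' hh.le
    have e : 𝓡.gs h = torusGrid (s.T h) sd hd := hT.gs h hh.le hd
    show (𝓡.gs h).m = sd ∧ ∀ x y : ℤ × ℤ, x.1 / (sd : ℤ) = y.1 / (sd : ℤ) → x.2 / (sd : ℤ) = y.2 / (sd : ℤ) →
      (𝓡.gs h).blk ((s.T h).π x) = (𝓡.gs h).blk ((s.T h).π y)
    rw [e]
    exact ⟨rfl, fun x y h1 h2 => tw_cells rfl sd hd hsd0 x y h1 h2⟩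
  · -- the terminal regulator
    have hd : sd ∣ (s.T h).M := tw_sd_dvd s hsd' hh
    have e : 𝓡.gs h = torusGrid (s.T h) sd hd := hT.gs h hh hd
    have em : (s.lev h h).m = s.L ^ h := tw_lev_m s le_rfl
    have hV := hT.obs h h hh le_rfl
    rw [e] at hV
    have hΓ : IsTerminal (s.T h) Fam.entry (s.lev h h).m (termCov (s.T h) Fam.entry (s.L ^ h)) := by
      rw [em]
      have hx := B4.exists_terminal (s.T h) Fam.entry B4.entry_adm (s.L ^ h) (Nat.pow_pos s.L_pos)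
      unfold termCov
      rw [dif_pos hx]
      exact hx.choose_spec
    have h2 : 2 * (s.lev h h).m ≤ (s.T h).M := by
      rw [em]
      exact Nat.mul_le_mul_right _ hD2
    have hW : Whole (torusGrid (s.T h) sd hd) := by
      refine tw_whole _ _ hd hsd0 (le_trans (Nat.mul_le_mul_left 2 ?_) h2)
      rw [em]
      exact Nat.le_of_dvd (Nat.pow_pos s.L_pos) (hsd'.trans (pow_dvd_pow _ hh))
    have key := hterm κ ⟨hκ.1, hκ.2.trans (min_le_right _ _)⟩ (s.T h) (torusGrid (s.T h) sd hd) (s.lev h h) hW (s.lev_ok h h)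
      (tw_gs_nest s hsd' hh le_rfl hd) h2 _ hΓ _ hV X (fun v => w * cos1 (s.T h) v)
      (tw_cos_energy rfl (s.lev h h) (s.lev_ok h h) (by omega) δ hδ.1.le X w hw)
    refine le_trans (lintegral_mono fun (ζ : (s.T h).V → ℝ) => ?_) key
    apply ENNReal.ofReal_le_ofReal
    have h1 : 1 ≤ Wt (s.lev h h) δ κ (𝓡.V h h) X (ζ + fun v => w * cos1 (s.T h) v) :=
      Real.one_le_exp (add_nonneg (mul_nonneg hκ.1.le (Reg.reg_U_nonneg _ hδ.1.le _ _)) (Extra.nonneg _ _ _))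
    exact Real.self_le_rpow_of_one_le h1 hp.le

end

end Claimed.Agent.R285.Tow
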