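import Claimed.Agent.R285.Map.WSing
import Claimed.Agent.R285.Map.Sym
import Claimed.Agent.R285.Obs.PairCopy
import Claimed.Agent.R285.Reg.Lat

/-!
# ROW 285, unit MAP, weak step: KIT 3 = lattice symmetries `RG.GridSym` of a full-block torus grid                    (owner helper202)

NO LEAF IN THIS FILE.  The elementary facts are the leaves `L-PK-SYM-*` of `Map/Sym.lean` (helper114) and `L-PAIR-A1` of `Obs/PairAlg.lean` (helper79); here they are only restated in the notation
`symF s f = f ∘ σ⁻¹`, `symX s X = τ (X)`.  The two invariances of the Gaussian measure are PROVED (`F6.Pr.pr_conv_transport`, `Reg.reg_gauss_map`).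
-/

set_option autoImplicit false

namespace Claimed.Agent.R285.B8

open scoped BigOperators ENNReal NNReal
open MeasureTheory
open Claimed.Agent.R285.RG Claimed.Agent.R285.Hol

noncomputable section

variable {G : Geom} {g : Grid G}

/-- the action of a symmetry on fields: `(s φ)(v) = φ (σ⁻¹ v)` -/
def symF {α : Type} (s : GridSym g) (f : G.V → α) : G.V → α := fun v => f (s.σ.symm v)

/-- the action on polymers -/
def symX (s : GridSym g) (X : Finset g.I) : Finset g.I := X.map s.τ.toEmbedding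

theorem w_sym_affine (hG : G.bc = BC.per) (hM : 3 ≤ G.M) (s : GridSym g) (x y : ℤ × ℤ) :
    s.σ (G.π (x + y)) = G.π (G.ι (s.σ (G.π x)) + (y.1 • dir (s.ρ 0) + y.2 • dir (s.ρ 2))) := Pack.sym_affine hG hM s x y

theorem w_sym_dist (hG : G.bc = BC.per) (hM : 3 ≤ G.M) (s : GridSym g) (v w : G.V) : G.dist (s.σ v) (s.σ w) = G.dist v w :=
  Pack.sym_dist hG hM s v w

theorem w_sym_idist (hG : G.bc = BC.per) (hM : 3 ≤ G.M) (hg : g.Ok) (s : GridSym g) (a b : g.I) : g.idist (s.τ a) (s.τ b) = g.idist a b :=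
  Pack.sym_idist hG hM hg s a b

theorem w_sym_sites (s : GridSym g) (X : Finset g.I) : g.sites (symX s X) = (g.sites X).map s.σ.toEmbedding := Pack.sym_sites s X

theorem w_sym_difs {α : Type} [AddGroup α] (hG : G.bc = BC.per) (s : GridSym g) {r : ℕ} (a : Fin r → Fin 4) (f : G.V → α) (v : G.V) :
    difs (fun i => s.ρ (a i)) (G.lift (symF s f)) (G.ι (s.σ v)) = difs a (G.lift f) (G.ι v) := Pack.sym_difs hG s a f v

theorem w_sym_tnorm {α : Type} [NormedAddCommGroup α] (hG : G.bc = BC.per) (hM : 3 ≤ G.M) (hg : g.Ok) (s : GridSym g) (X : Finset g.I) (f : G.V → α) :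
    tnorm g (symX s X) (symF s f) = tnorm g X f := Pack.sym_tnorm hG hM hg s X f

theorem w_sym_strip (hG : G.bc = BC.per) (hM : 3 ≤ G.M) (hg : g.Ok) (s : GridSym g) (h0 : ℝ≥0) (X : Finset g.I) (z : G.V → ℂ) :
    symF s z ∈ strip h0 g (symX s X) ↔ z ∈ strip h0 g X := Pack.sym_strip hG hM hg s h0 X z

theorem w_sym_conn (hG : G.bc = BC.per) (hM : 3 ≤ G.M) (hg : g.Ok) (s : GridSym g) (R : ℕ) (X : Finset g.I) :
    g.Conn R (symX s X) ↔ g.Conn R X := Pack.sym_conn hG hM hg s R X

theorem w_perm_conn (π : Equiv.Perm g.I) (hπ : ∀ a b, g.idist (π a) (π b) = g.idist a b) (R : ℕ) (X : Finset g.I) :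
    g.Conn R (X.map π.toEmbedding) ↔ g.Conn R X := F6.Pr.pra_conn_map π.toEmbedding hπ R X

/-! ## Gaussian measures (PROVED) -/

theorem w_gauss_sym (Γ : Matrix G.V G.V ℝ) (hΓ : Γ.PosSemidef) (s : GridSym g) (hs : ∀ v w, Γ (s.σ v) (s.σ w) = Γ v w) (f : (G.V → ℝ) → ℂ) :
    ∫ ζ, f (symF s ζ) ∂(gauss G Γ) = ∫ ζ, f ζ ∂(gauss G Γ) := by
  have h := F6.Pr.pr_conv_transport Γ Γ hΓ hΓ (κ := G.V) id s.σ Function.injective_id s.σ.injective (fun x y => (hs x y).symm)
    (fun w => f (symF s fun v => (w v).re)) (fun w => f fun v => (w v).re) 0 0 (fun ζ₀ ζ₁ h => by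
      have : (symF s fun v => ((0 : G.V → ℂ) + toC ζ₀) v |>.re) = fun v => (((0 : G.V → ℂ) + toC ζ₁) v).re := by
        funext v
        have := h (s.σ.symm v)
        simp only [id, Equiv.apply_symm_apply] at this
        simp [symF, toC, this]
      show f (symF s fun v => (((0 : G.V → ℂ) + toC ζ₀) v).re) = f fun v => (((0 : G.V → ℂ) + toC ζ₁) v).re
      rw [this])
  have e : ∀ ζ : G.V → ℝ, (fun v => (((0 : G.V → ℂ) + toC ζ) v).re) = ζ := fun ζ => by funext v; simp [toC]
  unfold conv at h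
  simpa only [e] using h

theorem w_gauss_neg (Γ : Matrix G.V G.V ℝ) (hΓ : Γ.PosSemidef) (f : (G.V → ℝ) → ℂ) :
    ∫ ζ, f (-ζ) ∂(gauss G Γ) = ∫ ζ, f ζ ∂(gauss G Γ) := by
  have h := Reg.reg_gauss_map hΓ (-1 : Matrix G.V G.V ℝ)
  have e1 : (-1 : Matrix G.V G.V ℝ) * Γ * (-1 : Matrix G.V G.V ℝ).transpose = Γ := by simp
  have e2 : (fun ζ : G.V → ℝ => (-1 : Matrix G.V G.V ℝ).mulVec ζ) = fun ζ => -ζ := by
    funext ζ; simp [Matrix.neg_mulVec]
  rw [e1, e2] at h
  rw [Reg.reg_gauss_eq]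
  conv_rhs => rw [← h]
  exact (integral_map_equiv (MeasurableEquiv.neg (G.V → ℝ)) f).symm

/-! ## the singletons are covariant -/

theorem w_sym_eBC (hG : G.bc = BC.per) (s : GridSym g) (B : g.I) (z : G.V → ℂ) : eBC g (s.τ B) (symF s z) = eBC g B z := Pack.sym_eBC hG s B z

theorem w_sym_cBC (s : GridSym g) (α : ℝ) (B : g.I) (z : G.V → ℂ) : cBC g α (s.τ B) (symF s z) = cBC g α B z := Pack.sym_cBC s α B z

/-- PROVED -/
theorem w_single_sym (hG : G.bc = BC.per) (h0 : ℝ≥0) (gs : Grid G) (α : ℝ) (t z : ℂ) : (single g α t z).Sym h0 gs := by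
  intro s _ X w _ _
  by_cases h : ∃ B, X = {B}
  · obtain ⟨B, rfl⟩ := h
    rw [Finset.map_singleton, w_single_singleton, w_single_singleton]
    have h1 := w_sym_eBC hG s B w
    have h2 := w_sym_cBC s α B w
    unfold symF at h1 h2
    simp only [Pi.add_apply, Pi.smul_apply, Equiv.coe_toEmbedding, h1, h2]
  · rw [w_single_of_ne _ _ _ _ X fun B hB => h ⟨B, hB⟩, w_single_of_ne]
    · rfl
    · intro B hB
      apply h
      refine ⟨s.τ.symm B, ?_⟩
      apply Finset.map_injective s.τ.toEmbedding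
      rw [hB, Finset.map_singleton]; simp

theorem w_single_cls (p : Par) (hω : 0 < p.ω) (col R : ℕ) (hcol : 1 ≤ col) (hG : G.bc = BC.per) (gs : Grid G) (t z : ℂ) :
    (single g (Step.alpha p.ω) t z).Cls p col R gs :=
  ⟨w_single_ok p hω col R hcol g t z, w_single_even p.h0 g _ t z, w_single_sym hG p.h0 gs _ t z⟩

/-! ## closure of the class under the vector space operations (PROVED) -/

theorem w_cls_add (p : Par) (col R : ℕ) (gs : Grid G) {K K' : Act g} (h : K.Cls p col R gs) (h' : K'.Cls p col R gs) : (K + K').Cls p col R gs where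
  ok := w_actOk_add p col R h.ok h'.ok
  even := fun X z hz => by rw [Pi.add_apply, Pi.add_apply, Pi.add_apply, h.even X z hz, h'.even X z hz]
  sym := fun s hs X z hz hz' => by
    rw [Pi.add_apply, Pi.add_apply, Pi.add_apply, Pi.add_apply, h.sym s hs X z hz hz', h'.sym s hs X z hz hz']

theorem w_cls_smul (p : Par) (col R : ℕ) (gs : Grid G) (a : ℂ) {K : Act g} (h : K.Cls p col R gs) : (a • K).Cls p col R gs where
  ok := w_actOk_smul p col R a h.ok
  even := fun X z hz => by rw [Pi.smul_apply, Pi.smul_apply, Pi.smul_apply, h.even X z hz]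
  sym := fun s hs X z hz hz' => by
    rw [Pi.smul_apply, Pi.smul_apply, Pi.smul_apply, Pi.smul_apply, h.sym s hs X z hz hz']

theorem w_cls_sub (p : Par) (col R : ℕ) (gs : Grid G) {K K' : Act g} (h : K.Cls p col R gs) (h' : K'.Cls p col R gs) : (K - K').Cls p col R gs := by
  have := w_cls_add p col R gs h (w_cls_smul p col R gs (-1) h')
  simpa [sub_eq_add_neg] using this

end

end Claimed.Agent.R285.B8
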