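import Claimed.Agent.R285.Map.Defs
import Claimed.Agent.R285.Hol.Tn

/-!
# ROW 285, unit MAP, weak step: KIT 1 = calculus of `EqOn`, `fnSize`, `actNorm`, `size3`  (all PROVED)            (owner helper202)

Tools: `Hol.fnSize_le_iff`, `Hol.toC_add_mem_strip`.  Everything is level-independent (one grid `g`).
-/

set_option autoImplicit false

namespace Claimed.Agent.R285.B8

open scoped BigOperators ENNReal NNReal
open MeasureTheory
open Claimed.Agent.R285.RG Claimed.Agent.R285.Hol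

noncomputable section

variable {G : Geom}

/-! ## `EqOn` -/

theorem EqOn.rfl' (h0 : ℝ≥0) {g : Grid G} (K : Act g) : EqOn h0 K K := fun _ _ _ => rfl

theorem EqOn.symm' {h0 : ℝ≥0} {g : Grid G} {K K' : Act g} (h : EqOn h0 K K') : EqOn h0 K' K := fun X z hz => (h X z hz).symm

theorem EqOn.trans' {h0 : ℝ≥0} {g : Grid G} {K K' K'' : Act g} (h : EqOn h0 K K') (h' : EqOn h0 K' K'') : EqOn h0 K K'' :=
  fun X z hz => (h X z hz).trans (h' X z hz)

theorem EqOn.add' {h0 : ℝ≥0} {g : Grid G} {K K' J J' : Act g} (h : EqOn h0 K K') (h' : EqOn h0 J J') : EqOn h0 (K + J) (K' + J') :=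
  fun X z hz => by simp only [Pi.add_apply]; rw [h X z hz, h' X z hz]

theorem EqOn.sub' {h0 : ℝ≥0} {g : Grid G} {K K' J J' : Act g} (h : EqOn h0 K K') (h' : EqOn h0 J J') : EqOn h0 (K - J) (K' - J') :=
  fun X z hz => by simp only [Pi.sub_apply]; rw [h X z hz, h' X z hz]

theorem EqOn.smul' {h0 : ℝ≥0} {g : Grid G} {K K' : Act g} (a : ℂ) (h : EqOn h0 K K') : EqOn h0 (a • K) (a • K') :=
  fun X z hz => by simp only [Pi.smul_apply]; rw [h X z hz]

/-! ## `fnSize` -/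

theorem w_fnSize_congr (p : Par) (g : Grid G) (V : Extra g) (X : Finset g.I) {F F' : Fn G}
    (h : ∀ z ∈ strip p.h0 g X, F z = F' z) : fnSize p g V X F = fnSize p g V X F' := by
  apply le_antisymm
  · rw [fnSize_le_iff]; intro φ f hf
    rw [h _ (toC_add_mem_strip φ hf)]; exact nnnorm_le_fnSize_mul p g V X F' φ f hf
  · rw [fnSize_le_iff]; intro φ f hf
    rw [← h _ (toC_add_mem_strip φ hf)]; exact nnnorm_le_fnSize_mul p g V X F φ f hf

theorem w_fnSize_zero (p : Par) (g : Grid G) (V : Extra g) (X : Finset g.I) : fnSize p g V X 0 = 0 := by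
  apply le_antisymm _ zero_le
  rw [fnSize_le_iff]; intro φ f _; simp

theorem w_fnSize_add_le (p : Par) (g : Grid G) (V : Extra g) (X : Finset g.I) (F F' : Fn G) :
    fnSize p g V X (F + F') ≤ fnSize p g V X F + fnSize p g V X F' := by
  rw [fnSize_le_iff]; intro φ f hf
  rw [add_mul]
  calc (‖(F + F') (toC φ + f)‖₊ : ℝ≥0∞) ≤ ‖F (toC φ + f)‖₊ + ‖F' (toC φ + f)‖₊ := by
        rw [Pi.add_apply]; exact_mod_cast nnnorm_add_le _ _
    _ ≤ _ := add_le_add (nnnorm_le_fnSize_mul p g V X F φ f hf) (nnnorm_le_fnSize_mul p g V X F' φ f hf)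

theorem w_fnSize_sum_le (p : Par) (g : Grid G) (V : Extra g) (X : Finset g.I) {ι : Type} (s : Finset ι) (F : ι → Fn G) :
    fnSize p g V X (∑ i ∈ s, F i) ≤ ∑ i ∈ s, fnSize p g V X (F i) := by
  classical
  induction s using Finset.induction_on with
  | empty => simp [w_fnSize_zero]
  | insert a s ha ih =>
    rw [Finset.sum_insert ha, Finset.sum_insert ha]
    exact (w_fnSize_add_le p g V X _ _).trans (add_le_add le_rfl ih)

theorem w_fnSize_smul_le (p : Par) (g : Grid G) (V : Extra g) (X : Finset g.I) (a : ℂ) (F : Fn G) :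
    fnSize p g V X (a • F) ≤ ‖a‖₊ * fnSize p g V X F := by
  rw [fnSize_le_iff]; intro φ f hf
  rw [mul_assoc]
  calc (‖(a • F) (toC φ + f)‖₊ : ℝ≥0∞) = ‖a‖₊ * ‖F (toC φ + f)‖₊ := by
        rw [Pi.smul_apply, smul_eq_mul, nnnorm_mul, ENNReal.coe_mul]
    _ ≤ _ := mul_le_mul' le_rfl (nnnorm_le_fnSize_mul p g V X F φ f hf)

theorem w_fnSize_neg (p : Par) (g : Grid G) (V : Extra g) (X : Finset g.I) (F : Fn G) :
    fnSize p g V X (-F) = fnSize p g V X F := by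
  apply le_antisymm
  · rw [fnSize_le_iff]; intro φ f hf
    rw [Pi.neg_apply, nnnorm_neg]; exact nnnorm_le_fnSize_mul p g V X F φ f hf
  · rw [fnSize_le_iff]; intro φ f hf
    have := nnnorm_le_fnSize_mul p g V X (-F) φ f hf
    rwa [Pi.neg_apply, nnnorm_neg] at this

theorem w_fnSize_sub_le (p : Par) (g : Grid G) (V : Extra g) (X : Finset g.I) (F F' : Fn G) :
    fnSize p g V X (F - F') ≤ fnSize p g V X F + fnSize p g V X F' := by
  rw [sub_eq_add_neg]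
  exact (w_fnSize_add_le p g V X _ _).trans (by rw [w_fnSize_neg])

/-- countable subadditivity -/
theorem w_fnSize_tsum_le (p : Par) (g : Grid G) (V : Extra g) (X : Finset g.I) {ι : Type} (F : ι → Fn G) (Fs : Fn G)
    (h : ∀ z ∈ strip p.h0 g X, HasSum (fun i => F i z) (Fs z)) : fnSize p g V X Fs ≤ ∑' i, fnSize p g V X (F i) := by
  rw [fnSize_le_iff]; intro φ f hf
  have hs := h _ (toC_add_mem_strip φ hf)
  rw [← ENNReal.tsum_mul_right]
  calc (‖Fs (toC φ + f)‖₊ : ℝ≥0∞) ≤ ∑' i, (‖F i (toC φ + f)‖₊ : ℝ≥0∞) := by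
        rw [← hs.tsum_eq]
        exact enorm_tsum_le_tsum_enorm (f := fun i => F i (toC φ + f))
    _ ≤ _ := ENNReal.tsum_le_tsum fun i => nnnorm_le_fnSize_mul p g V X (F i) φ f hf

theorem w_U_nonneg (g : Grid G) (δ : ℝ) (hδ : 0 ≤ δ) (X : Finset g.I) (φ : G.V → ℝ) : 0 ≤ U g δ X φ := by
  unfold U gE PE TE
  have h1 : 0 ≤ (1 / 2 : ℝ) * ∑ v ∈ g.Dm X, ∑ e : Fin 4, dif (dir e) (G.lift φ) (G.ι v) ^ 2 :=
    mul_nonneg (by norm_num) (Finset.sum_nonneg fun _ _ => Finset.sum_nonneg fun _ _ => sq_nonneg _)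
  have h2 : 0 ≤ (g.m : ℝ) * ∑ v ∈ g.Dm X, ∑ e : Fin 4,
      (if G.π (G.ι v + dir e) ∈ g.Dm X then 0 else dif (dir e) (G.lift φ) (G.ι v) ^ 2) :=
    mul_nonneg (Nat.cast_nonneg _) (Finset.sum_nonneg fun _ _ => Finset.sum_nonneg fun _ _ => by
      split_ifs
      · exact le_rfl
      · exact sq_nonneg _)
  have h3 : 0 ≤ ∑ b ∈ g.collar X, (g.m : ℝ) ^ 4 * (((g.sites {b}).sup fun v => nab 2 (G.lift φ) (G.ι v) : ℝ≥0) : ℝ) ^ 2 :=
    Finset.sum_nonneg fun _ _ => by positivity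
  have := mul_nonneg hδ h2
  linarith

theorem w_one_le_Wt (g : Grid G) (δ κ : ℝ) (hδ : 0 ≤ δ) (hκ : 0 ≤ κ) (V : Extra g) (X : Finset g.I) (φ : G.V → ℝ) :
    1 ≤ Wt g δ κ V X φ := by
  unfold Wt
  apply Real.one_le_exp
  have := mul_nonneg hκ (w_U_nonneg g δ hδ X φ)
  have := V.nonneg X φ
  linarith

/-- bounded functions -/
theorem w_fnSize_le_of_bound (p : Par) (hδ : 0 ≤ p.δ) (hκ : 0 ≤ p.κ) (g : Grid G) (V : Extra g) (X : Finset g.I) (F : Fn G) (M : ℝ≥0∞)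
    (h : ∀ z ∈ strip p.h0 g X, (‖F z‖₊ : ℝ≥0∞) ≤ M) : fnSize p g V X F ≤ M := by
  rw [fnSize_le_iff]; intro φ f hf
  calc (‖F (toC φ + f)‖₊ : ℝ≥0∞) ≤ M := h _ (toC_add_mem_strip φ hf)
    _ = M * 1 := (mul_one _).symm
    _ ≤ _ := mul_le_mul' le_rfl (by
        rw [← ENNReal.ofReal_one]; exact ENNReal.ofReal_le_ofReal (w_one_le_Wt g p.δ p.κ hδ hκ V X φ))

/-- a smaller regulator exponent gives a larger size -/
theorem w_fnSize_kappa_mono (δ κ κ' : ℝ) (h0 : ℝ≥0) (A A' ω ω' : ℝ) (hδ : 0 ≤ δ) (hκ : κ' ≤ κ) (g : Grid G) (V : Extra g) (X : Finset g.I) (F : Fn G) :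
    fnSize ⟨δ, κ, h0, A, ω⟩ g V X F ≤ fnSize ⟨δ, κ', h0, A', ω'⟩ g V X F := by
  rw [fnSize_le_iff]; intro φ f hf
  refine (nnnorm_le_fnSize_mul ⟨δ, κ', h0, A', ω'⟩ g V X F φ f hf).trans (mul_le_mul' le_rfl (ENNReal.ofReal_le_ofReal ?_))
  unfold Wt
  apply Real.exp_le_exp.2
  have := mul_le_mul_of_nonneg_right hκ (w_U_nonneg g δ hδ X φ)
  simpa using this

/-! ## `actNorm`, `size3` -/

theorem w_le_actNorm (p : Par) (g : Grid G) (V : Extra g) (K : Act g) (X : Finset g.I) :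
    ENNReal.ofReal (p.A ^ X.card) * fnSize p g V X (K X) ≤ actNorm p g V K :=
  le_iSup (fun X : Finset g.I => ENNReal.ofReal (p.A ^ X.card) * fnSize p g V X (K X)) X

theorem w_actNorm_le_iff (p : Par) (g : Grid G) (V : Extra g) (K : Act g) (c : ℝ≥0∞) :
    actNorm p g V K ≤ c ↔ ∀ X, ENNReal.ofReal (p.A ^ X.card) * fnSize p g V X (K X) ≤ c := iSup_le_iff

theorem w_fnSize_le_actNorm (p : Par) (hA : 1 ≤ p.A) (g : Grid G) (V : Extra g) (K : Act g) (X : Finset g.I) :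
    fnSize p g V X (K X) ≤ actNorm p g V K := by
  refine le_trans ?_ (w_le_actNorm p g V K X)
  calc fnSize p g V X (K X) = 1 * fnSize p g V X (K X) := (one_mul _).symm
    _ ≤ _ := mul_le_mul' (by rw [← ENNReal.ofReal_one]; exact ENNReal.ofReal_le_ofReal (one_le_pow₀ hA)) le_rfl

theorem w_actNorm_congr (p : Par) (g : Grid G) (V : Extra g) {K K' : Act g} (h : EqOn p.h0 K K') :
    actNorm p g V K = actNorm p g V K' := by
  unfold actNorm
  exact iSup_congr fun X => by rw [w_fnSize_congr p g V X (h X)]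

theorem w_actNorm_zero (p : Par) (g : Grid G) (V : Extra g) : actNorm p g V 0 = 0 := by
  apply le_antisymm _ zero_le
  rw [w_actNorm_le_iff]; intro X
  rw [Pi.zero_apply, w_fnSize_zero, mul_zero]

theorem w_actNorm_add_le (p : Par) (g : Grid G) (V : Extra g) (K K' : Act g) :
    actNorm p g V (K + K') ≤ actNorm p g V K + actNorm p g V K' := by
  rw [w_actNorm_le_iff]; intro X
  calc ENNReal.ofReal (p.A ^ X.card) * fnSize p g V X ((K + K') X)
      ≤ ENNReal.ofReal (p.A ^ X.card) * (fnSize p g V X (K X) + fnSize p g V X (K' X)) :=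
        mul_le_mul' le_rfl (w_fnSize_add_le p g V X _ _)
    _ = _ := mul_add _ _ _
    _ ≤ _ := add_le_add (w_le_actNorm p g V K X) (w_le_actNorm p g V K' X)

theorem w_actNorm_neg (p : Par) (g : Grid G) (V : Extra g) (K : Act g) : actNorm p g V (-K) = actNorm p g V K := by
  unfold actNorm
  exact iSup_congr fun X => by rw [Pi.neg_apply, w_fnSize_neg]

theorem w_actNorm_sub_le (p : Par) (g : Grid G) (V : Extra g) (K K' : Act g) :
    actNorm p g V (K - K') ≤ actNorm p g V K + actNorm p g V K' := by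
  rw [sub_eq_add_neg]
  exact (w_actNorm_add_le p g V _ _).trans (by rw [w_actNorm_neg])

theorem w_actNorm_smul_le (p : Par) (g : Grid G) (V : Extra g) (a : ℂ) (K : Act g) :
    actNorm p g V (a • K) ≤ ‖a‖₊ * actNorm p g V K := by
  rw [w_actNorm_le_iff]; intro X
  calc ENNReal.ofReal (p.A ^ X.card) * fnSize p g V X ((a • K) X)
      ≤ ENNReal.ofReal (p.A ^ X.card) * (‖a‖₊ * fnSize p g V X (K X)) := mul_le_mul' le_rfl (w_fnSize_smul_le p g V X a _)
    _ = ‖a‖₊ * (ENNReal.ofReal (p.A ^ X.card) * fnSize p g V X (K X)) := by ring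
    _ ≤ _ := mul_le_mul' le_rfl (w_le_actNorm p g V K X)

theorem w_actNorm_le_size3 (p : Par) (g : Grid G) (V : Extra g) (x : ℂ × ℂ × Act g) : actNorm p g V x.2.2 ≤ size3 p g V x :=
  le_add_self

theorem w_t_le_size3 (p : Par) (g : Grid G) (V : Extra g) (x : ℂ × ℂ × Act g) : (‖x.1‖₊ : ℝ≥0∞) ≤ size3 p g V x :=
  le_add_right le_self_add

theorem w_z_le_size3 (p : Par) (g : Grid G) (V : Extra g) (x : ℂ × ℂ × Act g) : (‖x.2.1‖₊ : ℝ≥0∞) ≤ size3 p g V x :=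
  le_add_right le_add_self

theorem w_size3_add_le (p : Par) (g : Grid G) (V : Extra g) (x y : ℂ × ℂ × Act g) :
    size3 p g V (x + y) ≤ size3 p g V x + size3 p g V y := by
  unfold size3
  have h1 : (‖(x + y).1‖₊ : ℝ≥0∞) ≤ ‖x.1‖₊ + ‖y.1‖₊ := by exact_mod_cast nnnorm_add_le x.1 y.1
  have h2 : (‖(x + y).2.1‖₊ : ℝ≥0∞) ≤ ‖x.2.1‖₊ + ‖y.2.1‖₊ := by exact_mod_cast nnnorm_add_le x.2.1 y.2.1
  have h3 := w_actNorm_add_le p g V x.2.2 y.2.2
  calc _ ≤ ((‖x.1‖₊ : ℝ≥0∞) + ‖y.1‖₊) + ((‖x.2.1‖₊ : ℝ≥0∞) + ‖y.2.1‖₊) + (actNorm p g V x.2.2 + actNorm p g V y.2.2) :=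
        add_le_add (add_le_add h1 h2) h3
    _ = _ := by ring

theorem w_size3_smul_le (p : Par) (g : Grid G) (V : Extra g) (a : ℂ) (x : ℂ × ℂ × Act g) :
    size3 p g V (a • x) ≤ ‖a‖₊ * size3 p g V x := by
  unfold size3
  have h1 : (‖(a • x).1‖₊ : ℝ≥0∞) = ‖a‖₊ * ‖x.1‖₊ := by
    rw [Prod.smul_fst, smul_eq_mul, nnnorm_mul, ENNReal.coe_mul]
  have h2 : (‖(a • x).2.1‖₊ : ℝ≥0∞) = ‖a‖₊ * ‖x.2.1‖₊ := by
    rw [Prod.smul_snd, Prod.smul_fst, smul_eq_mul, nnnorm_mul, ENNReal.coe_mul]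
  have h3 := w_actNorm_smul_le p g V a x.2.2
  rw [h1, h2, mul_add, mul_add]
  exact add_le_add le_rfl h3

/-! ## strips -/

/-- a coarse strip is contained in the fine strips of the polymers below it -/
theorem w_strip_coarse {D0 ℓ : ℕ} (P : Pair G D0 ℓ) (h0 : ℝ≥0) {X : Finset P.g.I} {Y : Finset P.g'.I} (h : P.N.cl X ⊆ Y) {z : G.V → ℂ}
    (hz : z ∈ strip h0 P.g' Y) : z ∈ strip h0 P.g X :=
  lt_of_le_of_lt (Hol.tnorm_coarse P X Y h _) hz

theorem w_strip_mono (h0 : ℝ≥0) (g : Grid G) {X Y : Finset g.I} (h : X ⊆ Y) {z : G.V → ℂ} (hz : z ∈ strip h0 g Y) : z ∈ strip h0 g X :=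
  lt_of_le_of_lt (Hol.tnorm_mono g X Y h _) hz

theorem w_zero_mem_strip {h0 : ℝ≥0} (hh : 0 < h0) (g : Grid G) (X : Finset g.I) : (0 : G.V → ℂ) ∈ strip h0 g X := by
  show tnorm g X (fun v => ((0 : G.V → ℂ) v).im) < h0
  have : (fun v => ((0 : G.V → ℂ) v).im) = (0 : G.V → ℝ) := by ext v; simp
  rw [this, Hol.tnorm_zero]; exact hh

end

end Claimed.Agent.R285.B8
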