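import Claimed.Agent.R285.Map.WGain

/-!
# ROW 285, unit MAP, weak step: THE HIGH-FREQUENCY GAIN (`a'` large after `L`, no cosine coordinate)                    (owner helper90)

`wg_high`: neutral component `C_n L⁻³` (`wg_neutral`, L4.5) + all charges `q ≠ 0` together `C_c L⁻⁴` (`B4.charged_contraction`, L4.6: choices `h₀`, then `L`, then `α₀`).  NO LEAF IN THIS FILE.
-/

set_option autoImplicit false

namespace Claimed.Agent.R285.B8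

open scoped BigOperators ENNReal NNReal
open MeasureTheory
open Claimed.Agent.R285.RG Claimed.Agent.R285.Hol

noncomputable section

variable {G : Geom} {D0 ℓ : ℕ} {c : Geo} {p : Par} {gs : Grid G} {S : Step G D0 ℓ}

/-- splitting off the neutral term of a sum over the charges -/
theorem wg_split0 (f : ℤ → ℝ≥0∞) : ∑' q, f q = f 0 + ∑' q : {q : ℤ // q ≠ 0}, f q := by
  rw [ENNReal.tsum_eq_add_tsum_ite 0]
  congr 1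
  have e : ∑' q : {q : ℤ // q ≠ 0}, f q = ∑' q : ℤ, ({q : ℤ | q ≠ 0} : Set ℤ).indicator f q := tsum_subtype {q : ℤ | q ≠ 0} f
  rw [e]
  refine tsum_congr fun q => ?_
  by_cases hq : q = 0
  · simp [hq]
  · simp [hq]

/-- **THE HIGH-FREQUENCY GAIN** -/
theorem wg_high (c : Geo) (hc : c.Ok) (δ κ : ℝ) (hδ : 0 < δ) (hκ : 0 < κ) : ∃ h0 : ℝ≥0, 0 < h0 ∧ ∀ η : ℝ≥0, 0 < η → ∃ (ℓ0 D1 : ℕ), ∀ ℓ ≥ ℓ0, ∃ α0 : ℝ, ∀ D0 ≥ D1,
    ∀ (A ω : ℝ) (G : Geom) (gs : Grid G) (S : Step G D0 ℓ), α0 ≤ Step.alpha ω → Ctx c ⟨δ, κ, h0, A, ω⟩ gs S →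
      SmallGain c ⟨δ, κ, h0, A, ω⟩ gs S false (η / (2 ^ ℓ) ^ 2) := by
  obtain ⟨h0, hh, Cc, ℓc, Dc, Hc⟩ := B4.charged_contraction c.Ck c.ck hc.ck_pos c.ρ c.R c.n0 c.cst δ κ hδ hκ
  refine ⟨h0, hh, fun η hη => ?_⟩
  obtain ⟨Cn, ℓn, Dn, Hn⟩ := wg_neutral c δ κ h0 hδ hκ hh
  obtain ⟨ℓ1, H1⟩ := wg_pow (((Cn : ℝ) + Cc) / η)
  refine ⟨max (max ℓn ℓc) ℓ1, max Dn Dc, fun ℓ hℓ => ?_⟩
  have hℓn : ℓn ≤ ℓ := ((le_max_left _ _).trans (le_max_left _ _)).trans hℓ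
  have hℓc : ℓc ≤ ℓ := ((le_max_right _ _).trans (le_max_left _ _)).trans hℓ
  have hℓ1 : ℓ1 ≤ ℓ := (le_max_right _ _).trans hℓ
  obtain ⟨α0, Hc⟩ := Hc ℓ hℓc
  refine ⟨α0, fun D0 hD A ω G gs S hα h Rm hR hfin X hX => ?_⟩
  have hDn : Dn ≤ D0 := (le_max_left _ _).trans hD
  have hDc : Dc ≤ D0 := (le_max_right _ _).trans hD
  set u : ℝ≥0∞ := fnSize ⟨δ, κ, h0, A, ω⟩ S.P.g S.Vf X (Rm X) with hu
  set t : ℝ := ((2 : ℝ) ^ ℓ)⁻¹ with ht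
  have hL0 : (0 : ℝ) < 2 ^ ℓ := by positivity
  have ht0 : 0 < t := inv_pos.2 hL0
  have ht1 : t ≤ 1 := inv_le_one_of_one_le₀ (one_le_pow₀ one_le_two)
  have hMt : ((Cn : ℝ) + Cc) * t ≤ η := by
    have h2 := H1 ℓ hℓ1
    have hη' : (0 : ℝ) < η := by exact_mod_cast hη
    rw [div_le_iff₀ hη'] at h2
    rw [ht, ← div_eq_mul_inv, div_le_iff₀ hL0]
    linarith
  refine (wg_tsum h false hR hfin hX).trans ?_
  rw [wg_split0]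
  have hn := Hn ℓ hℓn D0 hDn A ω G gs S false h Rm hR X hX
  have hch := Hc A ω c.col h.hω hα D0 hDc G S.P S.Γ S.Vf S.Vc h.ok.shell h.ok.reg X (Rm X) u (wg_input h hR hX)
  have e : ∀ q : {q : ℤ // q ≠ 0}, Tq S ω false Rm X q = conv S.Γ (chargeProj ω q (Rm X)) := fun q => by
    unfold Tq
    rw [if_neg q.2, if_neg (fun hh => by simp at hh)]
    rfl
  have hch' : ∑' q : {q : ℤ // q ≠ 0}, fnSize ⟨δ, κ, h0, A, ω⟩ S.P.g' S.Vc (S.P.N.cl X) (Tq S ω false Rm X q)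
      ≤ Cc * u * (2 ^ ℓ : ℝ≥0∞)⁻¹ ^ 4 := by
    refine le_trans (le_of_eq (tsum_congr fun q => ?_)) hch
    rw [e q]
  refine (add_le_add hn hch').trans ?_
  have hA : (Cn : ℝ≥0∞) * u * (2 ^ ℓ : ℝ≥0∞)⁻¹ ^ 3 = ENNReal.ofReal (Cn * t ^ 3) * u := by
    rw [wg_inv_pow, ENNReal.ofReal_mul (NNReal.coe_nonneg Cn), ENNReal.ofReal_coe_nnreal]; ring
  have hB : (Cc : ℝ≥0∞) * u * (2 ^ ℓ : ℝ≥0∞)⁻¹ ^ 4 = ENNReal.ofReal (Cc * t ^ 4) * u := by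
    rw [wg_inv_pow, ENNReal.ofReal_mul (NNReal.coe_nonneg Cc), ENNReal.ofReal_coe_nnreal]; ring
  rw [hA, hB, ← add_mul, ← ENNReal.ofReal_add (mul_nonneg (NNReal.coe_nonneg Cn) (by positivity)) (mul_nonneg (NNReal.coe_nonneg Cc) (by positivity))]
  refine mul_le_mul' ?_ le_rfl
  have hrhs : ((η / (2 ^ ℓ) ^ 2 : ℝ≥0) : ℝ≥0∞) = ENNReal.ofReal (η * t ^ 2) := by
    rw [← ENNReal.ofReal_coe_nnreal]
    congr 1
    rw [ht]; push_cast; field_simp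
  rw [hrhs]
  apply ENNReal.ofReal_le_ofReal
  have q4 : t ^ 4 ≤ t ^ 3 := by
    calc t ^ 4 = t ^ 3 * t := by ring
      _ ≤ t ^ 3 * 1 := mul_le_mul_of_nonneg_left ht1 (by positivity)
      _ = t ^ 3 := mul_one _
  have q5 : (Cc : ℝ) * t ^ 4 ≤ Cc * t ^ 3 := mul_le_mul_of_nonneg_left q4 (NNReal.coe_nonneg Cc)
  have q6 : t ^ 2 * (((Cn : ℝ) + Cc) * t) ≤ t ^ 2 * η := mul_le_mul_of_nonneg_left hMt (by positivity)
  calc (Cn : ℝ) * t ^ 3 + Cc * t ^ 4 ≤ Cn * t ^ 3 + Cc * t ^ 3 := by linarith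
    _ = t ^ 2 * (((Cn : ℝ) + Cc) * t) := by ring
    _ ≤ t ^ 2 * η := q6
    _ = η * t ^ 2 := by ring

end

end Claimed.Agent.R285.B8
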