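import Claimed.Agent.R285.Map.Weak
import Claimed.Agent.R285.Map.WHigh

/-!
# ROW 285, unit MAP: PROPOSITION 8.3, high-frequency variant (`weak_step_high`): THE ASSEMBLY                      (owner helper90)

`weak_core` (helper202, `αmax := 0`, `cosOn = false`) + `wg_high` (`Map/WHigh.lean`).  NO LEAF IN THIS FILE.  `Read/B8.lean` links `weak_step_high := wk_step_high`.
-/

set_option autoImplicit false

namespace Claimed.Agent.R285.B8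

open scoped BigOperators ENNReal NNReal
open MeasureTheory
open Claimed.Agent.R285.RG Claimed.Agent.R285.Hol

noncomputable section

/-- **Proposition 8.3, high frequency** (`a'` large AFTER `L`), no cosine coordinate -/
theorem wk_step_high (c : Geo) (hc : c.Ok) (δ κ : ℝ) (hδ : 0 < δ) (hκ : 0 < κ) : ∃ h0 : ℝ≥0, 0 < h0 ∧ ∀ θ : ℝ≥0, 0 < θ →
    ∃ (ℓ0 D1 : ℕ), ∀ ℓ ≥ ℓ0, ∃ (α0 A0 : ℝ), ∀ A ≥ A0, ∃ (C ε0 : ℝ≥0), 0 < ε0 ∧ ∀ D0 ≥ D1, ∀ (ω : ℝ) (G : Geom) (gs : Grid G) (S : Step G D0 ℓ),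
      0 < ω → α0 ≤ Step.alpha ω → StepOK c ⟨δ, κ, h0, A, ω⟩ gs S → WeakOK c ⟨δ, κ, h0, A, ω⟩ gs S false θ C ε0 := by
  obtain ⟨h0, hh, Hg⟩ := wg_high c hc δ κ hδ hκ
  refine ⟨h0, hh, fun θ hθ => ?_⟩
  obtain ⟨cpl, ℓa, Da, hcpl, Hw⟩ := weak_core c hc δ κ h0 hδ hκ hh 0 θ hθ
  obtain ⟨ℓb, Db, Hg⟩ := Hg (cpl * θ) (mul_pos hcpl hθ)
  refine ⟨max ℓa ℓb, max Da Db, fun ℓ hℓ => ?_⟩
  obtain ⟨A0, Hw⟩ := Hw ℓ ((le_max_left _ _).trans hℓ)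
  obtain ⟨α0, Hg⟩ := Hg ℓ ((le_max_right _ _).trans hℓ)
  refine ⟨α0, A0, fun A hA => ?_⟩
  obtain ⟨C, ε0, hε0, Hw⟩ := Hw A hA
  refine ⟨C, ε0, hε0, fun D0 hD ω G gs S hω hα hS => ?_⟩
  exact Hw D0 ((le_max_left _ _).trans hD) ω G gs S false hω (fun hf => by simp at hf) hS
    (fun h => Hg D0 ((le_max_right _ _).trans hD) A ω G gs S hα h)

end

end Claimed.Agent.R285.B8
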