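import Claimed.Agent.R285.Read.B8b
import Claimed.Agent.R285.Sp.Hol
import Claimed.Agent.R285.Hol.Sz
import Claimed.Agent.R285.Map.Sym

/-!
# ROW 285, post BP-MAP-PACK, file A: abstract lemmas, calculus of activities, dictionary of the spaces `Cfg.Pl`, `Cfg.To`      (architect helper114)

PLAN OF THE WHOLE PACKAGE: header of `R285/Map/PackC.lean`.  Everything in this file is PAPER-FREE.

* s.0 ABSTRACT (Mathlib + `Sp/Hol.lean`): `pk_gateaux` (Graves-Taylor-Hille-Zorn), `pk_triangular` (the linear part of a map with triangular bounds IS its derivative at `0`), `pk_conj_diff`.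
* s.1 ACTIVITIES: `Nrm` (normalised = zero outside the strips; for normalised activities `EqOn` is `=`), `EqOn`, `actNorm` through the weighted evaluations `ev`,
  and the three operations `cutW`, `halfShift`, `conjAct`: each of them preserves `EqOn`, `Nrm`, the class `Adm = Act.Cls`, `Copy`, and does not increase `actNorm`.
* s.2 DICTIONARY: `plAct`, `plMk`, `toAct`, `toMk` (what a point of `Cfg.Pl`, `Cfg.To` is; how to build one; extensionality; norms; linearity).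

LEAVES (subtasks `L-PK-A*`), one per block `/-! ### LEAF .. -/`.
-/

set_option autoImplicit false

namespace Claimed.Agent.R285.Pack

open scoped BigOperators ENNReal NNReal
open Claimed.Agent.R285.RG Claimed.Agent.R285.B8

noncomputable section

/-! ## 0. Abstract lemmas -/

/-! ### LEAF A0-G -/

section
variable {E F : Type*} [NormedAddCommGroup E] [NormedSpace ℂ E] [NormedAddCommGroup F] [NormedSpace ℂ F]

/-- the Gateaux derivative -/
def pkGd (f : E → F) (y v : E) : F := deriv (fun s : ℂ => f (y + s • v)) 0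

theorem pk_A0G_hom (f : E → F) (y : E) (c : ℂ) (v : E) : pkGd f y (c • v) = c • pkGd f y v := by
  unfold pkGd
  have h := deriv_comp_mul_left c (fun s : ℂ => f (y + s • v)) 0
  rw [mul_zero] at h
  rw [← h]
  congr 1
  funext s
  rw [smul_smul, mul_comm]

/-- one-variable Taylor bound at radius 2. -/
theorem pk_A0G_K {U : Set E} {f : E → F}
    (hG : ∀ x ∈ U, ∀ v : E, DifferentiableOn ℂ (fun s : ℂ => f (x + s • v)) {s | x + s • v ∈ U})
    {x : E} {ε M : ℝ} (hin : ∀ y ∈ Metric.ball x (2 * ε), y ∈ U ∧ ‖f y‖ ≤ M) {y : E} (hy : y ∈ Metric.ball x ε)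
    {v : E} (hv : ‖v‖ ≤ ε / 2) :
    (∀ s : ℂ, ‖s‖ < 2 → ‖f (y + s • v) - f y - s • pkGd f y v‖ ≤ M * ‖s‖ ^ 2) ∧ ‖pkGd f y v‖ ≤ M := by
  have hε : 0 < ε := Metric.nonempty_ball.mp ⟨_, hy⟩
  have hmem : ∀ s ∈ Metric.ball (0 : ℂ) 2, y + s • v ∈ Metric.ball x (2 * ε) := by
    intro s hs
    rw [mem_ball_zero_iff] at hs
    rw [Metric.mem_ball, dist_eq_norm] at hy ⊢
    have h1 : ‖s • v‖ ≤ ε := by
      rw [norm_smul]
      calc ‖s‖ * ‖v‖ ≤ 2 * (ε / 2) := mul_le_mul hs.le hv (norm_nonneg _) (by norm_num)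
        _ = ε := by ring
    calc ‖y + s • v - x‖ = ‖(y - x) + s • v‖ := by congr 1; abel
      _ ≤ ‖y - x‖ + ‖s • v‖ := norm_add_le _ _
      _ < 2 * ε := by linarith
  have hyU : y ∈ U := (hin y (Metric.ball_subset_ball (by linarith) hy)).1
  have hd : DifferentiableOn ℂ (fun s : ℂ => f (y + s • v)) (Metric.ball 0 2) :=
    (hG y hyU v).mono fun s hs => (hin _ (hmem s hs)).1
  have hb : ∀ s ∈ Metric.ball (0 : ℂ) 2, ‖(fun s : ℂ => f (y + s • v)) s‖ ≤ M := fun s hs => (hin _ (hmem s hs)).2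
  constructor
  · intro s hs
    have h := sp_taylor_le hd hb (z := s) (by rwa [mem_ball_zero_iff])
    rw [sub_zero, fderiv_eq_smul_deriv] at h
    simp only [zero_smul, add_zero] at h
    refine h.trans (le_of_eq ?_)
    ring
  · have h := sp_norm_fderiv_le (by norm_num) hd hb
    unfold pkGd
    rw [norm_deriv_eq_norm_fderiv]
    refine h.trans (le_of_eq ?_)
    ring

/-- additivity for small vectors. -/
theorem pk_A0G_add_small {U : Set E} {f : E → F}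
    (hG : ∀ x ∈ U, ∀ v : E, DifferentiableOn ℂ (fun s : ℂ => f (x + s • v)) {s | x + s • v ∈ U})
    {x : E} {ε M : ℝ} (hε : 0 < ε) (hM0 : 0 ≤ M) (hin : ∀ y ∈ Metric.ball x (2 * ε), y ∈ U ∧ ‖f y‖ ≤ M)
    {h k : E} (hh : ‖h‖ ≤ ε / 4) (hk : ‖k‖ ≤ ε / 4) :
    pkGd f x (h + k) = pkGd f x h + pkGd f x k := by
  have hx : x ∈ Metric.ball x ε := Metric.mem_ball_self hε
  have key : ∀ t : ℝ, 0 < t → t ≤ 1 → ‖pkGd f x (h + k) - pkGd f x h - pkGd f x k‖ ≤ 9 * M * t := by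
    intro t ht0 ht1
    have ht2 : t ^ 2 ≤ 1 := pow_le_one₀ ht0.le ht1
    have hs0 : 0 < t ^ 2 := by positivity
    set s : ℂ := ((t ^ 2 : ℝ) : ℂ) with hs
    set τ : ℂ := (t : ℂ) with hτ
    have ns : ‖s‖ = t ^ 2 := by rw [hs, Complex.norm_real, Real.norm_of_nonneg hs0.le]
    have nτ : ‖τ‖ = t := by rw [hτ, Complex.norm_real, Real.norm_of_nonneg ht0.le]
    have hs2 : ‖s‖ < 2 := by rw [ns]; linarith
    have hτ2 : ‖τ‖ < 2 := by rw [nτ]; linarith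
    have hy1 : x + s • h ∈ Metric.ball x ε := by
      rw [Metric.mem_ball, dist_eq_norm, add_sub_cancel_left, norm_smul, ns]
      calc t ^ 2 * ‖h‖ ≤ 1 * (ε / 4) := mul_le_mul ht2 hh (norm_nonneg _) (by norm_num)
        _ < ε := by linarith
    have hy2 : x + τ • k ∈ Metric.ball x ε := by
      rw [Metric.mem_ball, dist_eq_norm, add_sub_cancel_left, norm_smul, nτ]
      calc t * ‖k‖ ≤ 1 * (ε / 4) := mul_le_mul ht1 hk (norm_nonneg _) (by norm_num)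
        _ < ε := by linarith
    have hhk : ‖h + k‖ ≤ ε / 2 := (norm_add_le _ _).trans (by linarith)
    have hh' : ‖h‖ ≤ ε / 2 := by linarith
    have hk' : ‖k‖ ≤ ε / 2 := by linarith
    have K1 := (pk_A0G_K hG hin hx hhk).1 s hs2
    have K2 := (pk_A0G_K hG hin hy1 hk').1 s hs2
    have K3 := (pk_A0G_K hG hin hx hh').1 s hs2
    have K4 := (pk_A0G_K hG hin hy1 hk').1 τ hτ2
    have K5 := (pk_A0G_K hG hin hx hk').1 τ hτ2
    have K6 := (pk_A0G_K hG hin hy2 hh').1 s hs2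
    have B6 := (pk_A0G_K hG hin hy2 hh').2
    have B3 := (pk_A0G_K hG hin hx hh').2
    rw [ns] at K1 K2 K3 K6
    rw [nτ] at K4 K5
    set a := pkGd f x (h + k)
    set b := pkGd f x h
    set c := pkGd f x k
    set d := pkGd f (x + s • h) k
    set e := pkGd f (x + τ • k) h
    have i1 : x + s • (h + k) = x + s • h + s • k := by rw [smul_add, add_assoc]
    have i2 : x + s • h + τ • k = x + τ • k + s • h := by abel
    rw [i1] at K1
    rw [i2] at K4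
    -- first comparison
    have e1 : s • (a - d - b) = (f (x + s • h + s • k) - f (x + s • h) - s • d) + (f (x + s • h) - f x - s • b)
        - (f (x + s • h + s • k) - f x - s • a) := by
      simp only [smul_sub]; abel
    have n1 : t ^ 2 * ‖a - d - b‖ ≤ t ^ 2 * (3 * M * t ^ 2) := by
      rw [← ns, ← norm_smul, e1, ns]
      refine (norm_sub_le _ _).trans ?_
      refine (add_le_add (norm_add_le _ _) le_rfl).trans ?_
      nlinarith [K1, K2, K3]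
    have n1' : ‖a - d - b‖ ≤ 3 * M * t ^ 2 := le_of_mul_le_mul_left n1 hs0
    -- Lipschitz bounds
    have L6 : ‖f (x + τ • k + s • h) - f (x + τ • k)‖ ≤ M * (t ^ 2) ^ 2 + t ^ 2 * M := by
      have : f (x + τ • k + s • h) - f (x + τ • k) = (f (x + τ • k + s • h) - f (x + τ • k) - s • e) + s • e := by abel
      rw [this]
      refine (norm_add_le _ _).trans (add_le_add K6 ?_)
      rw [norm_smul, ns]
      exact mul_le_mul_of_nonneg_left B6 hs0.le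
    have L3 : ‖f (x + s • h) - f x‖ ≤ M * (t ^ 2) ^ 2 + t ^ 2 * M := by
      have : f (x + s • h) - f x = (f (x + s • h) - f x - s • b) + s • b := by abel
      rw [this]
      refine (norm_add_le _ _).trans (add_le_add K3 ?_)
      rw [norm_smul, ns]
      exact mul_le_mul_of_nonneg_left B3 hs0.le
    have e2 : τ • (d - c) = (f (x + τ • k) - f x - τ • c) - (f (x + τ • k + s • h) - f (x + s • h) - τ • d)
        + (f (x + τ • k + s • h) - f (x + τ • k)) - (f (x + s • h) - f x) := by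
      simp only [smul_sub]; abel
    have n2 : t * ‖d - c‖ ≤ t * (4 * M * t + 2 * M * t ^ 3) := by
      rw [← nτ, ← norm_smul, e2, nτ]
      refine (norm_sub_le _ _).trans ?_
      refine (add_le_add (norm_add_le _ _) le_rfl).trans ?_
      refine (add_le_add (add_le_add (norm_sub_le _ _) le_rfl) le_rfl).trans ?_
      nlinarith [K4, K5, L6, L3]
    have n2' : ‖d - c‖ ≤ 4 * M * t + 2 * M * t ^ 3 := le_of_mul_le_mul_left n2 ht0
    have e3 : a - b - c = (a - d - b) + (d - c) := by abel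
    rw [e3]
    refine (norm_add_le _ _).trans ?_
    have h3 : t ^ 3 ≤ t := by
      calc t ^ 3 = t ^ 2 * t := by ring
        _ ≤ 1 * t := mul_le_mul_of_nonneg_right ht2 ht0.le
        _ = t := one_mul t
    have h2 : t ^ 2 ≤ t := by
      calc t ^ 2 = t * t := by ring
        _ ≤ 1 * t := mul_le_mul_of_nonneg_right ht1 ht0.le
        _ = t := one_mul t
    nlinarith [mul_le_mul_of_nonneg_left h3 hM0, mul_le_mul_of_nonneg_left h2 hM0]
  by_contra hne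
  have hA : 0 < ‖pkGd f x (h + k) - pkGd f x h - pkGd f x k‖ := by
    rw [norm_pos_iff]
    intro h0
    apply hne
    rw [sub_sub, sub_eq_zero] at h0
    exact h0
  set A := ‖pkGd f x (h + k) - pkGd f x h - pkGd f x k‖
  have hpos : 0 < 9 * M + 1 := by linarith
  have ht0 : 0 < min 1 (A / (9 * M + 1)) := lt_min one_pos (div_pos hA hpos)
  have h1 := key _ ht0 (min_le_left _ _)
  have h2 : 9 * M * min 1 (A / (9 * M + 1)) ≤ 9 * M * (A / (9 * M + 1)) :=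
    mul_le_mul_of_nonneg_left (min_le_right _ _) (by linarith)
  have h3 : 9 * M * (A / (9 * M + 1)) < A := by
    rw [mul_div_assoc', div_lt_iff₀ hpos]
    nlinarith
  linarith

theorem pk_A0G_add {U : Set E} {f : E → F}
    (hG : ∀ x ∈ U, ∀ v : E, DifferentiableOn ℂ (fun s : ℂ => f (x + s • v)) {s | x + s • v ∈ U})
    {x : E} {ε M : ℝ} (hε : 0 < ε) (hM0 : 0 ≤ M) (hin : ∀ y ∈ Metric.ball x (2 * ε), y ∈ U ∧ ‖f y‖ ≤ M)
    (h k : E) : pkGd f x (h + k) = pkGd f x h + pkGd f x k := by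
  have hden : 0 < 4 * (‖h‖ + ‖k‖ + 1) := by positivity
  set c : ℝ := ε / (4 * (‖h‖ + ‖k‖ + 1)) with hc
  have hc0 : 0 < c := div_pos hε hden
  have hsm : ∀ v : E, ‖v‖ ≤ ‖h‖ + ‖k‖ → ‖((c : ℝ) : ℂ) • v‖ ≤ ε / 4 := by
    intro v hv
    rw [norm_smul, Complex.norm_real, Real.norm_of_nonneg hc0.le, hc, div_mul_eq_mul_div, div_le_iff₀ hden]
    nlinarith [norm_nonneg v]
  have h1 := pk_A0G_add_small hG hε hM0 hin (hsm h (by linarith [norm_nonneg k])) (hsm k (by linarith [norm_nonneg h]))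
  rw [← smul_add, pk_A0G_hom, pk_A0G_hom, pk_A0G_hom, ← smul_add] at h1
  exact smul_right_injective F (by exact_mod_cast hc0.ne' : ((c : ℝ) : ℂ) ≠ 0) h1

theorem pk_A0G_bound {U : Set E} {f : E → F}
    (hG : ∀ x ∈ U, ∀ v : E, DifferentiableOn ℂ (fun s : ℂ => f (x + s • v)) {s | x + s • v ∈ U})
    {x : E} {ε M : ℝ} (hε : 0 < ε) (hin : ∀ y ∈ Metric.ball x (2 * ε), y ∈ U ∧ ‖f y‖ ≤ M)
    (v : E) (hv : ‖v‖ < ε) :
    ‖pkGd f x v‖ ≤ 2 * M / ε * ‖v‖ ∧ ‖f (x + v) - f x - pkGd f x v‖ ≤ 4 * M / ε ^ 2 * ‖v‖ ^ 2 := by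
  have hx : x ∈ Metric.ball x ε := Metric.mem_ball_self hε
  rcases eq_or_ne v 0 with rfl | hv0
  · have h0 : pkGd f x 0 = 0 := by
      have := pk_A0G_hom f x 0 0
      rwa [zero_smul, zero_smul] at this
    simp [h0]
  · have hn : 0 < ‖v‖ := norm_pos_iff.2 hv0
    set c : ℝ := ε / (2 * ‖v‖) with hc
    have hc0 : 0 < c := by positivity
    set w : E := ((c : ℝ) : ℂ) • v with hw
    have hwn : ‖w‖ ≤ ε / 2 := by
      rw [hw, norm_smul, Complex.norm_real, Real.norm_of_nonneg hc0.le, hc]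
      apply le_of_eq
      field_simp
    set s : ℂ := ((c⁻¹ : ℝ) : ℂ) with hs
    have ns : ‖s‖ = 2 * ‖v‖ / ε := by
      rw [hs, Complex.norm_real, Real.norm_of_nonneg (inv_nonneg.2 hc0.le), hc, inv_div]
    have hsw : s • w = v := by
      rw [hw, hs, smul_smul, ← Complex.ofReal_mul, inv_mul_cancel₀ hc0.ne', Complex.ofReal_one, one_smul]
    have hs2 : ‖s‖ < 2 := by
      rw [ns, div_lt_iff₀ hε]
      linarith
    obtain ⟨K1, K2⟩ := pk_A0G_K hG hin hx hwn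
    have K1' := K1 s hs2
    rw [← pk_A0G_hom, hsw, ns] at K1'
    constructor
    · have : pkGd f x v = s • pkGd f x w := by rw [← pk_A0G_hom, hsw]
      rw [this, norm_smul, ns]
      calc 2 * ‖v‖ / ε * ‖pkGd f x w‖ ≤ 2 * ‖v‖ / ε * M := mul_le_mul_of_nonneg_left K2 (by positivity)
        _ = 2 * M / ε * ‖v‖ := by ring
    · refine K1'.trans (le_of_eq ?_)
      field_simp
      ring

theorem pk_A0G_main (U : Set E) (hU : IsOpen U) (f : E → F)
    (hG : ∀ x ∈ U, ∀ v : E, DifferentiableOn ℂ (fun s : ℂ => f (x + s • v)) {s | x + s • v ∈ U})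
    (hb : ∀ x ∈ U, ∃ ε > 0, ∃ M : ℝ, ∀ y ∈ Metric.ball x ε, ‖f y‖ ≤ M) : DifferentiableOn ℂ f U := by
  intro x hx
  obtain ⟨ε₁, hε₁, hball⟩ := Metric.isOpen_iff.1 hU x hx
  obtain ⟨ε₂, hε₂, M, hM⟩ := hb x hx
  set ε := min ε₁ ε₂ / 2 with hεdef
  have hε : 0 < ε := by positivity
  have hin : ∀ y ∈ Metric.ball x (2 * ε), y ∈ U ∧ ‖f y‖ ≤ M := by
    intro y hy
    have e : 2 * ε = min ε₁ ε₂ := by rw [hεdef]; ring
    rw [e] at hy
    exact ⟨hball (Metric.ball_subset_ball (min_le_left _ _) hy), hM y (Metric.ball_subset_ball (min_le_right _ _) hy)⟩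
  have hM0 : 0 ≤ M := (norm_nonneg _).trans (hM x (Metric.mem_ball_self hε₂))
  let Ll : E →ₗ[ℂ] F :=
    { toFun := pkGd f x
      map_add' := pk_A0G_add hG hε hM0 hin
      map_smul' := fun c v => pk_A0G_hom f x c v }
  have hbd : ∀ v : E, ‖Ll v‖ ≤ 2 * M / ε * ‖v‖ := by
    intro v
    rcases eq_or_ne v 0 with rfl | hv0
    · simp
    · have hn : 0 < ‖v‖ := norm_pos_iff.2 hv0
      set c : ℝ := ε / (2 * ‖v‖) with hc
      have hc0 : 0 < c := by positivity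
      have h1 : ‖((c : ℝ) : ℂ) • v‖ = ε / 2 := by
        rw [norm_smul, Complex.norm_real, Real.norm_of_nonneg hc0.le, hc]
        field_simp
      have h2 := (pk_A0G_bound hG hε hin (((c : ℝ) : ℂ) • v) (by rw [h1]; linarith)).1
      have h3 : pkGd f x (((c : ℝ) : ℂ) • v) = ((c : ℝ) : ℂ) • Ll v := pk_A0G_hom f x _ v
      rw [h3, norm_smul, norm_smul, Complex.norm_real, Real.norm_of_nonneg hc0.le] at h2
      have h4 : c * ‖Ll v‖ ≤ c * (2 * M / ε * ‖v‖) := by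
        refine h2.trans (le_of_eq ?_)
        ring
      exact le_of_mul_le_mul_left h4 hc0
  have hder : HasFDerivAt f (Ll.mkContinuous (2 * M / ε) hbd) x := by
    refine sp_hasFDerivAt_of_taylor (r := ε) (C := 4 * M / ε ^ 2) hε ?_
    intro z hz
    rw [Metric.mem_ball, dist_eq_norm] at hz
    have h := (pk_A0G_bound hG hε hin (z - x) hz).2
    rw [add_sub_cancel] at h
    exact h
  exact hder.differentiableAt.differentiableWithinAt

end

/-- **Graves-Taylor-Hille-Zorn**: holomorphic on complex lines + locally bounded ⟹ Fréchet holomorphic.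
PLAN.  Fix `x ∈ U`, `ε` with `ball x (2ε) ⊆ U`, `‖f‖ ≤ M` there.  For `y ∈ ball x ε` put `P y v := deriv (fun s => f (y + s • v)) 0`.  One-variable facts (apply `sp_taylor_le`, `sp_norm_fderiv_le` to
`s ↦ f (y + s • v)` on `ball 0 (ε/‖v‖)`): (1) `‖f (y + v) - f y - P y v‖ ≤ 4 M (‖v‖/ε)²` for `‖v‖ < ε`; (2) `‖P y v‖ ≤ 2 M ‖v‖ / ε`; (3) `P y (c • v) = c • P y v` (chain rule); hence (4) `‖f (y + v) - f y‖ ≤ 6 M ‖v‖/ε`.
ADDITIVITY of `P x`: for small `s, t ≠ 0`:  `f (x + s(h+k)) - f x = [f (x + sh + sk) - f (x + sh)] + [f (x + sh) - f x] = s P (x+sh) k + s P x h + O(|s|²)`, and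
`‖P (x+sh) k - P x k‖ ≤ |t|⁻¹ (‖f (x+sh+tk) - f (x+tk)‖ + ‖f (x+sh) - f x‖ + 8 M |t|² ‖k‖²/ε²) ≤ C (|s|/|t| + |t|)`; take `t = √|s|`, divide by `s`, let `s → 0`: `P x (h+k) = P x h + P x k`.
Then `P x` is a continuous linear map (`LinearMap.mkContinuous`, (2)) and (1) + `sp_hasFDerivAt_of_taylor` finish. -/
theorem pk_gateaux {E F : Type*} [NormedAddCommGroup E] [NormedSpace ℂ E] [NormedAddCommGroup F] [NormedSpace ℂ F]
    (U : Set E) (hU : IsOpen U) (f : E → F)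
    (hG : ∀ x ∈ U, ∀ v : E, DifferentiableOn ℂ (fun s : ℂ => f (x + s • v)) {s | x + s • v ∈ U})
    (hb : ∀ x ∈ U, ∃ ε > 0, ∃ M : ℝ, ∀ y ∈ Metric.ball x ε, ‖f y‖ ≤ M) : DifferentiableOn ℂ f U :=
  pk_A0G_main U hU f hG hb

/-! ### LEAF A0-T -/

section tri

variable {A A' : Type*} [NormedAddCommGroup A] [NormedSpace ℂ A] [NormedAddCommGroup A'] [NormedSpace ℂ A']

/-- the derivative at `0` in the direction of the remainder -/
def dR (Φ : ℂ × ℂ × A → ℂ × ℂ × A') : A →L[ℂ] ℂ × ℂ × A' :=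
  (fderiv ℂ Φ 0).comp ((ContinuousLinearMap.inr ℂ ℂ (ℂ × A)).comp (ContinuousLinearMap.inr ℂ ℂ A))

def dPt (Φ : ℂ × ℂ × A → ℂ × ℂ × A') : A →L[ℂ] ℂ := (ContinuousLinearMap.fst ℂ ℂ (ℂ × A')).comp (dR Φ)

def dPz (Φ : ℂ × ℂ × A → ℂ × ℂ × A') : A →L[ℂ] ℂ :=
  (ContinuousLinearMap.fst ℂ ℂ A').comp ((ContinuousLinearMap.snd ℂ ℂ (ℂ × A')).comp (dR Φ))

def dCc (Φ : ℂ × ℂ × A → ℂ × ℂ × A') : A →L[ℂ] A' :=
  (ContinuousLinearMap.snd ℂ ℂ A').comp ((ContinuousLinearMap.snd ℂ ℂ (ℂ × A')).comp (dR Φ))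

open Filter Topology in
/-- **the linear part of a holomorphic map with triangular bounds is its derivative at `0`.**
PLAN.  `Φ 0 = 0` (all three bounds at `X = 0`).  `D := fderiv ℂ Φ 0`; `D v = lim_{s → 0} s⁻¹ Φ (s v)` (`HasFDerivAt.hasLineDerivAt`, `tendsto_slope_zero`).  `h1`-`h3` at `X = (s, 0, 0)`, `(0, s, 0)`, `(0, 0, s R)` give
`D (1,0,0) = (1,0,0)`, `D (0,1,0) = (0,lam,0)`, `‖(D (0,0,R)).1‖, ‖(D (0,0,R)).2.1‖ ≤ C ‖R‖`, `‖(D (0,0,R)).2.2‖ ≤ θ ‖R‖` (`le_of_tendsto`).  So `D X` is the triangular expression.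
`‖Φ X‖ ≤ (1 + ‖lam‖ + C + θ + C r) r =: M` on the ball, and `sp_taylor_le` gives `‖Φ X - D X‖ ≤ 4 M (‖X‖/r)²`. -/
theorem pk_triangular (Φ : ℂ × ℂ × A → ℂ × ℂ × A') (r C θ : ℝ) (lam : ℂ) (hr : 0 < r) (hC : 0 ≤ C) (hθ : 0 ≤ θ)
    (hd : DifferentiableOn ℂ Φ (Metric.ball 0 r))
    (h1 : ∀ X ∈ Metric.ball (0 : ℂ × ℂ × A) r, ‖(Φ X).1 - X.1‖ ≤ C * ‖X.2.2‖)
    (h2 : ∀ X ∈ Metric.ball (0 : ℂ × ℂ × A) r, ‖(Φ X).2.1 - lam * X.2.1‖ ≤ C * ‖X.2.2‖)
    (h3 : ∀ X ∈ Metric.ball (0 : ℂ × ℂ × A) r, ‖(Φ X).2.2‖ ≤ θ * ‖X.2.2‖ + C * ‖X‖ ^ 2) :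
    ‖dPt Φ‖ ≤ C ∧ ‖dPz Φ‖ ≤ C ∧ ‖dCc Φ‖ ≤ θ ∧
      ∀ X ∈ Metric.ball (0 : ℂ × ℂ × A) r,
        ‖Φ X - (X.1 + dPt Φ X.2.2, lam * X.2.1 + dPz Φ X.2.2, dCc Φ X.2.2)‖ ≤ 4 * (1 + ‖lam‖ + C + θ + C * r) / r * ‖X‖ ^ 2 := by
  set D := fderiv ℂ Φ 0 with hDdef
  have h0mem : (0 : ℂ × ℂ × A) ∈ Metric.ball (0 : ℂ × ℂ × A) r := Metric.mem_ball_self hr
  have hD : HasFDerivAt Φ D 0 := (hd.differentiableAt (Metric.ball_mem_nhds 0 hr)).hasFDerivAt
  have hΦ0 : Φ 0 = 0 := by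
    have a1 := h1 0 h0mem
    have a2 := h2 0 h0mem
    have a3 := h3 0 h0mem
    simp only [Prod.fst_zero, Prod.snd_zero, norm_zero, mul_zero, sub_zero, ne_eq, OfNat.ofNat_ne_zero, not_false_eq_true,
      zero_pow, add_zero, norm_le_zero_iff] at a1 a2 a3
    exact Prod.ext a1 (Prod.ext a2 a3)
  have hlim : ∀ v, Tendsto (fun s : ℂ => s⁻¹ • Φ (s • v)) (𝓝[≠] 0) (𝓝 (D v)) := by
    intro v
    have e1 : HasDerivAt (fun s : ℂ => s • v) v 0 := by
      simpa using (hasDerivAt_id (0 : ℂ)).smul_const v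
    have e2 : HasDerivAt (Φ ∘ fun s : ℂ => s • v) (D v) 0 := by
      refine HasFDerivAt.comp_hasDerivAt 0 ?_ e1
      simpa using hD
    have e3 := e2.tendsto_slope_zero
    simpa [hΦ0] using e3
  have hev : ∀ v : ℂ × ℂ × A, ∀ᶠ s : ℂ in 𝓝[≠] 0, s • v ∈ Metric.ball (0 : ℂ × ℂ × A) r ∧ s ≠ 0 := by
    intro v
    have c1 : Tendsto (fun s : ℂ => s • v) (𝓝 0) (𝓝 0) := by
      have : Continuous fun s : ℂ => s • v := continuous_id.smul continuous_const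
      simpa using this.tendsto 0
    have c2 : ∀ᶠ s : ℂ in 𝓝[≠] 0, s • v ∈ Metric.ball (0 : ℂ × ℂ × A) r :=
      (c1.mono_left nhdsWithin_le_nhds).eventually (Metric.ball_mem_nhds 0 hr)
    filter_upwards [c2, self_mem_nhdsWithin] with s hs hs' using ⟨hs, hs'⟩
  -- the three bounds on the derivative
  have ba : ∀ v : ℂ × ℂ × A, ‖(D v).1 - v.1‖ ≤ C * ‖v.2.2‖ := by
    intro v
    have t1 : Tendsto (fun s : ℂ => ‖(s⁻¹ • Φ (s • v)).1 - v.1‖) (𝓝[≠] 0) (𝓝 ‖(D v).1 - v.1‖) :=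
      (((continuous_fst.tendsto _).comp (hlim v)).sub_const _).norm
    refine le_of_tendsto t1 ?_
    filter_upwards [hev v] with s hs
    have hs0 : 0 < ‖s‖ := norm_pos_iff.2 hs.2
    have e : (s⁻¹ • Φ (s • v)).1 - v.1 = s⁻¹ * ((Φ (s • v)).1 - (s • v).1) := by
      simp only [Prod.smul_fst, smul_eq_mul]
      field_simp [hs.2]
    rw [e, norm_mul, norm_inv]
    have := h1 _ hs.1
    simp only [Prod.smul_snd, norm_smul] at this
    calc ‖s‖⁻¹ * ‖(Φ (s • v)).1 - (s • v).1‖ ≤ ‖s‖⁻¹ * (C * (‖s‖ * ‖v.2.2‖)) :=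
          mul_le_mul_of_nonneg_left this (inv_nonneg.2 hs0.le)
      _ = C * ‖v.2.2‖ := by field_simp
  have bb : ∀ v : ℂ × ℂ × A, ‖(D v).2.1 - lam * v.2.1‖ ≤ C * ‖v.2.2‖ := by
    intro v
    have t1 : Tendsto (fun s : ℂ => ‖(s⁻¹ • Φ (s • v)).2.1 - lam * v.2.1‖) (𝓝[≠] 0) (𝓝 ‖(D v).2.1 - lam * v.2.1‖) :=
      ((((continuous_fst.comp continuous_snd).tendsto _).comp (hlim v)).sub_const _).norm
    refine le_of_tendsto t1 ?_
    filter_upwards [hev v] with s hs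
    have hs0 : 0 < ‖s‖ := norm_pos_iff.2 hs.2
    have e : (s⁻¹ • Φ (s • v)).2.1 - lam * v.2.1 = s⁻¹ * ((Φ (s • v)).2.1 - lam * (s • v).2.1) := by
      simp only [Prod.smul_fst, Prod.smul_snd, smul_eq_mul]
      field_simp [hs.2]
    rw [e, norm_mul, norm_inv]
    have := h2 _ hs.1
    simp only [Prod.smul_snd, norm_smul] at this
    calc ‖s‖⁻¹ * ‖(Φ (s • v)).2.1 - lam * (s • v).2.1‖ ≤ ‖s‖⁻¹ * (C * (‖s‖ * ‖v.2.2‖)) :=
          mul_le_mul_of_nonneg_left this (inv_nonneg.2 hs0.le)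
      _ = C * ‖v.2.2‖ := by field_simp
  have bc : ∀ v : ℂ × ℂ × A, ‖(D v).2.2‖ ≤ θ * ‖v.2.2‖ := by
    intro v
    have t1 : Tendsto (fun s : ℂ => ‖(s⁻¹ • Φ (s • v)).2.2‖) (𝓝[≠] 0) (𝓝 ‖(D v).2.2‖) :=
      (((continuous_snd.comp continuous_snd).tendsto _).comp (hlim v)).norm
    have t2 : Tendsto (fun s : ℂ => θ * ‖v.2.2‖ + C * ‖v‖ ^ 2 * ‖s‖) (𝓝[≠] 0) (𝓝 (θ * ‖v.2.2‖)) := by
      have : Tendsto (fun s : ℂ => θ * ‖v.2.2‖ + C * ‖v‖ ^ 2 * ‖s‖) (𝓝 0) (𝓝 (θ * ‖v.2.2‖ + C * ‖v‖ ^ 2 * ‖(0 : ℂ)‖)) :=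
        (Continuous.tendsto (by fun_prop) 0)
      simp only [norm_zero, mul_zero, add_zero] at this
      exact this.mono_left nhdsWithin_le_nhds
    refine le_of_tendsto_of_tendsto t1 t2 ?_
    filter_upwards [hev v] with s hs
    have hs0 : 0 < ‖s‖ := norm_pos_iff.2 hs.2
    have e : (s⁻¹ • Φ (s • v)).2.2 = s⁻¹ • (Φ (s • v)).2.2 := rfl
    rw [e, norm_smul, norm_inv]
    have := h3 _ hs.1
    simp only [Prod.smul_snd, norm_smul] at this
    calc ‖s‖⁻¹ * ‖(Φ (s • v)).2.2‖ ≤ ‖s‖⁻¹ * (θ * (‖s‖ * ‖v.2.2‖) + C * (‖s‖ * ‖v‖) ^ 2) :=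
          mul_le_mul_of_nonneg_left this (inv_nonneg.2 hs0.le)
      _ = θ * ‖v.2.2‖ + C * ‖v‖ ^ 2 * ‖s‖ := by field_simp
  have hdR : ∀ R : A, dR Φ R = D (0, 0, R) := fun R => rfl
  have n1 : ‖dPt Φ‖ ≤ C := by
    refine ContinuousLinearMap.opNorm_le_bound _ hC fun R => ?_
    have := ba (0, 0, R)
    simp only [sub_zero] at this
    exact this
  have n2 : ‖dPz Φ‖ ≤ C := by
    refine ContinuousLinearMap.opNorm_le_bound _ hC fun R => ?_
    have := bb (0, 0, R)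
    simp only [mul_zero, sub_zero] at this
    exact this
  have n3 : ‖dCc Φ‖ ≤ θ := by
    refine ContinuousLinearMap.opNorm_le_bound _ hθ fun R => ?_
    exact bc (0, 0, R)
  refine ⟨n1, n2, n3, ?_⟩
  intro X hX
  have hDX : D X = (X.1 + dPt Φ X.2.2, lam * X.2.1 + dPz Φ X.2.2, dCc Φ X.2.2) := by
    have hsplit : X = (X.1, X.2.1, 0) + (0, 0, X.2.2) := by
      ext <;> simp
    have a1 := ba (X.1, X.2.1, 0)
    have a2 := bb (X.1, X.2.1, 0)
    have a3 := bc (X.1, X.2.1, 0)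
    simp only [norm_zero, mul_zero, norm_le_zero_iff, sub_eq_zero] at a1 a2 a3
    have hfirst : D (X.1, X.2.1, 0) = (X.1, lam * X.2.1, 0) := Prod.ext a1 (Prod.ext a2 a3)
    conv_lhs => rw [hsplit]
    rw [map_add, hfirst]
    ext
    · rfl
    · rfl
    · show (0 : A') + _ = _
      rw [zero_add]; rfl
  set M := (1 + ‖lam‖ + C + θ + C * r) * r with hM
  have hbound : ∀ Z ∈ Metric.ball (0 : ℂ × ℂ × A) r, ‖Φ Z‖ ≤ M := by
    intro Z hZ
    have hZr : ‖Z‖ < r := by simpa using hZ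
    have z1 : ‖Z.1‖ ≤ ‖Z‖ := norm_fst_le Z
    have z2 : ‖Z.2.1‖ ≤ ‖Z‖ := (norm_fst_le Z.2).trans (norm_snd_le Z)
    have z3 : ‖Z.2.2‖ ≤ ‖Z‖ := (norm_snd_le Z.2).trans (norm_snd_le Z)
    have hl0 := norm_nonneg lam
    have b1 : ‖(Φ Z).1‖ ≤ M := by
      have : (Φ Z).1 = ((Φ Z).1 - Z.1) + Z.1 := by ring
      rw [this]
      refine (norm_add_le _ _).trans ?_
      have := h1 Z hZ
      rw [hM]
      nlinarith [mul_le_mul_of_nonneg_left z3 hC, mul_nonneg hC hr.le, mul_nonneg hl0 hr.le, mul_nonneg hθ hr.le,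
        mul_le_mul_of_nonneg_left hZr.le hC, mul_nonneg (mul_nonneg hC hr.le) hr.le]
    have b2 : ‖(Φ Z).2.1‖ ≤ M := by
      have : (Φ Z).2.1 = ((Φ Z).2.1 - lam * Z.2.1) + lam * Z.2.1 := by ring
      rw [this]
      refine (norm_add_le _ _).trans ?_
      have := h2 Z hZ
      rw [norm_mul, hM]
      nlinarith [mul_le_mul_of_nonneg_left z3 hC, mul_nonneg hC hr.le, mul_nonneg hl0 hr.le, mul_nonneg hθ hr.le,
        mul_le_mul_of_nonneg_left hZr.le hC, mul_nonneg (mul_nonneg hC hr.le) hr.le,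
        mul_le_mul_of_nonneg_left (z2.trans hZr.le) hl0]
    have b3 : ‖(Φ Z).2.2‖ ≤ M := by
      refine (h3 Z hZ).trans ?_
      have hsq : ‖Z‖ ^ 2 ≤ r * r := by nlinarith [norm_nonneg Z]
      rw [hM]
      nlinarith [mul_le_mul_of_nonneg_left (z3.trans hZr.le) hθ, mul_nonneg hC hr.le, mul_nonneg hl0 hr.le,
        mul_le_mul_of_nonneg_left hsq hC]
    rw [Prod.norm_def, Prod.norm_def]
    exact max_le b1 (max_le b2 b3)
  have hT := sp_taylor_le hd hbound hX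
  rw [hΦ0, sub_zero, sub_zero, ← hDdef, hDX] at hT
  refine hT.trans (le_of_eq ?_)
  rw [hM]
  field_simp

end tri

/-! ### LEAF A0-C -/

/-- `z ↦ conj (F (conj z))` is holomorphic on the conjugate domain (derivative `h ↦ conj (L (conj h))`, which is `ℂ`-linear) -/
theorem pk_conj_diff {ι : Type} [Fintype ι] (F : (ι → ℂ) → ℂ) (U : Set (ι → ℂ)) (hU : ∀ z ∈ U, (fun v => starRingEnd ℂ (z v)) ∈ U)
    (hF : DifferentiableOn ℂ F U) : DifferentiableOn ℂ (fun z => starRingEnd ℂ (F fun v => starRingEnd ℂ (z v))) U := by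
  intro z hz
  set cj : (ι → ℂ) → (ι → ℂ) := fun z v => starRingEnd ℂ (z v) with hcj
  have hnorm : ∀ w : ι → ℂ, ‖cj w‖ = ‖w‖ := by
    intro w
    simp only [hcj, Pi.norm_def]
    congr 1
    apply Finset.sup_congr rfl
    intro b _
    simp
  have hsub : ∀ a b : ι → ℂ, cj a - cj b = cj (a - b) := by
    intro a b
    funext v
    simp [hcj]
  have hcont : Continuous cj := by
    apply continuous_pi
    intro v
    exact Complex.continuous_conj.comp (continuous_apply v)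
  obtain ⟨L, hL⟩ := hF (cj z) (hU z hz)
  let Ll : (ι → ℂ) →ₗ[ℂ] ℂ :=
    { toFun := fun h => starRingEnd ℂ (L (cj h))
      map_add' := fun a b => by
        have : cj (a + b) = cj a + cj b := by funext v; simp [hcj]
        rw [this, map_add, map_add]
      map_smul' := fun c a => by
        have : cj (c • a) = starRingEnd ℂ c • cj a := by funext v; simp [hcj]
        rw [this, map_smul, smul_eq_mul, map_mul, Complex.conj_conj, RingHom.id_apply, smul_eq_mul] }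
  refine ⟨LinearMap.toContinuousLinearMap Ll, ?_⟩
  have h1 := hL.isLittleO
  have ht : Filter.Tendsto cj (nhdsWithin z U) (nhdsWithin (cj z) U) :=
    tendsto_nhdsWithin_of_tendsto_nhds_of_eventually_within _ (hcont.continuousAt.mono_left nhdsWithin_le_nhds)
      (by filter_upwards [self_mem_nhdsWithin] with w hw using hU w hw)
  have h2 := h1.comp_tendsto ht
  refine HasFDerivWithinAt.of_isLittleO ?_
  refine (h2.norm_norm.congr ?_ ?_).of_norm_norm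
  · intro w
    simp only [Function.comp]
    rw [← Complex.norm_conj]
    congr 1
    rw [map_sub, map_sub, hsub]
    rfl
  · intro w
    simp only [Function.comp]
    rw [hsub, hnorm]

/-! ## 1. Calculus of activities -/

section act

variable {G : Geom}

/-- an activity is NORMALISED if it vanishes outside the strips -/
def Nrm (h0 : ℝ≥0) {g : Grid G} (K : Act g) : Prop := ∀ X z, z ∉ strip h0 g X → K X z = 0

theorem pk_eq_of_eqOn {h0 : ℝ≥0} {g : Grid G} {K K' : Act g} (h : EqOn h0 K K') (hK : Nrm h0 K) (hK' : Nrm h0 K') : K = K' := by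
  funext X z
  by_cases hz : z ∈ strip h0 g X
  · exact h X z hz
  · rw [hK X z hz, hK' X z hz]

theorem pk_eqOn_refl (h0 : ℝ≥0) {g : Grid G} (K : Act g) : EqOn h0 K K := fun _ _ _ => rfl

theorem pk_eqOn_symm {h0 : ℝ≥0} {g : Grid G} {K K' : Act g} (h : EqOn h0 K K') : EqOn h0 K' K := fun X z hz => (h X z hz).symm

theorem pk_eqOn_trans {h0 : ℝ≥0} {g : Grid G} {K K' K'' : Act g} (h : EqOn h0 K K') (h' : EqOn h0 K' K'') : EqOn h0 K K'' :=
  fun X z hz => (h X z hz).trans (h' X z hz)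

/-! ### LEAF A1-S: strips; `EqOn`, `Nrm` and the three operations (all are a few lines) -/

theorem pk_strip_shift {h0 : ℝ≥0} {g : Grid G} {X : Finset g.I} (z : G.V → ℂ) (t : ℝ) :
    (fun v => z v + (t : ℂ)) ∈ strip h0 g X ↔ z ∈ strip h0 g X := by
  simp only [strip, Set.mem_ofPred_eq, Complex.add_im, Complex.ofReal_im, add_zero]

theorem pk_strip_conj {h0 : ℝ≥0} {g : Grid G} {X : Finset g.I} (z : G.V → ℂ) :
    (fun v => starRingEnd ℂ (z v)) ∈ strip h0 g X ↔ z ∈ strip h0 g X := by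
  simp only [strip, Set.mem_ofPred_eq, Complex.conj_im]
  rw [sp_tnorm_neg]

theorem pk_eqOn_cutW {h0 : ℝ≥0} {g : Grid G} {K K' : Act g} (c0 : ℕ) (h : EqOn h0 K K') : EqOn h0 (cutW c0 K) (cutW c0 K') := by
  intro X z hz
  unfold cutW
  split_ifs
  · exact h X z hz
  · rfl

theorem pk_eqOn_halfShift {h0 : ℝ≥0} {g : Grid G} {K K' : Act g} (ω : ℝ) (h : EqOn h0 K K') : EqOn h0 (halfShift ω K) (halfShift ω K') := by
  intro X z hz
  exact h X _ ((pk_strip_shift z _).2 hz)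

theorem pk_eqOn_conjAct {h0 : ℝ≥0} {g : Grid G} {K K' : Act g} (h : EqOn h0 K K') : EqOn h0 (conjAct K) (conjAct K') := by
  intro X z hz
  unfold conjAct
  rw [h X _ ((pk_strip_conj z).2 hz)]

theorem pk_nrm_cutW {h0 : ℝ≥0} {g : Grid G} {K : Act g} (c0 : ℕ) (h : Nrm h0 K) : Nrm h0 (cutW c0 K) := by
  intro X z hz
  unfold cutW
  split_ifs
  · exact h X z hz
  · rfl

theorem pk_nrm_halfShift {h0 : ℝ≥0} {g : Grid G} {K : Act g} (ω : ℝ) (h : Nrm h0 K) : Nrm h0 (halfShift ω K) := by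
  intro X z hz
  exact h X _ (fun h' => hz ((pk_strip_shift z _).1 h'))

theorem pk_nrm_conjAct {h0 : ℝ≥0} {g : Grid G} {K : Act g} (h : Nrm h0 K) : Nrm h0 (conjAct K) := by
  intro X z hz
  unfold conjAct
  rw [h X _ (fun h' => hz ((pk_strip_conj z).1 h')), map_zero]

theorem pk_cutW_halfShift {g : Grid G} (c0 : ℕ) (ω : ℝ) (K : Act g) : cutW c0 (halfShift ω K) = halfShift ω (cutW c0 K) := by
  funext X z
  by_cases hX : g.Unwr c0 X
  · simp only [cutW, halfShift, if_pos hX]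
  · simp only [cutW, halfShift, if_neg hX, Pi.zero_apply]

theorem pk_cutW_conjAct {g : Grid G} (c0 : ℕ) (K : Act g) : cutW c0 (conjAct K) = conjAct (cutW c0 K) := by
  funext X z
  by_cases hX : g.Unwr c0 X
  · simp only [cutW, conjAct, if_pos hX]
  · simp only [cutW, conjAct, if_neg hX, Pi.zero_apply, map_zero]

theorem pk_cutW_of_not {g : Grid G} (c0 : ℕ) (K : Act g) (X : Finset g.I) (hX : ¬ g.Unwr c0 X) : cutW c0 K X = 0 := by
  unfold cutW
  rw [if_neg hX]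

/-- an activity which vanishes on the wrapped polymers is not changed by `cutW` -/
theorem pk_cutW_eq_self {g : Grid G} (c0 : ℕ) (K : Act g) (h : ∀ X, ¬ g.Unwr c0 X → K X = 0) : cutW c0 K = K := by
  funext X
  unfold cutW
  split_ifs with hX
  · rfl
  · exact (h X hX).symm

theorem pk_conjAct_conjAct {g : Grid G} (K : Act g) : conjAct (conjAct K) = K := by
  funext X z
  simp [conjAct]

theorem pk_conjAct_add {g : Grid G} (K K' : Act g) : conjAct (K + K') = conjAct K + conjAct K' := by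
  funext X z
  simp [conjAct]

theorem pk_conjAct_smul {g : Grid G} (a : ℂ) (K : Act g) : conjAct (a • K) = starRingEnd ℂ a • conjAct K := by
  funext X z
  simp [conjAct]

theorem pk_halfShift_add {g : Grid G} (ω : ℝ) (K K' : Act g) : halfShift ω (K + K') = halfShift ω K + halfShift ω K' := rfl

theorem pk_halfShift_smul {g : Grid G} (ω : ℝ) (a : ℂ) (K : Act g) : halfShift ω (a • K) = a • halfShift ω K := rfl

/-- two half periods = one period -/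
theorem pk_halfShift_halfShift {p : Par} {col R : ℕ} {g : Grid G} {K : Act g} (hK : K.Ok p col R) :
    EqOn p.h0 (halfShift p.ω (halfShift p.ω K)) K := by
  intro X z hz
  have h1 := (hK.fn X).per z hz
  rw [← h1]
  unfold halfShift
  congr 1
  funext v
  push_cast
  ring

/-! ### LEAF A1-N: the norm through the weighted evaluations -/

variable (p : Par) (g : Grid G) (V : Extra g)

/-- (`→`: `sp_ev_le`;  `←`: the bounded family `ev K` is a point of `Amb`, `sp_actNorm_eq`, `lp.norm_le_of_forall_le`) -/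
theorem pk_actNorm_le_iff (hA : 0 < p.A) (K : Act g) (C : ℝ) (hC : 0 ≤ C) :
    actNorm p g V K ≤ ENNReal.ofReal C ↔ ∀ i : Idx g, ‖ev p g V K i‖ ≤ C := by
  constructor
  · intro h i
    have hfin : actNorm p g V K ≠ ⊤ := ne_top_of_le_ne_top ENNReal.ofReal_ne_top h
    exact (sp_ev_le p hA g V K hfin i).trans (ENNReal.toReal_le_of_le_ofReal hC h)
  · intro h
    have hmem : Memℓp (fun i => ev p g V K i) ∞ := memℓp_infty ⟨C, by
      rintro _ ⟨i, rfl⟩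
      exact h i⟩
    have e := sp_actNorm_eq p hA g V (⟨fun i => ev p g V K i, hmem⟩ : Amb (Idx g)) K (fun _ => rfl)
    rw [e]
    exact ENNReal.ofReal_le_ofReal (lp.norm_le_of_forall_le hC fun i => h i)

theorem pk_actNorm_congr {K K' : Act g} (h : EqOn p.h0 K K') : actNorm p g V K = actNorm p g V K' := by
  unfold actNorm fnSize ptNorm
  refine iSup_congr fun X => ?_
  congr 1
  refine iSup_congr fun φ => ?_
  congr 1
  refine iSup_congr fun f => ?_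
  rw [h X _ (sp_mem_strip_add f.2 φ)]

theorem pk_actNorm_add_le (hA : 0 < p.A) (K K' : Act g) : actNorm p g V (K + K') ≤ actNorm p g V K + actNorm p g V K' := by
  by_cases h1 : actNorm p g V K = ⊤
  · rw [h1, top_add]; exact le_top
  by_cases h2 : actNorm p g V K' = ⊤
  · rw [h2, add_top]; exact le_top
  rw [← ENNReal.ofReal_toReal h1, ← ENNReal.ofReal_toReal h2, ← ENNReal.ofReal_add ENNReal.toReal_nonneg ENNReal.toReal_nonneg]
  refine (pk_actNorm_le_iff p g V hA _ _ (add_nonneg ENNReal.toReal_nonneg ENNReal.toReal_nonneg)).2 fun i => ?_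
  rw [sp_ev_add]
  exact (norm_add_le _ _).trans (add_le_add (sp_ev_le p hA g V K h1 i) (sp_ev_le p hA g V K' h2 i))

theorem pk_actNorm_zero : actNorm p g V (0 : Act g) = 0 := by
  simp [actNorm, fnSize, ptNorm]

/-- pointwise bound in the strip -/
theorem pk_norm_le_of_actNorm (hA : 0 < p.A) {K : Act g} {C : ℝ} (hC : 0 ≤ C) (h : actNorm p g V K ≤ ENNReal.ofReal C)
    (X : Finset g.I) (z : G.V → ℂ) (hz : z ∈ strip p.h0 g X) :
    ‖K X z‖ ≤ C * Wt g p.δ p.κ V X (fun v => (z v).re) / p.A ^ X.card := by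
  have h1 := (pk_actNorm_le_iff p g V hA K C hC).1 h (X, spRe z, spIm z)
  rw [sp_ev_pos p g V K X _ _ (sp_mem_strip_iff.1 hz), sp_decomp, norm_mul, Complex.norm_real,
    Real.norm_of_nonneg (sp_W_pos p hA g V X _).le] at h1
  have hW := sp_Wt_pos p g V X (spRe z)
  have hAp : 0 < p.A ^ X.card := pow_pos hA _
  unfold spW at h1
  show ‖K X z‖ ≤ C * Wt g p.δ p.κ V X (spRe z) / p.A ^ X.card
  rw [le_div_iff₀ hAp]
  rw [div_mul_eq_mul_div, div_le_iff₀ hW] at h1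
  linarith

theorem pk_actNorm_cutW_le (c0 : ℕ) (K : Act g) : actNorm p g V (cutW c0 K) ≤ actNorm p g V K := by
  unfold actNorm
  refine iSup_mono fun X => mul_le_mul_right ?_ _
  by_cases hX : g.Unwr c0 X
  · simp only [cutW, if_pos hX, le_refl]
  · simp only [cutW, if_neg hX]
    simp [fnSize, ptNorm]

/-- the regulators are blind to constants -/
theorem pk_Wt_const (δ κ : ℝ) (X : Finset g.I) (φ : G.V → ℝ) (c : ℝ) : Wt g δ κ V X (fun v => φ v + c) = Wt g δ κ V X φ := by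
  have hl : G.lift (fun v => φ v + c) = fun y => G.lift φ y + (fun _ => c) y := rfl
  have hd : ∀ (e : Fin 4) (x : ℤ × ℤ), dif (dir e) (G.lift fun v => φ v + c) x = dif (dir e) (G.lift φ) x := by
    intro e x
    simp only [dif, Geom.lift]
    ring
  have hn : ∀ x : ℤ × ℤ, nab 2 (G.lift fun v => φ v + c) x = nab 2 (G.lift φ) x := by
    intro x
    unfold nab
    refine Finset.sup_congr rfl fun a _ => ?_
    rw [hl, Hol.difs_add, Hol.difs_const, add_zero]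
  unfold Wt U gE PE TE
  simp only [hd, hn, V.const]

/-- (`ev (halfShift ω K) (X, φ, f) = ev K (X, φ + ω/2, f)`) -/
theorem pk_actNorm_halfShift_le (ω : ℝ) (K : Act g) : actNorm p g V (halfShift ω K) ≤ actNorm p g V K := by
  unfold actNorm fnSize
  refine iSup_mono fun X => mul_le_mul_right (iSup_le fun φ => ?_) _
  refine le_iSup_of_le (fun v => φ v + ω / 2) ?_
  rw [pk_Wt_const]
  refine ENNReal.div_le_div_right (le_of_eq ?_) _
  unfold ptNorm halfShift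
  refine iSup_congr fun f => ?_
  congr 3
  funext v
  simp only [toC, Pi.add_apply]
  push_cast
  ring

/-- (`ev (conjAct K) (X, φ, f) = conj (ev K (X, φ, conj f))`, `sp_tnorm_map_eq`) -/
theorem pk_actNorm_conjAct_le (K : Act g) : actNorm p g V (conjAct K) ≤ actNorm p g V K := by
  unfold actNorm fnSize
  refine iSup_mono fun X => mul_le_mul_right (iSup_mono fun φ => ENNReal.div_le_div_right ?_ _) _
  unfold ptNorm
  refine iSup_le fun f => ?_
  have hf : tnorm g X (fun v => starRingEnd ℂ (f.1 v)) < p.h0 := by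
    have := sp_tnorm_map_eq (starRingEnd ℂ).toAddMonoidHom (fun a => by
      rw [← NNReal.coe_inj]; simp) g X f.1
    exact lt_of_eq_of_lt this f.2
  refine le_iSup_of_le (⟨_, hf⟩ : {f : G.V → ℂ // tnorm g X f < p.h0}) (le_of_eq ?_)
  unfold conjAct
  rw [← RCLike.nnnorm_conj]
  simp only [Complex.conj_conj]
  congr 3
  funext v
  simp [toC]

/-! ### LEAF A1-C: the class `Act.Cls` and the relation `Copy` under the three operations -/

variable {p g}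

/-- (`Sym`: `sym_unwr`) -/
theorem pk_cls_cutW (hG : G.bc = BC.per) (hM : 3 ≤ G.M) {col R : ℕ} {gs : Grid G} {K : Act g} (c0 : ℕ) (hK : K.Cls p col R gs) :
    (cutW c0 K).Cls p col R gs := by
  have hc : ∀ X, cutW c0 K X = K X ∨ cutW c0 K X = 0 := fun X => by
    by_cases hX : g.Unwr c0 X
    · left; simp only [cutW, if_pos hX]
    · right; simp only [cutW, if_neg hX]
  refine ⟨⟨fun X => ?_, fun X hX => ?_⟩, fun X z hz => ?_, fun s hs X z hz hz' => ?_⟩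
  · rcases hc X with h | h <;> rw [h]
    · exact hK.ok.fn X
    · exact LocalFn.sp_zero p col g X
  · rcases hc X with h | h <;> rw [h]
    exact hK.ok.poly X hX
  · rcases hc X with h | h <;> rw [h]
    · exact hK.even X z hz
    · rfl
  · by_cases hX : g.Unwr c0 X
    · have hX' := (sym_unwr hG hM s c0 X).2 hX
      simp only [cutW, if_pos hX, if_pos hX']
      exact hK.sym s hs X z hz hz'
    · have hX' : ¬ g.Unwr c0 (X.map s.τ.toEmbedding) := fun h => hX ((sym_unwr hG hM s c0 X).1 h)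
      simp only [cutW, if_neg hX, if_neg hX', Pi.zero_apply]

/-- (`Even`: `K (-z + ω/2) = K (z - ω/2) = K (z + ω/2)` by evenness and periodicity) -/
theorem pk_cls_halfShift {col R : ℕ} {gs : Grid G} {K : Act g} (hK : K.Cls p col R gs) : (halfShift p.ω K).Cls p col R gs := by
  refine ⟨⟨fun X => ⟨?_, fun z hz z' hz' h => ?_, fun z hz => ?_⟩, fun X hX => ?_⟩, fun X z hz => ?_, fun s hs X z hz hz' => ?_⟩
  · have h1 : DifferentiableOn ℂ (fun z : G.V → ℂ => fun v => z v + ((p.ω / 2 : ℝ) : ℂ)) (strip p.h0 g X) := by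
      have : Differentiable ℂ (fun z : G.V → ℂ => z + fun _ => ((p.ω / 2 : ℝ) : ℂ)) := differentiable_id.add_const _
      exact this.differentiableOn
    exact (hK.ok.fn X).hol.comp h1 fun z hz => (pk_strip_shift z _).2 hz
  · exact (hK.ok.fn X).loc _ ((pk_strip_shift z _).2 hz) _ ((pk_strip_shift z' _).2 hz') fun v hv => by rw [h v hv]
  · have := (hK.ok.fn X).per _ ((pk_strip_shift z (p.ω / 2)).2 hz)
    unfold halfShift
    rw [← this]
    congr 1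
    funext v
    ring
  · funext z
    unfold halfShift
    rw [hK.ok.poly X hX]
    rfl
  · have hz1 : (fun v => z v + ((-(p.ω / 2) : ℝ) : ℂ)) ∈ strip p.h0 g X := (pk_strip_shift z _).2 hz
    have h1 := hK.even X _ hz1
    have h2 := (hK.ok.fn X).per _ hz1
    unfold halfShift
    have e1 : (fun v => (-z) v + ((p.ω / 2 : ℝ) : ℂ)) = -(fun v => z v + ((-(p.ω / 2) : ℝ) : ℂ)) := by
      funext v
      simp only [Pi.neg_apply]
      push_cast
      ring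
    have e2 : (fun v => z v + ((p.ω / 2 : ℝ) : ℂ)) = fun v => z v + ((-(p.ω / 2) : ℝ) : ℂ) + (p.ω : ℂ) := by
      funext v
      push_cast
      ring
    rw [e1, h1, e2, h2]
  · exact hK.sym s hs X _ ((pk_strip_shift z _).2 hz) ((pk_strip_shift (fun v => z (s.σ.symm v)) _).2 hz')

/-- (`hol`: `pk_conj_diff`) -/
theorem pk_cls_conjAct {col R : ℕ} {gs : Grid G} {K : Act g} (hK : K.Cls p col R gs) : (conjAct K).Cls p col R gs := by
  refine ⟨⟨fun X => ⟨?_, fun z hz z' hz' h => ?_, fun z hz => ?_⟩, fun X hX => ?_⟩, fun X z hz => ?_, fun s hs X z hz hz' => ?_⟩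
  · exact pk_conj_diff (K X) (strip p.h0 g X) (fun z hz => (pk_strip_conj z).2 hz) (hK.ok.fn X).hol
  · unfold conjAct
    rw [(hK.ok.fn X).loc _ ((pk_strip_conj z).2 hz) _ ((pk_strip_conj z').2 hz') fun v hv => by rw [h v hv]]
  · have := (hK.ok.fn X).per _ ((pk_strip_conj z).2 hz)
    unfold conjAct
    rw [← this]
    congr 2
    funext v
    simp
  · funext z
    unfold conjAct
    rw [hK.ok.poly X hX]
    simp
  · have := hK.even X _ ((pk_strip_conj z).2 hz)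
    unfold conjAct
    rw [← this]
    congr 2
  · unfold conjAct
    rw [hK.sym s hs X _ ((pk_strip_conj z).2 hz) ((pk_strip_conj (fun v => z (s.σ.symm v))).2 hz')]

theorem pk_copy_congr {h0 : ℝ≥0} {c0 : ℕ} {G' : Geom} {g' : Grid G'} {K K1 : Act g} {K' K1' : Act g'} (h : Copy h0 c0 g g' K K')
    (e : EqOn h0 K K1) (e' : EqOn h0 K' K1') : Copy h0 c0 g g' K1 K1' := by
  intro S h1 h2 z hz z' hz' hzz
  rw [← e _ z hz, ← e' _ z' hz']
  exact h S h1 h2 z hz z' hz' hzz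

theorem pk_copy_cutW {h0 : ℝ≥0} {c0 : ℕ} {G' : Geom} {g' : Grid G'} (hm : g.m = g'.m) {K : Act g} {K' : Act g'} (h : Copy h0 c0 g g' K K') :
    Copy h0 c0 g g' (cutW c0 K) (cutW c0 K') := by
  intro S h1 h2 z hz z' hz' hzz
  have u1 : g.Unwr c0 (g.foldS S) := ⟨S, rfl, h1⟩
  have u2 : g'.Unwr c0 (g'.foldS S) := ⟨S, rfl, by rw [← hm]; exact h2⟩
  simp only [cutW, if_pos u1, if_pos u2]
  exact h S h1 h2 z hz z' hz' hzz

theorem pk_copy_halfShift {h0 : ℝ≥0} {c0 : ℕ} {G' : Geom} {g' : Grid G'} (ω : ℝ) {K : Act g} {K' : Act g'} (h : Copy h0 c0 g g' K K') :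
    Copy h0 c0 g g' (halfShift ω K) (halfShift ω K') := by
  intro S h1 h2 z hz z' hz' hzz
  exact h S h1 h2 _ ((pk_strip_shift z _).2 hz) _ ((pk_strip_shift z' _).2 hz') fun x hx => by rw [hzz x hx]

theorem pk_copy_conjAct {h0 : ℝ≥0} {c0 : ℕ} {G' : Geom} {g' : Grid G'} {K : Act g} {K' : Act g'} (h : Copy h0 c0 g g' K K') :
    Copy h0 c0 g g' (conjAct K) (conjAct K') := by
  intro S h1 h2 z hz z' hz' hzz
  unfold conjAct
  rw [h S h1 h2 _ ((pk_strip_conj z).2 hz) _ ((pk_strip_conj z').2 hz') fun x hx => by rw [hzz x hx]]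

end act

/-! ## 2. The dictionary of `Cfg.Pl`, `Cfg.To` -/

section dict

variable (K : Cfg) (𝓡 : Reg K.s)

/-! ### LEAF A2-P: plane remainders -/

theorem pk_plAct_eq {j : ℕ} (a : K.Pl 𝓡 j) (i : 𝓡.Ix j) :
    K.plAct 𝓡 a i = Amb.act K.p (K.s.lev i.1 j) (𝓡.V i.1 j) (spPull (ι := Idx (K.fam 𝓡 j i).g) (κ := FIdx (K.fam 𝓡 j)) (fun x => ⟨i, x⟩) a.1) := rfl

open Classical in
theorem pk_choose_congr {α : Type} [Zero α] (P Q : α → Prop) (h : P = Q) :
    (if hx : ∃ b, P b then hx.choose else 0) = (if hx : ∃ b, Q b then hx.choose else 0) := by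
  subst h; rfl

theorem pk_act_add {G : Geom} (p : Par) (g : Grid G) (V : Extra g) (a b : Amb (Idx g)) :
    Amb.act p g V (a + b) = Amb.act p g V a + Amb.act p g V b := by
  funext X z
  by_cases hz : z ∈ strip p.h0 g X
  · simp only [Pi.add_apply, sp_act_pos p g V _ X z hz, lp.coeFn_add, mul_add]
  · simp only [Pi.add_apply, sp_act_neg p g V _ X z hz, add_zero]

theorem pk_act_smul {G : Geom} (p : Par) (g : Grid G) (V : Extra g) (c : ℂ) (a : Amb (Idx g)) :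
    Amb.act p g V (c • a) = c • Amb.act p g V a := by
  funext X z
  by_cases hz : z ∈ strip p.h0 g X
  · simp only [Pi.smul_apply, sp_act_pos p g V _ X z hz, lp.coeFn_smul, smul_eq_mul]
    ring
  · simp only [Pi.smul_apply, sp_act_neg p g V _ X z hz, smul_zero]

theorem pk_act_zero {G : Geom} (p : Par) (g : Grid G) (V : Extra g) : Amb.act p g V (0 : Amb (Idx g)) = 0 := by
  funext X z
  by_cases hz : z ∈ strip p.h0 g X
  · simp only [sp_act_pos p g V _ X z hz, lp.coeFn_zero, Pi.zero_apply, mul_zero]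
  · simp only [sp_act_neg p g V _ X z hz, Pi.zero_apply]

theorem pk_plAct_nrm {j : ℕ} (a : K.Pl 𝓡 j) (i : 𝓡.Ix j) : Nrm K.p.h0 (K.plAct 𝓡 a i) := by
  intro X z hz
  rw [pk_plAct_eq]
  exact sp_act_neg _ _ _ _ X z hz

theorem pk_plAct_add {j : ℕ} (a b : K.Pl 𝓡 j) (i : 𝓡.Ix j) : K.plAct 𝓡 (a + b) i = K.plAct 𝓡 a i + K.plAct 𝓡 b i := by
  exact pk_act_add K.p (K.s.lev i.1 j) (𝓡.V i.1 j)
    (spPull (ι := Idx (K.fam 𝓡 j i).g) (κ := FIdx (K.fam 𝓡 j)) (fun x => ⟨i, x⟩) a.1)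
    (spPull (ι := Idx (K.fam 𝓡 j i).g) (κ := FIdx (K.fam 𝓡 j)) (fun x => ⟨i, x⟩) b.1)

theorem pk_plAct_smul {j : ℕ} (c : ℂ) (a : K.Pl 𝓡 j) (i : 𝓡.Ix j) : K.plAct 𝓡 (c • a) i = c • K.plAct 𝓡 a i := by
  exact pk_act_smul K.p (K.s.lev i.1 j) (𝓡.V i.1 j) c
    (spPull (ι := Idx (K.fam 𝓡 j i).g) (κ := FIdx (K.fam 𝓡 j)) (fun x => ⟨i, x⟩) a.1)

theorem pk_plAct_zero {j : ℕ} (i : 𝓡.Ix j) : K.plAct 𝓡 (0 : K.Pl 𝓡 j) i = 0 := by
  exact pk_act_zero K.p (K.s.lev i.1 j) (𝓡.V i.1 j)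

/-- what a plane remainder is (take the family `Kf` of `a.2`; `sp_act_of_ev`: `plAct a i = Kf i` in the strips; `sp_act_cls`, `sp_ev_act`, `sp_actNorm_eq`, `spPull_norm_le`) -/
theorem pk_plAct_spec (hA : 0 < K.p.A) {j : ℕ} (a : K.Pl 𝓡 j) :
    (∀ i, Adm K.p K.c (𝓡.gs i.1) (K.plAct 𝓡 a i)) ∧
    (∀ i X, ¬ (K.s.lev i.1 j).Unwr K.c0 X → K.plAct 𝓡 a i X = 0) ∧
    (∀ i i', Copy K.p.h0 K.c0 (K.s.lev i.1 j) (K.s.lev i'.1 j) (K.plAct 𝓡 a i) (K.plAct 𝓡 a i')) ∧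
    (∀ i x, a.1 ⟨i, x⟩ = ev K.p (K.s.lev i.1 j) (𝓡.V i.1 j) (K.plAct 𝓡 a i) x) ∧
    (∀ i, actNorm K.p (K.s.lev i.1 j) (𝓡.V i.1 j) (K.plAct 𝓡 a i) ≤ ENNReal.ofReal ‖a‖) := by
  obtain ⟨Kf, hK, hU, hC, hev⟩ := a.2
  have hev' : ∀ (i : 𝓡.Ix j) (x : Idx (K.fam 𝓡 j i).g),
      spPull (ι := Idx (K.fam 𝓡 j i).g) (κ := FIdx (K.fam 𝓡 j)) (fun x => ⟨i, x⟩) a.1 x
        = ev K.p (K.s.lev i.1 j) (𝓡.V i.1 j) (Kf i) x := fun i x => hev i x
  have e : ∀ i, EqOn K.p.h0 (K.plAct 𝓡 a i) (Kf i) := fun i X z hz =>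
    sp_act_of_ev K.p hA (K.s.lev i.1 j) (𝓡.V i.1 j) _ (Kf i) (hev' i) X z hz
  have h4 : ∀ i x, a.1 ⟨i, x⟩ = ev K.p (K.s.lev i.1 j) (𝓡.V i.1 j) (K.plAct 𝓡 a i) x := fun i x =>
    sp_ev_act K.p hA (K.s.lev i.1 j) (𝓡.V i.1 j) _ (Kf i) (hev' i) x
  refine ⟨fun i => ?_, fun i X hX => ?_, fun i i' => ?_, h4, fun i => ?_⟩
  · exact sp_act_cls K.p hA K.c.col K.c.R (K.s.lev i.1 j) (𝓡.gs i.1) (𝓡.V i.1 j) _ (Kf i) (hK i) (hev' i)
  · funext z
    by_cases hz : z ∈ strip K.p.h0 (K.s.lev i.1 j) X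
    · rw [e i X z hz, hU i X hX]
      rfl
    · exact pk_plAct_nrm K 𝓡 a i X z hz
  · exact pk_copy_congr (hC i i') (pk_eqOn_symm (e i)) (pk_eqOn_symm (e i'))
  · rw [sp_actNorm_eq K.p hA (K.s.lev i.1 j) (𝓡.V i.1 j)
      (spPull (ι := Idx (K.fam 𝓡 j i).g) (κ := FIdx (K.fam 𝓡 j)) (fun x => ⟨i, x⟩) a.1) _ (fun x => h4 i x)]
    exact ENNReal.ofReal_le_ofReal (spPull_norm_le _ a.1)

theorem pk_pl_ext (hA : 0 < K.p.A) {j : ℕ} (a b : K.Pl 𝓡 j) (h : ∀ i, EqOn K.p.h0 (K.plAct 𝓡 a i) (K.plAct 𝓡 b i)) : a = b := by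
  apply Subtype.ext
  apply lp.ext
  funext ⟨i, x⟩
  rw [(pk_plAct_spec K 𝓡 hA a).2.2.2.1 i x, (pk_plAct_spec K 𝓡 hA b).2.2.2.1 i x]
  exact sp_ev_congr _ _ _ _ _ (h i) x

theorem pk_pl_norm_le (hA : 0 < K.p.A) {j : ℕ} (a : K.Pl 𝓡 j) (C : ℝ) (hC : 0 ≤ C) :
    ‖a‖ ≤ C ↔ ∀ i, actNorm K.p (K.s.lev i.1 j) (𝓡.V i.1 j) (K.plAct 𝓡 a i) ≤ ENNReal.ofReal C := by
  rw [bulkSp_norm K.p K.c.col K.c.R K.c0 (K.fam 𝓡 j) a C hC]
  refine forall_congr' fun i => ?_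
  rw [pk_actNorm_le_iff K.p _ _ hA _ C hC]
  refine forall_congr' fun x => ?_
  rw [(pk_plAct_spec K 𝓡 hA a).2.2.2.1 i x]

/-- how to build a plane remainder -/
theorem pk_plMk_spec (hA : 0 < K.p.A) (j : ℕ) (R : ∀ i : 𝓡.Ix j, Act (K.s.lev i.1 j))
    (h1 : ∀ i, Adm K.p K.c (𝓡.gs i.1) (R i)) (h2 : ∀ i X, ¬ (K.s.lev i.1 j).Unwr K.c0 X → R i X = 0)
    (h3 : ∀ i i', Copy K.p.h0 K.c0 (K.s.lev i.1 j) (K.s.lev i'.1 j) (R i) (R i'))
    (C : ℝ) (hC : 0 ≤ C) (h4 : ∀ i, actNorm K.p (K.s.lev i.1 j) (𝓡.V i.1 j) (R i) ≤ ENNReal.ofReal C) :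
    (∀ i, EqOn K.p.h0 (K.plAct 𝓡 (K.plMk 𝓡 j R) i) (R i)) ∧ ‖K.plMk 𝓡 j R‖ ≤ C := by
  have hb : ∀ i x, ‖ev K.p (K.s.lev i.1 j) (𝓡.V i.1 j) (R i) x‖ ≤ C := fun i =>
    (pk_actNorm_le_iff K.p _ _ hA _ C hC).1 (h4 i)
  have hmem : Memℓp (fun y : FIdx (K.fam 𝓡 j) => ev K.p (K.s.lev y.1.1 j) (𝓡.V y.1.1 j) (R y.1) y.2) ∞ :=
    memℓp_infty ⟨C, by
      rintro _ ⟨y, rfl⟩
      exact hb y.1 y.2⟩
  have hx : ∃ b : K.Pl 𝓡 j, ∀ i, EqOn K.p.h0 (K.plAct 𝓡 b i) (R i) := by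
    refine ⟨⟨⟨_, hmem⟩, R, h1, h2, h3, fun _ _ => rfl⟩, fun i X z hz => ?_⟩
    exact sp_act_of_ev K.p hA (K.s.lev i.1 j) (𝓡.V i.1 j)
      (spPull (ι := Idx (K.fam 𝓡 j i).g) (κ := FIdx (K.fam 𝓡 j)) (fun x => ⟨i, x⟩) ⟨_, hmem⟩) (R i) (fun _ => rfl) X z hz
  have hs : ∀ i, EqOn K.p.h0 (K.plAct 𝓡 (K.plMk 𝓡 j R) i) (R i) := by
    unfold Cfg.plMk
    rw [dif_pos hx]
    exact hx.choose_spec
  refine ⟨hs, (pk_pl_norm_le K 𝓡 hA _ C hC).2 fun i => ?_⟩
  rw [pk_actNorm_congr K.p _ _ (hs i)]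
  exact h4 i

/-- `plMk` only sees the values in the strips -/
theorem pk_plMk_congr (j : ℕ) (R R' : ∀ i : 𝓡.Ix j, Act (K.s.lev i.1 j)) (h : ∀ i, EqOn K.p.h0 (R i) (R' i)) :
    K.plMk 𝓡 j R = K.plMk 𝓡 j R' := by
  exact pk_choose_congr _ _ (funext fun b =>
    propext ⟨fun e i => pk_eqOn_trans (e i) (h i), fun e i => pk_eqOn_trans (e i) (pk_eqOn_symm (h i))⟩)

/-! ### LEAF A2-T: torus remainders -/

theorem pk_toAct_nrm {j h : ℕ} (a : K.To 𝓡 j h) : Nrm K.p.h0 (K.toAct 𝓡 a) := by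
  intro X z hz
  exact sp_act_neg _ _ _ _ X z hz

theorem pk_toAct_add {j h : ℕ} (a b : K.To 𝓡 j h) : K.toAct 𝓡 (a + b) = K.toAct 𝓡 a + K.toAct 𝓡 b := by
  unfold Cfg.toAct
  rw [Submodule.coe_add, pk_act_add]

theorem pk_toAct_smul {j h : ℕ} (c : ℂ) (a : K.To 𝓡 j h) : K.toAct 𝓡 (c • a) = c • K.toAct 𝓡 a := by
  unfold Cfg.toAct
  rw [Submodule.coe_smul, pk_act_smul]

theorem pk_toAct_zero {j h : ℕ} : K.toAct 𝓡 (0 : K.To 𝓡 j h) = 0 := by
  unfold Cfg.toAct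
  rw [Submodule.coe_zero, pk_act_zero]

/-- (`actSp_act`) -/
theorem pk_toAct_spec (hA : 0 < K.p.A) {j h : ℕ} (a : K.To 𝓡 j h) :
    Adm K.p K.c (𝓡.gs h) (K.toAct 𝓡 a) ∧ (∀ x, a.1 x = ev K.p (K.s.lev h j) (𝓡.V h j) (K.toAct 𝓡 a) x) ∧
    actNorm K.p (K.s.lev h j) (𝓡.V h j) (K.toAct 𝓡 a) = ENNReal.ofReal ‖a‖ :=
  actSp_act K.p hA K.c.col K.c.R (K.s.lev h j) (𝓡.gs h) (𝓡.V h j) a

theorem pk_to_ext (hA : 0 < K.p.A) {j h : ℕ} (a b : K.To 𝓡 j h) (e : EqOn K.p.h0 (K.toAct 𝓡 a) (K.toAct 𝓡 b)) : a = b := by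
  apply Subtype.ext
  apply lp.ext
  funext x
  rw [(pk_toAct_spec K 𝓡 hA a).2.1 x, (pk_toAct_spec K 𝓡 hA b).2.1 x]
  exact sp_ev_congr _ _ _ _ _ e x

/-- (`actSp_mk`) -/
theorem pk_toMk_spec (hA : 0 < K.p.A) (j h : ℕ) (R : Act (K.s.lev h j)) (h1 : Adm K.p K.c (𝓡.gs h) R)
    (C : ℝ) (hC : 0 ≤ C) (h4 : actNorm K.p (K.s.lev h j) (𝓡.V h j) R ≤ ENNReal.ofReal C) :
    EqOn K.p.h0 (K.toAct 𝓡 (K.toMk 𝓡 j h R)) R ∧ ‖K.toMk 𝓡 j h R‖ ≤ C := by
  have hfin : actNorm K.p (K.s.lev h j) (𝓡.V h j) R ≠ ⊤ := ne_top_of_le_ne_top ENNReal.ofReal_ne_top h4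
  obtain ⟨b, -, -, hb⟩ := actSp_mk K.p hA K.c.col K.c.R (K.s.lev h j) (𝓡.gs h) (𝓡.V h j) R h1 hfin
  have hx : ∃ b : K.To 𝓡 j h, EqOn K.p.h0 (K.toAct 𝓡 b) R := ⟨b, hb⟩
  have hs : EqOn K.p.h0 (K.toAct 𝓡 (K.toMk 𝓡 j h R)) R := by
    unfold Cfg.toMk
    rw [dif_pos hx]
    exact hx.choose_spec
  refine ⟨hs, ?_⟩
  have h5 := (pk_toAct_spec K 𝓡 hA (K.toMk 𝓡 j h R)).2.2
  rw [pk_actNorm_congr K.p _ _ hs] at h5
  rw [h5] at h4
  exact (ENNReal.ofReal_le_ofReal_iff hC).1 h4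

theorem pk_toMk_congr (j h : ℕ) (R R' : Act (K.s.lev h j)) (e : EqOn K.p.h0 R R') : K.toMk 𝓡 j h R = K.toMk 𝓡 j h R' := by
  exact pk_choose_congr _ _ (funext fun b =>
    propext ⟨fun e' => pk_eqOn_trans e' e, fun e' => pk_eqOn_trans e' (pk_eqOn_symm e)⟩)

end dict

end

end Claimed.Agent.R285.Pack
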