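import Claimed.Agent.R285.Map.WInt

/-!
# ROW 285, unit MAP, weak step: THE DESIGNATED DATA `Step.desig` (linear in `(t, z, R)`): covariance of `D^X`, `Loc`; linearity; admissibility; sizes; the four symmetries        (owner helper202)

`piece X B = Loc_{X,B} H_0^X + [cosOn] (H_1^X (0) + H_{-1}^X (0)) c_B^α / |X|`,
`desig.F Y b = ∑_{X small, \bar X = Y} ∑_{B ∈ X, up B = b} piece X B + [Y = {b}] ∑_{B ⊂ b} E (t e_B / 2 + z c_B)`,   `desig.a b` = the constants of these pieces.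
All pieces are ENTIRE functions of `z` (polynomials in differences, cosines) whose COEFFICIENTS are read from `H_q^X` at / near `0`: identities between pieces hold for ALL `z`.
LEAVES `W-ELL-*` (lattice geometry), `W-DX-*`, `W-DES-*`.
-/

set_option autoImplicit false

namespace Claimed.Agent.R285.B8

open scoped BigOperators ENNReal NNReal
open MeasureTheory
open Claimed.Agent.R285.RG Claimed.Agent.R285.Hol

noncomputable section

variable {G : Geom} {D0 ℓ : ℕ} {c : Geo} {p : Par} {gs : Grid G} {S : Step G D0 ℓ}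

/-- the positive direction of the axis `i` -/
def wPos (i : Fin 2) : Fin 4 := if i = 0 then 0 else 2
/-- the axis of a direction -/
def wAx (e : Fin 4) : Fin 2 := if e = 0 ∨ e = 1 then 0 else 1
/-- the sign of a direction -/
def wSg (e : Fin 4) : ℝ := if e = 0 ∨ e = 2 then 1 else -1

/-- the dependence set of a local function on `X` -/
def Near (g : Grid G) (col : ℕ) (X : Finset g.I) (v : G.V) : Prop := ∃ w ∈ g.sites X, G.dist w v ≤ col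

/-! ## small polymers -/

theorem w_mem_small {X : Finset S.P.g.I} : X ∈ S.small c ↔ S.P.g.Conn c.R X ∧ X.card ≤ c.n0 := by
  classical
  simp [Step.small]

/-- PROVED -/
theorem w_small_sym (h : Ctx c p gs S) (s : GridSym S.P.g) (X : Finset S.P.g.I) : symX s X ∈ S.small c ↔ X ∈ S.small c := by
  rw [w_mem_small, w_mem_small]
  unfold symX
  rw [w_perm_conn s.τ (w_sym_idist h.ok.per h.hM S.P.ok s), Finset.card_map]

/-- plan: `Conn` gives a block `a ∈ X`; `Grid.Ok.surj` on both axes gives a site; `Exists.choose_spec`. -/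
theorem w_anchor_mem (h : Ctx c p gs S) {X : Finset S.P.g.I} (hX : X ∈ S.small c) : anchor S.P.g X ∈ S.P.g.sites X := by
  have _ := h
  have hc := (w_mem_small.1 hX).1
  obtain ⟨a, ha⟩ := hc.1
  obtain ⟨i, hi⟩ := S.P.ok.surj a.1
  obtain ⟨j, hj⟩ := S.P.ok.surj a.2
  have hne : (S.P.g.sites X).Nonempty := by
    refine ⟨(i, j), ?_⟩
    unfold Grid.sites
    rw [Finset.mem_filter]
    refine ⟨Finset.mem_univ _, ?_⟩
    show (S.P.g.blk1 i, S.P.g.blk1 j) ∈ X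
    rw [hi, hj]
    exact ha
  unfold anchor
  rw [dif_pos hne]
  exact hne.choose_spec

/-! ## LEAF `W-ELL-1`: a small polymer with its collar is small compared with the torus -/

theorem w_ell0_d1_aux (g : Grid G) (hg : g.Ok) (hG : G.bc = BC.per) {a b : Fin G.M} (hab : a ≤ b)
    (h : g.idist1 (g.blk1 a) (g.blk1 b) ≤ 1) : Reg.regD1 G a b + 1 ≤ 2 * g.m := by
  have hhi : ∀ c, (Finset.univ.filter fun x => g.blk1 x = c).card ≤ g.m := fun c => (hg.full c (Or.inl hG)).le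
  have hf : (g.blk1 a : ℕ) ≤ g.blk1 b := hg.mono hab
  have hab' : (a : ℕ) ≤ b := hab
  have h1 := Geo.geo_arc_in_hi g.blk1 hg.mono hhi hab
  rw [Geo.geo_idist1_per g hG] at h
  rw [Reg.regl_d1_per G hG]
  by_cases hk : (g.blk1 b : ℕ) - g.blk1 a ≤ 1
  · have h2 := Nat.mul_le_mul_right g.m (show (g.blk1 b : ℕ) - g.blk1 a + 1 ≤ 2 by omega)
    omega
  · rcases hab.eq_or_lt with rfl | hlt
    · omega
    · have h3 := Geo.geo_arc_out_hi g.blk1 hg.mono hhi hlt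
      have h2 := Nat.mul_le_mul_right g.m (show g.n - ((g.blk1 b : ℕ) - g.blk1 a) + 1 ≤ 2 by omega)
      omega

theorem w_ell0_d1 (g : Grid G) (hg : g.Ok) (hG : G.bc = BC.per) (a b : Fin G.M)
    (h : g.idist1 (g.blk1 a) (g.blk1 b) ≤ 1) : Reg.regD1 G a b + 1 ≤ 2 * g.m := by
  rcases le_total a b with hab | hab
  · exact w_ell0_d1_aux g hg hG hab h
  · rw [Reg.reg_d1_comm]
    rw [Geo.geo_idist1_comm] at h
    exact w_ell0_d1_aux g hg hG hab h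

theorem w_ell0_dist_le (v w : G.V) : G.dist v w ≤ max (Reg.regD1 G v.1 w.1) (Reg.regD1 G v.2 w.2) := by
  have h := Reg.regl_dist_le G v (Loc.chart G v w)
  have e : G.π (Loc.chart G v w) = w := by
    have := Loc.loc_chart_pi G v w 0
    rw [add_zero, add_zero, Reg.reg_pi_iota] at this
    exact this
  rw [e] at h
  refine h.trans (le_of_eq ?_)
  unfold Loc.chart Geom.ι
  simp only [add_sub_cancel_left]
  rw [Loc.loc_disp_natAbs, Loc.loc_disp_natAbs]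

theorem w_ell0_cl (P : Pair G D0 ℓ) {X : Finset P.g.I} {v : G.V} (hv : v ∈ P.g.sites X) : P.g'.blk v ∈ P.N.cl X := by
  unfold Grid.sites at hv
  rw [Finset.mem_filter] at hv
  unfold Nest.cl
  rw [Finset.mem_image]
  refine ⟨P.g.blk v, hv.2, ?_⟩
  unfold Nest.up Grid.blk
  rw [P.N.comm, P.N.comm]

/-- plan: `v0`, `w` lie in coarse blocks of `cl X`, at index distance `≤ 1` (`h.ok.diam`), so `dist v0 w < 2 g'.m` (`w_idist_le_iff` for `g'` gives the converse direction only: argue on each axis with `blk1 i = i / m`);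
`col < g.m ≤ g'.m`; triangle inequality of `Geom.dist`; `12 g'.m < M`. -/
theorem w_near_dist (h : Ctx c p gs S) {X : Finset S.P.g.I} (hX : X ∈ S.small c) {v0 v : G.V} (h0 : v0 ∈ S.P.g.sites X) (hv : Near S.P.g c.col X v) :
    4 * G.dist v0 v < G.M := by
  obtain ⟨w, hw, hwv⟩ := hv
  have hs := w_mem_small.1 hX
  have hd := (h.ok.diam X hs.1 hs.2).1
  have hb0 := w_ell0_cl S.P h0
  have hbw := w_ell0_cl S.P hw
  have hid : S.P.g'.idist (S.P.g'.blk v0) (S.P.g'.blk w) ≤ 1 := by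
    refine le_trans ?_ hd
    unfold Grid.idiam
    exact le_trans (Finset.le_sup (f := fun b => S.P.g'.idist (S.P.g'.blk v0) b) hbw)
      (Finset.le_sup (f := fun a => (S.P.N.cl X).sup fun b => S.P.g'.idist a b) hb0)
  have h1 : S.P.g'.idist1 (S.P.g'.blk1 v0.1) (S.P.g'.blk1 w.1) ≤ 1 := le_trans (le_max_left _ _) hid
  have h2 : S.P.g'.idist1 (S.P.g'.blk1 v0.2) (S.P.g'.blk1 w.2) ≤ 1 := le_trans (le_max_right _ _) hid
  have d1 := w_ell0_d1 S.P.g' S.P.ok' h.ok.per v0.1 w.1 h1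
  have d2 := w_ell0_d1 S.P.g' S.P.ok' h.ok.per v0.2 w.2 h2
  have hdist : G.dist v0 w + 1 ≤ 2 * S.P.g'.m := by
    have := w_ell0_dist_le v0 w
    have h3 : max (Reg.regD1 G v0.1 w.1) (Reg.regD1 G v0.2 w.2) + 1 ≤ 2 * S.P.g'.m := by
      rcases le_total (Reg.regD1 G v0.1 w.1) (Reg.regD1 G v0.2 w.2) with h4 | h4
      · rw [max_eq_right h4]; exact d2
      · rw [max_eq_left h4]; exact d1
    omega
  have tri := Ker.ker_dist_triangle G v0 w v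
  have hcol := h.ok.col
  have hm : S.P.g.m ≤ S.P.g'.m := by
    rw [S.P.hS]
    exact Nat.le_mul_of_pos_left _ (by positivity)
  have hclear := S.P.clear
  have h12 : 12 * S.P.g'.m ≤ D0 * S.P.g'.m := Nat.mul_le_mul_right _ h.hD
  omega

/-- plan: `disp1` on the torus is `Int.bmod (v - v0) M`, `|disp1 v0 v| ≤ dist v0 v` on each axis; `bmod (a + b) = bmod a + bmod b` if `|bmod a| + |bmod b| < M / 2`.  `k = disp1 (v1, v0) / m`. -/
theorem w_ell_anchor (g : Grid G) (hG : G.bc = BC.per) (v0 v1 : G.V) (h01 : 4 * G.dist v0 v1 < G.M) (i : Fin 2) :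
    ∃ k : ℝ, ∀ v, 4 * G.dist v0 v < G.M → ell g v1 i v = ell g v0 i v + k := by
  have cases1 : ∀ a b : Fin G.M, (disp1 G a b = (b : ℤ) - a ∨ disp1 G a b = (b : ℤ) - a + G.M ∨ disp1 G a b = (b : ℤ) - a - G.M) ∧
      2 * (disp1 G a b).natAbs ≤ G.M := by
    intro a b
    have ha := a.2
    have hb := b.2
    rw [Loc.loc_disp_per G hG, Int.bmod_def]
    rcases le_or_gt (0 : ℤ) ((b : ℤ) - a) with hx | hx
    · have hr : ((b : ℤ) - a) % (G.M : ℤ) = (b : ℤ) - a := Int.emod_eq_of_lt hx (by omega)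
      rw [hr]
      split_ifs <;> omega
    · have hr : ((b : ℤ) - a) % (G.M : ℤ) = (b : ℤ) - a + G.M :=
        Reg.regl_emod_eq _ _ (-1) _ (by ring) (by omega) (by omega)
      rw [hr]
      split_ifs <;> omega
  have add1 : ∀ a b x : Fin G.M, 4 * (disp1 G a b).natAbs < G.M → 4 * (disp1 G a x).natAbs < G.M →
      disp1 G b x = disp1 G a x - disp1 G a b := by
    intro a b x h1 h2
    obtain ⟨c1, _⟩ := cases1 a b
    obtain ⟨c2, _⟩ := cases1 a x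
    obtain ⟨c3, b3⟩ := cases1 b x
    rcases c1 with c1 | c1 | c1 <;> rcases c2 with c2 | c2 | c2 <;> rcases c3 with c3 | c3 | c3 <;> omega
  have b1 : (disp1 G v0.1 v1.1).natAbs ≤ G.dist v0 v1 := by
    rw [Loc.loc_disp_natAbs]; exact Reg.reg_d1_le_dist_fst G v0 v1
  have b2 : (disp1 G v0.2 v1.2).natAbs ≤ G.dist v0 v1 := by
    rw [Loc.loc_disp_natAbs]; exact Reg.reg_d1_le_dist_snd G v0 v1
  by_cases hi : i = 0
  · refine ⟨-(disp1 G v0.1 v1.1 : ℝ) / g.m, fun v hv => ?_⟩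
    have b3 : (disp1 G v0.1 v.1).natAbs ≤ G.dist v0 v := by
      rw [Loc.loc_disp_natAbs]; exact Reg.reg_d1_le_dist_fst G v0 v
    unfold ell
    rw [if_pos hi, if_pos hi, add1 v0.1 v1.1 v.1 (by omega) (by omega)]
    push_cast
    ring
  · refine ⟨-(disp1 G v0.2 v1.2 : ℝ) / g.m, fun v hv => ?_⟩
    have b3 : (disp1 G v0.2 v.2).natAbs ≤ G.dist v0 v := by
      rw [Loc.loc_disp_natAbs]; exact Reg.reg_d1_le_dist_snd G v0 v
    unfold ell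
    rw [if_neg hi, if_neg hi, add1 v0.2 v1.2 v.2 (by omega) (by omega)]
    push_cast
    ring

/-- the images of the two positive directions lie on different axes -/
theorem w_ell_sym_axes {g : Grid G} (hG : G.bc = BC.per) (hM : 3 ≤ G.M) (s : GridSym g) : wAx (s.ρ 0) ≠ wAx (s.ρ 2) := by
  obtain ⟨h1, -⟩ := Pack.sym_opp hG hM s
  have n02 : s.ρ 0 ≠ s.ρ 2 := fun h => by have := s.ρ.injective h; simp at this
  have n12 : dir (s.ρ 2) ≠ -dir (s.ρ 0) := fun h => by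
    rw [← h1] at h
    have := s.ρ.injective (Pack.syml_dir_inj h); simp at this
  generalize s.ρ 0 = a at *
  generalize s.ρ 2 = b at *
  fin_cases a <;> fin_cases b <;> simp [dir, wAx] at n02 n12 ⊢

/-- the displacements are transformed by the linear part -/
theorem w_ell_sym_disp {g : Grid G} (hG : G.bc = BC.per) (hM : 3 ≤ G.M) (s : GridSym g) (v0 v : G.V) (hv : 2 * G.dist v0 v < G.M) :
    disp1 G (s.σ v0).1 (s.σ v).1 = (Pack.symT s (disp1 G v0.1 v.1, disp1 G v0.2 v.2)).1 ∧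
    disp1 G (s.σ v0).2 (s.σ v).2 = (Pack.symT s (disp1 G v0.1 v.1, disp1 G v0.2 v.2)).2 := by
  set d : ℤ × ℤ := (disp1 G v0.1 v.1, disp1 G v0.2 v.2) with hd
  have e1 : G.π (G.ι v0 + d) = v := by
    have := Loc.loc_chart_pi G v0 v 0
    rw [add_zero, add_zero, Reg.reg_pi_iota] at this
    exact this
  have e2 : s.σ v = G.π (G.ι (s.σ v0) + Pack.symT s d) := by
    have := Pack.sym_affine hG hM s (G.ι v0) d
    rwa [e1, Reg.reg_pi_iota] at this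
  have b1 : d.1.natAbs ≤ G.dist v0 v := by
    rw [hd]; simp only; rw [Loc.loc_disp_natAbs]; exact Reg.reg_d1_le_dist_fst G v0 v
  have b2 : d.2.natAbs ≤ G.dist v0 v := by
    rw [hd]; simp only; rw [Loc.loc_disp_natAbs]; exact Reg.reg_d1_le_dist_snd G v0 v
  have b3 := Pack.symT_norm hG hM s d
  have b4 : (Pack.symT s d).1.natAbs ≤ G.dist v0 v := by
    have := le_max_left (Pack.symT s d).1.natAbs (Pack.symT s d).2.natAbs
    rw [b3] at this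
    exact this.trans (max_le b1 b2)
  have b5 : (Pack.symT s d).2.natAbs ≤ G.dist v0 v := by
    have := le_max_right (Pack.symT s d).1.natAbs (Pack.symT s d).2.natAbs
    rw [b3] at this
    exact this.trans (max_le b1 b2)
  have hfree : ∀ y : ℤ, G.bc = BC.free → 0 ≤ y ∧ y < G.M := fun y h => by rw [hG] at h; cases h
  constructor
  · have := Loc.loc_disp_fold G (s.σ v0).1 ((G.ι (s.σ v0) + Pack.symT s d).1) (by
      have : (G.ι (s.σ v0) + Pack.symT s d).1 - (((s.σ v0).1 : ℕ) : ℤ) = (Pack.symT s d).1 := by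
        simp [Geom.ι]
      rw [this]; omega) (hfree _)
    rw [e2]
    show disp1 G (s.σ v0).1 (G.fold (G.ι (s.σ v0) + Pack.symT s d).1) = _
    rw [this]
    simp [Geom.ι]
  · have := Loc.loc_disp_fold G (s.σ v0).2 ((G.ι (s.σ v0) + Pack.symT s d).2) (by
      have : (G.ι (s.σ v0) + Pack.symT s d).2 - (((s.σ v0).2 : ℕ) : ℤ) = (Pack.symT s d).2 := by
        simp [Geom.ι]
      rw [this]; omega) (hfree _)
    rw [e2]
    show disp1 G (s.σ v0).2 (G.fold (G.ι (s.σ v0) + Pack.symT s d).2) = _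
    rw [this]
    simp [Geom.ι]

/-- plan: `w_sym_affine` with `x = ι v0`, `y = (disp1 .., disp1 ..)`; `bmod` of a number of absolute value `< M/2` is the number itself. -/
theorem w_ell_sym {g : Grid G} (hG : G.bc = BC.per) (hM : 3 ≤ G.M) (s : GridSym g) (v0 v : G.V) (hv : 2 * G.dist v0 v < G.M) (i : Fin 2) :
    ell g (s.σ v0) (wAx (s.ρ (wPos i))) (s.σ v) = wSg (s.ρ (wPos i)) * ell g v0 i v := by
  obtain ⟨h1, h2⟩ := w_ell_sym_disp hG hM s v0 v hv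
  have hax := w_ell_sym_axes hG hM s
  unfold ell
  rw [h1, h2]
  unfold Pack.symT
  generalize disp1 G v0.1 v.1 = d1
  generalize disp1 G v0.2 v.2 = d2
  fin_cases i
  · show (if wAx (s.ρ 0) = 0 then _ else _) / _ = wSg (s.ρ 0) * (((d1 : ℤ) : ℝ) / _)
    generalize s.ρ 0 = a at *
    generalize s.ρ 2 = b at *
    fin_cases a <;> fin_cases b <;> simp [dir, wAx, wSg] at hax ⊢ <;> ring
  · show (if wAx (s.ρ 2) = 0 then _ else _) / _ = wSg (s.ρ 2) * (((d2 : ℤ) : ℝ) / _)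
    generalize s.ρ 0 = a at *
    generalize s.ρ 2 = b at *
    fin_cases a <;> fin_cases b <;> simp [dir, wAx, wSg] at hax ⊢ <;> ring

/-- the axes are permuted.  plan: `w_sym_opp`, injectivity of `ρ`, `fin_cases`. -/
theorem w_ax_bij {g : Grid G} (hG : G.bc = BC.per) (hM : 3 ≤ G.M) (s : GridSym g) : Function.Bijective fun i : Fin 2 => wAx (s.ρ (wPos i)) := by
  have hax := w_ell_sym_axes hG hM s
  refine Finite.injective_iff_bijective.1 ?_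
  intro i j h
  fin_cases i <;> fin_cases j
  · rfl
  · exact absurd h hax
  · exact absurd h.symm hax
  · rfl

/-- one difference is covariant -/
theorem w_pvec_sym_dif {g : Grid G} (s : GridSym g) (z : G.V → ℂ) (v : G.V) (e : Fin 4) :
    dif (dir (s.ρ e)) (G.lift (symF s z)) (G.ι (s.σ v)) = dif (dir e) (G.lift z) (G.ι v) := by
  simp only [dif, Geom.lift, symF]
  rw [← s.step, Equiv.symm_apply_apply, Reg.reg_pi_iota, Equiv.symm_apply_apply, Reg.reg_pi_iota]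

/-- the direction `(axis of a, β xor [a negative])` is `a` or its opposite -/
theorem w_pvec_sym_comb (a c : Fin 4) (h : dir c = -dir a) (β : Bool) :
    (if wAx a = 0 then (if xor β (decide (a = 1 ∨ a = 3)) then (1 : Fin 4) else 0)
      else (if xor β (decide (a = 1 ∨ a = 3)) then 3 else 2)) = (if β then c else a) ∧
    (if xor β (decide (a = 1 ∨ a = 3)) then (-1 : ℂ) else 1) = (wSg a : ℂ) * (if β then -1 else 1) := by
  fin_cases a <;> fin_cases c <;> cases β <;> simp [dir, wAx, wSg] at h ⊢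

/-- covariance of `pvec` for a given transformed sign vector -/
theorem w_pvec_sym_aux {g : Grid G} (hG : G.bc = BC.per) (hM : 3 ≤ G.M) (s : GridSym g) (z : G.V → ℂ) (v : G.V) (ε ε' : Fin 2 → Bool) (i : Fin 2)
    (h : ε' (wAx (s.ρ (wPos i))) = xor (ε i) (decide (s.ρ (wPos i) = 1 ∨ s.ρ (wPos i) = 3))) :
    pvec g (symF s z) (s.σ v) ε' (wAx (s.ρ (wPos i))) = (wSg (s.ρ (wPos i)) : ℂ) * pvec g z v ε i := by
  obtain ⟨o1, o3⟩ := Pack.sym_opp hG hM s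
  unfold pvec
  rw [h]
  fin_cases i
  · obtain ⟨c1, c2⟩ := w_pvec_sym_comb (s.ρ 0) (s.ρ 1) o1 (ε 0)
    show _ * (if xor (ε 0) (decide (s.ρ 0 = 1 ∨ s.ρ 0 = 3)) then (-1 : ℂ) else 1) * dif (dir (if wAx (s.ρ 0) = 0 then
      (if xor (ε 0) (decide (s.ρ 0 = 1 ∨ s.ρ 0 = 3)) then (1 : Fin 4) else 0)
        else (if xor (ε 0) (decide (s.ρ 0 = 1 ∨ s.ρ 0 = 3)) then 3 else 2))) _ _
      = (wSg (s.ρ 0) : ℂ) * (_ * (if ε 0 then (-1 : ℂ) else 1) * dif (dir (if ε 0 then 1 else 0)) _ _)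
    rw [c1, c2]
    have e : (if ε 0 then s.ρ 1 else s.ρ 0) = s.ρ (if ε 0 then 1 else 0) := by split_ifs <;> rfl
    rw [e, w_pvec_sym_dif]
    ring
  · obtain ⟨c1, c2⟩ := w_pvec_sym_comb (s.ρ 2) (s.ρ 3) o3 (ε 1)
    show _ * (if xor (ε 1) (decide (s.ρ 2 = 1 ∨ s.ρ 2 = 3)) then (-1 : ℂ) else 1) * dif (dir (if wAx (s.ρ 2) = 0 then
      (if xor (ε 1) (decide (s.ρ 2 = 1 ∨ s.ρ 2 = 3)) then (1 : Fin 4) else 0)
        else (if xor (ε 1) (decide (s.ρ 2 = 1 ∨ s.ρ 2 = 3)) then 3 else 2))) _ _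
      = (wSg (s.ρ 2) : ℂ) * (_ * (if ε 1 then (-1 : ℂ) else 1) * dif (dir (if ε 1 then 3 else 2)) _ _)
    rw [c1, c2]
    have e : (if ε 1 then s.ρ 3 else s.ρ 2) = s.ρ (if ε 1 then 3 else 2) := by split_ifs <;> rfl
    rw [e, w_pvec_sym_dif]
    ring

/-- plan: `pvec g z v ε i = m sgn (e) ∇_e z (v)`, `e` = the direction `(i, ε i)`; `w_sym_difs` (`r = 1`): `∇_{ρ e} (s z)(σ v) = ∇_e z (v)`; `ε' (axis (ρ e)) := [ρ e negative]`; `sgn (ρ e) sgn (e) = sgn (ρ (pos i))` by `w_sym_opp`. -/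
theorem w_pvec_sym {g : Grid G} (hG : G.bc = BC.per) (hM : 3 ≤ G.M) (s : GridSym g) : ∃ e : (Fin 2 → Bool) ≃ (Fin 2 → Bool), ∀ (z : G.V → ℂ) (v : G.V) (ε : Fin 2 → Bool) (i : Fin 2),
    pvec g (symF s z) (s.σ v) (e ε) (wAx (s.ρ (wPos i))) = (wSg (s.ρ (wPos i)) : ℂ) * pvec g z v ε i := by
  let α : Fin 2 ≃ Fin 2 := Equiv.ofBijective _ (w_ax_bij hG hM s)
  have hα : ∀ i, α i = wAx (s.ρ (wPos i)) := fun i => rfl
  let n : Fin 2 → Bool := fun i => decide (s.ρ (wPos i) = 1 ∨ s.ρ (wPos i) = 3)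
  refine ⟨{ toFun := fun ε i' => xor (ε (α.symm i')) (n (α.symm i')), invFun := fun ε' i => xor (ε' (α i)) (n i),
            left_inv := ?_, right_inv := ?_ }, ?_⟩
  · intro ε; funext i; simp
  · intro ε; funext i; simp
  · intro z v ε i
    refine w_pvec_sym_aux hG hM s z v ε _ i ?_
    show xor (ε (α.symm (wAx (s.ρ (wPos i))))) (n (α.symm (wAx (s.ρ (wPos i)))))
        = xor (ε i) (decide (s.ρ (wPos i) = 1 ∨ s.ρ (wPos i) = 3))
    rw [← hα, Equiv.symm_apply_apply]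

/-! ## LEAF `W-DX-1`: the matrices `D^X` do not depend on the anchor and are covariant -/

/-- plan: `w_DX_eq`, `w_D2_local` (`H = H_0^X`: `w_Hq_local`, `w_Hq_const`), `w_ell_anchor`, `w_near_dist`. -/
theorem w_DX_anchor (h : Ctx c p gs S) {Rm : Act S.P.g} (hR : Adm p c gs Rm) (hfin : actNorm p S.P.g S.Vf Rm ≠ ⊤) {X : Finset S.P.g.I} (hX : X ∈ S.small c)
    {v0 v1 : G.V} (h0 : v0 ∈ S.P.g.sites X) (h1 : v1 ∈ S.P.g.sites X) (i j : Fin 2) :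
    DX S.P.g v1 (S.Hq p.ω 0 Rm X) i j = DX S.P.g v0 (S.Hq p.ω 0 Rm X) i j := by
  have h01 : 4 * G.dist v0 v1 < G.M := w_near_dist h hX h0 ⟨v1, h1, by rw [Reg.reg_dist_self]; exact Nat.zero_le _⟩
  obtain ⟨k, hk⟩ := w_ell_anchor S.P.g h.ok.per v0 v1 h01 i
  obtain ⟨k', hk'⟩ := w_ell_anchor S.P.g h.ok.per v0 v1 h01 j
  rw [w_DX_eq, w_DX_eq]
  refine w_D2_local h.hh (w_Hq_local h hR hfin 0 X) (fun z hz a hz' => w_Hq_const h hR X a hz hz') _ _ _ _ (k : ℂ) (k' : ℂ) ?_ ?_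
  · intro v hv
    show ((ell S.P.g v1 i v : ℝ) : ℂ) = ((ell S.P.g v0 i v : ℝ) : ℂ) + (k : ℂ)
    rw [hk v (w_near_dist h hX h0 hv)]
    push_cast
    ring
  · intro v hv
    show ((ell S.P.g v1 j v : ℝ) : ℂ) = ((ell S.P.g v0 j v : ℝ) : ℂ) + (k' : ℂ)
    rw [hk' v (w_near_dist h hX h0 hv)]
    push_cast
    ring

/-- the signs square to one -/
theorem w_sg_sq (e : Fin 4) : (wSg e : ℂ) * (wSg e : ℂ) = 1 := by
  unfold wSg
  split_ifs <;> norm_num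

/-- homogeneity of `D2` in both directions -/
theorem w_D2_smul_smul (H : Fn G) (a b : G.V → ℂ) (k k' : ℂ) : D2 H (k • a) (k' • b) = k * k' * D2 H a b := by
  unfold D2
  have h1 := (iteratedFDeriv ℂ 2 H 0).map_smul_univ ![k, k'] ![a, b]
  have h2 : (fun i => ![k, k'] i • ![a, b] i) = ![k • a, k' • b] := by
    funext i
    fin_cases i <;> rfl
  rw [h2] at h1
  rw [h1, Fin.prod_univ_two]
  simp

/-- plan: `H = H' ∘ Λ` on the strip of `X`, `Λ = symF s`, `H' = H_0^{sX}` (`w_Hq_sym`); `w_D2_congr`, `w_D2_comp`: `D2 H a b = D2 H' (Λ a) (Λ b)`; `Λ ℓ_i^{v0} = sgn · ℓ_{i'}^{σ v0}` near `sX` (`w_ell_sym`, `w_near_dist`, `w_sym_dist`, `w_sym_sites`);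
`w_D2_local`, `w_D2_bilin`. -/
theorem w_DX_sym (h : Ctx c p gs S) {Rm : Act S.P.g} (hR : Adm p c gs Rm) (hfin : actNorm p S.P.g S.Vf Rm ≠ ⊤) (s : GridSym S.P.g) (hs : s.Pres gs)
    {X : Finset S.P.g.I} (hX : X ∈ S.small c) {v0 : G.V} (h0 : v0 ∈ S.P.g.sites X) (i j : Fin 2) :
    DX S.P.g (s.σ v0) (S.Hq p.ω 0 Rm (symX s X)) (wAx (s.ρ (wPos i))) (wAx (s.ρ (wPos j)))
      = (wSg (s.ρ (wPos i)) : ℂ) * (wSg (s.ρ (wPos j)) : ℂ) * DX S.P.g v0 (S.Hq p.ω 0 Rm X) i j := by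
  classical
  have hper : G.bc = BC.per := h.ok.per
  have hM := h.hM
  set Λ : (G.V → ℂ) →ₗ[ℂ] (G.V → ℂ) := LinearMap.funLeft ℂ ℂ (s.σ.symm : G.V → G.V) with hΛ
  have hloc' : LocalFn p c.col S.P.g (symX s X) (S.Hq p.ω 0 Rm (symX s X)) :=
    w_Hq_local h hR hfin 0 (symX s X)
  have e1 : ∀ a b, D2 (S.Hq p.ω 0 Rm X) a b = D2 (S.Hq p.ω 0 Rm (symX s X)) (Λ a) (Λ b) := by
    intro a b
    rw [← w_D2_comp (strip_isOpen p.h0 S.P.g (symX s X)) (w_zero_mem_strip h.hh S.P.g _) hloc'.hol Λ a b]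
    exact w_D2_congr (strip_isOpen p.h0 S.P.g X) (w_zero_mem_strip h.hh S.P.g X)
      (fun z hz => (w_Hq_sym h hR s hs 0 X hz).symm) a b
  have e2 : ∀ i : Fin 2, ∀ v, (∃ w ∈ S.P.g.sites (symX s X), G.dist w v ≤ c.col) →
      toC (ell S.P.g (s.σ v0) (wAx (s.ρ (wPos i)))) v
        = ((wSg (s.ρ (wPos i)) : ℂ) • Λ (toC (ell S.P.g v0 i))) v + 0 := by
    rintro i v ⟨w, hw, hwv⟩
    rw [w_sym_sites, Finset.mem_map] at hw
    obtain ⟨w0, hw0, rfl⟩ := hw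
    have hv : Near S.P.g c.col X (s.σ.symm v) := ⟨w0, hw0, by
      rw [← w_sym_dist hper hM s w0 (s.σ.symm v), Equiv.apply_symm_apply]
      exact hwv⟩
    have h4 := w_near_dist h hX h0 hv
    have h5 := w_ell_sym (g := S.P.g) hper hM s v0 (s.σ.symm v) (by omega) i
    rw [Equiv.apply_symm_apply] at h5
    show ((ell S.P.g (s.σ v0) (wAx (s.ρ (wPos i))) v : ℝ) : ℂ)
      = (wSg (s.ρ (wPos i)) : ℂ) * ((ell S.P.g v0 i (s.σ.symm v) : ℝ) : ℂ) + 0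
    rw [h5, add_zero]
    push_cast
    rfl
  rw [w_DX_eq, w_DX_eq, e1, ← w_D2_smul_smul]
  exact w_D2_local h.hh hloc' (fun z hz k hz' => w_Hq_const h hR (symX s X) k hz hz') _ _ _ _ 0 0
    (e2 i) (e2 j)

/-- covariance of the localised pieces.  plan: unfold `Loc`; `H_0^{sX} (0) = H_0^X (0)` (`w_Hq_sym` at `0`); sites of `τ B` = image of the sites of `B` (`w_sym_sites`); reindex `ε` by `w_pvec_sym`, `(i, j)` by `w_ax_bij`;
`w_DX_sym` + `w_DX_anchor` (`σ (anchor X)` and `anchor (sX)` are two sites of `sX`); the signs square to `1`. -/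
theorem w_Loc_sym (h : Ctx c p gs S) {Rm : Act S.P.g} (hR : Adm p c gs Rm) (hfin : actNorm p S.P.g S.Vf Rm ≠ ⊤) (s : GridSym S.P.g) (hs : s.Pres gs)
    {X : Finset S.P.g.I} (hX : X ∈ S.small c) (B : S.P.g.I) (z : G.V → ℂ) :
    Loc S.P.g (symX s X) (anchor S.P.g (symX s X)) (S.Hq p.ω 0 Rm (symX s X)) (s.τ B) (symF s z) = Loc S.P.g X (anchor S.P.g X) (S.Hq p.ω 0 Rm X) B z := by
  classical
  have hper : G.bc = BC.per := h.ok.per
  have hM := h.hM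
  have hsX : symX s X ∈ S.small c := (w_small_sym h s X).2 hX
  have hcard : (symX s X).card = X.card := by
    unfold symX
    rw [Finset.card_map]
  have hH0 : S.Hq p.ω 0 Rm (symX s X) 0 = S.Hq p.ω 0 Rm X 0 := by
    have h1 := w_Hq_sym h hR s hs 0 X (w_zero_mem_strip h.hh S.P.g X)
    have h2 : symF s (0 : G.V → ℂ) = 0 := funext fun _ => rfl
    rwa [h2] at h1
  have hsites : S.P.g.sites {s.τ B} = (S.P.g.sites {B}).map s.σ.toEmbedding := by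
    rw [← w_sym_sites]
    unfold symX
    rw [Finset.map_singleton]
    rfl
  obtain ⟨e, he⟩ := w_pvec_sym (g := S.P.g) hper hM s
  set β : Fin 2 ≃ Fin 2 := Equiv.ofBijective _ (w_ax_bij (g := S.P.g) hper hM s) with hβ
  have hβa : ∀ i, β i = wAx (s.ρ (wPos i)) := fun i => rfl
  have hanc : s.σ (anchor S.P.g X) ∈ S.P.g.sites (symX s X) := by
    rw [w_sym_sites, Finset.mem_map]
    exact ⟨_, w_anchor_mem h hX, rfl⟩
  have hDX : ∀ i j, DX S.P.g (anchor S.P.g (symX s X)) (S.Hq p.ω 0 Rm (symX s X)) (β i) (β j)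
      = (wSg (s.ρ (wPos i)) : ℂ) * (wSg (s.ρ (wPos j)) : ℂ)
        * DX S.P.g (anchor S.P.g X) (S.Hq p.ω 0 Rm X) i j := by
    intro i j
    rw [w_DX_anchor h hR hfin hsX hanc (w_anchor_mem h hsX), hβa, hβa,
      w_DX_sym h hR hfin s hs hX (w_anchor_mem h hX)]
  unfold Loc
  rw [hcard, hH0, hsites, Finset.sum_map]
  congr 3
  refine Finset.sum_congr rfl fun v _ => ?_
  congr 1
  rw [← e.sum_comp]
  refine Finset.sum_congr rfl fun ε _ => ?_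
  rw [← β.sum_comp]
  refine Finset.sum_congr rfl fun i _ => ?_
  rw [← β.sum_comp]
  refine Finset.sum_congr rfl fun j _ => ?_
  rw [hDX, hβa, hβa]
  show pvec S.P.g (symF s z) (s.σ v) (e ε) (wAx (s.ρ (wPos i))) * _ *
    pvec S.P.g (symF s z) (s.σ v) (e ε) (wAx (s.ρ (wPos j))) = _
  rw [he, he]
  have h1 := w_sg_sq (s.ρ (wPos i))
  have h2 := w_sg_sq (s.ρ (wPos j))
  linear_combination (pvec S.P.g z v ε i * DX S.P.g (anchor S.P.g X) (S.Hq p.ω 0 Rm X) i j * pvec S.P.g z v ε j) * ((wSg (s.ρ (wPos j)) : ℂ) * (wSg (s.ρ (wPos j)) : ℂ) * h1 + h2)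

/-! ## LEAF `W-DES-1`: linearity of the designated data (EXACT identities) -/

theorem w_des_DX_add (h : Ctx c p gs S) {Rm Rm' : Act S.P.g} (hR : Adm p c gs Rm) (hR' : Adm p c gs Rm') (hfin : actNorm p S.P.g S.Vf Rm ≠ ⊤)
    (hfin' : actNorm p S.P.g S.Vf Rm' ≠ ⊤) (X : Finset S.P.g.I) (v0 : G.V) (i j : Fin 2) :
    DX S.P.g v0 (S.Hq p.ω 0 (Rm + Rm') X) i j = DX S.P.g v0 (S.Hq p.ω 0 Rm X) i j + DX S.P.g v0 (S.Hq p.ω 0 Rm' X) i j := by
  have hU := Hol.strip_isOpen p.h0 S.P.g X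
  have h0 := w_zero_mem_strip h.hh S.P.g X
  rw [w_DX_eq, w_DX_eq, w_DX_eq, ← w_D2_add hU h0 (w_Hq_local h hR hfin 0 X).hol (w_Hq_local h hR' hfin' 0 X).hol]
  exact w_D2_congr hU h0 (fun z hz => w_Hq_add h hR hR' hfin hfin' 0 X hz) _ _

theorem w_des_DX_smul (h : Ctx c p gs S) (a : ℂ) {Rm : Act S.P.g} (hR : Adm p c gs Rm) (hfin : actNorm p S.P.g S.Vf Rm ≠ ⊤)
    (X : Finset S.P.g.I) (v0 : G.V) (i j : Fin 2) :
    DX S.P.g v0 (S.Hq p.ω 0 (a • Rm) X) i j = a * DX S.P.g v0 (S.Hq p.ω 0 Rm X) i j := by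
  rw [w_Hq_smul, w_DX_eq, w_DX_eq]
  exact w_D2_smul (Hol.strip_isOpen p.h0 S.P.g X) (w_zero_mem_strip h.hh S.P.g X) (w_Hq_local h hR hfin 0 X).hol a _ _

/-- `Loc` is linear in `(H 0, DX)` -/
theorem w_des_Loc_add (g : Grid G) (X : Finset g.I) (v0 : G.V) (H H' H'' : Fn G) (B : g.I) (h0 : H'' 0 = H 0 + H' 0)
    (hD : ∀ i j, DX g v0 H'' i j = DX g v0 H i j + DX g v0 H' i j) : Loc g X v0 H'' B = Loc g X v0 H B + Loc g X v0 H' B := by
  funext z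
  show Loc g X v0 H'' B z = Loc g X v0 H B z + Loc g X v0 H' B z
  unfold Loc
  simp only [h0, hD, mul_add, add_mul, Finset.sum_add_distrib]
  ring

theorem w_des_Loc_smul (g : Grid G) (X : Finset g.I) (v0 : G.V) (a : ℂ) (H H'' : Fn G) (B : g.I) (h0 : H'' 0 = a * H 0)
    (hD : ∀ i j, DX g v0 H'' i j = a * DX g v0 H i j) : Loc g X v0 H'' B = a • Loc g X v0 H B := by
  funext z
  show Loc g X v0 H'' B z = a * Loc g X v0 H B z
  unfold Loc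
  simp only [h0, hD]
  have hsum : ∑ v ∈ g.sites {B}, (1 / 4 : ℂ) * ∑ ε : Fin 2 → Bool, ∑ i, ∑ j, pvec g z v ε i * (a * DX g v0 H i j) * pvec g z v ε j
      = a * ∑ v ∈ g.sites {B}, (1 / 4 : ℂ) * ∑ ε : Fin 2 → Bool, ∑ i, ∑ j, pvec g z v ε i * DX g v0 H i j * pvec g z v ε j := by
    simp only [Finset.mul_sum]
    refine Finset.sum_congr rfl fun v _ => Finset.sum_congr rfl fun ε _ => Finset.sum_congr rfl fun i _ =>
      Finset.sum_congr rfl fun j _ => ?_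
    ring
  rw [hsum]
  ring

/-- plan: `w_Hq_add` at `0` and on the strip (`w_D2_congr`, `w_D2_add`); `Loc` is linear in `(H 0, DX)`. -/
theorem w_piece_add (h : Ctx c p gs S) (cosOn : Bool) {Rm Rm' : Act S.P.g} (hR : Adm p c gs Rm) (hR' : Adm p c gs Rm') (hfin : actNorm p S.P.g S.Vf Rm ≠ ⊤)
    (hfin' : actNorm p S.P.g S.Vf Rm' ≠ ⊤) (X : Finset S.P.g.I) (B : S.P.g.I) :
    S.piece p.ω cosOn (Rm + Rm') X B = S.piece p.ω cosOn Rm X B + S.piece p.ω cosOn Rm' X B := by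
  have h0 := w_zero_mem_strip h.hh S.P.g X
  have hq : ∀ q : ℤ, S.Hq p.ω q (Rm + Rm') X 0 = S.Hq p.ω q Rm X 0 + S.Hq p.ω q Rm' X 0 :=
    fun q => w_Hq_add h hR hR' hfin hfin' q X h0
  unfold Step.piece
  rw [w_des_Loc_add S.P.g X (anchor S.P.g X) (S.Hq p.ω 0 Rm X) (S.Hq p.ω 0 Rm' X) _ B (hq 0)
    (fun i j => w_des_DX_add h hR hR' hfin hfin' X _ i j), hq 1, hq (-1)]
  cases cosOn
  · simp
  · simp only [if_true]
    funext z
    simp only [Pi.add_apply, Pi.smul_apply, smul_eq_mul]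
    ring

theorem w_piece_smul (h : Ctx c p gs S) (cosOn : Bool) (a : ℂ) {Rm : Act S.P.g} (hR : Adm p c gs Rm) (hfin : actNorm p S.P.g S.Vf Rm ≠ ⊤)
    (X : Finset S.P.g.I) (B : S.P.g.I) : S.piece p.ω cosOn (a • Rm) X B = a • S.piece p.ω cosOn Rm X B := by
  have hq : ∀ q : ℤ, S.Hq p.ω q (a • Rm) X 0 = a * S.Hq p.ω q Rm X 0 := fun q => by
    rw [w_Hq_smul]
    rfl
  unfold Step.piece
  rw [w_des_Loc_smul S.P.g X (anchor S.P.g X) a (S.Hq p.ω 0 Rm X) _ B (hq 0)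
    (fun i j => w_des_DX_smul h a hR hfin X _ i j), hq 1, hq (-1)]
  cases cosOn
  · simp
  · simp only [if_true]
    funext z
    simp only [Pi.add_apply, Pi.smul_apply, smul_eq_mul]
    ring

/-- plan: `w_piece_add`, `w_Hq_add` at `0`, `w_conv_single`; `Finset.sum_add_distrib`. -/
theorem w_desig_add (h : Ctx c p gs S) (cosOn : Bool) (x y : ℂ × ℂ × Act S.P.g) (hx : Adm p c gs x.2.2) (hy : Adm p c gs y.2.2)
    (hfx : actNorm p S.P.g S.Vf x.2.2 ≠ ⊤) (hfy : actNorm p S.P.g S.Vf y.2.2 ≠ ⊤) :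
    (S.desig c p.ω cosOn (x + y)).F = (S.desig c p.ω cosOn x).F + (S.desig c p.ω cosOn y).F ∧
    (S.desig c p.ω cosOn (x + y)).a = (S.desig c p.ω cosOn x).a + (S.desig c p.ω cosOn y).a := by
  classical
  constructor
  · funext Y b
    show (S.desig c p.ω cosOn (x + y)).F Y b = (S.desig c p.ω cosOn x).F Y b + (S.desig c p.ω cosOn y).F Y b
    unfold Step.desig
    simp only [Prod.fst_add, Prod.snd_add, w_piece_add h cosOn hx hy hfx hfy, Finset.sum_add_distrib]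
    have hB : ∑ B ∈ Finset.univ.filter (fun B => S.P.N.up B = b),
          conv S.Γ (((x.1 + y.1) / 2) • eBC S.P.g B + (x.2.1 + y.2.1) • cBC S.P.g (Step.alpha p.ω) B)
        = ∑ B ∈ Finset.univ.filter (fun B => S.P.N.up B = b), conv S.Γ ((x.1 / 2) • eBC S.P.g B + x.2.1 • cBC S.P.g (Step.alpha p.ω) B)
          + ∑ B ∈ Finset.univ.filter (fun B => S.P.N.up B = b), conv S.Γ ((y.1 / 2) • eBC S.P.g B + y.2.1 • cBC S.P.g (Step.alpha p.ω) B) := by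
      rw [← Finset.sum_add_distrib]
      refine Finset.sum_congr rfl fun B _ => ?_
      rw [w_conv_single _ _ h.psd, w_conv_single _ _ h.psd, w_conv_single _ _ h.psd, add_div, add_smul, add_smul]
      abel
    rw [hB]
    by_cases hY : Y = {b}
    · simp only [hY, if_true]
      abel
    · simp only [hY, if_false, add_zero]
  · funext b
    show (S.desig c p.ω cosOn (x + y)).a b = (S.desig c p.ω cosOn x).a b + (S.desig c p.ω cosOn y).a b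
    unfold Step.desig
    simp only [Prod.fst_add, Prod.snd_add, w_Hq_add h hx hy hfx hfy 0 _ (w_zero_mem_strip h.hh S.P.g _), mul_add, add_div, add_mul,
      Finset.sum_add_distrib]
    ring

theorem w_desig_smul (h : Ctx c p gs S) (cosOn : Bool) (a : ℂ) (x : ℂ × ℂ × Act S.P.g) (hx : Adm p c gs x.2.2) (hfx : actNorm p S.P.g S.Vf x.2.2 ≠ ⊤) :
    (S.desig c p.ω cosOn (a • x)).F = a • (S.desig c p.ω cosOn x).F ∧ (S.desig c p.ω cosOn (a • x)).a = a • (S.desig c p.ω cosOn x).a := by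
  classical
  have hq : ∀ X, S.Hq p.ω 0 (a • x.2.2) X 0 = a * S.Hq p.ω 0 x.2.2 X 0 := fun X => by
    rw [w_Hq_smul]
    rfl
  constructor
  · funext Y b
    show (S.desig c p.ω cosOn (a • x)).F Y b = a • (S.desig c p.ω cosOn x).F Y b
    unfold Step.desig
    simp only [Prod.smul_fst, Prod.smul_snd, w_piece_smul h cosOn a hx hfx, w_conv_single _ _ h.psd, smul_add, Finset.smul_sum]
    by_cases hY : Y = {b}
    · simp only [hY, if_true, Finset.smul_sum, smul_add, smul_smul, smul_eq_mul]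
      congr 1
      refine Finset.sum_congr rfl fun B _ => ?_
      congr 2
      ring
    · simp only [hY, if_false, smul_zero]
  · funext b
    show (S.desig c p.ω cosOn (a • x)).a b = a * (S.desig c p.ω cosOn x).a b
    unfold Step.desig
    simp only [Prod.smul_fst, Prod.smul_snd, hq, smul_eq_mul, mul_add, Finset.mul_sum]
    congr 1
    · refine Finset.sum_congr rfl fun X _ => Finset.sum_congr rfl fun B _ => ?_
      ring
    · refine Finset.sum_congr rfl fun B _ => ?_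
      ring

/-- plan: unfold `Pt`, `Pz`; `w_Hq_add`, `w_D2_add`. -/
theorem w_Pt_add (h : Ctx c p gs S) {Rm Rm' : Act S.P.g} (hR : Adm p c gs Rm) (hR' : Adm p c gs Rm') (hfin : actNorm p S.P.g S.Vf Rm ≠ ⊤)
    (hfin' : actNorm p S.P.g S.Vf Rm' ≠ ⊤) :
    S.Pt c p.ω (Rm + Rm') = S.Pt c p.ω Rm + S.Pt c p.ω Rm' ∧ S.Pz c p.ω (Rm + Rm') = S.Pz c p.ω Rm + S.Pz c p.ω Rm' := by
  classical
  constructor
  · unfold Step.Pt
    simp only [w_des_DX_add h hR hR' hfin hfin', mul_add, Finset.sum_add_distrib]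
  · unfold Step.Pz
    simp only [w_Hq_add h hR hR' hfin hfin' _ _ (w_zero_mem_strip h.hh S.P.g _)]
    rw [← mul_add, ← Finset.sum_add_distrib]
    congr 1
    refine Finset.sum_congr rfl fun X _ => ?_
    ring

theorem w_Pt_smul (h : Ctx c p gs S) (a : ℂ) {Rm : Act S.P.g} (hR : Adm p c gs Rm) (hfin : actNorm p S.P.g S.Vf Rm ≠ ⊤) :
    S.Pt c p.ω (a • Rm) = a * S.Pt c p.ω Rm ∧ S.Pz c p.ω (a • Rm) = a * S.Pz c p.ω Rm := by
  classical
  have hq : ∀ (q : ℤ) X, S.Hq p.ω q (a • Rm) X 0 = a * S.Hq p.ω q Rm X 0 := fun q X => by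
    rw [w_Hq_smul]
    rfl
  constructor
  · unfold Step.Pt
    simp only [w_des_DX_smul h a hR hfin, Finset.mul_sum]
    refine Finset.sum_congr rfl fun i _ => Finset.sum_congr rfl fun X _ => ?_
    ring
  · unfold Step.Pz
    simp only [hq, Finset.mul_sum]
    refine Finset.sum_congr rfl fun X _ => ?_
    ring

/-! ## LEAF `W-DES-2`: admissibility of the designated data -/

/-- plan: a label `Y` with `F Y b ≠ 0` is `cl X`, `X` small, `b = up B ∈ cl X` (`h.ok.diam`), or `{b}` (`w_conn_singleton`, `idiam {b} = 0`). -/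
theorem w_desig_small (h : Ctx c p gs S) (cosOn : Bool) (x : ℂ × ℂ × Act S.P.g) : (S.desig c p.ω cosOn x).Small c.r S.P.g' := by
  classical
  intro Y b hYb
  have h1 : (∑ X ∈ (S.small c).filter (fun X => S.P.N.cl X = Y), ∑ B ∈ X.filter (fun B => S.P.N.up B = b),
      S.piece p.ω cosOn x.2.2 X B) = 0 := by
    refine Finset.sum_eq_zero fun X hX => ?_
    rw [Finset.mem_filter, w_mem_small] at hX
    obtain ⟨⟨hc, hn⟩, rfl⟩ := hX
    have hd := h.ok.diam X hc hn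
    refine Finset.sum_eq_zero fun B hB => ?_
    rw [Finset.mem_filter] at hB
    exact absurd ⟨hd.2, hd.1, by rw [← hB.2]; exact Finset.mem_image_of_mem _ hB.1⟩ hYb
  have h2 : Y ≠ {b} := by
    rintro rfl
    refine hYb ⟨w_conn_singleton _ _ b, ?_, Finset.mem_singleton_self b⟩
    simp [Grid.idiam, Hol.idist_self]
  show (∑ X ∈ (S.small c).filter (fun X => S.P.N.cl X = Y), ∑ B ∈ X.filter (fun B => S.P.N.up B = b),
      S.piece p.ω cosOn x.2.2 X B) + (if Y = {b} then _ else 0) = 0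
  rw [if_neg h2, add_zero]
  convert h1

/-! ### helpers of `w_desig_fn` (helper282) -/

theorem w_df_dist_nb (v : G.V) (e : Fin 4) : G.dist v (Reg.regNb G v e) ≤ 1 := by
  refine (Reg.regl_dist_le G v (G.ι v + dir e)).trans ?_
  fin_cases e <;> simp [dir]

theorem w_df_pvec_congr (g : Grid G) {z z' : G.V → ℂ} {v : G.V} (h : ∀ w, G.dist v w ≤ 1 → z w = z' w) (ε : Fin 2 → Bool) (i : Fin 2) :
    pvec g z v ε i = pvec g z' v ε i := by
  unfold pvec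
  rw [Reg.reg_dif_lift, Reg.reg_dif_lift, h _ (w_df_dist_nb v _), h v (by rw [Reg.reg_dist_self]; exact Nat.zero_le _)]

theorem w_df_pvec_const (g : Grid G) (z : G.V → ℂ) (a : ℂ) (v : G.V) (ε : Fin 2 → Bool) (i : Fin 2) :
    pvec g (fun w => z w + a) v ε i = pvec g z v ε i := by
  unfold pvec
  rw [Reg.reg_dif_lift, Reg.reg_dif_lift, add_sub_add_right_eq_sub]

/-- `Loc .. B` is a polynomial in the differences at the sites of `B` -/
theorem w_df_Loc (p : Par) (col : ℕ) (hcol : 1 ≤ col) (g : Grid G) (X : Finset g.I) (v0 : G.V) (H : Fn G) (B : g.I) :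
    LocalFn p col g {B} (Loc g X v0 H B) where
  hol := by
    have : Differentiable ℂ (Loc g X v0 H B) := by
      unfold Loc pvec dif Geom.lift
      fun_prop
    exact this.differentiableOn
  loc := fun z _ z' _ hzz => by
    have e : ∀ v ∈ g.sites {B}, ∀ ε i, pvec g z v ε i = pvec g z' v ε i := fun v hv ε i =>
      w_df_pvec_congr g (fun w hw => hzz w ⟨v, hv, hw.trans hcol⟩) ε i
    have e' : ∀ v ∈ g.sites {B},
        (1 / 4 : ℂ) * ∑ ε : Fin 2 → Bool, ∑ i, ∑ j, pvec g z v ε i * DX g v0 H i j * pvec g z v ε j =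
          (1 / 4 : ℂ) * ∑ ε : Fin 2 → Bool, ∑ i, ∑ j, pvec g z' v ε i * DX g v0 H i j * pvec g z' v ε j :=
      fun v hv => by simp only [e v hv]
    unfold Loc
    rw [Finset.sum_congr rfl e']
  per := fun z _ => by
    unfold Loc
    simp only [w_df_pvec_const]

/-- plan: `Loc .. B` is a polynomial in the differences at the sites of `B ⊂ b` (entire, local with collar `1 ≤ col`, blind to constants); `cBC`: `w_cBC_local` + `w_localFn_coarse`; the last term by `w_conv_single`, `w_conv_eBC`, `w_conv_cBC`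
(`h.ok.diag`), `w_eBC_local`. -/
theorem w_desig_fn (h : Ctx c p gs S) (cosOn : Bool) (x : ℂ × ℂ × Act S.P.g) (Y : Finset S.P.g'.I) (b : S.P.g'.I) :
    LocalFn p c.col S.P.g' {b} ((S.desig c p.ω cosOn x).F Y b) := by
  classical
  have hcol := h.geo.col_pos
  have hup : ∀ B : S.P.g.I, S.P.N.up B = b → S.P.N.cl {B} ⊆ {b} := by
    intro B hB
    unfold Nest.cl
    rw [Finset.image_singleton, hB]
  have hpiece : ∀ X B, S.P.N.up B = b → LocalFn p c.col S.P.g' {b} (S.piece p.ω cosOn x.2.2 X B) := by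
    intro X B hB
    refine w_localFn_coarse S.P p c.col (hup B hB) ?_
    unfold Step.piece
    refine w_localFn_add p c.col _ _ (w_df_Loc p c.col hcol _ _ _ _ _) ?_
    split_ifs
    · exact w_localFn_smul p c.col _ _ _ (w_cBC_local p h.hω c.col _ B)
    · exact w_localFn_zero _ _ _ _
  unfold Step.desig
  refine w_localFn_add _ _ _ _ (w_localFn_sum _ _ _ _ _ _ fun X _ => w_localFn_sum _ _ _ _ _ _ fun B hB =>
    hpiece X B (Finset.mem_filter.1 hB).2) ?_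
  split_ifs
  · refine w_localFn_sum _ _ _ _ _ _ fun B hB => ?_
    refine w_localFn_coarse S.P p c.col (hup B (Finset.mem_filter.1 hB).2) ?_
    rw [w_conv_single _ _ h.psd]
    refine w_localFn_add _ _ _ _ (w_localFn_smul _ _ _ _ _ ?_) (w_localFn_smul _ _ _ _ _ ?_)
    · have e : conv S.Γ (eBC S.P.g B) = eBC S.P.g B + fun _ => conv S.Γ (eBC S.P.g B) 0 :=
        funext fun z => w_conv_eBC _ _ h.psd B z
      rw [e]
      exact w_localFn_add _ _ _ _ (w_eBC_local p c.col hcol _ B) (Scal.localFn_const _ _ _ _ _)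
    · have e : conv S.Γ (cBC S.P.g (Step.alpha p.ω) B) =
          ((Real.exp (-(Step.alpha p.ω) ^ 2 * S.Γ (org G) (org G) / 2) : ℝ) : ℂ) • cBC S.P.g (Step.alpha p.ω) B :=
        funext fun z => w_conv_cBC _ _ h.psd _ h.ok.diag _ B z
      rw [e]
      exact w_localFn_smul _ _ _ _ _ (w_cBC_local p h.hω c.col _ B)
  · exact w_localFn_zero _ _ _ _

/-- PROVED -/
theorem w_desig_ok (h : Ctx c p gs S) (cosOn : Bool) (x : ℂ × ℂ × Act S.P.g) (ha : ∀ b, ‖(S.desig c p.ω cosOn x).a b‖ ≤ 1 / 2) :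
    (S.desig c p.ω cosOn x).Ok p c.col c.r where
  small := w_desig_small h cosOn x
  fn := w_desig_fn h cosOn x
  ne := fun b hb => by
    have h1 : (S.desig c p.ω cosOn x).a b = -1 := by linear_combination hb
    have h2 := ha b
    rw [h1, norm_neg, norm_one] at h2
    norm_num at h2

/-! ## LEAF `W-DES-3`: sizes -/

/-- the local gradient energy of a complex field at one site -/
def wSv (z : G.V → ℂ) (v : G.V) : ℝ := ∑ e : Fin 4, ‖dif (dir e) (G.lift z) (G.ι v)‖ ^ 2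

theorem w_ls_Sv_nonneg (z : G.V → ℂ) (v : G.V) : 0 ≤ wSv z v := Finset.sum_nonneg fun _ _ => sq_nonneg _

theorem w_ls_pvec_le (g : Grid G) (z : G.V → ℂ) (v : G.V) (ε : Fin 2 → Bool) (i : Fin 2) :
    ‖pvec g z v ε i‖ ≤ g.m * Real.sqrt (wSv z v) := by
  unfold pvec
  rw [norm_mul, norm_mul]
  have h1 : ‖((g.m : ℕ) : ℂ)‖ = g.m := by simp
  have h2 : ‖(if ε i then (-1 : ℂ) else 1)‖ = 1 := by split_ifs <;> simp
  rw [h1, h2, mul_one]
  refine mul_le_mul_of_nonneg_left (Real.le_sqrt_of_sq_le ?_) (Nat.cast_nonneg _)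
  exact Finset.single_le_sum (f := fun e : Fin 4 => ‖dif (dir e) (G.lift z) (G.ι v)‖ ^ 2) (fun _ _ => sq_nonneg _) (Finset.mem_univ _)

theorem w_ls_quad_le (g : Grid G) (z : G.V → ℂ) (v : G.V) (D : Fin 2 → Fin 2 → ℂ) :
    ‖(1 / 4 : ℂ) * ∑ ε : Fin 2 → Bool, ∑ i, ∑ j, pvec g z v ε i * D i j * pvec g z v ε j‖
      ≤ (g.m : ℝ) ^ 2 * wSv z v * ∑ i, ∑ j, ‖D i j‖ := by
  have hS := w_ls_Sv_nonneg z v
  have hterm : ∀ (ε : Fin 2 → Bool) (i j : Fin 2), ‖pvec g z v ε i * D i j * pvec g z v ε j‖ ≤ (g.m : ℝ) ^ 2 * wSv z v * ‖D i j‖ := by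
    intro ε i j
    rw [norm_mul, norm_mul]
    have a1 := w_ls_pvec_le g z v ε i
    have a2 := w_ls_pvec_le g z v ε j
    have a3 : ‖pvec g z v ε i‖ * ‖pvec g z v ε j‖ ≤ (g.m * Real.sqrt (wSv z v)) * (g.m * Real.sqrt (wSv z v)) :=
      mul_le_mul a1 a2 (norm_nonneg _) (by positivity)
    have a4 : (g.m * Real.sqrt (wSv z v)) * (g.m * Real.sqrt (wSv z v)) = (g.m : ℝ) ^ 2 * wSv z v := by
      have := Real.mul_self_sqrt hS
      calc _ = (g.m : ℝ) ^ 2 * (Real.sqrt (wSv z v) * Real.sqrt (wSv z v)) := by ring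
        _ = _ := by rw [this]
    calc ‖pvec g z v ε i‖ * ‖D i j‖ * ‖pvec g z v ε j‖ = (‖pvec g z v ε i‖ * ‖pvec g z v ε j‖) * ‖D i j‖ := by ring
      _ ≤ _ := mul_le_mul_of_nonneg_right (a3.trans_eq a4) (norm_nonneg _)
  have hε : ∀ ε : Fin 2 → Bool, ‖∑ i, ∑ j, pvec g z v ε i * D i j * pvec g z v ε j‖ ≤ (g.m : ℝ) ^ 2 * wSv z v * ∑ i, ∑ j, ‖D i j‖ := by
    intro ε
    rw [Finset.mul_sum]
    refine norm_sum_le_of_le _ fun i _ => ?_
    rw [Finset.mul_sum]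
    exact norm_sum_le_of_le _ fun j _ => hterm ε i j
  rw [norm_mul]
  have h14 : ‖(1 / 4 : ℂ)‖ = 1 / 4 := by simp
  rw [h14]
  have hsum : ‖∑ ε : Fin 2 → Bool, ∑ i, ∑ j, pvec g z v ε i * D i j * pvec g z v ε j‖
      ≤ ∑ _ε : Fin 2 → Bool, (g.m : ℝ) ^ 2 * wSv z v * ∑ i, ∑ j, ‖D i j‖ := norm_sum_le_of_le _ fun ε _ => hε ε
  rw [Finset.sum_const, Finset.card_univ] at hsum
  have hc : Fintype.card (Fin 2 → Bool) = 4 := by simp
  rw [hc] at hsum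
  simp only [nsmul_eq_mul] at hsum
  push_cast at hsum
  linarith

/-- the pointwise bound of a localised piece -/
theorem w_ls_Loc_le (g : Grid G) (hg : g.Ok) (X : Finset g.I) (v0 : G.V) (H : Fn G) (B : g.I) (z : G.V → ℂ) :
    ‖Loc g X v0 H B z‖ ≤ ‖H 0‖ + (1 / 2) * (∑ v ∈ g.sites {B}, wSv z v) * ∑ i, ∑ j, ‖DX g v0 H i j‖ := by
  have hm : (0 : ℝ) < g.m := by exact_mod_cast hg.pos
  unfold Loc
  rw [norm_mul]
  have h1 : ‖(1 / (X.card : ℂ))‖ ≤ 1 := by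
    rw [norm_div, norm_one, Complex.norm_natCast]
    rcases Nat.eq_zero_or_pos X.card with h | h
    · rw [h]; simp
    · rw [div_le_one (by exact_mod_cast h)]
      exact_mod_cast h
  have hD : 0 ≤ ∑ i, ∑ j, ‖DX g v0 H i j‖ := Finset.sum_nonneg fun _ _ => Finset.sum_nonneg fun _ _ => norm_nonneg _
  have h2 : ‖∑ v ∈ g.sites {B}, (1 / 4 : ℂ) * ∑ ε : Fin 2 → Bool, ∑ i, ∑ j, pvec g z v ε i * DX g v0 H i j * pvec g z v ε j‖
      ≤ ∑ v ∈ g.sites {B}, (g.m : ℝ) ^ 2 * wSv z v * ∑ i, ∑ j, ‖DX g v0 H i j‖ :=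
    norm_sum_le_of_le _ fun v _ => w_ls_quad_le g z v (DX g v0 H)
  have h3 : ‖(1 / (2 * (g.m : ℂ) ^ 2))‖ = 1 / (2 * (g.m : ℝ) ^ 2) := by
    rw [norm_div, norm_one, norm_mul, norm_pow, Complex.norm_natCast]
    simp
  have h4 : ‖H 0 + (1 / (2 * (g.m : ℂ) ^ 2)) * ∑ v ∈ g.sites {B},
      (1 / 4 : ℂ) * ∑ ε : Fin 2 → Bool, ∑ i, ∑ j, pvec g z v ε i * DX g v0 H i j * pvec g z v ε j‖
      ≤ ‖H 0‖ + (1 / 2) * (∑ v ∈ g.sites {B}, wSv z v) * ∑ i, ∑ j, ‖DX g v0 H i j‖ := by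
    refine (norm_add_le _ _).trans (add_le_add le_rfl ?_)
    rw [norm_mul, h3]
    calc 1 / (2 * (g.m : ℝ) ^ 2) * ‖∑ v ∈ g.sites {B}, (1 / 4 : ℂ) * ∑ ε : Fin 2 → Bool, ∑ i, ∑ j, pvec g z v ε i * DX g v0 H i j * pvec g z v ε j‖
        ≤ 1 / (2 * (g.m : ℝ) ^ 2) * ∑ v ∈ g.sites {B}, (g.m : ℝ) ^ 2 * wSv z v * ∑ i, ∑ j, ‖DX g v0 H i j‖ :=
          mul_le_mul_of_nonneg_left h2 (by positivity)
      _ = _ := by
          rw [← Finset.sum_mul, ← Finset.mul_sum]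
          field_simp
  have h5 : 0 ≤ ‖H 0‖ + (1 / 2) * (∑ v ∈ g.sites {B}, wSv z v) * ∑ i, ∑ j, ‖DX g v0 H i j‖ := by
    have : 0 ≤ ∑ v ∈ g.sites {B}, wSv z v := Finset.sum_nonneg fun v _ => w_ls_Sv_nonneg z v
    positivity
  calc _ ≤ 1 * (‖H 0‖ + (1 / 2) * (∑ v ∈ g.sites {B}, wSv z v) * ∑ i, ∑ j, ‖DX g v0 H i j‖) :=
        mul_le_mul h1 h4 (norm_nonneg _) zero_le_one
    _ = _ := one_mul _

/-- the gradient energy of `φ + f` on one block -/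
theorem w_ls_energy_le (g : Grid G) (hg : g.Ok) (B : g.I) (φ : G.V → ℝ) (f : G.V → ℂ) {h0 : ℝ≥0} (hf : tnorm g {B} f < h0) :
    ∑ v ∈ g.sites {B}, wSv (toC φ + f) v ≤ 4 * gE G (g.sites {B}) φ + 32 * (h0 : ℝ) ^ 2 := by
  have hm : (0 : ℝ) < g.m := by exact_mod_cast hg.pos
  have hterm : ∀ v ∈ g.sites {B}, ∀ e : Fin 4, ‖dif (dir e) (G.lift (toC φ + f)) (G.ι v)‖ ^ 2
      ≤ 2 * dif (dir e) (G.lift φ) (G.ι v) ^ 2 + 2 * ((h0 : ℝ) / g.m) ^ 2 := by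
    intro v hv e
    have hsplit : dif (dir e) (G.lift (toC φ + f)) (G.ι v)
        = ((dif (dir e) (G.lift φ) (G.ι v) : ℝ) : ℂ) + dif (dir e) (G.lift f) (G.ι v) := by
      simp only [dif, Geom.lift, toC, Pi.add_apply]
      push_cast
      ring
    have hb := norm_dif_le g hg {B} f hf v (sites_subset_Dm g _ hv) e
    have h1 : ‖dif (dir e) (G.lift (toC φ + f)) (G.ι v)‖ ≤ |dif (dir e) (G.lift φ) (G.ι v)| + (h0 : ℝ) / g.m := by
      rw [hsplit]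
      refine (norm_add_le _ _).trans (add_le_add ?_ hb)
      rw [Complex.norm_real, Real.norm_eq_abs]
    have h2 : 0 ≤ (h0 : ℝ) / g.m := by positivity
    calc ‖dif (dir e) (G.lift (toC φ + f)) (G.ι v)‖ ^ 2 ≤ (|dif (dir e) (G.lift φ) (G.ι v)| + (h0 : ℝ) / g.m) ^ 2 := by
          gcongr
      _ ≤ 2 * |dif (dir e) (G.lift φ) (G.ι v)| ^ 2 + 2 * ((h0 : ℝ) / g.m) ^ 2 := by
          nlinarith [sq_nonneg (|dif (dir e) (G.lift φ) (G.ι v)| - (h0 : ℝ) / g.m)]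
      _ = _ := by rw [sq_abs]
  have hsum : ∑ v ∈ g.sites {B}, wSv (toC φ + f) v
      ≤ ∑ v ∈ g.sites {B}, ∑ e : Fin 4, (2 * dif (dir e) (G.lift φ) (G.ι v) ^ 2 + 2 * ((h0 : ℝ) / g.m) ^ 2) :=
    Finset.sum_le_sum fun v hv => Finset.sum_le_sum fun e _ => hterm v hv e
  have hcard : ((g.sites {B}).card : ℝ) ≤ 4 * (g.m : ℝ) ^ 2 := by exact_mod_cast card_sites_singleton_le g hg B
  have heq : ∑ v ∈ g.sites {B}, ∑ e : Fin 4, (2 * dif (dir e) (G.lift φ) (G.ι v) ^ 2 + 2 * ((h0 : ℝ) / g.m) ^ 2)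
      = 4 * gE G (g.sites {B}) φ + ((g.sites {B}).card : ℝ) * (8 * ((h0 : ℝ) / g.m) ^ 2) := by
    unfold gE
    simp only [Finset.sum_add_distrib, Finset.sum_const, Finset.card_univ, Fintype.card_fin, nsmul_eq_mul, ← Finset.mul_sum]
    push_cast
    ring
  have hlast : ((g.sites {B}).card : ℝ) * (8 * ((h0 : ℝ) / g.m) ^ 2) ≤ 32 * (h0 : ℝ) ^ 2 := by
    calc ((g.sites {B}).card : ℝ) * (8 * ((h0 : ℝ) / g.m) ^ 2) ≤ (4 * (g.m : ℝ) ^ 2) * (8 * ((h0 : ℝ) / g.m) ^ 2) := by gcongr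
      _ = 32 * (h0 : ℝ) ^ 2 := by field_simp; ring
  rw [heq] at hsum
  linarith

/-- a fine quadratic piece, measured at the coarse block which contains it.  plan (as `B4.eB_size`): `|Loc (φ + f)| ≤ |H 0| + |D| ∑_{v ∈ B} ∑_e |∇_e (φ + f)(v)|²`; `∑_{v ∈ B} ∑_e |∇_e φ|² ≤ 2 g_{D'} (φ) ≤ 2 U'`, `x ≤ e^{κ x} / κ`;
`|∇_e f (v)| ≤ h₀ / m'` on `D_{m'} ({b})`, `|B| ≤ 4 m²`. -/
theorem w_loc_size (δ κ : ℝ) (h0 : ℝ≥0) (hδ : 0 < δ) (hκ : 0 < κ) : ∃ C : ℝ≥0, ∀ p : Par, p.δ = δ → p.κ = κ → p.h0 = h0 →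
    ∀ (G : Geom) (D0 ℓ : ℕ) (P : Pair G D0 ℓ) (Vc : Extra P.g') (X : Finset P.g.I) (v0 : G.V) (H : Fn G) (B : P.g.I),
      fnSize p P.g' Vc {P.N.up B} (Loc P.g X v0 H B) ≤ C * ((‖H 0‖₊ : ℝ≥0∞) + ∑ i, ∑ j, (‖DX P.g v0 H i j‖₊ : ℝ≥0∞)) := by
  refine ⟨Real.toNNReal (1 + 2 / κ + 16 * (h0 : ℝ) ^ 2), ?_⟩
  rintro p rfl rfl rfl G D0 ℓ P Vc X v0 H B
  rw [fnSize_le_iff]
  intro φ f hf
  have hcl : P.N.cl {B} ⊆ {P.N.up B} := by
    unfold Nest.cl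
    simp
  have hf' : tnorm P.g {B} f < p.h0 := lt_of_le_of_lt (tnorm_coarse P {B} {P.N.up B} hcl f) hf
  have h1 := w_ls_Loc_le P.g P.ok X v0 H B (toC φ + f)
  have h1' := w_ls_energy_le P.g P.ok B φ f hf'
  have hsub : P.g.sites {B} ⊆ P.g'.Dm {P.N.up B} := (sites_subset_Dm P.g {B}).trans (Dm_coarse P {B} {P.N.up B} hcl)
  have h2 : gE G (P.g.sites {B}) φ ≤ U P.g' p.δ {P.N.up B} φ := (gE_mono hsub φ).trans (gE_le_U P.g' hδ.le _ φ)
  have h3 : p.κ * U P.g' p.δ {P.N.up B} φ ≤ Wt P.g' p.δ p.κ Vc {P.N.up B} φ := by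
    have := Real.add_one_le_exp (p.κ * U P.g' p.δ {P.N.up B} φ)
    have h4 := exp_le_Wt P.g' p.δ p.κ Vc {P.N.up B} φ
    linarith
  have h5 := one_le_Wt P.g' hδ.le hκ.le Vc {P.N.up B} φ
  have h6 : 2 * U P.g' p.δ {P.N.up B} φ ≤ 2 / p.κ * Wt P.g' p.δ p.κ Vc {P.N.up B} φ := by
    rw [div_mul_eq_mul_div, le_div_iff₀ hκ]
    linarith
  obtain ⟨Dn, hDn⟩ : ∃ Dn : ℝ≥0, Dn = ∑ i, ∑ j, ‖DX P.g v0 H i j‖₊ := ⟨_, rfl⟩
  have hDr : ∑ i, ∑ j, ‖DX P.g v0 H i j‖ = (Dn : ℝ) := by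
    rw [hDn]
    push_cast
    rfl
  have hDe : ∑ i, ∑ j, (‖DX P.g v0 H i j‖₊ : ℝ≥0∞) = (Dn : ℝ≥0∞) := by
    rw [hDn]
    push_cast
    rfl
  rw [hDr] at h1
  rw [hDe]
  obtain ⟨w, hw⟩ : ∃ w : ℝ, w = Wt P.g' p.δ p.κ Vc {P.N.up B} φ := ⟨_, rfl⟩
  rw [← hw] at h3 h5 h6 ⊢
  have hD0 : (0 : ℝ) ≤ Dn := Dn.2
  have hH0 : 0 ≤ ‖H 0‖ := norm_nonneg _
  have hκ' : 0 ≤ 2 / p.κ := by positivity
  have hh : 0 ≤ 16 * (p.h0 : ℝ) ^ 2 := by positivity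
  have h7 : ‖Loc P.g X v0 H B (toC φ + f)‖ ≤ (1 + 2 / p.κ + 16 * (p.h0 : ℝ) ^ 2) * ((‖H 0‖₊ + Dn : ℝ≥0) : ℝ) * w := by
    have a1 : (1 / 2) * (∑ v ∈ P.g.sites {B}, wSv (toC φ + f) v) ≤ (2 / p.κ + 16 * (p.h0 : ℝ) ^ 2) * w := by
      have : 16 * (p.h0 : ℝ) ^ 2 ≤ 16 * (p.h0 : ℝ) ^ 2 * w := le_mul_of_one_le_right hh h5
      nlinarith
    have a2 : (1 / 2) * (∑ v ∈ P.g.sites {B}, wSv (toC φ + f) v) * Dn ≤ (2 / p.κ + 16 * (p.h0 : ℝ) ^ 2) * w * Dn :=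
      mul_le_mul_of_nonneg_right a1 hD0
    have a3 : ‖H 0‖ ≤ ‖H 0‖ * w := le_mul_of_one_le_right hH0 h5
    push_cast
    have a4 : (1 + 2 / p.κ + 16 * (p.h0 : ℝ) ^ 2) * (‖H 0‖ + Dn) * w
        = ‖H 0‖ * w + (2 / p.κ + 16 * (p.h0 : ℝ) ^ 2) * w * Dn + (Dn * w + (2 / p.κ + 16 * (p.h0 : ℝ) ^ 2) * ‖H 0‖ * w) := by ring
    have a5 : 0 ≤ Dn * w + (2 / p.κ + 16 * (p.h0 : ℝ) ^ 2) * ‖H 0‖ * w := by
      have : 0 ≤ w := by linarith
      positivity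
    rw [a4]
    linarith
  refine (coe_nnnorm_le_ofReal h7).trans ?_
  have hw0 : 0 ≤ w := by linarith
  rw [ENNReal.ofReal_mul (by positivity), ENNReal.ofReal_mul (by positivity), ENNReal.ofReal_coe_nnreal]
  push_cast
  exact le_rfl

/-- plan: `|cos (α z)| ≤ e^{α |Im z|}`, `|Im z_x| < h₀` in the strip, a block has at most `4 m²` sites; `w_fnSize_le_of_bound`. -/
theorem w_cBC_coarse_size (p : Par) (hδ : 0 ≤ p.δ) (hκ : 0 ≤ p.κ) (α : ℝ) (P : Pair G D0 ℓ) (Vc : Extra P.g') (B : P.g.I) :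
    fnSize p P.g' Vc {P.N.up B} (cBC P.g α B) ≤ 4 * ENNReal.ofReal (Real.exp (|α| * p.h0)) := by
  refine w_fnSize_le_of_bound p hδ hκ P.g' Vc _ _ _ fun z hz => ?_
  have hm : (0 : ℝ) < P.g.m := by exact_mod_cast P.ok.pos
  have h1 : ∀ x ∈ P.g.sites {B}, ‖Complex.cos (α * z x)‖ ≤ Real.exp (|α| * p.h0) := by
    intro x hx
    refine (norm_cos_le _).trans (Real.exp_le_exp.2 ?_)
    have h2 : ((α : ℂ) * z x).im = α * (z x).im := by simp
    rw [h2, abs_mul]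
    gcongr
    have hx' : x ∈ P.g'.sites {P.N.up B} := by
      simp only [Grid.sites, Finset.mem_filter, Finset.mem_univ, true_and, Finset.mem_singleton] at hx ⊢
      rw [← hx]
      exact Prod.ext (P.N.comm x.1) (P.N.comm x.2)
    have h3 : ‖(z x).im‖₊ ≤ tnorm P.g' {P.N.up B} (fun v => (z v).im) :=
      (tnorm_spec P.g' {P.N.up B} (fun v => (z v).im) x (sites_subset_Dm P.g' _ hx')).1
    have h4 : ‖(z x).im‖ ≤ p.h0 := by exact_mod_cast h3.trans (mem_strip.1 hz).le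
    exact h4
  have h5 : ‖cBC P.g α B z‖ ≤ 4 * Real.exp (|α| * p.h0) := by
    unfold cBC
    rw [norm_mul, Complex.norm_real, Real.norm_of_nonneg (by positivity)]
    have h6 : ‖∑ x ∈ P.g.sites {B}, Complex.cos (α * z x)‖ ≤ (4 * (P.g.m : ℝ) ^ 2) * Real.exp (|α| * p.h0) := by
      refine (norm_sum_le_of_le _ h1).trans ?_
      rw [Finset.sum_const, nsmul_eq_mul]
      gcongr
      exact_mod_cast card_sites_singleton_le P.g P.ok B
    calc ((P.g.m : ℝ) ^ 2)⁻¹ * ‖∑ x ∈ P.g.sites {B}, Complex.cos (α * z x)‖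
        ≤ ((P.g.m : ℝ) ^ 2)⁻¹ * ((4 * (P.g.m : ℝ) ^ 2) * Real.exp (|α| * p.h0)) := by gcongr
      _ = 4 * Real.exp (|α| * p.h0) := by field_simp
  calc (‖cBC P.g α B z‖₊ : ℝ≥0∞) ≤ ENNReal.ofReal (4 * Real.exp (|α| * p.h0)) := coe_nnnorm_le_ofReal h5
    _ = 4 * ENNReal.ofReal (Real.exp (|α| * p.h0)) := by
        rw [ENNReal.ofReal_mul (by norm_num)]; norm_num

/-- the extracted coefficients.  plan: `B4.neutral_localization` (third assertion; `F = R X` is even by `hR.even`, `Bulk` by periodicity, `v0 = anchor` by `w_anchor_mem`, `u = fnSize (R X)`). -/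
theorem w_coef_bd (c : Geo) (hc : c.Ok) (δ κ : ℝ) (h0 : ℝ≥0) (hδ : 0 < δ) (hκ : 0 < κ) (hh : 0 < h0) : ∃ (Cc : ℝ≥0) (ℓ0 D1 : ℕ), ∀ ℓ ≥ ℓ0, ∀ D0 ≥ D1,
    ∀ (A ω : ℝ) (G : Geom) (gs : Grid G) (S : Step G D0 ℓ), Ctx c ⟨δ, κ, h0, A, ω⟩ gs S → ∀ Rm : Act S.P.g, Adm ⟨δ, κ, h0, A, ω⟩ c gs Rm → ∀ X ∈ S.small c,
      (‖S.Hq ω 0 Rm X 0‖₊ : ℝ≥0∞) + ∑ i, ∑ j, (‖DX S.P.g (anchor S.P.g X) (S.Hq ω 0 Rm X) i j‖₊ : ℝ≥0∞) ≤ Cc * fnSize ⟨δ, κ, h0, A, ω⟩ S.P.g S.Vf X (Rm X) := by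
  obtain ⟨C, ℓ0, D1, H⟩ := B4.neutral_localization c.R c.n0 c.cst δ κ h0 hδ hκ hh
  refine ⟨C, ℓ0, D1, fun ℓ hℓ D0 hD0 A ω G gs S h Rm hR X hX => ?_⟩
  have hX' := w_mem_small.1 hX
  have key := H ⟨δ, κ, h0, A, ω⟩ c.col rfl rfl rfl h.hω D0 hD0 G ℓ hℓ S.P S.Γ S.Vf S.Vc h.psd h.ok.reg X (Rm X)
    (fnSize ⟨δ, κ, h0, A, ω⟩ S.P.g S.Vf X (Rm X)) ⟨hX'.1, hX'.2, hR.ok.fn X, le_rfl⟩ (S.Hq ω 0 Rm X) rfl
  exact ((key.2 (hR.even X)).2 (Or.inl h.ok.per) _ (w_anchor_mem h hX)).1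

open Classical in
/-- counting.  plan: `B4.geometry_animals` summed over `n ≤ n0`. -/
theorem w_count_small (c : Geo) : ∃ Cn : ℕ, ∀ (G : Geom) (D0 ℓ : ℕ) (S : Step G D0 ℓ) (B : S.P.g.I), ((S.small c).filter fun X => B ∈ X).card ≤ Cn := by
  obtain ⟨C, hC⟩ := B4.geometry_animals c.R
  refine ⟨∑ n ∈ Finset.range (c.n0 + 1), C ^ n, fun G D0 ℓ S B => ?_⟩
  have hsub : ((S.small c).filter fun X => B ∈ X) ⊆ (Finset.range (c.n0 + 1)).biUnion fun n =>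
      Finset.univ.filter fun X : Finset S.P.g.I => S.P.g.Conn c.R X ∧ B ∈ X ∧ X.card = n := by
    intro X hX
    rw [Finset.mem_filter, w_mem_small] at hX
    rw [Finset.mem_biUnion]
    exact ⟨X.card, Finset.mem_range.2 (by omega), by simp [hX.1.1, hX.2]⟩
  refine (Finset.card_le_card hsub).trans (Finset.card_biUnion_le.trans ?_)
  exact Finset.sum_le_sum fun n _ => hC G S.P.g S.P.ok B n

open Classical in
/-- plan: `Geo.geo_fib_card` (or: a coarse block of a torus grid is a square of `L × L` fine blocks). -/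
theorem w_count_fib (P : Pair G D0 ℓ) (b : P.g'.I) : (Finset.univ.filter fun B => P.N.up B = b).card ≤ (2 * 2 ^ ℓ) ^ 2 := by
  convert Geo.geo_fib_card P b

/-- the fine quadratic singleton measured at the coarse block which contains it -/
theorem w_ds_eBC_size (p : Par) (hδ : 0 < p.δ) (hκ : 0 < p.κ) (P : Pair G D0 ℓ) (Vc : Extra P.g') (B : P.g.I) :
    fnSize p P.g' Vc {P.N.up B} (eBC P.g B) ≤ ENNReal.ofReal (2 / p.κ + 16 * (p.h0 : ℝ) ^ 2) := by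
  rw [fnSize_le_iff]
  intro φ f hf
  have hcl : P.N.cl {B} ⊆ {P.N.up B} := by
    unfold Nest.cl
    simp
  have hf' : tnorm P.g {B} f < p.h0 := lt_of_le_of_lt (tnorm_coarse P {B} {P.N.up B} hcl f) hf
  have h1 := norm_eBC_le P.g P.ok B φ f hf'
  have hsub : P.g.sites {B} ⊆ P.g'.Dm {P.N.up B} := (sites_subset_Dm P.g {B}).trans (Dm_coarse P {B} {P.N.up B} hcl)
  have h2 : gE G (P.g.sites {B}) φ ≤ U P.g' p.δ {P.N.up B} φ := (gE_mono hsub φ).trans (gE_le_U P.g' hδ.le _ φ)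
  have h3 : p.κ * U P.g' p.δ {P.N.up B} φ ≤ Wt P.g' p.δ p.κ Vc {P.N.up B} φ := by
    have := Real.add_one_le_exp (p.κ * U P.g' p.δ {P.N.up B} φ)
    have h4 := exp_le_Wt P.g' p.δ p.κ Vc {P.N.up B} φ
    linarith
  have h5 := one_le_Wt P.g' hδ.le hκ.le Vc {P.N.up B} φ
  have h6 : 2 * U P.g' p.δ {P.N.up B} φ ≤ 2 / p.κ * Wt P.g' p.δ p.κ Vc {P.N.up B} φ := by
    rw [div_mul_eq_mul_div, le_div_iff₀ hκ]
    linarith
  have h7 : ‖eBC P.g B (toC φ + f)‖ ≤ (2 / p.κ + 16 * (p.h0 : ℝ) ^ 2) * Wt P.g' p.δ p.κ Vc {P.N.up B} φ := by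
    have h8 : 16 * (p.h0 : ℝ) ^ 2 ≤ 16 * (p.h0 : ℝ) ^ 2 * Wt P.g' p.δ p.κ Vc {P.N.up B} φ :=
      le_mul_of_one_le_right (by positivity) h5
    linarith
  refine (coe_nnnorm_le_ofReal h7).trans ?_
  rw [ENNReal.ofReal_mul (by positivity)]

/-- constants -/
theorem w_ds_const_size (p : Par) (hδ : 0 ≤ p.δ) (hκ : 0 ≤ p.κ) (g : Grid G) (V : Extra g) (X : Finset g.I) (a : ℂ) :
    fnSize p g V X (fun _ => a) ≤ (‖a‖₊ : ℝ≥0∞) :=
  w_fnSize_le_of_bound p hδ hκ g V X _ _ fun _ _ => le_rfl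

theorem w_ds_alpha_pos {ω : ℝ} (hω : 0 < ω) : 0 < Step.alpha ω := by
  unfold Step.alpha
  have := Real.pi_pos
  positivity

/-- the expectation of the two singletons of a fine block, measured at the coarse block -/
theorem w_ds_sing (h : Ctx c p gs S) (αmax : ℝ) (t z : ℂ) (hz : z = 0 ∨ Step.alpha p.ω ≤ αmax) (B : S.P.g.I) :
    fnSize p S.P.g' S.Vc {S.P.N.up B} (conv S.Γ ((t / 2) • eBC S.P.g B + z • cBC S.P.g (Step.alpha p.ω) B))
      ≤ (‖t‖₊ : ℝ≥0∞) * (ENNReal.ofReal (2 / p.κ + 16 * (p.h0 : ℝ) ^ 2) + ENNReal.ofReal (2 * c.Ck))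
        + (‖z‖₊ : ℝ≥0∞) * (4 * ENNReal.ofReal (Real.exp (αmax * p.h0))) := by
  have hδ := h.ok.adm.δ_pos
  have hκ := h.ok.adm.κ_pos
  have hα := w_ds_alpha_pos h.hω
  have e1 : conv S.Γ (eBC S.P.g B) = eBC S.P.g B + fun _ => conv S.Γ (eBC S.P.g B) 0 := by
    funext w
    exact w_conv_eBC S.P.g S.Γ h.psd B w
  have e2 : conv S.Γ (cBC S.P.g (Step.alpha p.ω) B)
      = ((Real.exp (-(Step.alpha p.ω) ^ 2 * S.Γ (org G) (org G) / 2) : ℝ) : ℂ) • cBC S.P.g (Step.alpha p.ω) B := by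
    funext w
    exact w_conv_cBC S.P.g S.Γ h.psd _ h.ok.diag _ B w
  rw [w_conv_single S.P.g S.Γ h.psd, e1, e2]
  refine (w_fnSize_add_le _ _ _ _ _ _).trans (add_le_add ?_ ?_)
  · refine (w_fnSize_smul_le _ _ _ _ _ _).trans (mul_le_mul' ?_ ?_)
    · have : ‖t / 2‖₊ ≤ ‖t‖₊ := by
        rw [← NNReal.coe_le_coe, coe_nnnorm, coe_nnnorm, norm_div]
        have h2 : ‖(2 : ℂ)‖ = 2 := by simp
        rw [h2]
        have := norm_nonneg t
        linarith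
      exact_mod_cast this
    · refine (w_fnSize_add_le _ _ _ _ _ _).trans (add_le_add (w_ds_eBC_size p hδ hκ S.P S.Vc B) ?_)
      refine (w_ds_const_size p hδ.le hκ.le _ _ _ _).trans ?_
      exact coe_nnnorm_le_ofReal (w_conv_eBC_zero c.Ck c.ck (2 ^ ℓ) S.P.g S.P.ok h.ok.per S.Γ h.psd h.ok.shell.bounds B)
  · rcases hz with rfl | hz
    · rw [zero_smul, w_fnSize_zero]
      exact zero_le
    · refine (w_fnSize_smul_le _ _ _ _ _ _).trans (mul_le_mul' le_rfl ?_)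
      refine (w_fnSize_smul_le _ _ _ _ _ _).trans ?_
      have hγ : 0 ≤ S.Γ (org G) (org G) := h.psd.diag_nonneg
      have hle : (‖((Real.exp (-(Step.alpha p.ω) ^ 2 * S.Γ (org G) (org G) / 2) : ℝ) : ℂ)‖₊ : ℝ≥0∞) ≤ 1 := by
        have : ‖((Real.exp (-(Step.alpha p.ω) ^ 2 * S.Γ (org G) (org G) / 2) : ℝ) : ℂ)‖ ≤ 1 := by
          rw [Complex.norm_real, Real.norm_eq_abs, abs_of_pos (Real.exp_pos _), Real.exp_le_one_iff]
          have : 0 ≤ (Step.alpha p.ω) ^ 2 * S.Γ (org G) (org G) := by positivity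
          linarith
        have h3 := coe_nnnorm_le_ofReal this
        rwa [ENNReal.ofReal_one] at h3
      calc _ ≤ 1 * (4 * ENNReal.ofReal (Real.exp (|Step.alpha p.ω| * p.h0))) :=
            mul_le_mul' hle (w_cBC_coarse_size p hδ.le hκ.le _ S.P S.Vc B)
        _ = 4 * ENNReal.ofReal (Real.exp (|Step.alpha p.ω| * p.h0)) := one_mul _
        _ ≤ _ := by
            refine mul_le_mul' le_rfl (ENNReal.ofReal_le_ofReal (Real.exp_le_exp.2 ?_))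
            rw [abs_of_pos hα]
            exact mul_le_mul_of_nonneg_right hz p.h0.2

/-- `cst^{|X|} ≤ max (1, cst)^{n0}` -/
theorem w_ds_cst_le (c : Geo) {n : ℕ} (hn : n ≤ c.n0) : (c.cst : ℝ≥0∞) ^ n ≤ (((max 1 c.cst) ^ c.n0 : ℝ≥0) : ℝ≥0∞) := by
  have h1 : c.cst ^ n ≤ (max 1 c.cst) ^ c.n0 :=
    (pow_le_pow_left₀ zero_le (le_max_right _ _) n).trans (pow_le_pow_right₀ (le_max_left _ _) hn)
  exact_mod_cast h1

theorem w_ds_inv_card_le (n : ℕ) : (‖(1 / (n : ℂ))‖₊ : ℝ≥0∞) ≤ 1 := by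
  have h1 : ‖(1 / (n : ℂ))‖ ≤ 1 := by
    rw [norm_div, norm_one, Complex.norm_natCast]
    rcases Nat.eq_zero_or_pos n with h | h
    · rw [h]; simp
    · rw [div_le_one (by exact_mod_cast h)]
      exact_mod_cast h
  have h3 := coe_nnnorm_le_ofReal h1
  rwa [ENNReal.ofReal_one] at h3

/-- one piece -/
theorem w_ds_piece (h : Ctx c p gs S) (cosOn : Bool) (αmax : ℝ) (hcos : cosOn = true → Step.alpha p.ω ≤ αmax) {Rm : Act S.P.g} (hR : Adm p c gs Rm)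
    (Cl Cc : ℝ≥0)
    (hloc : ∀ (X : Finset S.P.g.I) (B : S.P.g.I), fnSize p S.P.g' S.Vc {S.P.N.up B} (Loc S.P.g X (anchor S.P.g X) (S.Hq p.ω 0 Rm X) B)
      ≤ Cl * ((‖S.Hq p.ω 0 Rm X 0‖₊ : ℝ≥0∞) + ∑ i, ∑ j, (‖DX S.P.g (anchor S.P.g X) (S.Hq p.ω 0 Rm X) i j‖₊ : ℝ≥0∞)))
    (hcoef : ∀ X ∈ S.small c, (‖S.Hq p.ω 0 Rm X 0‖₊ : ℝ≥0∞) + ∑ i, ∑ j, (‖DX S.P.g (anchor S.P.g X) (S.Hq p.ω 0 Rm X) i j‖₊ : ℝ≥0∞)
      ≤ Cc * fnSize p S.P.g S.Vf X (Rm X))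
    {X : Finset S.P.g.I} (hX : X ∈ S.small c) (B : S.P.g.I) :
    fnSize p S.P.g' S.Vc {S.P.N.up B} (S.piece p.ω cosOn Rm X B)
      ≤ ((Cl * Cc + 2 * (max 1 c.cst) ^ c.n0 * (4 * Real.toNNReal (Real.exp (αmax * p.h0))) : ℝ≥0) : ℝ≥0∞) * actNorm p S.P.g S.Vf Rm := by
  have hδ := h.ok.adm.δ_pos
  have hκ := h.ok.adm.κ_pos
  have hα := w_ds_alpha_pos h.hω
  have hRX : fnSize p S.P.g S.Vf X (Rm X) ≤ actNorm p S.P.g S.Vf Rm := w_fnSize_le_actNorm p h.hA S.P.g S.Vf Rm X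
  have hcard : X.card ≤ c.n0 := (w_mem_small.1 hX).2
  unfold Step.piece
  push_cast
  rw [add_mul]
  refine (w_fnSize_add_le _ _ _ _ _ _).trans (add_le_add ?_ ?_)
  · calc _ ≤ (Cl : ℝ≥0∞) * ((‖S.Hq p.ω 0 Rm X 0‖₊ : ℝ≥0∞) + ∑ i, ∑ j, (‖DX S.P.g (anchor S.P.g X) (S.Hq p.ω 0 Rm X) i j‖₊ : ℝ≥0∞)) := hloc X B
      _ ≤ (Cl : ℝ≥0∞) * (Cc * actNorm p S.P.g S.Vf Rm) := mul_le_mul' le_rfl ((hcoef X hX).trans (mul_le_mul' le_rfl hRX))
      _ = _ := by ring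
  · cases cosOn with
    | false =>
      simp only [Bool.false_eq_true, if_false]
      rw [w_fnSize_zero]
      exact zero_le
    | true =>
      simp only [if_true]
      have hq : ∀ q : ℤ, (‖S.Hq p.ω q Rm X 0‖₊ : ℝ≥0∞) ≤ (((max 1 c.cst) ^ c.n0 : ℝ≥0) : ℝ≥0∞) * actNorm p S.P.g S.Vf Rm :=
        fun q => (w_Hq_zero_le h hR q X).trans (mul_le_mul' (w_ds_cst_le c hcard) hRX)
      have h1 : (‖(1 / (X.card : ℂ)) * (S.Hq p.ω 1 Rm X 0 + S.Hq p.ω (-1) Rm X 0)‖₊ : ℝ≥0∞)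
          ≤ 2 * ((((max 1 c.cst) ^ c.n0 : ℝ≥0) : ℝ≥0∞) * actNorm p S.P.g S.Vf Rm) := by
        rw [nnnorm_mul, ENNReal.coe_mul]
        calc _ ≤ 1 * ((‖S.Hq p.ω 1 Rm X 0‖₊ : ℝ≥0∞) + (‖S.Hq p.ω (-1) Rm X 0‖₊ : ℝ≥0∞)) :=
              mul_le_mul' (w_ds_inv_card_le _) (by exact_mod_cast nnnorm_add_le _ _)
          _ ≤ 1 * ((((max 1 c.cst) ^ c.n0 : ℝ≥0) : ℝ≥0∞) * actNorm p S.P.g S.Vf Rm
                + (((max 1 c.cst) ^ c.n0 : ℝ≥0) : ℝ≥0∞) * actNorm p S.P.g S.Vf Rm) :=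
              mul_le_mul' le_rfl (add_le_add (hq 1) (hq (-1)))
          _ = _ := by ring
      have h2 : fnSize p S.P.g' S.Vc {S.P.N.up B} (cBC S.P.g (Step.alpha p.ω) B) ≤ 4 * ENNReal.ofReal (Real.exp (αmax * p.h0)) := by
        refine (w_cBC_coarse_size p hδ.le hκ.le _ S.P S.Vc B).trans ?_
        refine mul_le_mul' le_rfl (ENNReal.ofReal_le_ofReal (Real.exp_le_exp.2 ?_))
        rw [abs_of_pos hα]
        exact mul_le_mul_of_nonneg_right (hcos rfl) p.h0.2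
      refine (w_fnSize_smul_le _ _ _ _ _ _).trans ((mul_le_mul' h1 h2).trans (le_of_eq ?_))
      push_cast
      rw [ENNReal.ofReal]
      ring

/-- double counting -/
theorem w_ds_double {I : Type} [Fintype I] [DecidableEq I] (sm : Finset (Finset I)) (Q : I → Prop) [DecidablePred Q] (Cn : ℕ)
    (hcount : ∀ B, (sm.filter fun X => B ∈ X).card ≤ Cn) (φ : Finset I → I → ℝ≥0∞) (M : ℝ≥0∞)
    (hφ : ∀ X ∈ sm, ∀ B, Q B → φ X B ≤ M) :
    ∑ X ∈ sm, ∑ B ∈ X.filter Q, φ X B ≤ ((Finset.univ.filter Q).card : ℝ≥0∞) * ((Cn : ℝ≥0∞) * M) := by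
  have e : ∑ X ∈ sm, ∑ B ∈ X.filter Q, φ X B = ∑ B ∈ Finset.univ.filter Q, ∑ X ∈ sm.filter (fun X => B ∈ X), φ X B := by
    refine Finset.sum_comm' fun X B => ?_
    simp only [Finset.mem_filter, Finset.mem_univ, true_and]
    tauto
  rw [e]
  calc ∑ B ∈ Finset.univ.filter Q, ∑ X ∈ sm.filter (fun X => B ∈ X), φ X B ≤ ∑ _B ∈ Finset.univ.filter Q, (Cn : ℝ≥0∞) * M := by
        refine Finset.sum_le_sum fun B hB => ?_
        calc ∑ X ∈ sm.filter (fun X => B ∈ X), φ X B ≤ ∑ _X ∈ sm.filter (fun X => B ∈ X), M :=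
              Finset.sum_le_sum fun X hX => hφ X (Finset.mem_filter.1 hX).1 B (Finset.mem_filter.1 hB).2
          _ = ((sm.filter fun X => B ∈ X).card : ℝ≥0∞) * M := by rw [Finset.sum_const, nsmul_eq_mul]
          _ ≤ _ := mul_le_mul' (by exact_mod_cast hcount B) le_rfl
    _ = _ := by rw [Finset.sum_const, nsmul_eq_mul]

/-- the constant of `w_desig_size` -/
def wCd (c : Geo) (κ : ℝ) (h0 : ℝ≥0) (αmax : ℝ) (ℓ : ℕ) (Cl Cc : ℝ≥0) (Cn : ℕ) : ℝ≥0 :=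
  1 + (((2 * 2 ^ ℓ) ^ 2 : ℕ) : ℝ≥0) * ((Cn : ℝ≥0) * (Cl * Cc + 2 * (max 1 c.cst) ^ c.n0 * (4 * Real.toNNReal (Real.exp (αmax * h0)))))
    + (((2 * 2 ^ ℓ) ^ 2 : ℕ) : ℝ≥0) * (Real.toNNReal (2 / κ + 16 * (h0 : ℝ) ^ 2) + Real.toNNReal (2 * c.Ck))
    + (((2 * 2 ^ ℓ) ^ 2 : ℕ) : ℝ≥0) * (4 * Real.toNNReal (Real.exp (αmax * h0)))
    + (((2 * 2 ^ ℓ) ^ 2 : ℕ) : ℝ≥0) * ((Cn : ℝ≥0) * (max 1 c.cst) ^ c.n0)
    + (((2 * 2 ^ ℓ) ^ 2 : ℕ) : ℝ≥0) * Real.toNNReal (2 * c.Ck)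

open Classical in
theorem w_ds_core (h : Ctx c p gs S) (cosOn : Bool) (αmax : ℝ) (hcos : cosOn = true → Step.alpha p.ω ≤ αmax) (x : ℂ × ℂ × Act S.P.g)
    (hx : Adm p c gs x.2.2) (hz : x.2.1 = 0 ∨ Step.alpha p.ω ≤ αmax) (Cl Cc : ℝ≥0) (Cn : ℕ)
    (hloc : ∀ (X : Finset S.P.g.I) (B : S.P.g.I), fnSize p S.P.g' S.Vc {S.P.N.up B} (Loc S.P.g X (anchor S.P.g X) (S.Hq p.ω 0 x.2.2 X) B)
      ≤ Cl * ((‖S.Hq p.ω 0 x.2.2 X 0‖₊ : ℝ≥0∞) + ∑ i, ∑ j, (‖DX S.P.g (anchor S.P.g X) (S.Hq p.ω 0 x.2.2 X) i j‖₊ : ℝ≥0∞)))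
    (hcoef : ∀ X ∈ S.small c, (‖S.Hq p.ω 0 x.2.2 X 0‖₊ : ℝ≥0∞) + ∑ i, ∑ j, (‖DX S.P.g (anchor S.P.g X) (S.Hq p.ω 0 x.2.2 X) i j‖₊ : ℝ≥0∞)
      ≤ Cc * fnSize p S.P.g S.Vf X (x.2.2 X))
    (hcount : ∀ B : S.P.g.I, ((S.small c).filter fun X => B ∈ X).card ≤ Cn) :
    (S.desig c p.ω cosOn x).size p S.Vc ≤ ((wCd c p.κ p.h0 αmax ℓ Cl Cc Cn : ℝ≥0) : ℝ≥0∞) * size3 p S.P.g S.Vf x := by
  unfold Desig.size
  refine iSup_le fun b => ?_
  obtain ⟨N, hN⟩ : ∃ N : ℝ≥0∞, N = (((2 * 2 ^ ℓ) ^ 2 : ℕ) : ℝ≥0∞) := ⟨_, rfl⟩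
  have hfib : ((Finset.univ.filter fun B => S.P.N.up B = b).card : ℝ≥0∞) ≤ N := by
    rw [hN]
    exact_mod_cast w_count_fib S.P b
  obtain ⟨Kp, hKp⟩ : ∃ Kp : ℝ≥0∞, Kp = ((Cl * Cc + 2 * (max 1 c.cst) ^ c.n0 * (4 * Real.toNNReal (Real.exp (αmax * p.h0))) : ℝ≥0) : ℝ≥0∞) := ⟨_, rfl⟩
  obtain ⟨Ke, hKe⟩ : ∃ Ke : ℝ≥0∞, Ke = ENNReal.ofReal (2 / p.κ + 16 * (p.h0 : ℝ) ^ 2) + ENNReal.ofReal (2 * c.Ck) := ⟨_, rfl⟩
  obtain ⟨E, hE⟩ : ∃ E : ℝ≥0∞, E = 4 * ENNReal.ofReal (Real.exp (αmax * p.h0)) := ⟨_, rfl⟩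
  obtain ⟨q, hq⟩ : ∃ q : ℝ≥0∞, q = (((max 1 c.cst) ^ c.n0 : ℝ≥0) : ℝ≥0∞) := ⟨_, rfl⟩
  obtain ⟨Kk, hKk⟩ : ∃ Kk : ℝ≥0∞, Kk = ENNReal.ofReal (2 * c.Ck) := ⟨_, rfl⟩
  obtain ⟨s, hs⟩ : ∃ s : ℝ≥0∞, s = size3 p S.P.g S.Vf x := ⟨_, rfl⟩
  have hT : (‖x.1‖₊ : ℝ≥0∞) ≤ s := hs ▸ w_t_le_size3 p S.P.g S.Vf x
  have hZ : (‖x.2.1‖₊ : ℝ≥0∞) ≤ s := hs ▸ w_z_le_size3 p S.P.g S.Vf x
  have hR : actNorm p S.P.g S.Vf x.2.2 ≤ s := hs ▸ w_actNorm_le_size3 p S.P.g S.Vf x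
  -- the functions
  have hF : ∀ Y, fnSize p S.P.g' S.Vc {b} ((S.desig c p.ω cosOn x).F Y b)
      ≤ (∑ X ∈ (S.small c).filter (fun X => S.P.N.cl X = Y), ∑ B ∈ X.filter (fun B => S.P.N.up B = b),
          fnSize p S.P.g' S.Vc {b} (S.piece p.ω cosOn x.2.2 X B))
        + if Y = {b} then ∑ B ∈ Finset.univ.filter (fun B => S.P.N.up B = b),
          fnSize p S.P.g' S.Vc {b} (conv S.Γ ((x.1 / 2) • eBC S.P.g B + x.2.1 • cBC S.P.g (Step.alpha p.ω) B)) else 0 := by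
    intro Y
    refine (w_fnSize_add_le _ _ _ _ _ _).trans (add_le_add ?_ ?_)
    · exact (w_fnSize_sum_le _ _ _ _ _ _).trans (Finset.sum_le_sum fun X _ => w_fnSize_sum_le _ _ _ _ _ _)
    · split_ifs
      · exact w_fnSize_sum_le _ _ _ _ _ _
      · rw [w_fnSize_zero]
  have h1 : ∑ Y : Finset S.P.g'.I, fnSize p S.P.g' S.Vc {b} ((S.desig c p.ω cosOn x).F Y b)
      ≤ N * ((Cn : ℝ≥0∞) * (Kp * s)) + N * (s * Ke + s * E) := by
    refine (Finset.sum_le_sum fun Y _ => hF Y).trans ?_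
    rw [Finset.sum_add_distrib, Finset.sum_fiberwise, Finset.sum_ite_eq' Finset.univ, if_pos (Finset.mem_univ _)]
    refine add_le_add ?_ ?_
    · refine (w_ds_double (S.small c) (fun B => S.P.N.up B = b) Cn hcount _ (Kp * s) fun X hX B hB => ?_).trans
        (mul_le_mul' hfib le_rfl)
      have := w_ds_piece h cosOn αmax hcos hx Cl Cc hloc hcoef hX B
      rw [hB, ← hKp] at this
      exact this.trans (mul_le_mul' le_rfl hR)
    · calc _ ≤ ∑ _B ∈ Finset.univ.filter (fun B => S.P.N.up B = b), (s * Ke + s * E) := by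
            refine Finset.sum_le_sum fun B hB => ?_
            have := w_ds_sing h αmax x.1 x.2.1 hz B
            rw [(Finset.mem_filter.1 hB).2, ← hKe, ← hE] at this
            exact this.trans (add_le_add (mul_le_mul' hT le_rfl) (mul_le_mul' hZ le_rfl))
        _ = ((Finset.univ.filter fun B => S.P.N.up B = b).card : ℝ≥0∞) * (s * Ke + s * E) := by
            rw [Finset.sum_const, nsmul_eq_mul]
        _ ≤ _ := mul_le_mul' hfib le_rfl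
  -- the constants
  have h2 : (‖(S.desig c p.ω cosOn x).a b‖₊ : ℝ≥0∞) ≤ N * ((Cn : ℝ≥0∞) * (q * s)) + N * (s * Kk) := by
    have e : (S.desig c p.ω cosOn x).a b
        = (∑ X ∈ S.small c, ∑ _B ∈ X.filter (fun B => S.P.N.up B = b), (1 / (X.card : ℂ)) * S.Hq p.ω 0 x.2.2 X 0)
          + ∑ B ∈ Finset.univ.filter (fun B => S.P.N.up B = b), (x.1 / 2) * conv S.Γ (eBC S.P.g B) 0 := rfl
    rw [e]
    have a1 : (‖∑ X ∈ S.small c, ∑ _B ∈ X.filter (fun B => S.P.N.up B = b), (1 / (X.card : ℂ)) * S.Hq p.ω 0 x.2.2 X 0‖₊ : ℝ≥0∞)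
        ≤ ∑ X ∈ S.small c, ∑ _B ∈ X.filter (fun B => S.P.N.up B = b), (‖(1 / (X.card : ℂ)) * S.Hq p.ω 0 x.2.2 X 0‖₊ : ℝ≥0∞) := by
      have b1 : ‖∑ X ∈ S.small c, ∑ _B ∈ X.filter (fun B => S.P.N.up B = b), (1 / (X.card : ℂ)) * S.Hq p.ω 0 x.2.2 X 0‖₊
          ≤ ∑ X ∈ S.small c, ∑ _B ∈ X.filter (fun B => S.P.N.up B = b), ‖(1 / (X.card : ℂ)) * S.Hq p.ω 0 x.2.2 X 0‖₊ :=
        (nnnorm_sum_le _ _).trans (Finset.sum_le_sum fun X _ => nnnorm_sum_le _ _)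
      exact_mod_cast b1
    have a2 : (‖∑ B ∈ Finset.univ.filter (fun B => S.P.N.up B = b), (x.1 / 2) * conv S.Γ (eBC S.P.g B) 0‖₊ : ℝ≥0∞)
        ≤ ∑ B ∈ Finset.univ.filter (fun B => S.P.N.up B = b), (‖(x.1 / 2) * conv S.Γ (eBC S.P.g B) 0‖₊ : ℝ≥0∞) := by
      exact_mod_cast nnnorm_sum_le _ _
    have a0 : (‖(∑ X ∈ S.small c, ∑ _B ∈ X.filter (fun B => S.P.N.up B = b), (1 / (X.card : ℂ)) * S.Hq p.ω 0 x.2.2 X 0)
          + ∑ B ∈ Finset.univ.filter (fun B => S.P.N.up B = b), (x.1 / 2) * conv S.Γ (eBC S.P.g B) 0‖₊ : ℝ≥0∞)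
        ≤ (‖∑ X ∈ S.small c, ∑ _B ∈ X.filter (fun B => S.P.N.up B = b), (1 / (X.card : ℂ)) * S.Hq p.ω 0 x.2.2 X 0‖₊ : ℝ≥0∞)
          + (‖∑ B ∈ Finset.univ.filter (fun B => S.P.N.up B = b), (x.1 / 2) * conv S.Γ (eBC S.P.g B) 0‖₊ : ℝ≥0∞) := by
      exact_mod_cast nnnorm_add_le _ _
    refine a0.trans (add_le_add (a1.trans ?_) (a2.trans ?_))
    · refine (w_ds_double (S.small c) (fun B => S.P.N.up B = b) Cn hcount
        (fun X _ => (‖(1 / (X.card : ℂ)) * S.Hq p.ω 0 x.2.2 X 0‖₊ : ℝ≥0∞)) (q * s) fun X hX B _ => ?_).trans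
        (mul_le_mul' hfib le_rfl)
      rw [nnnorm_mul, ENNReal.coe_mul]
      calc _ ≤ 1 * ((c.cst : ℝ≥0∞) ^ X.card * fnSize p S.P.g S.Vf X (x.2.2 X)) :=
            mul_le_mul' (w_ds_inv_card_le _) (w_Hq_zero_le h hx 0 X)
        _ = (c.cst : ℝ≥0∞) ^ X.card * fnSize p S.P.g S.Vf X (x.2.2 X) := one_mul _
        _ ≤ q * s := by
            rw [hq]
            exact mul_le_mul' (w_ds_cst_le c (w_mem_small.1 hX).2) ((w_fnSize_le_actNorm p h.hA S.P.g S.Vf x.2.2 X).trans hR)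
    · calc _ ≤ ∑ _B ∈ Finset.univ.filter (fun B => S.P.N.up B = b), (s * Kk) := by
            refine Finset.sum_le_sum fun B _ => ?_
            rw [nnnorm_mul, ENNReal.coe_mul]
            refine mul_le_mul' (le_trans ?_ hT) ?_
            · have : ‖x.1 / 2‖₊ ≤ ‖x.1‖₊ := by
                rw [← NNReal.coe_le_coe, coe_nnnorm, coe_nnnorm, norm_div]
                have h2 : ‖(2 : ℂ)‖ = 2 := by simp
                rw [h2]
                have := norm_nonneg x.1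
                linarith
              exact_mod_cast this
            · rw [hKk]
              exact coe_nnnorm_le_ofReal (w_conv_eBC_zero c.Ck c.ck (2 ^ ℓ) S.P.g S.P.ok h.ok.per S.Γ h.psd h.ok.shell.bounds B)
        _ = ((Finset.univ.filter fun B => S.P.N.up B = b).card : ℝ≥0∞) * (s * Kk) := by
            rw [Finset.sum_const, nsmul_eq_mul]
        _ ≤ _ := mul_le_mul' hfib le_rfl
  rw [← hs]
  have hC : ((wCd c p.κ p.h0 αmax ℓ Cl Cc Cn : ℝ≥0) : ℝ≥0∞)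
      = 1 + N * ((Cn : ℝ≥0∞) * Kp) + N * Ke + N * E + N * ((Cn : ℝ≥0∞) * q) + N * Kk := by
    rw [hN, hKp, hKe, hE, hq, hKk]
    unfold wCd ENNReal.ofReal
    push_cast
    rfl
  rw [hC]
  calc _ ≤ (N * ((Cn : ℝ≥0∞) * (Kp * s)) + N * (s * Ke + s * E)) + (N * ((Cn : ℝ≥0∞) * (q * s)) + N * (s * Kk)) := add_le_add h1 h2
    _ = (N * ((Cn : ℝ≥0∞) * Kp) + N * Ke + N * E + N * ((Cn : ℝ≥0∞) * q) + N * Kk) * s := by ring
    _ ≤ _ := by
        refine mul_le_mul' ?_ le_rfl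
        calc _ ≤ 1 + (N * ((Cn : ℝ≥0∞) * Kp) + N * Ke + N * E + N * ((Cn : ℝ≥0∞) * q) + N * Kk) := le_add_self
          _ = _ := by ring

/-- **the rooted size of the designated data.**  plan: `∑_Y fnSize {b} (F Y b) ≤ ∑_{B ⊂ b} ∑_{X small ∋ B} fnSize {b} (piece X B) + ∑_{B ⊂ b} fnSize {b} (E (t e_B/2 + z c_B))`; `w_loc_size`, `w_coef_bd`, `w_cBC_coarse_size`, `w_Hq_zero_le`,
`w_conv_single`, `w_conv_eBC`, `w_conv_cBC` (`e^{-α²γ/2} ≤ 1` since `Γ (0,0) ≥ 0`), `w_sum_eBC` is NOT needed: bound block by block with `w_loc_size`-type estimate for `eBC P.g B` (= `Loc` with `D = 2 Id`, `B4.loc_isotropic`), `w_conv_eBC_zero`;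
counting `w_count_fib`, `w_count_small`; `fnSize (R X) ≤ ‖R‖` (`w_fnSize_le_actNorm`).  The same terms bound `|a b|`.
(17:05Z: the bound `α ≤ αmax` is only available where a cosine is present: in the pieces if `cosOn`, in the singleton if `z ≠ 0`; the high-frequency variant has `cosOn = false`, `z = 0`, `α` unbounded.) -/
theorem w_desig_size (c : Geo) (hc : c.Ok) (δ κ : ℝ) (h0 : ℝ≥0) (hδ : 0 < δ) (hκ : 0 < κ) (hh : 0 < h0) (αmax : ℝ) : ∃ (ℓ0 D1 : ℕ), ∀ ℓ ≥ ℓ0, ∃ Cd : ℝ≥0, 1 ≤ Cd ∧ ∀ D0 ≥ D1,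
    ∀ (A ω : ℝ) (G : Geom) (gs : Grid G) (S : Step G D0 ℓ) (cosOn : Bool), (cosOn = true → Step.alpha ω ≤ αmax) → Ctx c ⟨δ, κ, h0, A, ω⟩ gs S →
      ∀ x : ℂ × ℂ × Act S.P.g, Adm ⟨δ, κ, h0, A, ω⟩ c gs x.2.2 → (x.2.1 = 0 ∨ Step.alpha ω ≤ αmax) →
        (S.desig c ω cosOn x).size ⟨δ, κ, h0, A, ω⟩ S.Vc ≤ Cd * size3 ⟨δ, κ, h0, A, ω⟩ S.P.g S.Vf x := by
  obtain ⟨Cl, hCl⟩ := w_loc_size δ κ h0 hδ hκ
  obtain ⟨Cc, ℓ0, D1, hCc⟩ := w_coef_bd c hc δ κ h0 hδ hκ hh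
  obtain ⟨Cn, hCn⟩ := w_count_small c
  refine ⟨ℓ0, D1, fun ℓ hℓ => ⟨wCd c κ h0 αmax ℓ Cl Cc Cn, ?_, fun D0 hD0 A ω G gs S cosOn hcos h x hx hz => ?_⟩⟩
  · unfold wCd
    simp only [add_assoc]
    exact le_self_add
  · exact w_ds_core (p := ⟨δ, κ, h0, A, ω⟩) h cosOn αmax hcos x hx hz Cl Cc Cn
      (fun X B => hCl ⟨δ, κ, h0, A, ω⟩ rfl rfl rfl G D0 ℓ S.P S.Vc X _ _ B)
      (fun X hX => hCc ℓ hℓ D0 hD0 A ω G gs S h x.2.2 hx X hX)
      (fun B => hCn G D0 ℓ S B)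

/-- triangle inequality in `ℝ≥0∞` -/
theorem w_nn_sum_le {ι : Type} (s : Finset ι) (f : ι → ℂ) : (‖∑ i ∈ s, f i‖₊ : ℝ≥0∞) ≤ ∑ i ∈ s, (‖f i‖₊ : ℝ≥0∞) := by
  rw [← ENNReal.ofNNReal_finsetSum]
  exact ENNReal.coe_le_coe.2 (nnnorm_sum_le s f)

/-- the weights `1 / |X|` are at most one -/
theorem w_nn_inv_card_mul_le (n : ℕ) (a : ℂ) : (‖(1 / (n : ℂ)) * a‖₊ : ℝ≥0∞) ≤ (‖a‖₊ : ℝ≥0∞) := by
  refine ENNReal.coe_le_coe.2 ?_
  rw [nnnorm_mul]
  have h1 : ‖(1 / (n : ℂ))‖₊ ≤ 1 := by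
    rw [← NNReal.coe_le_coe, coe_nnnorm, NNReal.coe_one, norm_div, norm_one, Complex.norm_natCast]
    rcases Nat.eq_zero_or_pos n with rfl | hn
    · simp
    · rw [div_le_one (by exact_mod_cast hn)]
      exact_mod_cast hn
  calc ‖(1 / (n : ℂ))‖₊ * ‖a‖₊ ≤ 1 * ‖a‖₊ := mul_le_mul' h1 le_rfl
    _ = ‖a‖₊ := one_mul _

/-- **the projections.**  plan: `w_coef_bd`, `w_Hq_zero_le`, `w_count_small`. -/
theorem w_proj (c : Geo) (hc : c.Ok) (δ κ : ℝ) (h0 : ℝ≥0) (hδ : 0 < δ) (hκ : 0 < κ) (hh : 0 < h0) : ∃ (ℓ0 D1 : ℕ), ∀ ℓ ≥ ℓ0, ∃ Cp : ℝ≥0, 1 ≤ Cp ∧ ∀ D0 ≥ D1,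
    ∀ (A ω : ℝ) (G : Geom) (gs : Grid G) (S : Step G D0 ℓ), Ctx c ⟨δ, κ, h0, A, ω⟩ gs S → ∀ Rm : Act S.P.g, Adm ⟨δ, κ, h0, A, ω⟩ c gs Rm →
      (‖S.Pt c ω Rm‖₊ : ℝ≥0∞) + (‖S.Pz c ω Rm‖₊ : ℝ≥0∞) ≤ Cp * actNorm ⟨δ, κ, h0, A, ω⟩ S.P.g S.Vf Rm := by
  classical
  obtain ⟨Cc, ℓ0, D1, H⟩ := w_coef_bd c hc δ κ h0 hδ hκ hh
  obtain ⟨Cn, hCn⟩ := w_count_small c
  refine ⟨ℓ0, D1, fun ℓ hℓ => ⟨1 + (Cn : ℝ≥0) * Cc + (2 ^ ℓ) ^ 2 * ((Cn : ℝ≥0) * (2 * (max 1 c.cst) ^ c.n0)), ?_,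
    fun D0 hD0 A ω G gs S h Rm hR => ?_⟩⟩
  · rw [add_assoc]
    exact le_self_add
  set p : Par := ⟨δ, κ, h0, A, ω⟩ with hp
  set N : ℝ≥0∞ := actNorm p S.P.g S.Vf Rm with hN
  set F : Finset (Finset S.P.g.I) := (S.small c).filter (fun X => S.B0 ∈ X) with hF
  have hcard : (F.card : ℝ≥0∞) ≤ (Cn : ℝ≥0∞) := by exact_mod_cast hCn G D0 ℓ S S.B0
  have hsz : ∀ X, fnSize p S.P.g S.Vf X (Rm X) ≤ N := fun X => w_fnSize_le_actNorm p h.hA S.P.g S.Vf Rm X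
  have hFs : ∀ X ∈ F, X ∈ S.small c := fun X hX => (Finset.mem_filter.1 hX).1
  -- the quadratic projection
  have h1 : (‖S.Pt c ω Rm‖₊ : ℝ≥0∞) ≤ ((Cn : ℝ≥0) * Cc : ℝ≥0) * N := by
    have a1 : ∀ X ∈ F, ∑ i : Fin 2, (‖DX S.P.g (anchor S.P.g X) (S.Hq ω 0 Rm X) i i‖₊ : ℝ≥0∞) ≤ Cc * N := by
      intro X hX
      calc ∑ i : Fin 2, (‖DX S.P.g (anchor S.P.g X) (S.Hq ω 0 Rm X) i i‖₊ : ℝ≥0∞)
          ≤ ∑ i : Fin 2, ∑ j : Fin 2, (‖DX S.P.g (anchor S.P.g X) (S.Hq ω 0 Rm X) i j‖₊ : ℝ≥0∞) :=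
            Finset.sum_le_sum fun i _ => Finset.single_le_sum
              (f := fun j => (‖DX S.P.g (anchor S.P.g X) (S.Hq ω 0 Rm X) i j‖₊ : ℝ≥0∞)) (fun _ _ => zero_le) (Finset.mem_univ i)
        _ ≤ (‖S.Hq ω 0 Rm X 0‖₊ : ℝ≥0∞) + ∑ i : Fin 2, ∑ j : Fin 2, (‖DX S.P.g (anchor S.P.g X) (S.Hq ω 0 Rm X) i j‖₊ : ℝ≥0∞) :=
            le_add_self
        _ ≤ Cc * fnSize p S.P.g S.Vf X (Rm X) := H ℓ hℓ D0 hD0 A ω G gs S h Rm hR X (hFs X hX)
        _ ≤ Cc * N := mul_le_mul' le_rfl (hsz X)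
    have a2 : (‖S.Pt c ω Rm‖₊ : ℝ≥0∞) ≤ ∑ i : Fin 2, ∑ X ∈ F, (‖DX S.P.g (anchor S.P.g X) (S.Hq ω 0 Rm X) i i‖₊ : ℝ≥0∞) := by
      unfold Step.Pt
      rw [nnnorm_mul]
      have hhalf : ‖(1 / 2 : ℂ)‖₊ ≤ 1 := by
        rw [← NNReal.coe_le_coe, coe_nnnorm, NNReal.coe_one]
        norm_num
      push_cast
      calc (‖(1 / 2 : ℂ)‖₊ : ℝ≥0∞) * _ ≤ 1 * _ := mul_le_mul' (by exact_mod_cast hhalf) le_rfl
        _ = _ := one_mul _
        _ ≤ _ := w_nn_sum_le _ _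
        _ ≤ _ := Finset.sum_le_sum fun i _ => (w_nn_sum_le _ _).trans (Finset.sum_le_sum fun X _ => w_nn_inv_card_mul_le _ _)
    calc (‖S.Pt c ω Rm‖₊ : ℝ≥0∞) ≤ _ := a2
      _ = ∑ X ∈ F, ∑ i : Fin 2, (‖DX S.P.g (anchor S.P.g X) (S.Hq ω 0 Rm X) i i‖₊ : ℝ≥0∞) := Finset.sum_comm
      _ ≤ ∑ _X ∈ F, (Cc : ℝ≥0∞) * N := Finset.sum_le_sum a1
      _ = (F.card : ℝ≥0∞) * (Cc * N) := by rw [Finset.sum_const, nsmul_eq_mul]
      _ ≤ (Cn : ℝ≥0∞) * (Cc * N) := mul_le_mul' hcard le_rfl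
      _ = ((Cn : ℝ≥0) * Cc : ℝ≥0) * N := by push_cast; ring
  -- the cosine projection
  have h2 : (‖S.Pz c ω Rm‖₊ : ℝ≥0∞) ≤ ((2 ^ ℓ) ^ 2 * ((Cn : ℝ≥0) * (2 * (max 1 c.cst) ^ c.n0)) : ℝ≥0) * N := by
    have b0 : ∀ X ∈ F, ∀ q : ℤ, (‖S.Hq ω q Rm X 0‖₊ : ℝ≥0∞) ≤ ((max 1 c.cst) ^ c.n0 : ℝ≥0) * N := by
      intro X hX q
      have hXc : X.card ≤ c.n0 := (w_mem_small.1 (hFs X hX)).2
      calc (‖S.Hq ω q Rm X 0‖₊ : ℝ≥0∞) ≤ (c.cst : ℝ≥0∞) ^ X.card * fnSize p S.P.g S.Vf X (Rm X) := w_Hq_zero_le h hR q X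
        _ ≤ ((max 1 c.cst) ^ c.n0 : ℝ≥0) * N := by
          refine mul_le_mul' ?_ (hsz X)
          have : c.cst ^ X.card ≤ (max 1 c.cst) ^ c.n0 :=
            (pow_le_pow_left' (le_max_right _ _) _).trans (pow_le_pow_right₀ (le_max_left _ _) hXc)
          exact_mod_cast this
    have b1 : ∀ X ∈ F, (‖(1 / (X.card : ℂ)) * (S.Hq ω 1 Rm X 0 + S.Hq ω (-1) Rm X 0)‖₊ : ℝ≥0∞) ≤ (2 * (max 1 c.cst) ^ c.n0 : ℝ≥0) * N := by
      intro X hX
      calc (‖(1 / (X.card : ℂ)) * (S.Hq ω 1 Rm X 0 + S.Hq ω (-1) Rm X 0)‖₊ : ℝ≥0∞)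
          ≤ (‖S.Hq ω 1 Rm X 0 + S.Hq ω (-1) Rm X 0‖₊ : ℝ≥0∞) := w_nn_inv_card_mul_le _ _
        _ ≤ (‖S.Hq ω 1 Rm X 0‖₊ : ℝ≥0∞) + (‖S.Hq ω (-1) Rm X 0‖₊ : ℝ≥0∞) := by exact_mod_cast nnnorm_add_le _ _
        _ ≤ ((max 1 c.cst) ^ c.n0 : ℝ≥0) * N + ((max 1 c.cst) ^ c.n0 : ℝ≥0) * N := add_le_add (b0 X hX 1) (b0 X hX (-1))
        _ = (2 * (max 1 c.cst) ^ c.n0 : ℝ≥0) * N := by push_cast; ring
    unfold Step.Pz
    rw [nnnorm_mul]
    have hL : ‖((2 : ℂ) ^ ℓ) ^ 2‖₊ = (2 ^ ℓ) ^ 2 := by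
      rw [nnnorm_pow, nnnorm_pow]
      congr 2
      rw [← NNReal.coe_inj, coe_nnnorm]
      simp
    rw [hL]
    push_cast
    rw [mul_assoc]
    refine mul_le_mul' le_rfl ?_
    calc _ ≤ ∑ X ∈ F, (‖(1 / (X.card : ℂ)) * (S.Hq ω 1 Rm X 0 + S.Hq ω (-1) Rm X 0)‖₊ : ℝ≥0∞) := w_nn_sum_le _ _
      _ ≤ ∑ _X ∈ F, ((2 * (max 1 c.cst) ^ c.n0 : ℝ≥0) : ℝ≥0∞) * N := Finset.sum_le_sum b1
      _ = (F.card : ℝ≥0∞) * (((2 * (max 1 c.cst) ^ c.n0 : ℝ≥0) : ℝ≥0∞) * N) := by rw [Finset.sum_const, nsmul_eq_mul]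
      _ ≤ (Cn : ℝ≥0∞) * (((2 * (max 1 c.cst) ^ c.n0 : ℝ≥0) : ℝ≥0∞) * N) := mul_le_mul' hcard le_rfl
      _ = _ := by push_cast; ring
  calc (‖S.Pt c ω Rm‖₊ : ℝ≥0∞) + (‖S.Pz c ω Rm‖₊ : ℝ≥0∞)
      ≤ ((Cn : ℝ≥0) * Cc : ℝ≥0) * N + ((2 ^ ℓ) ^ 2 * ((Cn : ℝ≥0) * (2 * (max 1 c.cst) ^ c.n0)) : ℝ≥0) * N := add_le_add h1 h2
    _ ≤ 1 * N + ((Cn : ℝ≥0) * Cc : ℝ≥0) * N + ((2 ^ ℓ) ^ 2 * ((Cn : ℝ≥0) * (2 * (max 1 c.cst) ^ c.n0)) : ℝ≥0) * N :=
        add_le_add le_add_self le_rfl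
    _ = _ := by push_cast; ring

/-! ## LEAF `W-DES-4`: the four symmetries of the designated data -/

theorem w_des4_zero_mem {h0 : ℝ≥0} (hh : 0 < h0) (g : Grid G) (X : Finset g.I) : (0 : G.V → ℂ) ∈ strip h0 g X := by
  rw [Hol.mem_strip]
  have : (fun v => ((0 : G.V → ℂ) v).im) = (0 : G.V → ℝ) := by funext v; simp
  rw [this, Hol.tnorm_zero]
  exact hh

theorem w_des4_conj_mem {h0 : ℝ≥0} {g : Grid G} {X : Finset g.I} {z : G.V → ℂ} (hz : z ∈ strip h0 g X) :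
    (fun v => starRingEnd ℂ (z v)) ∈ strip h0 g X := by
  rw [Hol.mem_strip] at hz ⊢
  have : (fun v => (starRingEnd ℂ (z v)).im) = -(fun v => (z v).im) := by funext v; simp
  rw [this, Hol.tnorm_neg]
  exact hz

theorem w_des4_pvec_neg (g : Grid G) (z : G.V → ℂ) (v : G.V) (ε : Fin 2 → Bool) (i : Fin 2) :
    pvec g (-z) v ε i = (-1) * pvec g z v ε i := by
  unfold pvec dif Geom.lift
  simp only [Pi.neg_apply]
  ring

theorem w_des4_pvec_const (g : Grid G) (z : G.V → ℂ) (a : ℂ) (v : G.V) (ε : Fin 2 → Bool) (i : Fin 2) :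
    pvec g (fun v => z v + a) v ε i = 1 * pvec g z v ε i := by
  unfold pvec dif Geom.lift
  ring

theorem w_des4_pvec_conj (g : Grid G) (z : G.V → ℂ) (v : G.V) (ε : Fin 2 → Bool) (i : Fin 2) :
    pvec g (fun v => starRingEnd ℂ (z v)) v ε i = starRingEnd ℂ (pvec g z v ε i) := by
  unfold pvec dif Geom.lift
  simp only [map_mul, map_sub, Complex.conj_natCast]
  congr 2
  split_ifs <;> simp

theorem w_des4_Loc_congr (g : Grid G) (X : Finset g.I) (v0 : G.V) (H H' : Fn G) (B : g.I) (z z' : G.V → ℂ) (s : ℂ) (hs : s * s = 1)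
    (h0 : H' 0 = H 0) (hD : ∀ i j, DX g v0 H' i j = DX g v0 H i j) (hp : ∀ v ε i, pvec g z' v ε i = s * pvec g z v ε i) :
    Loc g X v0 H' B z' = Loc g X v0 H B z := by
  unfold Loc
  simp only [h0, hD, hp]
  congr 3
  refine Finset.sum_congr rfl fun v _ => ?_
  congr 1
  refine Finset.sum_congr rfl fun ε _ => Finset.sum_congr rfl fun i _ => Finset.sum_congr rfl fun j _ => ?_
  linear_combination (pvec g z v ε i * DX g v0 H i j * pvec g z v ε j) * hs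

theorem w_des4_Loc_conj (g : Grid G) (X : Finset g.I) (v0 : G.V) (H H' : Fn G) (B : g.I) (z : G.V → ℂ)
    (h0 : H' 0 = starRingEnd ℂ (H 0)) (hD : ∀ i j, DX g v0 H' i j = starRingEnd ℂ (DX g v0 H i j)) :
    Loc g X v0 H' B (fun v => starRingEnd ℂ (z v)) = starRingEnd ℂ (Loc g X v0 H B z) := by
  unfold Loc
  simp only [h0, hD, w_des4_pvec_conj, map_mul, map_add, map_sum, map_div₀, map_one, map_pow, Complex.conj_natCast, map_ofNat]

theorem w_des4_conv_neg (Γ : Matrix G.V G.V ℝ) (hΓ : Γ.PosSemidef) (F : Fn G) (hF : ∀ w, F (-w) = F w) (z : G.V → ℂ) :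
    conv Γ F (-z) = conv Γ F z := by
  unfold conv
  rw [← w_gauss_neg Γ hΓ fun ζ => F (z + toC ζ)]
  refine integral_congr_ae (Filter.Eventually.of_forall fun ζ => ?_)
  simp only
  rw [← hF]
  congr 1
  funext v
  simp only [toC, Pi.neg_apply, Pi.add_apply, Complex.ofReal_neg]
  ring

theorem w_des4_conv_shift (Γ : Matrix G.V G.V ℝ) (F F' : Fn G) (a : ℂ) (hF : ∀ w, F' w = F fun v => w v + a) (z : G.V → ℂ) :
    conv Γ F' z = conv Γ F fun v => z v + a := by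
  unfold conv
  refine integral_congr_ae (Filter.Eventually.of_forall fun ζ => ?_)
  simp only
  rw [hF]
  congr 1
  funext v
  simp only [Pi.add_apply]
  ring

theorem w_des4_conv_conj (Γ : Matrix G.V G.V ℝ) (F F' : Fn G) (hF : ∀ w, F' (fun v => starRingEnd ℂ (w v)) = starRingEnd ℂ (F w)) (z : G.V → ℂ) :
    conv Γ F' (fun v => starRingEnd ℂ (z v)) = starRingEnd ℂ (conv Γ F z) := by
  unfold conv
  rw [← integral_conj]
  refine integral_congr_ae (Filter.Eventually.of_forall fun ζ => ?_)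
  simp only
  rw [← hF]
  congr 1
  funext v
  simp [toC]

/-- evenness (all `z`).  plan: `pvec (-z) = - pvec z`, `w_cBC_neg`; last term: `w_conv_single`, `w_conv_eBC`, `w_conv_cBC`, `w_eBC_neg`. -/
theorem w_desig_even (h : Ctx c p gs S) (cosOn : Bool) (x : ℂ × ℂ × Act S.P.g) (Y : Finset S.P.g'.I) (b : S.P.g'.I) (z : G.V → ℂ) :
    (S.desig c p.ω cosOn x).F Y b (-z) = (S.desig c p.ω cosOn x).F Y b z := by
  have hp : ∀ X B, S.piece p.ω cosOn x.2.2 X B (-z) = S.piece p.ω cosOn x.2.2 X B z := by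
    intro X B
    unfold Step.piece
    rw [Pi.add_apply, Pi.add_apply, w_des4_Loc_congr S.P.g X _ _ _ B z (-z) (-1) (by norm_num) rfl (fun _ _ => rfl)
      (w_des4_pvec_neg S.P.g z)]
    congr 1
    split_ifs
    · rw [Pi.smul_apply, Pi.smul_apply, w_cBC_neg]
    · rfl
  have hc : ∀ B, conv S.Γ ((x.1 / 2) • eBC S.P.g B + x.2.1 • cBC S.P.g (Step.alpha p.ω) B) (-z)
      = conv S.Γ ((x.1 / 2) • eBC S.P.g B + x.2.1 • cBC S.P.g (Step.alpha p.ω) B) z :=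
    fun B => w_des4_conv_neg S.Γ h.psd _ (fun w => by simp only [Pi.add_apply, Pi.smul_apply, w_eBC_neg, w_cBC_neg]) z
  unfold Step.desig
  simp only [Pi.add_apply, Finset.sum_apply, hp]
  congr 1
  split_ifs
  · simp only [Finset.sum_apply, hc]
  · rfl

/-- half period.  plan: `w_Hq_half` (`q = 0`: the same function on the strip, so the same `H 0`, `DX` by `w_D2_congr`; `q = ± 1`: a sign); `Loc` is blind to constants, `w_cBC_half`, `w_eBC_const`. -/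
theorem w_desig_half (h : Ctx c p gs S) (cosOn : Bool) (x : ℂ × ℂ × Act S.P.g) (hx : Adm p c gs x.2.2) :
    (∀ Y b z, (S.desig c p.ω cosOn (x.1, -x.2.1, halfShift p.ω x.2.2)).F Y b z = (S.desig c p.ω cosOn x).F Y b fun v => z v + ((p.ω / 2 : ℝ) : ℂ)) ∧
    (S.desig c p.ω cosOn (x.1, -x.2.1, halfShift p.ω x.2.2)).a = (S.desig c p.ω cosOn x).a ∧
    S.Pt c p.ω (halfShift p.ω x.2.2) = S.Pt c p.ω x.2.2 ∧ S.Pz c p.ω (halfShift p.ω x.2.2) = -S.Pz c p.ω x.2.2 := by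
  have hH0 : ∀ X, ∀ z ∈ strip p.h0 S.P.g X, S.Hq p.ω 0 (halfShift p.ω x.2.2) X z = S.Hq p.ω 0 x.2.2 X z := by
    intro X z hz
    rw [w_Hq_half h hx 0 X hz]
    simp
  have hH00 : ∀ X, S.Hq p.ω 0 (halfShift p.ω x.2.2) X 0 = S.Hq p.ω 0 x.2.2 X 0 :=
    fun X => hH0 X 0 (w_des4_zero_mem h.hh _ _)
  have hH1 : ∀ X, S.Hq p.ω 1 (halfShift p.ω x.2.2) X 0 = -S.Hq p.ω 1 x.2.2 X 0 := by
    intro X
    rw [w_Hq_half h hx 1 X (w_des4_zero_mem h.hh _ _)]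
    simp
  have hHm : ∀ X, S.Hq p.ω (-1) (halfShift p.ω x.2.2) X 0 = -S.Hq p.ω (-1) x.2.2 X 0 := by
    intro X
    rw [w_Hq_half h hx (-1) X (w_des4_zero_mem h.hh _ _)]
    simp
  have hDX : ∀ X v0 i j, DX S.P.g v0 (S.Hq p.ω 0 (halfShift p.ω x.2.2) X) i j = DX S.P.g v0 (S.Hq p.ω 0 x.2.2 X) i j := by
    intro X v0 i j
    rw [w_DX_eq, w_DX_eq]
    exact w_D2_congr (Hol.strip_isOpen p.h0 S.P.g X) (w_des4_zero_mem h.hh _ _) (hH0 X) _ _
  refine ⟨fun Y b z => ?_, ?_, ?_, ?_⟩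
  · have hp : ∀ X B, S.piece p.ω cosOn (halfShift p.ω x.2.2) X B z
        = S.piece p.ω cosOn x.2.2 X B fun v => z v + ((p.ω / 2 : ℝ) : ℂ) := by
      intro X B
      unfold Step.piece
      rw [Pi.add_apply, Pi.add_apply, w_des4_Loc_congr S.P.g X _ (S.Hq p.ω 0 x.2.2 X) (S.Hq p.ω 0 (halfShift p.ω x.2.2) X) B
        (fun v => z v + ((p.ω / 2 : ℝ) : ℂ)) z 1 (by norm_num) (hH00 X) (hDX X _)
        (fun v ε i => by rw [w_des4_pvec_const]; ring)]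
      congr 1
      split_ifs
      · rw [Pi.smul_apply, Pi.smul_apply, hH1, hHm, w_cBC_half _ _ h.hω, smul_eq_mul, smul_eq_mul]
        ring
      · rfl
    have hc : ∀ B, conv S.Γ ((x.1 / 2) • eBC S.P.g B + (-x.2.1) • cBC S.P.g (Step.alpha p.ω) B) z
        = conv S.Γ ((x.1 / 2) • eBC S.P.g B + x.2.1 • cBC S.P.g (Step.alpha p.ω) B) fun v => z v + ((p.ω / 2 : ℝ) : ℂ) :=
      fun B => w_des4_conv_shift S.Γ _ _ _ (fun w => by
        simp only [Pi.add_apply, Pi.smul_apply, w_eBC_const, w_cBC_half _ _ h.hω, smul_eq_mul]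
        ring) z
    unfold Step.desig
    simp only [Pi.add_apply, Finset.sum_apply, hp]
    congr 1
    split_ifs
    · simp only [Finset.sum_apply, hc]
    · rfl
  · funext b
    unfold Step.desig
    simp only [hH00]
  · unfold Step.Pt
    simp only [hDX]
  · unfold Step.Pz
    simp only [hH1, hHm]
    rw [← mul_neg, ← Finset.sum_neg_distrib]
    congr 1
    refine Finset.sum_congr rfl fun X _ => ?_
    ring

/-- complex conjugation.  plan: `w_Hq_conj` (the charges `± 1` are exchanged), `w_D2_conj` (`ell` is real), `w_eBC_conj`, `w_cBC_conj`, `pvec (conj z) = conj (pvec z)`, `integral_conj`. -/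
theorem w_desig_conj (h : Ctx c p gs S) (cosOn : Bool) (x : ℂ × ℂ × Act S.P.g) (hx : Adm p c gs x.2.2) (hfx : actNorm p S.P.g S.Vf x.2.2 ≠ ⊤) :
    (∀ Y b z, (S.desig c p.ω cosOn (starRingEnd ℂ x.1, starRingEnd ℂ x.2.1, conjAct x.2.2)).F Y b (fun v => starRingEnd ℂ (z v)) = starRingEnd ℂ ((S.desig c p.ω cosOn x).F Y b z)) ∧
    (∀ b, (S.desig c p.ω cosOn (starRingEnd ℂ x.1, starRingEnd ℂ x.2.1, conjAct x.2.2)).a b = starRingEnd ℂ ((S.desig c p.ω cosOn x).a b)) ∧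
    S.Pt c p.ω (conjAct x.2.2) = starRingEnd ℂ (S.Pt c p.ω x.2.2) ∧ S.Pz c p.ω (conjAct x.2.2) = starRingEnd ℂ (S.Pz c p.ω x.2.2) := by
  have hz0 : (fun v => starRingEnd ℂ ((0 : G.V → ℂ) v)) = 0 := by
    funext v
    simp
  have hH00 : ∀ X, S.Hq p.ω 0 (conjAct x.2.2) X 0 = starRingEnd ℂ (S.Hq p.ω 0 x.2.2 X 0) := by
    intro X
    rw [w_Hq_conj, neg_zero, hz0]
  have hH1 : ∀ X, S.Hq p.ω 1 (conjAct x.2.2) X 0 = starRingEnd ℂ (S.Hq p.ω (-1) x.2.2 X 0) := by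
    intro X
    rw [w_Hq_conj, hz0]
  have hHm : ∀ X, S.Hq p.ω (-1) (conjAct x.2.2) X 0 = starRingEnd ℂ (S.Hq p.ω 1 x.2.2 X 0) := by
    intro X
    rw [w_Hq_conj, neg_neg, hz0]
  have hDX : ∀ X v0 i j, DX S.P.g v0 (S.Hq p.ω 0 (conjAct x.2.2) X) i j = starRingEnd ℂ (DX S.P.g v0 (S.Hq p.ω 0 x.2.2 X) i j) := by
    intro X v0 i j
    have e : S.Hq p.ω 0 (conjAct x.2.2) X = fun z => starRingEnd ℂ (S.Hq p.ω 0 x.2.2 X fun v => starRingEnd ℂ (z v)) := by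
      funext z
      rw [w_Hq_conj, neg_zero]
    have et : ∀ k, (fun v => starRingEnd ℂ (toC (ell S.P.g v0 k) v)) = toC (ell S.P.g v0 k) := by
      intro k
      funext v
      simp [toC]
    rw [w_DX_eq, w_DX_eq, e, w_D2_conj (Hol.strip_isOpen p.h0 S.P.g X) (w_des4_zero_mem h.hh _ _) (fun z hz => w_des4_conj_mem hz)
      (w_Hq_local h hx hfx 0 X).hol, et, et]
  have hE : ∀ B, conv S.Γ (eBC S.P.g B) 0 = starRingEnd ℂ (conv S.Γ (eBC S.P.g B) 0) := by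
    intro B
    have := w_des4_conv_conj S.Γ (eBC S.P.g B) (eBC S.P.g B) (w_eBC_conj S.P.g B) 0
    rwa [hz0] at this
  refine ⟨fun Y b z => ?_, fun b => ?_, ?_, ?_⟩
  · have hp : ∀ X B, S.piece p.ω cosOn (conjAct x.2.2) X B (fun v => starRingEnd ℂ (z v))
        = starRingEnd ℂ (S.piece p.ω cosOn x.2.2 X B z) := by
      intro X B
      unfold Step.piece
      rw [Pi.add_apply, Pi.add_apply, map_add, w_des4_Loc_conj S.P.g X _ (S.Hq p.ω 0 x.2.2 X) _ B z (hH00 X) (hDX X _)]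
      congr 1
      split_ifs
      · rw [Pi.smul_apply, Pi.smul_apply, hH1, hHm, w_cBC_conj, smul_eq_mul, smul_eq_mul]
        simp only [map_mul, map_add, map_div₀, map_one, Complex.conj_natCast]
        ring
      · simp
    have hc : ∀ B, conv S.Γ ((starRingEnd ℂ x.1 / 2) • eBC S.P.g B + (starRingEnd ℂ x.2.1) • cBC S.P.g (Step.alpha p.ω) B) (fun v => starRingEnd ℂ (z v))
        = starRingEnd ℂ (conv S.Γ ((x.1 / 2) • eBC S.P.g B + x.2.1 • cBC S.P.g (Step.alpha p.ω) B) z) :=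
      fun B => w_des4_conv_conj S.Γ _ _ (fun w => by
        simp only [Pi.add_apply, Pi.smul_apply, w_eBC_conj, w_cBC_conj, smul_eq_mul, map_add, map_mul, map_div₀, map_ofNat]) z
    unfold Step.desig
    simp only [Pi.add_apply, Finset.sum_apply, hp, map_add, map_sum]
    congr 1
    split_ifs
    · simp only [Finset.sum_apply, hc, map_sum]
    · simp
  · unfold Step.desig
    simp only [hH00, map_add, map_sum, map_mul, map_div₀, map_one, Complex.conj_natCast, map_ofNat, ← hE]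
  · unfold Step.Pt
    simp only [hDX, map_sum, map_mul, map_div₀, map_one, Complex.conj_natCast, map_ofNat]
  · unfold Step.Pz
    simp only [hH1, hHm, map_sum, map_mul, map_add, map_div₀, map_one, map_pow, Complex.conj_natCast, map_ofNat]
    congr 1
    refine Finset.sum_congr rfl fun X _ => ?_
    ring

/-- lattice symmetries of both grids.  plan: reindex `X ↦ symX s X` (`w_small_sym`, `w_tr_cl`), `B ↦ s.τ B`; `w_Loc_sym`, `w_Hq_sym` at `0`, `w_sym_cBC`, `w_sym_eBC`, `w_gauss_sym`. -/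
theorem w_desig_sym (h : Ctx c p gs S) (cosOn : Bool) (x : ℂ × ℂ × Act S.P.g) (hx : Adm p c gs x.2.2) (hfx : actNorm p S.P.g S.Vf x.2.2 ≠ ⊤)
    (s : GridSym S.P.g) (s' : GridSym S.P.g') (hσ : s.σ = s'.σ) (hs : s.Pres gs) :
    (∀ Y b z, (S.desig c p.ω cosOn x).F (symX s' Y) (s'.τ b) (symF s z) = (S.desig c p.ω cosOn x).F Y b z) ∧
    ∀ b, (S.desig c p.ω cosOn x).a (s'.τ b) = (S.desig c p.ω cosOn x).a b := by
  classical
  have hup : ∀ a, S.P.N.up (s.τ a) = s'.τ (S.P.N.up a) := (Tr.sym S.P S.Γ h.psd h.ok.per h.hM s s' hσ (h.ok.inv s)).up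
  have hcl : ∀ X, S.P.N.cl (symX s X) = symX s' (S.P.N.cl X) := w_tr_cl (Tr.sym S.P S.Γ h.psd h.ok.per h.hM s s' hσ (h.ok.inv s))
  have hconv : ∀ (F F₂ : Fn G) (z : G.V → ℂ), (∀ ζ : G.V → ℝ, F₂ (symF s (z + toC ζ)) = F (z + toC ζ)) →
      conv S.Γ F₂ (symF s z) = conv S.Γ F z :=
    w_conv_equiv (Tr.sym S.P S.Γ h.psd h.ok.per h.hM s s' hσ (h.ok.inv s))
  have h00 : symF s (0 : G.V → ℂ) = 0 := rfl
  have hHq : ∀ (q : ℤ) (X : Finset S.P.g.I), S.Hq p.ω q x.2.2 (symX s X) 0 = S.Hq p.ω q x.2.2 X 0 := by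
    intro q X
    have := w_Hq_sym h hx s hs q X (w_zero_mem_strip h.hh S.P.g X)
    rwa [h00] at this
  have hcard : ∀ X : Finset S.P.g.I, (symX s X).card = X.card := fun X => Finset.card_map _
  -- the reindexing of the blocks of a polymer
  have hB : ∀ (X : Finset S.P.g.I) (b : S.P.g'.I) (B : S.P.g.I),
      B ∈ X.filter (fun B => S.P.N.up B = b) ↔ s.τ B ∈ (symX s X).filter (fun B => S.P.N.up B = s'.τ b) := by
    intro X b B
    rw [Finset.mem_filter, Finset.mem_filter, hup, s'.τ.injective.eq_iff]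
    unfold symX
    rw [← Equiv.coe_toEmbedding, Finset.mem_map']
  have hU : ∀ (b : S.P.g'.I) (B : S.P.g.I),
      B ∈ (Finset.univ : Finset S.P.g.I).filter (fun B => S.P.N.up B = b) ↔
        s.τ B ∈ (Finset.univ : Finset S.P.g.I).filter (fun B => S.P.N.up B = s'.τ b) := by
    intro b B
    rw [Finset.mem_filter, Finset.mem_filter, hup, s'.τ.injective.eq_iff]
    simp
  have hpiece : ∀ X ∈ S.small c, ∀ (B : S.P.g.I) (z : G.V → ℂ),
      S.piece p.ω cosOn x.2.2 (symX s X) (s.τ B) (symF s z) = S.piece p.ω cosOn x.2.2 X B z := by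
    intro X hX B z
    unfold Step.piece
    rw [Pi.add_apply, Pi.add_apply, w_Loc_sym h hx hfx s hs hX B z]
    congr 1
    cases cosOn
    · rfl
    · simp only [if_true, Pi.smul_apply, hcard, hHq, w_sym_cBC]
  have hsing : ∀ (B : S.P.g.I) (z : G.V → ℂ),
      conv S.Γ ((x.1 / 2) • eBC S.P.g (s.τ B) + x.2.1 • cBC S.P.g (Step.alpha p.ω) (s.τ B)) (symF s z) =
        conv S.Γ ((x.1 / 2) • eBC S.P.g B + x.2.1 • cBC S.P.g (Step.alpha p.ω) B) z := by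
    intro B z
    refine hconv _ _ z fun ζ => ?_
    simp only [Pi.add_apply, Pi.smul_apply, w_sym_eBC h.ok.per, w_sym_cBC]
  have hF : ∀ (Y : Finset S.P.g'.I) (b : S.P.g'.I) (z : G.V → ℂ), (S.desig c p.ω cosOn x).F Y b z =
      (∑ X ∈ (S.small c).filter (fun X => S.P.N.cl X = Y), ∑ B ∈ X.filter (fun B => S.P.N.up B = b), S.piece p.ω cosOn x.2.2 X B z)
        + if Y = {b} then ∑ B ∈ Finset.univ.filter (fun B => S.P.N.up B = b),
            conv S.Γ ((x.1 / 2) • eBC S.P.g B + x.2.1 • cBC S.P.g (Step.alpha p.ω) B) z else 0 := by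
    intro Y b z
    unfold Step.desig
    simp only [Pi.add_apply, Finset.sum_apply, ite_apply, Pi.zero_apply]
  have ha : ∀ b : S.P.g'.I, (S.desig c p.ω cosOn x).a b =
      (∑ X ∈ S.small c, ∑ _B ∈ X.filter (fun B => S.P.N.up B = b), (1 / (X.card : ℂ)) * S.Hq p.ω 0 x.2.2 X 0)
        + ∑ B ∈ Finset.univ.filter (fun B => S.P.N.up B = b), (x.1 / 2) * conv S.Γ (eBC S.P.g B) 0 := fun _ => rfl
  refine ⟨fun Y b z => ?_, fun b => ?_⟩
  · have e1 : (∑ X ∈ (S.small c).filter (fun X => S.P.N.cl X = symX s' Y), ∑ B ∈ X.filter (fun B => S.P.N.up B = s'.τ b),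
          S.piece p.ω cosOn x.2.2 X B (symF s z)) =
        ∑ X ∈ (S.small c).filter (fun X => S.P.N.cl X = Y), ∑ B ∈ X.filter (fun B => S.P.N.up B = b),
          S.piece p.ω cosOn x.2.2 X B z := by
      refine (Finset.sum_equiv (Equiv.finsetCongr s.τ) ?_ ?_).symm
      · intro X
        show X ∈ _ ↔ symX s X ∈ _
        rw [Finset.mem_filter, Finset.mem_filter, w_small_sym h s X, hcl]
        unfold symX
        rw [Finset.map_inj]
      · intro X hX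
        show _ = ∑ B ∈ (symX s X).filter _, S.piece p.ω cosOn x.2.2 (symX s X) B (symF s z)
        exact Finset.sum_equiv s.τ (hB X b) fun B _ => (hpiece X (Finset.mem_filter.1 hX).1 B z).symm
    have e2 : (if symX s' Y = {s'.τ b} then ∑ B ∈ Finset.univ.filter (fun B => S.P.N.up B = s'.τ b),
          conv S.Γ ((x.1 / 2) • eBC S.P.g B + x.2.1 • cBC S.P.g (Step.alpha p.ω) B) (symF s z) else 0) =
        if Y = {b} then ∑ B ∈ Finset.univ.filter (fun B => S.P.N.up B = b),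
          conv S.Γ ((x.1 / 2) • eBC S.P.g B + x.2.1 • cBC S.P.g (Step.alpha p.ω) B) z else 0 := by
      have hiff : symX s' Y = {s'.τ b} ↔ Y = {b} := by
        unfold symX
        rw [← Equiv.coe_toEmbedding, ← Finset.map_singleton, Finset.map_inj]
      by_cases hY : Y = {b}
      · rw [if_pos hY, if_pos (hiff.2 hY)]
        exact (Finset.sum_equiv s.τ (hU b) fun B _ => (hsing B z).symm).symm
      · rw [if_neg hY, if_neg (mt hiff.1 hY)]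
    rw [hF, hF, e1, e2]
  · have e1 : (∑ X ∈ S.small c, ∑ _B ∈ X.filter (fun B => S.P.N.up B = s'.τ b), (1 / (X.card : ℂ)) * S.Hq p.ω 0 x.2.2 X 0) =
        ∑ X ∈ S.small c, ∑ _B ∈ X.filter (fun B => S.P.N.up B = b), (1 / (X.card : ℂ)) * S.Hq p.ω 0 x.2.2 X 0 := by
      refine (Finset.sum_equiv (Equiv.finsetCongr s.τ) (fun X => (w_small_sym h s X).symm) ?_).symm
      intro X _
      show _ = ∑ _B ∈ (symX s X).filter _, (1 / ((symX s X).card : ℂ)) * S.Hq p.ω 0 x.2.2 (symX s X) 0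
      rw [hcard, hHq]
      exact Finset.sum_equiv s.τ (hB X b) fun _ _ => rfl
    have e2 : (∑ B ∈ Finset.univ.filter (fun B => S.P.N.up B = s'.τ b), (x.1 / 2) * conv S.Γ (eBC S.P.g B) 0) =
        ∑ B ∈ Finset.univ.filter (fun B => S.P.N.up B = b), (x.1 / 2) * conv S.Γ (eBC S.P.g B) 0 := by
      refine (Finset.sum_equiv s.τ (hU b) fun B _ => ?_).symm
      have := hconv (eBC S.P.g B) (eBC S.P.g (s.τ B)) 0 fun ζ => w_sym_eBC h.ok.per s B _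
      rw [h00] at this
      rw [this]
    rw [ha, ha, e1, e2]

end

end Claimed.Agent.R285.B8
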