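import Claimed.Agent.R285.Chg.Main
import Claimed.Agent.R285.Loc.Main
import Claimed.Agent.R285.Map.Defs

/-!
# ROW 285, unit MAP, package FUND: the fundamental localisation of [B] s8.2 (`weak-height.tex` l.590-640) = `B8.fund_localization`      (architect + prover helper281)

`α = 2π/ω`, `q = ± 1`, `F_q = chargeProj ω q F`, `H = conv Γ F_q`, `γ = Γ (v₀, v₀)`.
* `fd_shift_bound`: the charged contour shift of L4.6 with amplitude `s = q α` (`Chg.chg_shift`): `|H (φ + d)| ≤ e^{-α² γ/2} u cst^{n₀} W^{κ/2}(φ)` as soon as `‖d‖_fine + α N |C_k| < h₀`.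
* `fdN`: the NEUTRALISED function `H_n (z) = e^{α² γ/2} e^{-i q α z(v₀)} H (z)`; it satisfies `Loc.HOK` with the fine radius `h₀/2` (`fd_HOK`).
* `H (w) - H (0) χ_X (w) = e^{-α² γ/2} e^{i q α w(v₀)} [ (H_n (w̃) - H_n (0)) + H_n (0) (1 - χ_X (w̃)) ]`, `w̃ = w - w(v₀)`:
  first bracket by `Loc.loc_taylor` (`r = 1`), second by `|e^{iθ} - 1| ≤ 2 |θ| e^{|Im θ|}` and full blocks; both carry `‖w̃‖_fine ≤ C_g h₀ (1 + (6/h₀) √U)/L` (`Loc.loc_geo`).
-/

set_option autoImplicit false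

namespace Claimed.Agent.R285.Fund

open scoped BigOperators ENNReal NNReal
open MeasureTheory ProbabilityTheory Filter Topology
open Claimed.Agent.R285.RG Claimed.Agent.R285.Hol Claimed.Agent.R285.Chg Claimed.Agent.R285.Loc Claimed.Agent.R285.B8

noncomputable section

variable {G : Geom}

theorem fd_real_exp_sub_one (t : ℝ) : |Real.exp t - 1| ≤ |t| * Real.exp |t| := by
  have h1 := Real.add_one_le_exp t
  have h2 := Real.add_one_le_exp (-t)
  have h3 : Real.exp t * Real.exp (-t) = 1 := by rw [← Real.exp_add]; simp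
  have hp := Real.exp_pos t
  rcases le_total 0 t with ht | ht
  · rw [abs_of_nonneg ht, abs_of_nonneg (by linarith)]
    nlinarith
  · rw [abs_of_nonpos ht, abs_of_nonpos (by
      have : Real.exp t ≤ 1 := Real.exp_le_one_iff.2 ht
      linarith)]
    have h4 : 1 ≤ Real.exp (-t) := Real.one_le_exp (by linarith)
    nlinarith

theorem fd_exp_sub_one (θ : ℂ) : ‖Complex.exp (Complex.I * θ) - 1‖ ≤ 2 * ‖θ‖ * Real.exp |θ.im| := by
  have h1 : Complex.exp (Complex.I * θ) = ((Real.exp (-θ.im) : ℝ) : ℂ) * Complex.exp (Complex.I * (θ.re : ℂ)) := by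
    rw [Complex.ofReal_exp, ← Complex.exp_add]
    congr 1
    apply Complex.ext <;> simp
  have h2 : Complex.exp (Complex.I * θ) - 1
      = ((Real.exp (-θ.im) : ℝ) : ℂ) * (Complex.exp (Complex.I * (θ.re : ℂ)) - 1) + (((Real.exp (-θ.im) - 1 : ℝ)) : ℂ) := by
    rw [h1]; push_cast; ring
  rw [h2]
  refine (norm_add_le _ _).trans ?_
  rw [norm_mul, Complex.norm_real, Complex.norm_real, Real.norm_eq_abs, Real.norm_eq_abs, abs_of_pos (Real.exp_pos _)]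
  have h3 : ‖Complex.exp (Complex.I * (θ.re : ℂ)) - 1‖ ≤ ‖θ.re‖ := Real.norm_exp_I_mul_ofReal_sub_one_le
  have h4 := fd_real_exp_sub_one (-θ.im)
  rw [abs_neg] at h4
  have h5 : Real.exp (-θ.im) ≤ Real.exp |θ.im| := Real.exp_le_exp.2 (neg_le_abs _)
  have h6 : ‖θ.re‖ ≤ ‖θ‖ := Complex.abs_re_le_norm θ
  have h7 : |θ.im| ≤ ‖θ‖ := Complex.abs_im_le_norm θ
  have hE := Real.exp_pos |θ.im|
  calc Real.exp (-θ.im) * ‖Complex.exp (Complex.I * (θ.re : ℂ)) - 1‖ + |Real.exp (-θ.im) - 1|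
      ≤ Real.exp |θ.im| * ‖θ‖ + ‖θ‖ * Real.exp |θ.im| := by
        refine add_le_add (mul_le_mul h5 (h3.trans h6) (norm_nonneg _) hE.le) (h4.trans ?_)
        exact mul_le_mul_of_nonneg_right h7 hE.le
    _ = _ := by ring

theorem fd_strip_mono {h h' : ℝ≥0} (hh : h ≤ h') (g : Grid G) (X : Finset g.I) : strip h g X ⊆ strip h' g X :=
  fun _ hz => lt_of_lt_of_le hz hh

/-- equivariance of a Gaussian convolution under complex constants -/
theorem fd_conv_equiv (h0 : ℝ≥0) (g : Grid G) (X : Finset g.I) (Γ : Matrix G.V G.V ℝ) (Fq : Fn G) (θ : ℂ)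
    (hequi : ∀ (z : G.V → ℂ) (c : ℂ), z ∈ strip h0 g X → (fun v => z v + c) ∈ strip h0 g X →
      Fq (fun v => z v + c) = Complex.exp (θ * c) * Fq z)
    (z : G.V → ℂ) (c : ℂ) (hz : z ∈ strip h0 g X) (hzc : (fun v => z v + c) ∈ strip h0 g X) :
    conv Γ Fq (fun v => z v + c) = Complex.exp (θ * c) * conv Γ Fq z := by
  unfold conv
  rw [← integral_const_mul]
  refine integral_congr_ae (Eventually.of_forall fun ζ => ?_)
  have h2 : (fun v => z v + c) + toC ζ = fun v => (z + toC ζ) v + c := by ext v; simp; ring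
  have h1 := hequi (z + toC ζ) c (strip_add_toC hz ζ) (by rw [← h2]; exact strip_add_toC hzc ζ)
  simp only [h2, h1]

/-- **the charged contour shift with amplitude `q α`** -/
theorem fd_shift_bound (Ck ck : ℝ) (ρ R n0 : ℕ) (cst : ℝ≥0) (p : Par) (col : ℕ) (hω : 0 < p.ω) {D0 ℓ : ℕ} (P : Pair G D0 ℓ)
    (Γ : Matrix G.V G.V ℝ) (Vf : Extra P.g) (Vc : Extra P.g') (hS : ShellOK Ck ck ρ P Γ)
    (hR : RegStable R n0 cst p.δ p.κ P Vf Vc Γ) (X : Finset P.g.I) (F : Fn G) (u : ℝ≥0)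
    (hL : LocalInput p col R n0 P.g Vf X F u) (v0 : G.V) (hv0 : v0 ∈ P.g.sites X) (q : ℤ) (hq : q = 1 ∨ q = -1)
    (φ : G.V → ℝ) (d : G.V → ℂ) (hd : (tnorm P.g X d : ℝ) + 2 * Real.pi / p.ω * (chgN R n0 * |Ck|) < p.h0) :
    ‖conv Γ (chargeProj p.ω q F) (toC φ + d)‖
      ≤ Real.exp (-(2 * Real.pi / p.ω) ^ 2 * Γ v0 v0 / 2) * ((u : ℝ) * ((max 1 cst : ℝ≥0) : ℝ) ^ n0)
        * Wt P.g' p.δ (p.κ / 2) Vc (P.N.cl X) φ := by
  classical
  set α : ℝ := 2 * Real.pi / p.ω with hα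
  have hα0 : 0 < α := by positivity
  set Fq := chargeProj p.ω q F with hFq
  obtain ⟨hloc, hsize, hequi⟩ := chg_charge_proj p hω col P.g Vf X F hL.fn q
  have hfin : fnSize p P.g Vf X Fq ≠ ⊤ := ne_top_of_le_ne_top ENNReal.coe_ne_top (hsize.trans hL.bd)
  have hint : ∀ φ : G.V → ℝ, ∫⁻ ζ, ENNReal.ofReal (Wt P.g p.δ p.κ Vf X (φ + ζ)) ∂(gauss G Γ) ≠ ⊤ := fun φ =>
    ne_top_of_le_ne_top (ENNReal.mul_ne_top (ENNReal.pow_ne_top ENNReal.coe_ne_top) ENNReal.ofReal_ne_top)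
      (hR.small X hL.conn hL.small φ)
  set N := chgN R n0 with hN
  set η : G.V → ℝ := Pi.single v0 1 with hη
  set wt : G.V → ℝ := fun v => Γ.mulVec η v - Γ v0 v0 with hwt
  have hw : (tnorm P.g X wt : ℝ) ≤ N * |Ck| :=
    (chg_tnorm_kernel P.g P.ok R n0 X hL.conn hL.small v0 hv0 Γ Ck hS.bounds.mixed).trans
      (by gcongr; exact le_abs_self _)
  have hq2 : (q : ℝ) ^ 2 = 1 := by rcases hq with rfl | rfl <;> norm_num
  have hqabs : |(q : ℝ)| = 1 := by rcases hq with rfl | rfl <;> norm_num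
  set s : ℝ := (q : ℝ) * α with hs
  have hsabs : |s| = α := by rw [hs, abs_mul, hqabs, one_mul, abs_of_pos hα0]
  have hsum : (tnorm P.g X d : ℝ) + |s| * tnorm P.g X wt < p.h0 := by
    rw [hsabs]
    have h1 : α * (tnorm P.g X wt : ℝ) ≤ α * (N * |Ck|) := by gcongr
    linarith
  have hsumNN : tnorm P.g X d + ‖s‖₊ * tnorm P.g X wt < p.h0 := by
    rw [← NNReal.coe_lt_coe]
    push_cast
    simpa using hsum
  have heq : ∀ z ∈ strip p.h0 P.g X, ∀ c : ℝ,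
      Fq (fun v => z v + (c : ℂ)) = Complex.exp (Complex.I * (((q : ℝ) * α : ℝ) : ℂ) * c) * Fq z := by
    intro z hz c
    refine (hequi z c hz (strip_add_real hz c)).trans ?_
    congr 2
    rw [hα]
    push_cast
    ring
  have hzs : tnorm P.g X (fun v => ((toC φ + d) v).im) + (‖s‖₊ : ℝ≥0) * tnorm P.g X (fun v => Γ.mulVec η v - Γ v0 v0) < p.h0 := by
    refine lt_of_le_of_lt ?_ hsumNN
    gcongr
    have : (fun v => ((toC φ + d) v).im) = fun v => (d v).im := by ext v; simp [toC]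
    rw [this]
    exact tnorm_im_le _ _ _
  have step2 := chg_shift p P.g Vf X Γ hS.psd Fq hloc.hol hfin hint ((q : ℝ) * α) heq η (Γ v0 v0) s (toC φ + d) hzs
  have hηη : η ⬝ᵥ Γ.mulVec η = Γ v0 v0 := by
    rw [hη]; simp
  rw [hηη] at step2
  have hI : (‖∫ ζ, Complex.exp (-(Complex.I * ((s * (η ⬝ᵥ ζ) : ℝ) : ℂ)))
        * Fq (toC φ + d + toC ζ + (Complex.I * s) • toC wt) ∂(gauss G Γ)‖₊ : ℝ≥0∞)
      ≤ u * ((cst : ℝ≥0∞) ^ X.card * ENNReal.ofReal (Wt P.g' p.δ (p.κ / 2) Vc (P.N.cl X) φ)) := by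
    calc _ ≤ ∫⁻ ζ, (‖Complex.exp (-(Complex.I * ((s * (η ⬝ᵥ ζ) : ℝ) : ℂ)))
          * Fq (toC φ + d + toC ζ + (Complex.I * s) • toC wt)‖₊ : ℝ≥0∞) ∂(gauss G Γ) := enorm_integral_le_lintegral_enorm _
      _ ≤ ∫⁻ ζ, u * ENNReal.ofReal (Wt P.g p.δ p.κ Vf X (φ + ζ)) ∂(gauss G Γ) := by
          refine lintegral_mono fun ζ => ?_
          have h1 : ‖Complex.exp (-(Complex.I * ((s * (η ⬝ᵥ ζ) : ℝ) : ℂ)))‖₊ = 1 := by
            rw [← NNReal.coe_inj, coe_nnnorm, Complex.norm_exp]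
            simp
          rw [nnnorm_mul, h1, one_mul]
          have h2 : toC φ + d + toC ζ + (Complex.I * s) • toC wt = toC (φ + ζ) + (d + (Complex.I * s) • toC wt) := by
            rw [toC_add]; abel
          rw [h2]
          have h3 : tnorm P.g X (d + (Complex.I * s) • toC wt) < p.h0 := by
            refine lt_of_le_of_lt ((tnorm_add_le _ _ _ _).trans ?_) hsumNN
            gcongr
            rw [tnorm_smul, tnorm_toC]
            gcongr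
            rw [nnnorm_mul]; simp
          exact (nnnorm_le_fnSize_mul p P.g Vf X Fq (φ + ζ) _ h3).trans (by gcongr; exact hsize.trans hL.bd)
      _ = u * ∫⁻ ζ, ENNReal.ofReal (Wt P.g p.δ p.κ Vf X (φ + ζ)) ∂(gauss G Γ) := lintegral_const_mul' _ _ ENNReal.coe_ne_top
      _ ≤ _ := by gcongr; exact hR.small X hL.conn hL.small φ
  have hW : 0 < Wt P.g' p.δ (p.κ / 2) Vc (P.N.cl X) φ := Wt_pos _ _ _ _ _ _
  have h2 : (u : ℝ≥0∞) * ((cst : ℝ≥0∞) ^ X.card * ENNReal.ofReal (Wt P.g' p.δ (p.κ / 2) Vc (P.N.cl X) φ))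
      = ENNReal.ofReal (u * (cst : ℝ) ^ X.card * Wt P.g' p.δ (p.κ / 2) Vc (P.N.cl X) φ) := by
    rw [ENNReal.ofReal_mul (by positivity), ENNReal.ofReal_mul (by positivity), ENNReal.ofReal_pow (by positivity),
      ENNReal.ofReal_coe_nnreal, ENNReal.ofReal_coe_nnreal, mul_assoc]
  rw [h2, ← enorm_eq_nnnorm, ← ofReal_norm, ENNReal.ofReal_le_ofReal_iff (by positivity)] at hI
  have h3 : (cst : ℝ) ^ X.card ≤ (max 1 (cst : ℝ)) ^ n0 :=
    calc (cst : ℝ) ^ X.card ≤ (max 1 (cst : ℝ)) ^ X.card := by gcongr; exact le_max_right _ _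
      _ ≤ (max 1 (cst : ℝ)) ^ n0 := pow_le_pow_right₀ (le_max_left _ _) hL.small
  have hB : ‖Complex.exp ((s ^ 2 * Γ v0 v0 / 2 - (q : ℝ) * α * s * Γ v0 v0 : ℝ))‖ = Real.exp (-α ^ 2 * Γ v0 v0 / 2) := by
    rw [Complex.norm_exp, Complex.ofReal_re]
    congr 1
    rw [hs]
    linear_combination (-(α ^ 2 * Γ v0 v0 / 2)) * hq2
  rw [step2, norm_mul, hB, mul_assoc]
  refine mul_le_mul_of_nonneg_left (hI.trans ?_) (Real.exp_pos _).le
  push_cast
  gcongr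

/-- the neutralised function `H_n (z) = e^{α² γ/2} e^{-i q α z(v₀)} H (z)` -/
def fdN (α : ℝ) (q : ℤ) (γ : ℝ) (v0 : G.V) (H : Fn G) : Fn G := fun z =>
  Complex.exp ((α ^ 2 * γ / 2 : ℝ)) * Complex.exp (-(Complex.I * q * (α : ℂ) * z v0)) * H z

theorem fdN_inv (α : ℝ) (q : ℤ) (γ : ℝ) (v0 : G.V) (H : Fn G) (z : G.V → ℂ) :
    H z = Complex.exp ((-α ^ 2 * γ / 2 : ℝ)) * Complex.exp (Complex.I * q * (α : ℂ) * z v0) * fdN α q γ v0 H z := by
  unfold fdN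
  have h1 : Complex.exp ((-α ^ 2 * γ / 2 : ℝ)) * Complex.exp ((α ^ 2 * γ / 2 : ℝ)) = 1 := by
    rw [← Complex.exp_add, ← Complex.ofReal_add]
    have : -α ^ 2 * γ / 2 + α ^ 2 * γ / 2 = 0 := by ring
    rw [this]; simp
  have h2 : Complex.exp (Complex.I * q * (α : ℂ) * z v0) * Complex.exp (-(Complex.I * q * (α : ℂ) * z v0)) = 1 := by
    rw [← Complex.exp_add]; simp
  calc H z = (Complex.exp ((-α ^ 2 * γ / 2 : ℝ)) * Complex.exp ((α ^ 2 * γ / 2 : ℝ)))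
        * (Complex.exp (Complex.I * q * (α : ℂ) * z v0) * Complex.exp (-(Complex.I * q * (α : ℂ) * z v0))) * H z := by
        rw [h1, h2]; ring
    _ = _ := by ring

theorem fd_norm_char (α : ℝ) (hα : 0 ≤ α) (q : ℤ) (hq : q = 1 ∨ q = -1) (x : ℂ) (σ : ℂ) (hσ : σ = 1 ∨ σ = -1) :
    ‖Complex.exp (σ * (Complex.I * q * (α : ℂ) * x))‖ ≤ Real.exp (α * |x.im|) := by
  rw [Complex.norm_exp]
  refine Real.exp_le_exp.2 ?_
  have h1 := neg_abs_le x.im
  have h2 := le_abs_self x.im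
  rcases hq with rfl | rfl <;> rcases hσ with rfl | rfl <;> simp [Complex.mul_re, Complex.mul_im] <;> nlinarith

/-- **the neutralised function satisfies the hypotheses of the localisation, with the fine radius `h₀/2`** -/
theorem fd_HOK (Ck ck : ℝ) (ρ R n0 : ℕ) (cst : ℝ≥0) (p : Par) (col : ℕ) (hω : 0 < p.ω)
    (hC1 : (2 * (chgN R n0 * |Ck|) + 1) * (2 * Real.pi / p.ω) ≤ p.h0) {D0 ℓ : ℕ} (P : Pair G D0 ℓ)
    (Γ : Matrix G.V G.V ℝ) (Vf : Extra P.g) (Vc : Extra P.g') (hS : ShellOK Ck ck ρ P Γ)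
    (hR : RegStable R n0 cst p.δ p.κ P Vf Vc Γ) (X : Finset P.g.I) (F : Fn G) (u : ℝ≥0)
    (hL : LocalInput p col R n0 P.g Vf X F u) (v0 : G.V) (hv0 : v0 ∈ P.g.sites X) (q : ℤ) (hq : q = 1 ∨ q = -1) :
    HOK (p.h0 / 2) P p.δ p.κ Vc X (fdN (2 * Real.pi / p.ω) q (Γ v0 v0) v0 (conv Γ (chargeProj p.ω q F)))
      (Real.exp (2 * Real.pi / p.ω * p.h0) * ((u : ℝ) * ((max 1 cst : ℝ≥0) : ℝ) ^ n0)) := by
  classical
  set α : ℝ := 2 * Real.pi / p.ω with hα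
  have hα0 : 0 < α := by positivity
  set Fq := chargeProj p.ω q F with hFq
  obtain ⟨hloc, hsize, hequi⟩ := chg_charge_proj p hω col P.g Vf X F hL.fn q
  have hfin : fnSize p P.g Vf X Fq ≠ ⊤ := ne_top_of_le_ne_top ENNReal.coe_ne_top (hsize.trans hL.bd)
  have hint : ∀ φ : G.V → ℝ, ∫⁻ ζ, ENNReal.ofReal (Wt P.g p.δ p.κ Vf X (φ + ζ)) ∂(gauss G Γ) ≠ ⊤ := fun φ =>
    ne_top_of_le_ne_top (ENNReal.mul_ne_top (ENNReal.pow_ne_top ENNReal.coe_ne_top) ENNReal.ofReal_ne_top)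
      (hR.small X hL.conn hL.small φ)
  have hhalf : p.h0 / 2 ≤ p.h0 := NNReal.half_le_self _
  have hsub := fd_strip_mono hhalf P.g X
  refine ⟨?_, fun φ d hd => ?_, fun z c hz hzc => ?_⟩
  · have h1 : Hol p.h0 P.g X (conv Γ Fq) := hol_conv p P.g Vf X Γ _ hloc.hol hfin hint
    unfold fdN
    exact DifferentiableOn.mul (by fun_prop) (h1.mono hsub)
  · have hdR : (tnorm P.g X d : ℝ) < p.h0 / 2 := by exact_mod_cast hd
    have hNC : 0 ≤ (chgN R n0 : ℝ) * |Ck| := by positivity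
    have hb := fd_shift_bound Ck ck ρ R n0 cst p col hω P Γ Vf Vc hS hR X F u hL v0 hv0 q hq φ d (by
      rw [← hα]; nlinarith)
    rw [← hα, ← hFq] at hb
    unfold fdN
    rw [norm_mul, norm_mul, Complex.norm_exp, Complex.ofReal_re]
    have hc : ‖Complex.exp (-(Complex.I * q * (α : ℂ) * (toC φ + d) v0))‖ ≤ Real.exp (α * p.h0) := by
      have h1 := fd_norm_char α hα0.le q hq ((toC φ + d) v0) (-1) (Or.inr rfl)
      rw [neg_one_mul] at h1
      refine h1.trans (Real.exp_le_exp.2 ?_)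
      have h2 : ((toC φ + d) v0).im = (d v0).im := by simp [toC]
      have h3 : ‖d v0‖ ≤ tnorm P.g X d := by
        have := (tnorm_spec P.g X d v0 (sites_subset_Dm P.g X hv0)).1
        exact_mod_cast this
      have h4 : |(d v0).im| ≤ p.h0 := ((Complex.abs_im_le_norm _).trans h3).trans (by
        have : (0 : ℝ) ≤ p.h0 := NNReal.coe_nonneg _
        linarith)
      rw [h2]
      gcongr
    have hW : 0 < Wt P.g' p.δ (p.κ / 2) Vc (P.N.cl X) φ := Wt_pos _ _ _ _ _ _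
    have hE : Real.exp (α ^ 2 * Γ v0 v0 / 2) * Real.exp (-α ^ 2 * Γ v0 v0 / 2) = 1 := by
      rw [← Real.exp_add]; ring_nf; simp
    calc Real.exp (α ^ 2 * Γ v0 v0 / 2) * ‖Complex.exp (-(Complex.I * q * (α : ℂ) * (toC φ + d) v0))‖ * ‖conv Γ Fq (toC φ + d)‖
        ≤ Real.exp (α ^ 2 * Γ v0 v0 / 2) * Real.exp (α * p.h0) * (Real.exp (-α ^ 2 * Γ v0 v0 / 2)
            * ((u : ℝ) * ((max 1 cst : ℝ≥0) : ℝ) ^ n0) * Wt P.g' p.δ (p.κ / 2) Vc (P.N.cl X) φ) := by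
          gcongr
      _ = (Real.exp (α ^ 2 * Γ v0 v0 / 2) * Real.exp (-α ^ 2 * Γ v0 v0 / 2)) * (Real.exp (α * p.h0)
            * ((u : ℝ) * ((max 1 cst : ℝ≥0) : ℝ) ^ n0) * Wt P.g' p.δ (p.κ / 2) Vc (P.N.cl X) φ) := by ring
      _ = _ := by rw [hE, one_mul]
  · have h1 := fd_conv_equiv p.h0 P.g X Γ Fq (Complex.I * q * ((α : ℝ) : ℂ)) hequi z c (hsub hz) (hsub hzc)
    unfold fdN
    rw [h1]
    have h2 : Complex.exp (-(Complex.I * q * (α : ℂ) * (z v0 + c))) * Complex.exp (Complex.I * q * (α : ℂ) * c)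
        = Complex.exp (-(Complex.I * q * (α : ℂ) * z v0)) := by
      rw [← Complex.exp_add]; congr 1; ring
    calc Complex.exp ((α ^ 2 * Γ v0 v0 / 2 : ℝ)) * Complex.exp (-(Complex.I * q * (α : ℂ) * (z v0 + c)))
          * (Complex.exp (Complex.I * q * (α : ℂ) * c) * conv Γ Fq z)
        = Complex.exp ((α ^ 2 * Γ v0 v0 / 2 : ℝ)) * (Complex.exp (-(Complex.I * q * (α : ℂ) * (z v0 + c)))
          * Complex.exp (Complex.I * q * (α : ℂ) * c)) * conv Γ Fq z := by ring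
      _ = _ := by rw [h2]

theorem fd_chiX_shift (g : Grid G) (α : ℝ) (q : ℤ) (X : Finset g.I) (v0 : G.V) (w : G.V → ℂ) :
    chiX g α q X w = Complex.exp (Complex.I * q * (α : ℂ) * w v0) * chiX g α q X (ctr v0 w) := by
  unfold chiX
  simp only [Finset.mul_sum]
  refine Finset.sum_congr rfl fun B _ => Finset.sum_congr rfl fun x _ => ?_
  have h : Complex.exp (Complex.I * q * (α : ℂ) * w x)
      = Complex.exp (Complex.I * q * (α : ℂ) * w v0) * Complex.exp (Complex.I * q * (α : ℂ) * ctr v0 w x) := by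
    rw [← Complex.exp_add]
    congr 1
    simp only [ctr]
    ring
  rw [h]
  ring

/-- on full blocks `χ_X` is an average -/
theorem fd_chiX_one (g : Grid G) (hm : 0 < g.m) (α : ℝ) (q : ℤ) (X : Finset g.I) (hX : X.Nonempty)
    (hfull : ∀ B ∈ X, (g.sites {B}).card = g.m ^ 2) (z : G.V → ℂ) (K : ℝ)
    (hK : ∀ x ∈ g.sites X, ‖Complex.exp (Complex.I * (q * (α : ℂ) * z x)) - 1‖ ≤ K) :
    ‖1 - chiX g α q X z‖ ≤ K := by
  have hcR : (0 : ℝ) < X.card := by exact_mod_cast Finset.card_pos.2 hX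
  have hc : (X.card : ℂ) ≠ 0 := by exact_mod_cast hcR.ne'
  have hmR : (0 : ℝ) < (g.m : ℝ) ^ 2 := by positivity
  have hmC : ((g.m : ℂ) ^ 2) ≠ 0 := by
    have : (g.m : ℂ) ≠ 0 := by exact_mod_cast hm.ne'
    positivity
  have e1 : ∀ B ∈ X, ((((g.m : ℝ) ^ 2)⁻¹ : ℝ) : ℂ) * ∑ x ∈ g.sites {B}, (1 - Complex.exp (Complex.I * q * α * z x))
      = 1 - ((((g.m : ℝ) ^ 2)⁻¹ : ℝ) : ℂ) * ∑ x ∈ g.sites {B}, Complex.exp (Complex.I * q * α * z x) := by
    intro B hB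
    rw [Finset.sum_sub_distrib, mul_sub, Finset.sum_const, hfull B hB, nsmul_eq_mul, mul_one]
    congr 1
    push_cast
    exact inv_mul_cancel₀ hmC
  have h1 : (1 : ℂ) - chiX g α q X z = (1 / (X.card : ℂ)) * ∑ B ∈ X, ((((g.m : ℝ) ^ 2)⁻¹ : ℝ) : ℂ) *
      ∑ x ∈ g.sites {B}, (1 - Complex.exp (Complex.I * q * α * z x)) := by
    rw [Finset.sum_congr rfl e1, Finset.sum_sub_distrib, Finset.sum_const, nsmul_eq_mul, mul_one, mul_sub]
    unfold chiX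
    congr 1
    field_simp
  rw [h1, norm_mul]
  have h2 : ‖∑ B ∈ X, ((((g.m : ℝ) ^ 2)⁻¹ : ℝ) : ℂ) * ∑ x ∈ g.sites {B}, (1 - Complex.exp (Complex.I * q * α * z x))‖
      ≤ ∑ _B ∈ X, K := by
    refine (norm_sum_le _ _).trans (Finset.sum_le_sum fun B hB => ?_)
    rw [norm_mul, Complex.norm_real, Real.norm_eq_abs, abs_of_pos (by positivity)]
    have h3 : ‖∑ x ∈ g.sites {B}, (1 - Complex.exp (Complex.I * q * α * z x))‖ ≤ ∑ _x ∈ g.sites {B}, K := by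
      refine (norm_sum_le _ _).trans (Finset.sum_le_sum fun x hx => ?_)
      have hx' : x ∈ g.sites X := sites_mono g (Finset.singleton_subset_iff.2 hB) hx
      have := hK x hx'
      rw [norm_sub_rev]
      have e : Complex.I * q * α * z x = Complex.I * (q * (α : ℂ) * z x) := by ring
      rw [e]
      exact this
    rw [Finset.sum_const, hfull B hB, nsmul_eq_mul] at h3
    calc ((g.m : ℝ) ^ 2)⁻¹ * ‖∑ x ∈ g.sites {B}, (1 - Complex.exp (Complex.I * q * α * z x))‖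
        ≤ ((g.m : ℝ) ^ 2)⁻¹ * (((g.m ^ 2 : ℕ) : ℝ) * K) := by gcongr
      _ = K := by push_cast; field_simp
  rw [Finset.sum_const, nsmul_eq_mul] at h2
  have h4 : ‖(1 / (X.card : ℂ))‖ = 1 / (X.card : ℝ) := by
    rw [norm_div, norm_one, Complex.norm_natCast]
  rw [h4]
  calc 1 / (X.card : ℝ) * ‖∑ B ∈ X, ((((g.m : ℝ) ^ 2)⁻¹ : ℝ) : ℂ) * ∑ x ∈ g.sites {B}, (1 - Complex.exp (Complex.I * q * α * z x))‖
      ≤ 1 / (X.card : ℝ) * ((X.card : ℝ) * K) := by gcongr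
    _ = K := by field_simp

/-- **the pointwise estimate** -/
theorem fd_point (h0 : ℝ≥0) (hh : 0 < h0) {D0 ℓ : ℕ} (P : Pair G D0 ℓ) (δ κ : ℝ) (hδ : 0 ≤ δ) (hκ : 0 < κ) (Vc : Extra P.g')
    (X : Finset P.g.I) (H : Fn G) (M : ℝ) (hM : 0 ≤ M) (Cg : ℝ≥0) (hCg : 0 < Cg) (hL : 2 * Cg < 2 ^ ℓ) (v0 : G.V)
    (hv0 : v0 ∈ P.g.sites X) (α : ℝ) (hα : 0 < α) (q : ℤ) (hq : q = 1 ∨ q = -1) (γ : ℝ)
    (hH : HOK (h0 / 2) P δ κ Vc X (fdN α q γ v0 H) M)
    (hequi : ∀ (z : G.V → ℂ) (c : ℂ), z ∈ strip h0 P.g X → (fun v => z v + c) ∈ strip h0 P.g X →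
      H (fun v => z v + c) = Complex.exp (Complex.I * q * (α : ℂ) * c) * H z)
    (osc : ∀ w : G.V → ℂ, (2 ^ ℓ : ℝ≥0) * tnorm P.g X (fun x => w x - w v0) ≤ Cg * dnorm P.g' (P.N.cl X) w)
    (hX : X.Nonempty) (hfull : ∀ B ∈ X, (P.g.sites {B}).card = P.g.m ^ 2)
    (ψ : G.V → ℝ) (f : G.V → ℂ) (hf : tnorm P.g' (P.N.cl X) f < h0) :
    ‖H (toC ψ + f) - H 0 * chiX P.g α q X (toC ψ + f)‖
      ≤ Real.exp (-α ^ 2 * γ / 2) * (Real.exp (α * h0) * (24 * Cg + 2 * α * Cg * h0 * Real.exp (α * h0)) * locE h0 κ 1 * M)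
        * ((2 : ℝ) ^ ℓ)⁻¹ * Wt P.g' δ κ Vc (P.N.cl X) ψ := by
  have hh' : (0 : ℝ) < h0 := by exact_mod_cast hh
  have hCg' : (0 : ℝ) < Cg := by exact_mod_cast hCg
  have hhalf : (0 : ℝ≥0) < h0 / 2 := half_pos hh
  have hhalfle : h0 / 2 ≤ h0 := NNReal.half_le_self _
  have hsub := fd_strip_mono hhalfle P.g X
  set Hn := fdN α q γ v0 H with hHn
  set w : G.V → ℂ := toC ψ + f with hw
  set wt : G.V → ℂ := ctr v0 w with hwt
  set t := U P.g' δ (P.N.cl X) ψ with ht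
  have ht0 : 0 ≤ t := U_nonneg _ hδ _ _
  have hy := locY_ge_one h0 t
  set W2 := Wt P.g' δ (κ / 2) Vc (P.N.cl X) ψ with hW2
  have hW2' : 1 ≤ W2 := one_le_Wt _ hδ (by positivity) _ _ _
  set A : ℝ := (Cg : ℝ) * h0 * locY h0 t / 2 ^ ℓ with hAdef
  have hA : 0 < A := by positivity
  -- (1)
  have hwA : (tnorm P.g X wt : ℝ) ≤ A := by
    have h1 : ((2 : ℝ) ^ ℓ) * (tnorm P.g X wt : ℝ) ≤ Cg * dnorm P.g' (P.N.cl X) w := by
      exact_mod_cast osc w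
    have h2 := loc_dn_le hh P.g' P.ok' hδ (P.N.cl X) ψ f hf
    rw [hAdef, le_div_iff₀ (by positivity), mul_comm]
    calc (2 : ℝ) ^ ℓ * (tnorm P.g X wt : ℝ) ≤ Cg * dnorm P.g' (P.N.cl X) w := h1
      _ ≤ Cg * (h0 * locY h0 t) := by gcongr
      _ = _ := by ring
  -- (2)
  have hcf : tnorm P.g X (ctr v0 f) < h0 / 2 := by
    have h1 := osc f
    have h2 : dnorm P.g' (P.N.cl X) f ≤ h0 := (dnorm_le_tnorm _ _ _).trans hf.le
    have h3 : (2 ^ ℓ : ℝ≥0) * tnorm P.g X (ctr v0 f) < 2 ^ ℓ * (h0 / 2) :=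
      calc (2 ^ ℓ : ℝ≥0) * tnorm P.g X (ctr v0 f) ≤ Cg * dnorm P.g' (P.N.cl X) f := h1
        _ ≤ Cg * h0 := by gcongr
        _ = (2 * Cg) * (h0 / 2) := by field_simp
        _ < 2 ^ ℓ * (h0 / 2) := mul_lt_mul_of_pos_right hL hhalf
    exact lt_of_mul_lt_mul_left' h3
  have hcfR : (tnorm P.g X (ctr v0 f) : ℝ) ≤ h0 := by
    have : tnorm P.g X (ctr v0 f) ≤ h0 := hcf.le.trans hhalfle
    exact_mod_cast this
  -- (3)
  have hfX : tnorm P.g X f < h0 := (tnorm_coarse P X _ subset_rfl f).trans_lt hf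
  have hwmem : w ∈ strip h0 P.g X := toC_add_mem_strip ψ hfX
  have hwtmem : wt ∈ strip (h0 / 2) P.g X := by
    rw [hwt, hw, ctr_add]; exact toC_add_mem_strip _ hcf
  have hwt0 : wt v0 = 0 := by simp [hwt, ctr]
  -- (4)
  have e4 : H w = Complex.exp (Complex.I * q * (α : ℂ) * w v0) * H wt := by
    have e : (fun v => wt v + w v0) = w := by ext v; simp [hwt, ctr]
    have := hequi wt (w v0) (hsub hwtmem) (by rw [e]; exact hwmem)
    rwa [e] at this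
  -- (5), (6)
  have e5 : H wt = Complex.exp ((-α ^ 2 * γ / 2 : ℝ)) * Hn wt := by
    have := fdN_inv α q γ v0 H wt
    rw [hwt0, mul_zero, Complex.exp_zero, mul_one] at this
    exact this
  have e6 : H 0 = Complex.exp ((-α ^ 2 * γ / 2 : ℝ)) * Hn 0 := by
    have := fdN_inv α q γ v0 H 0
    rw [Pi.zero_apply, mul_zero, Complex.exp_zero, mul_one] at this
    exact this
  have e7 := fd_chiX_shift P.g α q X v0 w
  have e8 : H w - H 0 * chiX P.g α q X w = Complex.exp ((-α ^ 2 * γ / 2 : ℝ)) * Complex.exp (Complex.I * q * (α : ℂ) * w v0)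
      * ((Hn wt - Hn 0) + Hn 0 * (1 - chiX P.g α q X wt)) := by
    rw [e4, e5, e6, e7]; ring
  -- (8)
  have h8 : ‖Complex.exp (Complex.I * q * (α : ℂ) * w v0)‖ ≤ Real.exp (α * h0) := by
    have h1 := fd_norm_char α hα.le q hq (w v0) 1 (Or.inl rfl)
    rw [one_mul] at h1
    refine h1.trans (Real.exp_le_exp.2 ?_)
    have h2 : (w v0).im = (f v0).im := by simp [hw, toC]
    have h3 : ‖f v0‖ ≤ tnorm P.g X f := by
      have := (tnorm_spec P.g X f v0 (sites_subset_Dm P.g X hv0)).1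
      exact_mod_cast this
    have h4 : |(f v0).im| ≤ h0 := ((Complex.abs_im_le_norm _).trans h3).trans (by exact_mod_cast hfX.le)
    rw [h2]
    gcongr
  -- (9)
  have h9 : ‖Hn wt‖ ≤ M * W2 := by
    have e : (fun v => wt v + ((ψ v0 : ℝ) : ℂ)) = toC ψ + ctr v0 f := by
      ext v; simp [hwt, hw, ctr, toC]; ring
    have h1 := hH.inv wt ((ψ v0 : ℝ) : ℂ) hwtmem (by rw [e]; exact toC_add_mem_strip ψ hcf)
    rw [e] at h1
    rw [← h1]
    exact hH.bd ψ (ctr v0 f) hcf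
  have hMM : M ≤ M * W2 := by nlinarith
  -- (10)
  have h10 : ‖Hn wt - Hn 0‖ ≤ 3 * (M * W2) * (8 * A / h0) := by
    have key := loc_taylor hH hhalf wt hA hwA h9 hMM 1
    simp only [Finset.range_one, Finset.sum_singleton, Nat.factorial_zero, Nat.cast_one, inv_one, one_mul, iteratedDeriv_zero,
      zero_smul, pow_one] at key
    refine key.trans (le_of_eq ?_)
    push_cast
    field_simp
    ring
  -- (11)
  have h11 : ‖Hn 0‖ ≤ M := hH.bd0 0 (by rw [tnorm_zero]; exact hhalf)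
  -- (12)
  have h12 : ‖1 - chiX P.g α q X wt‖ ≤ 2 * (α * A) * Real.exp (α * h0) := by
    refine fd_chiX_one P.g P.ok.pos α q X hX hfull wt _ fun x hx => ?_
    refine (fd_exp_sub_one _).trans ?_
    have hxD := sites_subset_Dm P.g X hx
    have hqn : ‖((q : ℤ) : ℂ)‖ = 1 := by rcases hq with rfl | rfl <;> simp
    have h1 : ‖(q : ℂ) * (α : ℂ) * wt x‖ ≤ α * A := by
      rw [norm_mul, norm_mul, hqn, one_mul, Complex.norm_real, Real.norm_eq_abs, abs_of_pos hα]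
      have : ‖wt x‖ ≤ tnorm P.g X wt := by
        have := (tnorm_spec P.g X wt x hxD).1
        exact_mod_cast this
      gcongr
      exact this.trans hwA
    have h2 : |((q : ℂ) * (α : ℂ) * wt x).im| ≤ α * h0 := by
      have e : ((q : ℂ) * (α : ℂ) * wt x).im = (q : ℝ) * α * (ctr v0 f x).im := by
        have : (wt x).im = (ctr v0 f x).im := by simp [hwt, hw, ctr, toC]
        rw [← this]
        simp [Complex.mul_im]
      have hqa : |(q : ℝ)| = 1 := by rcases hq with rfl | rfl <;> norm_num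
      rw [e, abs_mul, abs_mul, hqa, one_mul, abs_of_pos hα]
      have : ‖ctr v0 f x‖ ≤ tnorm P.g X (ctr v0 f) := by
        have := (tnorm_spec P.g X (ctr v0 f) x hxD).1
        exact_mod_cast this
      gcongr
      exact ((Complex.abs_im_le_norm _).trans this).trans hcfR
    gcongr
  -- (13)
  have hpe := loc_poly_exp (a := 6 / (h0 : ℝ)) (κ := κ) (t := t) (by positivity) hκ ht0 1
  have hpe' : locY h0 t ≤ locE h0 κ 1 * Real.exp (κ * t / 2) := by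
    have : (1 + 6 / (h0 : ℝ) * Real.sqrt t) ^ 1 = locY h0 t := by rw [pow_one]; rfl
    rw [this] at hpe
    exact hpe
  have hE := Real.exp_pos (α * h0)
  have hbr : ‖(Hn wt - Hn 0) + Hn 0 * (1 - chiX P.g α q X wt)‖
      ≤ (24 * Cg + 2 * α * Cg * h0 * Real.exp (α * h0)) * M * ((2 : ℝ) ^ ℓ)⁻¹ * (locY h0 t * W2) := by
    refine (norm_add_le _ _).trans ?_
    rw [norm_mul]
    have s1 : 3 * (M * W2) * (8 * A / h0) = 24 * Cg * M * ((2 : ℝ) ^ ℓ)⁻¹ * (locY h0 t * W2) := by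
      rw [hAdef]; field_simp; ring
    have s2 : ‖Hn 0‖ * ‖1 - chiX P.g α q X wt‖ ≤ M * (2 * (α * A) * Real.exp (α * h0)) :=
      mul_le_mul h11 h12 (norm_nonneg _) hM
    have s3 : M * (2 * (α * A) * Real.exp (α * h0)) ≤ 2 * α * Cg * h0 * Real.exp (α * h0) * M * ((2 : ℝ) ^ ℓ)⁻¹ * (locY h0 t * W2) := by
      have e : M * (2 * (α * A) * Real.exp (α * h0)) = 2 * α * Cg * h0 * Real.exp (α * h0) * M * ((2 : ℝ) ^ ℓ)⁻¹ * (locY h0 t * 1) := by
        rw [hAdef]; field_simp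
      rw [e]
      gcongr
    calc ‖Hn wt - Hn 0‖ + ‖Hn 0‖ * ‖1 - chiX P.g α q X wt‖
        ≤ 24 * Cg * M * ((2 : ℝ) ^ ℓ)⁻¹ * (locY h0 t * W2)
          + 2 * α * Cg * h0 * Real.exp (α * h0) * M * ((2 : ℝ) ^ ℓ)⁻¹ * (locY h0 t * W2) :=
          add_le_add (h10.trans (le_of_eq s1)) (s2.trans s3)
      _ = _ := by ring
  have hWt : locY h0 t * W2 ≤ locE h0 κ 1 * Wt P.g' δ κ Vc (P.N.cl X) ψ := by
    rw [loc_Wt_split, ← hW2, ← ht]
    calc locY h0 t * W2 ≤ (locE h0 κ 1 * Real.exp (κ * t / 2)) * W2 := by gcongr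
      _ = _ := by ring
  rw [e8, norm_mul, norm_mul, Complex.norm_exp, Complex.ofReal_re]
  have hE2 := Real.exp_pos (-α ^ 2 * γ / 2)
  calc Real.exp (-α ^ 2 * γ / 2) * ‖Complex.exp (Complex.I * q * (α : ℂ) * w v0)‖
        * ‖(Hn wt - Hn 0) + Hn 0 * (1 - chiX P.g α q X wt)‖
      ≤ Real.exp (-α ^ 2 * γ / 2) * Real.exp (α * h0)
        * ((24 * Cg + 2 * α * Cg * h0 * Real.exp (α * h0)) * M * ((2 : ℝ) ^ ℓ)⁻¹ * (locE h0 κ 1 * Wt P.g' δ κ Vc (P.N.cl X) ψ)) := by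
        have hc0 : 0 ≤ (24 * Cg + 2 * α * Cg * h0 * Real.exp (α * h0)) * M * ((2 : ℝ) ^ ℓ)⁻¹ := by positivity
        exact mul_le_mul (mul_le_mul_of_nonneg_left h8 hE2.le) (hbr.trans (mul_le_mul_of_nonneg_left hWt hc0)) (norm_nonneg _)
          (by positivity)
    _ = _ := by ring

theorem fd_full (g : Grid G) (hg : g.Ok) (X : Finset g.I) (hB : g.Bulk X) : ∀ B ∈ X, (g.sites {B}).card = g.m ^ 2 := by
  intro B hBX
  have h1 : g.Bulk {B} := by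
    rcases hB with h | h
    · exact Or.inl h
    · exact Or.inr fun b hb => by rw [Finset.mem_singleton] at hb; rw [hb]; exact h B hBX
  have := loc_card g hg {B} h1
  simpa using this

/-- **fundamental localisation**, `q = ± 1`, `α ≤ αmax`, `h₀ ≥ C₁ αmax`.   Verbatim `B8.fund_localization`. -/
theorem fund_localization (c : Geo) (_hc : c.Ok) : ∃ C1 : ℝ, ∀ (δ κ : ℝ) (h0 : ℝ≥0) (αmax : ℝ), 0 < δ → 0 < κ → 0 < αmax → C1 * αmax ≤ h0 →
    ∃ (C : ℝ≥0) (ℓ0 D1 : ℕ), ∀ p : Par, p.δ = δ → p.κ = κ → p.h0 = h0 → 0 < p.ω → 2 * Real.pi / p.ω ≤ αmax →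
      ∀ D0 ≥ D1, ∀ (G : Geom) (ℓ : ℕ), ℓ0 ≤ ℓ → ∀ (P : Pair G D0 ℓ) (Γ : Matrix G.V G.V ℝ) (Vf : Extra P.g) (Vc : Extra P.g'),
      ShellOK c.Ck c.ck c.ρ P Γ → RegStable c.R c.n0 c.cst p.δ p.κ P Vf Vc Γ →
      ∀ (X : Finset P.g.I) (F : Fn G) (u : ℝ≥0∞), LocalInput p c.col c.R c.n0 P.g Vf X F u → P.g.Bulk X →
      ∀ v0 ∈ P.g.sites X, ∀ q : ℤ, q = 1 ∨ q = -1 → ∀ H, H = conv Γ (chargeProj p.ω q F) →
        (‖H 0‖₊ : ℝ≥0∞) ≤ C * u * ENNReal.ofReal (Real.exp (-(2 * Real.pi / p.ω) ^ 2 * Γ v0 v0 / 2)) ∧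
        fnSize p P.g' Vc (P.N.cl X) (fun z => H z - H 0 * chiX P.g (2 * Real.pi / p.ω) q X z)
          ≤ C * u * ENNReal.ofReal (Real.exp (-(2 * Real.pi / p.ω) ^ 2 * Γ v0 v0 / 2)) * (2 ^ ℓ : ℝ≥0∞)⁻¹ := by
  refine ⟨2 * (chgN c.R c.n0 * |c.Ck|) + 1, fun δ κ h0 αmax hδ hκ hαmax hC1 => ?_⟩
  obtain ⟨Cg0, ℓg, D1, hgeo⟩ := loc_geo c.R c.n0
  set Cg : ℝ≥0 := Cg0 + 1 with hCg
  have hCgpos : 0 < Cg := by rw [hCg]; positivity
  obtain ⟨ℓ1, hℓ1⟩ := pow_unbounded_of_one_lt (2 * Cg) (one_lt_two : (1 : ℝ≥0) < 2)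
  have hNC : 0 ≤ (chgN c.R c.n0 : ℝ) * |c.Ck| := by positivity
  have hh' : (0 : ℝ) < h0 := by nlinarith
  have hh : 0 < h0 := by exact_mod_cast hh'
  set Em : ℝ := Real.exp (αmax * h0) with hEm
  have hEmp : 0 < Em := Real.exp_pos _
  have hE1 := locE_pos h0 κ 1
  set K : ℝ := Em * (24 * Cg + 2 * αmax * Cg * h0 * Em) * locE h0 κ 1 * Em + Em with hK
  have hKp : 0 < K := by positivity
  set cn : ℝ≥0 := (max 1 c.cst) ^ c.n0 with hcn
  have hcnp : 0 < cn := by rw [hcn]; exact pow_pos (lt_of_lt_of_le one_pos (le_max_left _ _)) _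
  set C : ℝ≥0 := Real.toNNReal K * cn with hC
  have hCp : 0 < C := by rw [hC]; exact mul_pos (Real.toNNReal_pos.2 hKp) hcnp
  have hCr : (C : ℝ) = K * cn := by rw [hC]; push_cast; rw [Real.coe_toNNReal K hKp.le]
  refine ⟨C, max ℓg ℓ1, D1, ?_⟩
  intro p hpδ hpκ hph hω hαle D0 hD0 G ℓ hℓ P Γ Vf Vc hS hreg X F u hin hB v0 hv0 q hq H hH
  set α : ℝ := 2 * Real.pi / p.ω with hα
  have hα0 : 0 < α := by positivity
  set γ : ℝ := Γ v0 v0 with hγ
  set E : ℝ := Real.exp (-α ^ 2 * γ / 2) with hE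
  have hEp : 0 < E := Real.exp_pos _
  have hLne : (2 ^ ℓ : ℝ≥0∞)⁻¹ ≠ 0 := ENNReal.inv_ne_zero.2 (ENNReal.pow_ne_top (by norm_num))
  have hEne : ENNReal.ofReal E ≠ 0 := by simpa using hEp
  by_cases hu : u = ⊤
  · have hCu : (C : ℝ≥0∞) * u * ENNReal.ofReal E = ⊤ := by
      rw [hu, ENNReal.mul_top (by exact_mod_cast hCp.ne'), ENNReal.top_mul hEne]
    rw [hCu, ENNReal.top_mul hLne]
    exact ⟨le_top, le_top⟩
  lift u to ℝ≥0 using hu
  have hC1' : (2 * (chgN c.R c.n0 * |c.Ck|) + 1) * (2 * Real.pi / p.ω) ≤ p.h0 := by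
    rw [hph, ← hα]
    refine le_trans ?_ hC1
    gcongr
  have hHOK := fd_HOK c.Ck c.ck c.ρ c.R c.n0 c.cst p c.col hω hC1' P Γ Vf Vc hS hreg X F u hin v0 hv0 q hq
  rw [← hH, ← hα, ← hγ, hph] at hHOK
  set M : ℝ := Real.exp (α * h0) * ((u : ℝ) * ((max 1 c.cst : ℝ≥0) : ℝ) ^ c.n0) with hM
  have hMp : 0 ≤ M := by positivity
  have hEle : Real.exp (α * h0) ≤ Em := Real.exp_le_exp.2 (by gcongr)
  have hMle : M ≤ Em * ((u : ℝ) * cn) := by
    rw [hM, hcn]; push_cast; gcongr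
  obtain ⟨-, -, hequi⟩ := chg_charge_proj p hω c.col P.g Vf X F hin.fn q
  have hequiH : ∀ (z : G.V → ℂ) (cc : ℂ), z ∈ strip h0 P.g X → (fun v => z v + cc) ∈ strip h0 P.g X →
      H (fun v => z v + cc) = Complex.exp (Complex.I * q * (α : ℂ) * cc) * H z := by
    intro z cc hz hzc
    rw [hH]
    exact fd_conv_equiv p.h0 P.g X Γ _ (Complex.I * q * ((α : ℝ) : ℂ)) hequi z cc (hph ▸ hz) (hph ▸ hzc)
  have hLlt : 2 * Cg < 2 ^ ℓ := hℓ1.trans_le (pow_le_pow_right₀ one_le_two ((le_max_right _ _).trans hℓ))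
  have hosc : ∀ w : G.V → ℂ, (2 ^ ℓ : ℝ≥0) * tnorm P.g X (fun x => w x - w v0) ≤ Cg * dnorm P.g' (P.N.cl X) w := fun w =>
    ((hgeo D0 hD0 G ℓ ((le_max_left _ _).trans hℓ) P X hin.conn hin.small v0 hv0).1 w).trans (by
      gcongr; rw [hCg]; exact le_self_add)
  have hu0 : (0 : ℝ) ≤ u := NNReal.coe_nonneg _
  have hcn0 : (0 : ℝ) ≤ cn := NNReal.coe_nonneg _
  have hCg0 : (0 : ℝ) ≤ Cg := NNReal.coe_nonneg _
  constructor
  · have e6 : H 0 = Complex.exp ((-α ^ 2 * γ / 2 : ℝ)) * fdN α q γ v0 H 0 := by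
      have := fdN_inv α q γ v0 H 0
      rw [Pi.zero_apply, mul_zero, Complex.exp_zero, mul_one] at this
      exact this
    have h11 : ‖fdN α q γ v0 H 0‖ ≤ M := hHOK.bd0 0 (by rw [tnorm_zero]; exact half_pos hh)
    have h1 : ‖H 0‖ ≤ (C : ℝ) * u * E := by
      rw [e6, norm_mul, Complex.norm_exp, Complex.ofReal_re, hCr]
      calc E * ‖fdN α q γ v0 H 0‖ ≤ E * (Em * ((u : ℝ) * cn)) := by gcongr; exact h11.trans hMle
        _ ≤ E * (K * ((u : ℝ) * cn)) := by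
            gcongr
            rw [hK]
            have : 0 ≤ Em * (24 * Cg + 2 * αmax * Cg * h0 * Em) * locE h0 κ 1 * Em := by positivity
            linarith
        _ = _ := by ring
    refine (coe_nnnorm_le_ofReal h1).trans (le_of_eq ?_)
    rw [ENNReal.ofReal_mul (by positivity), ENNReal.ofReal_mul (by positivity), ENNReal.ofReal_coe_nnreal,
      ENNReal.ofReal_coe_nnreal]
  · have hpt := loc_fnSize_of_point p P.g' Vc (P.N.cl X) (fun z => H z - H 0 * chiX P.g α q X z) C (u * Real.toNNReal E) ℓ 1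
      (fun φ f hf => by
        have h1 := fd_point h0 hh P p.δ p.κ (hpδ ▸ hδ.le) (hpκ ▸ hκ) Vc X H M hMp Cg hCgpos hLlt v0 hv0 α hα0 q hq γ hHOK hequiH
          hosc hin.conn.1 (fd_full P.g P.ok X hB) φ f (hph ▸ hf)
        refine h1.trans ?_
        have hW : 0 < Wt P.g' p.δ p.κ Vc (P.N.cl X) φ := Wt_pos _ _ _ _ _ _
        have hLi : (0 : ℝ) < ((2 : ℝ) ^ ℓ)⁻¹ := by positivity
        rw [pow_one, hpκ]
        rw [hpκ] at hW
        have h2 : Real.exp (α * h0) * (24 * Cg + 2 * α * Cg * h0 * Real.exp (α * h0)) * locE h0 κ 1 * M ≤ (C : ℝ) * u := by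
          rw [hCr]
          calc Real.exp (α * h0) * (24 * Cg + 2 * α * Cg * h0 * Real.exp (α * h0)) * locE h0 κ 1 * M
              ≤ Em * (24 * Cg + 2 * αmax * Cg * h0 * Em) * locE h0 κ 1 * (Em * ((u : ℝ) * cn)) := by gcongr
            _ = (Em * (24 * Cg + 2 * αmax * Cg * h0 * Em) * locE h0 κ 1 * Em) * ((u : ℝ) * cn) := by ring
            _ ≤ K * ((u : ℝ) * cn) := by
                gcongr
                rw [hK]; linarith
            _ = _ := by ring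
        have h3 : (((u * Real.toNNReal E : ℝ≥0)) : ℝ) = u * E := by
          push_cast; rw [Real.coe_toNNReal E hEp.le]
        rw [h3]
        calc E * (Real.exp (α * h0) * (24 * Cg + 2 * α * Cg * h0 * Real.exp (α * h0)) * locE h0 κ 1 * M) * ((2 : ℝ) ^ ℓ)⁻¹
              * Wt P.g' p.δ κ Vc (P.N.cl X) φ
            ≤ E * ((C : ℝ) * u) * ((2 : ℝ) ^ ℓ)⁻¹ * Wt P.g' p.δ κ Vc (P.N.cl X) φ := by gcongr
          _ = _ := by ring)
    rw [pow_one] at hpt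
    refine hpt.trans (le_of_eq ?_)
    have : ((u * Real.toNNReal E : ℝ≥0) : ℝ≥0∞) = (u : ℝ≥0∞) * ENNReal.ofReal E := by
      push_cast; rfl
    rw [this]
    ring

end

end Claimed.Agent.R285.Fund
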