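import Claimed.Agent.R285.Map.WBnd
import Claimed.Agent.R285.Map.Fund

/-!
# ROW 285, unit MAP, weak step: THE GAIN OF THE SUBTRACTED SMALL INPUTS, common tools and the MARGINAL window                     (owner helper202)

Common tools (all three variants): `wg_input`, `wg_tsum` (size ≤ sum of the sizes of the charge components `Tq`), `wg_neutral` (L4.5: `L⁻³`), `wg_charge` (L4.6, one charge, FIXED amplitude `a`),
`wg_split`, `wg_geom` (geometric sums over the charges), `wg_pow` (choice of `ℓ0`).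
Marginal window: `wg_fund` (= `fund_localization`, helper281's `Map/Fund.lean`), `wg_marginal`.
With `y = e^{-k₀ Γ(0,0)/2} ≤ 2 L⁻²`, `E = e^{h₀ αmax}`, `αmax = 2 √k₀`, amplitude `a = √k₀ ≤ α`:
 neutral `C_n L⁻³`;  `q = ± 1`: `C_f e^{-α² Γ/2} L⁻¹ ≤ 2 C_f L⁻³`;  `|q| = n ≥ 2`: `C_c e^{-(a n α - a²/2) Γ + h₀ n α} ≤ C_c y^{2n-1} E^n`, sum `≤ 4 C_c y³ E² ≤ 32 C_c E² L⁻⁶`.
-/

set_option autoImplicit false

namespace Claimed.Agent.R285.B8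

open scoped BigOperators ENNReal NNReal
open MeasureTheory
open Claimed.Agent.R285.RG Claimed.Agent.R285.Hol

noncomputable section

variable {G : Geom} {D0 ℓ : ℕ} {c : Geo} {p : Par} {gs : Grid G} {S : Step G D0 ℓ}

/-! ## 1. Common tools -/

theorem wg_input (_h : Ctx c p gs S) {Rm : Act S.P.g} (hR : Adm p c gs Rm) {X : Finset S.P.g.I} (hX : X ∈ S.small c) :
    LocalInput p c.col c.R c.n0 S.P.g S.Vf X (Rm X) (fnSize p S.P.g S.Vf X (Rm X)) :=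
  ⟨(w_mem_small.1 hX).1, (w_mem_small.1 hX).2, hR.ok.fn X, le_rfl⟩

/-- the size of a subtracted small input is at most the sum of the sizes of its charge components (PROVED from `w_small_decomp`) -/
theorem wg_tsum (h : Ctx c p gs S) (cosOn : Bool) {Rm : Act S.P.g} (hR : Adm p c gs Rm) (hfin : actNorm p S.P.g S.Vf Rm ≠ ⊤) {X : Finset S.P.g.I} (hX : X ∈ S.small c) :
    fnSize p S.P.g' S.Vc (S.P.N.cl X) (conv S.Γ (Rm X) - ∑ B ∈ X, S.piece p.ω cosOn Rm X B)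
      ≤ ∑' q : ℤ, fnSize p S.P.g' S.Vc (S.P.N.cl X) (Tq S p.ω cosOn Rm X q) :=
  w_fnSize_tsum_le p S.P.g' S.Vc (S.P.N.cl X) _ _ fun _ hz =>
    w_small_decomp h cosOn hR hfin hX (w_strip_coarse S.P p.h0 (Finset.Subset.refl _) hz)

/-- **the neutral component**: gain `L⁻³` (PROVED from `B4.neutral_localization`) -/
theorem wg_neutral (c : Geo) (δ κ : ℝ) (h0 : ℝ≥0) (hδ : 0 < δ) (hκ : 0 < κ) (hh : 0 < h0) : ∃ (Cn : ℝ≥0) (ℓ0 D1 : ℕ), ∀ ℓ ≥ ℓ0, ∀ D0 ≥ D1,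
    ∀ (A ω : ℝ) (G : Geom) (gs : Grid G) (S : Step G D0 ℓ) (cosOn : Bool), Ctx c ⟨δ, κ, h0, A, ω⟩ gs S →
      ∀ Rm : Act S.P.g, Adm ⟨δ, κ, h0, A, ω⟩ c gs Rm → ∀ X ∈ S.small c,
        fnSize ⟨δ, κ, h0, A, ω⟩ S.P.g' S.Vc (S.P.N.cl X) (Tq S ω cosOn Rm X 0)
          ≤ Cn * fnSize ⟨δ, κ, h0, A, ω⟩ S.P.g S.Vf X (Rm X) * (2 ^ ℓ : ℝ≥0∞)⁻¹ ^ 3 := by
  obtain ⟨C, ℓ0, D1, H⟩ := B4.neutral_localization c.R c.n0 c.cst δ κ h0 hδ hκ hh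
  refine ⟨C, ℓ0, D1, fun ℓ hℓ D0 hD A ω G gs S cosOn h Rm hR X hX => ?_⟩
  have h1 := (H ⟨δ, κ, h0, A, ω⟩ c.col rfl rfl rfl h.hω D0 hD G ℓ hℓ S.P S.Γ S.Vf S.Vc h.psd h.ok.reg X (Rm X) _
    (wg_input h hR hX) _ rfl).2 (fun ψ hψ => hR.even X ψ hψ)
  have h3 := (h1.2 (Or.inl h.ok.per) (anchor S.P.g X) (w_anchor_mem h hX)).2
  have e : Tq S ω cosOn Rm X 0 = fun ψ => conv S.Γ (chargeProj ω 0 (Rm X)) ψ
      - ∑ B ∈ X, Loc S.P.g X (anchor S.P.g X) (conv S.Γ (chargeProj ω 0 (Rm X))) B ψ := by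
    unfold Tq
    rw [if_pos rfl]
    funext ψ
    rw [Pi.sub_apply, Finset.sum_apply]
    rfl
  rw [e]
  exact h3

/-- **one charged component**, amplitude `a` fixed before `L` (PROVED from `B4.charged_gain`) -/
theorem wg_charge (c : Geo) : ∃ C1 : ℝ, ∀ (δ κ : ℝ) (h0 : ℝ≥0), 0 < δ → 0 < κ → ∀ a : ℝ, 0 < a → C1 * a ≤ h0 → ∃ (Cc : ℝ≥0) (ℓ0 D1 : ℕ), ∀ ℓ ≥ ℓ0, ∀ D0 ≥ D1,
    ∀ (A ω : ℝ) (G : Geom) (gs : Grid G) (S : Step G D0 ℓ), Ctx c ⟨δ, κ, h0, A, ω⟩ gs S →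
      ∀ Rm : Act S.P.g, Adm ⟨δ, κ, h0, A, ω⟩ c gs Rm → ∀ X ∈ S.small c, ∀ q : ℤ, q ≠ 0 →
        fnSize ⟨δ, κ, h0, A, ω⟩ S.P.g' S.Vc (S.P.N.cl X) (S.Hq ω q Rm X)
          ≤ Cc * fnSize ⟨δ, κ, h0, A, ω⟩ S.P.g S.Vf X (Rm X) * ENNReal.ofReal (Real.exp (-(a * |(q : ℝ)| * Step.alpha ω - a ^ 2 / 2) * S.Γ (org G) (org G)
                + h0 * |(q : ℝ)| * Step.alpha ω)) := by
  obtain ⟨C1, H⟩ := B4.charged_gain c.Ck c.ck c.ρ c.R c.n0 c.cst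
  refine ⟨C1, fun δ κ h0 hδ hκ a ha hC => ?_⟩
  obtain ⟨C, ℓ0, D1, H⟩ := H δ κ h0 hδ hκ a ha hC
  refine ⟨C, ℓ0, D1, fun ℓ hℓ D0 hD A ω G gs S h Rm hR X hX q hq => ?_⟩
  have h1 := H ⟨δ, κ, h0, A, ω⟩ c.col rfl rfl rfl h.hω D0 hD G ℓ hℓ S.P S.Γ S.Vf S.Vc h.ok.shell h.ok.reg X (Rm X) _
    (wg_input h hR hX) (anchor S.P.g X) (w_anchor_mem h hX) q hq
  rw [h.ok.diag] at h1
  exact (w_fnSize_kappa_mono δ κ (κ / 2) h0 A A ω ω hδ.le (by linarith) S.P.g' S.Vc _ _).trans h1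

/-- splitting a sum over the charges (PROVED) -/
theorem wg_split (f g : ℤ → ℝ≥0∞) (a0 a1 : ℝ≥0∞) (h0 : f 0 ≤ a0) (h1 : f 1 ≤ a1) (h1' : f (-1) ≤ a1) (h2 : ∀ q : ℤ, 2 ≤ q.natAbs → f q ≤ g q) :
    ∑' q, f q ≤ a0 + 2 * a1 + ∑' q : ℤ, (if 2 ≤ q.natAbs then g q else 0) := by
  have key : ∀ q : ℤ, f q ≤ (if q = 0 then a0 else 0) + (if q = 1 then a1 else 0) + (if q = -1 then a1 else 0) + (if 2 ≤ q.natAbs then g q else 0) := by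
    intro q
    by_cases hq0 : q = 0
    · subst hq0; simpa using h0
    by_cases hq1 : q = 1
    · subst hq1; simpa using h1
    by_cases hq2 : q = -1
    · subst hq2; simpa using h1'
    · have : 2 ≤ q.natAbs := by omega
      simp only [hq0, hq1, hq2, if_false, this, if_true, zero_add]
      exact h2 q this
  refine (ENNReal.tsum_le_tsum key).trans ?_
  rw [ENNReal.tsum_add, ENNReal.tsum_add, ENNReal.tsum_add, tsum_ite_eq, tsum_ite_eq, tsum_ite_eq, two_mul, add_assoc a0]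

/-! ### LEAF `W-GAIN-GEOM`: geometric sums over the charges -/

theorem wg_geom_nat (N : ℕ) (hN : 1 ≤ N) (y E : ℝ) (hy : 0 ≤ y) (hE : 0 ≤ E) (h : y ^ 2 * E ≤ 1 / 2) :
    ∑' n : ℕ, (if N ≤ n then ENNReal.ofReal (y ^ (2 * n - 1) * E ^ n) else 0) ≤ ENNReal.ofReal (2 * y ^ (2 * N - 1) * E ^ N) := by
  set g : ℕ → ℝ≥0∞ := fun n => if N ≤ n then ENNReal.ofReal (y ^ (2 * n - 1) * E ^ n) else 0 with hg
  have hr0 : 0 ≤ y ^ 2 * E := by positivity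
  have e1 : ∑' n, g n = ∑' k, g (k + N) := by
    rw [← (ENNReal.summable (f := fun k => g (k + N))).sum_add_tsum_nat_add' (f := g)]
    rw [Finset.sum_eq_zero, zero_add]
    intro i hi
    have : ¬ N ≤ i := by simpa using hi
    simp [hg, this]
  have e2 : ∀ k, g (k + N) = ENNReal.ofReal (y ^ (2 * N - 1) * E ^ N * (y ^ 2 * E) ^ k) := by
    intro k
    have : N ≤ k + N := by omega
    simp only [hg, this, if_true]
    congr 1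
    have e3 : 2 * (k + N) - 1 = (2 * N - 1) + 2 * k := by omega
    rw [e3, pow_add, pow_add, mul_pow, ← pow_mul]
    ring
  rw [e1, tsum_congr e2]
  have hs : Summable (fun k : ℕ => (y ^ 2 * E) ^ k) := summable_geometric_of_lt_one hr0 (by linarith)
  rw [← ENNReal.ofReal_tsum_of_nonneg (fun k => by positivity) (hs.mul_left _), tsum_mul_left, tsum_geometric_of_lt_one hr0 (by linarith)]
  apply ENNReal.ofReal_le_ofReal
  have h2 : (1 - y ^ 2 * E)⁻¹ ≤ 2 := by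
    rw [inv_le_comm₀ (by linarith) (by norm_num)]
    linarith
  have h3 : 0 ≤ y ^ (2 * N - 1) * E ^ N := by positivity
  calc y ^ (2 * N - 1) * E ^ N * (1 - y ^ 2 * E)⁻¹ ≤ y ^ (2 * N - 1) * E ^ N * 2 := mul_le_mul_of_nonneg_left h2 h3
    _ = 2 * y ^ (2 * N - 1) * E ^ N := by ring

/-- plan: `r = y² E ≤ 1/2`; for `n ≥ N ≥ 1`: `y^{2n-1} E^n = y^{2N-1} E^N r^{n-N}`; each `n` has two preimages under `natAbs`: split `ℤ` into `q ≥ 0`, `q < 0` (indicators, `ENNReal.tsum_add`, `tsum_subtype`,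
`ENNReal.tsum_comp_le_tsum_of_injective`) or use `Int.equivNatSumNat`; `∑_{k ≥ 0} r^k ≤ 2` (`tsum_geometric_of_lt_one`, `ENNReal.ofReal_tsum_of_nonneg`). -/
theorem wg_geom (N : ℕ) (hN : 1 ≤ N) (y E : ℝ) (hy : 0 ≤ y) (hE : 0 ≤ E) (h : y ^ 2 * E ≤ 1 / 2) :
    ∑' q : ℤ, (if N ≤ q.natAbs then ENNReal.ofReal (y ^ (2 * q.natAbs - 1) * E ^ q.natAbs) else 0) ≤ ENNReal.ofReal (4 * y ^ (2 * N - 1) * E ^ N) := by
  set g : ℕ → ℝ≥0∞ := fun n => if N ≤ n then ENNReal.ofReal (y ^ (2 * n - 1) * E ^ n) else 0 with hg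
  have h1 := wg_geom_nat N hN y E hy hE h
  change ∑' q : ℤ, g q.natAbs ≤ _
  rw [tsum_of_nat_of_neg_add_one (f := fun q : ℤ => g q.natAbs) ENNReal.summable ENNReal.summable]
  have e1 : ∀ n : ℕ, g ((n : ℤ)).natAbs = g n := fun n => by simp
  have e2 : ∀ n : ℕ, g (-((n : ℤ) + 1)).natAbs = g (n + 1) := fun n => by
    congr 1
  have h2 : ∑' n : ℕ, g (n + 1) ≤ ∑' n, g n := ENNReal.tsum_comp_le_tsum_of_injective (add_left_injective 1) g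
  simp only [e1, e2]
  have e3 : ENNReal.ofReal (4 * y ^ (2 * N - 1) * E ^ N) = ENNReal.ofReal (2 * y ^ (2 * N - 1) * E ^ N) + ENNReal.ofReal (2 * y ^ (2 * N - 1) * E ^ N) := by
    rw [← ENNReal.ofReal_add (by positivity) (by positivity)]
    congr 1; ring
  rw [e3]
  exact add_le_add h1 (h2.trans h1)

/-- choice of `ℓ0` (PROVED) -/
theorem wg_pow (M : ℝ) : ∃ ℓ0 : ℕ, ∀ ℓ ≥ ℓ0, M ≤ (2 : ℝ) ^ ℓ := by
  obtain ⟨n, hn⟩ := pow_unbounded_of_one_lt M (one_lt_two : (1 : ℝ) < 2)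
  exact ⟨n, fun ℓ hℓ => hn.le.trans (pow_le_pow_right₀ one_le_two hℓ)⟩

theorem wg_inv_pow (ℓ k : ℕ) : ((2 : ℝ≥0∞) ^ ℓ)⁻¹ ^ k = ENNReal.ofReal ((((2 : ℝ) ^ ℓ)⁻¹) ^ k) := by
  rw [ENNReal.ofReal_pow (by positivity), ENNReal.ofReal_inv_of_pos (by positivity), ENNReal.ofReal_pow (by norm_num)]
  norm_num

/-! ## 2. The marginal window -/

/-! ### LEAF `W-GAIN-FUND` -/

/-- **the fundamental components** `q = ± 1`.  plan: this is `fund_localization` (helper281, `Map/Fund.lean`: import it here) for `F = R X`, `u = fnSize (R X)` (`wg_input`), `v0 = anchor X` (`w_anchor_mem`), `Bulk` by periodicity,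
`Γ v0 v0 = Γ (0,0)` (`h.ok.diag`); unfold `Tq` (`q ≠ 0`, `cosOn = true`). -/
theorem wg_fund (c : Geo) (hc : c.Ok) : ∃ C1 : ℝ, ∀ (δ κ : ℝ) (h0 : ℝ≥0) (αmax : ℝ), 0 < δ → 0 < κ → 0 < αmax → C1 * αmax ≤ h0 → ∃ (Cf : ℝ≥0) (ℓ0 D1 : ℕ), ∀ ℓ ≥ ℓ0, ∀ D0 ≥ D1,
    ∀ (A ω : ℝ) (G : Geom) (gs : Grid G) (S : Step G D0 ℓ), Step.alpha ω ≤ αmax → Ctx c ⟨δ, κ, h0, A, ω⟩ gs S →
      ∀ Rm : Act S.P.g, Adm ⟨δ, κ, h0, A, ω⟩ c gs Rm → ∀ X ∈ S.small c, ∀ q : ℤ, q = 1 ∨ q = -1 →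
        fnSize ⟨δ, κ, h0, A, ω⟩ S.P.g' S.Vc (S.P.N.cl X) (Tq S ω true Rm X q)
          ≤ Cf * fnSize ⟨δ, κ, h0, A, ω⟩ S.P.g S.Vf X (Rm X) * ENNReal.ofReal (Real.exp (-(Step.alpha ω) ^ 2 * S.Γ (org G) (org G) / 2)) * (2 ^ ℓ : ℝ≥0∞)⁻¹ := by
  obtain ⟨C1, H⟩ := Fund.fund_localization c hc
  refine ⟨C1, fun δ κ h0 αmax hδ hκ hα hC => ?_⟩
  obtain ⟨C, ℓ0, D1, H⟩ := H δ κ h0 αmax hδ hκ hα hC
  refine ⟨C, ℓ0, D1, fun ℓ hℓ D0 hD A ω G gs S hαm h Rm hR X hX q hq => ?_⟩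
  have key := (H ⟨δ, κ, h0, A, ω⟩ rfl rfl rfl h.hω hαm D0 hD G ℓ hℓ S.P S.Γ S.Vf S.Vc h.ok.shell h.ok.reg X (Rm X) _
    (wg_input h hR hX) (Or.inl h.ok.per) (anchor S.P.g X) (w_anchor_mem h hX) q hq _ rfl).2
  rw [h.ok.diag] at key
  have hq0 : q ≠ 0 := by rcases hq with rfl | rfl <;> norm_num
  have e : Tq S ω true Rm X q = fun z => S.Hq ω q Rm X z - S.Hq ω q Rm X 0 * chiX S.P.g (Step.alpha ω) q X z := by
    unfold Tq
    rw [if_neg hq0, if_pos ⟨rfl, hq⟩]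
  rw [e]
  exact key

/-- the exponent of one charge `|q| = n ≥ 1`, amplitude `a = √k ≤ α ≤ αmax` (PROVED; `k = k₀`: marginal, `k = a₁`: gapped) -/
theorem wg_exp_le (k a α αmax γ h0 : ℝ) (n : ℕ) (hn : 1 ≤ n) (ha : a ^ 2 = k) (ha0 : 0 ≤ a) (haα : a ≤ α) (hα : α ≤ αmax) (hγ : 0 ≤ γ) (hh : 0 ≤ h0) :
    Real.exp (-(a * (n : ℝ) * α - a ^ 2 / 2) * γ + h0 * (n : ℝ) * α) ≤ Real.exp (-k * γ / 2) ^ (2 * n - 1) * Real.exp (h0 * αmax) ^ n := by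
  rw [← Real.exp_nat_mul, ← Real.exp_nat_mul, ← Real.exp_add]
  apply Real.exp_le_exp.2
  have e : ((2 * n - 1 : ℕ) : ℝ) = 2 * (n : ℝ) - 1 := by
    rw [Nat.cast_sub (by omega)]; push_cast; ring
  rw [e, ← ha]
  have hn0 : (0 : ℝ) ≤ n := Nat.cast_nonneg n
  have h1 : a * a ≤ a * α := mul_le_mul_of_nonneg_left haα ha0
  have h2 : (a * a) * ((n : ℝ) * γ) ≤ (a * α) * ((n : ℝ) * γ) := mul_le_mul_of_nonneg_right h1 (mul_nonneg hn0 hγ)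
  have h3 : (h0 * (n : ℝ)) * α ≤ (h0 * (n : ℝ)) * αmax := mul_le_mul_of_nonneg_left hα (mul_nonneg hh hn0)
  nlinarith [h2, h3]

/-- **THE MARGINAL GAIN** (PROVED from `wg_neutral`, `wg_fund`, `wg_charge`, `wg_geom`) -/
theorem wg_marginal (c : Geo) (hc : c.Ok) : ∃ C1 : ℝ≥0, 0 < C1 ∧ ∀ (δ κ : ℝ) (h0 : ℝ≥0), 0 < δ → 0 < κ → C1 ≤ h0 → ∀ η : ℝ≥0, 0 < η → ∃ (ℓ0 D1 : ℕ), ∀ ℓ ≥ ℓ0, ∀ D0 ≥ D1,
    ∀ (A ω : ℝ) (G : Geom) (gs : Grid G) (S : Step G D0 ℓ), k0 ≤ Step.alpha ω ^ 2 → Step.alpha ω ^ 2 ≤ 4 * k0 →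
      ((2 : ℝ) ^ ℓ) ^ 2 * Real.exp (-k0 * S.Γ (org G) (org G) / 2) ≤ 2 → Ctx c ⟨δ, κ, h0, A, ω⟩ gs S →
      SmallGain c ⟨δ, κ, h0, A, ω⟩ gs S true (η / (2 ^ ℓ) ^ 2) := by
  obtain ⟨Cch, Hc⟩ := wg_charge c
  obtain ⟨Cfu, Hf⟩ := wg_fund c hc
  have hk0 : 0 < k0 := by unfold k0; positivity
  set a : ℝ := Real.sqrt k0 with ha
  have ha0 : 0 < a := Real.sqrt_pos.2 hk0
  have ha2 : a ^ 2 = k0 := Real.sq_sqrt hk0.le
  refine ⟨(max (max (Cch * a) (Cfu * (2 * a))) 1).toNNReal, by simp, fun δ κ h0 hδ hκ hC η hη => ?_⟩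
  have hC' : max (max (Cch * a) (Cfu * (2 * a))) 1 ≤ (h0 : ℝ) := by
    have := NNReal.coe_le_coe.2 hC
    rwa [Real.coe_toNNReal _ (le_max_of_le_right zero_le_one)] at this
  have hh : 0 < h0 := by
    have : (0 : ℝ) < h0 := lt_of_lt_of_le one_pos ((le_max_right _ _).trans hC')
    exact_mod_cast this
  obtain ⟨Cn, ℓn, Dn, Hn⟩ := wg_neutral c δ κ h0 hδ hκ hh
  obtain ⟨Cc, ℓc, Dc, Hc⟩ := Hc δ κ h0 hδ hκ a ha0 (((le_max_left _ _).trans (le_max_left _ _)).trans hC')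
  obtain ⟨Cf, ℓf, Df, Hf⟩ := Hf δ κ h0 (2 * a) hδ hκ (by positivity) (((le_max_right _ _).trans (le_max_left _ _)).trans hC')
  set E : ℝ := Real.exp (h0 * (2 * a)) with hE
  have hE0 : 0 < E := Real.exp_pos _
  obtain ⟨ℓ1, H1⟩ := wg_pow (max (((Cn : ℝ) + 4 * Cf + 32 * Cc * E ^ 2) / η) (8 * E))
  refine ⟨max (max ℓn ℓc) (max ℓf ℓ1), max (max Dn Dc) Df, fun ℓ hℓ D0 hD A ω G gs S hα1 hα2 hlam h Rm hR hfin X hX => ?_⟩
  have hℓn : ℓn ≤ ℓ := ((le_max_left _ _).trans (le_max_left _ _)).trans hℓ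
  have hℓc : ℓc ≤ ℓ := ((le_max_right _ _).trans (le_max_left _ _)).trans hℓ
  have hℓf : ℓf ≤ ℓ := ((le_max_left _ _).trans (le_max_right _ _)).trans hℓ
  have hℓ1 : ℓ1 ≤ ℓ := ((le_max_right _ _).trans (le_max_right _ _)).trans hℓ
  have hDn : Dn ≤ D0 := ((le_max_left _ _).trans (le_max_left _ _)).trans hD
  have hDc : Dc ≤ D0 := ((le_max_right _ _).trans (le_max_left _ _)).trans hD
  have hDf : Df ≤ D0 := (le_max_right _ _).trans hD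
  -- the real numbers
  set α : ℝ := Step.alpha ω with hα
  have hα0 : 0 < α := by rw [hα]; unfold Step.alpha; have := h.hω; have := Real.pi_pos; positivity
  set γ : ℝ := S.Γ (org G) (org G) with hγ
  have hγ0 : 0 ≤ γ := h.psd.diag_nonneg
  have haα : a ≤ α := by
    rw [ha]; exact Real.sqrt_le_iff.2 ⟨hα0.le, hα1⟩
  have hαm : α ≤ 2 * a := by
    have : α ^ 2 ≤ (2 * a) ^ 2 := by rw [mul_pow, ha2]; linarith
    exact (abs_le_of_sq_le_sq' this (by positivity)).2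
  set y : ℝ := Real.exp (-k0 * γ / 2) with hy
  have hy0 : 0 < y := Real.exp_pos _
  set t : ℝ := ((2 : ℝ) ^ ℓ)⁻¹ with ht
  have hL0 : (0 : ℝ) < 2 ^ ℓ := by positivity
  have ht0 : 0 < t := inv_pos.2 hL0
  have ht1 : t ≤ 1 := inv_le_one_of_one_le₀ (one_le_pow₀ one_le_two)
  have hyt : y ≤ 2 * t ^ 2 := by
    have : y = (((2 : ℝ) ^ ℓ) ^ 2 * y) * t ^ 2 := by rw [ht]; field_simp
    rw [this]
    exact mul_le_mul_of_nonneg_right hlam (by positivity)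
  have hMt : ((Cn : ℝ) + 4 * Cf + 32 * Cc * E ^ 2) * t ≤ η := by
    have h2 := (le_max_left _ _).trans (H1 ℓ hℓ1)
    have hη' : (0 : ℝ) < η := by exact_mod_cast hη
    rw [div_le_iff₀ hη'] at h2
    rw [ht, ← div_eq_mul_inv, div_le_iff₀ hL0]
    linarith
  have hEt : 8 * E * t ≤ 1 := by
    have h2 := (le_max_right _ _).trans (H1 ℓ hℓ1)
    rw [ht, ← div_eq_mul_inv, div_le_iff₀ hL0]
    linarith
  have hgeo : y ^ 2 * E ≤ 1 / 2 := by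
    have h1 : y ^ 2 ≤ (2 * t ^ 2) ^ 2 := pow_le_pow_left₀ hy0.le hyt 2
    have h2 : (2 * t ^ 2) ^ 2 ≤ 4 * t := by
      have : t ^ 4 ≤ t := by
        calc t ^ 4 = t * t ^ 3 := by ring
          _ ≤ t * 1 := mul_le_mul_of_nonneg_left (pow_le_one₀ ht0.le ht1) ht0.le
          _ = t := mul_one t
      nlinarith
    calc y ^ 2 * E ≤ (4 * t) * E := mul_le_mul_of_nonneg_right (h1.trans h2) hE0.le
      _ = (8 * E * t) / 2 := by ring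
      _ ≤ 1 / 2 := by linarith
  set e1 : ℝ := Real.exp (-α ^ 2 * γ / 2) with he1
  have he1y : e1 ≤ y := by
    apply Real.exp_le_exp.2
    have := mul_le_mul_of_nonneg_right hα1 hγ0
    linarith
  set u : ℝ≥0∞ := fnSize ⟨δ, κ, h0, A, ω⟩ S.P.g S.Vf X (Rm X) with hu
  -- the three kinds of components
  refine (wg_tsum h true hR hfin hX).trans ?_
  refine (wg_split _ (fun q => Cc * u * ENNReal.ofReal (y ^ (2 * q.natAbs - 1) * E ^ q.natAbs)) _ _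
    (Hn ℓ hℓn D0 hDn A ω G gs S true h Rm hR X hX) (Hf ℓ hℓf D0 hDf A ω G gs S hαm h Rm hR X hX 1 (Or.inl rfl))
    (Hf ℓ hℓf D0 hDf A ω G gs S hαm h Rm hR X hX (-1) (Or.inr rfl)) (fun q hq => ?_)).trans ?_
  · have hq0 : q ≠ 0 := by rintro rfl; simp at hq
    have hq1 : ¬ (q = 1 ∨ q = -1) := by rintro (rfl | rfl) <;> simp at hq
    have e : Tq S ω true Rm X q = S.Hq ω q Rm X := by
      unfold Tq
      rw [if_neg hq0, if_neg (fun hh => hq1 hh.2)]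
    show fnSize ⟨δ, κ, h0, A, ω⟩ S.P.g' S.Vc (S.P.N.cl X) (Tq S ω true Rm X q) ≤ _
    rw [e]
    refine (Hc ℓ hℓc D0 hDc A ω G gs S h Rm hR X hX q hq0).trans (mul_le_mul' le_rfl (ENNReal.ofReal_le_ofReal ?_))
    have eq : |(q : ℝ)| = (q.natAbs : ℝ) := by rw [Nat.cast_natAbs, Int.cast_abs]
    rw [eq]
    exact wg_exp_le k0 a α (2 * a) γ h0 q.natAbs (by omega) ha2 ha0.le haα hαm hγ0 (NNReal.coe_nonneg h0)
  · have e2 : ∑' q : ℤ, (if 2 ≤ q.natAbs then Cc * u * ENNReal.ofReal (y ^ (2 * q.natAbs - 1) * E ^ q.natAbs) else 0)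
        = Cc * u * ∑' q : ℤ, (if 2 ≤ q.natAbs then ENNReal.ofReal (y ^ (2 * q.natAbs - 1) * E ^ q.natAbs) else 0) := by
      rw [← ENNReal.tsum_mul_left]
      refine tsum_congr fun q => ?_
      split_ifs <;> simp
    rw [e2]
    have h4 := wg_geom 2 one_le_two y E hy0.le hE0.le hgeo
    refine (add_le_add le_rfl (mul_le_mul' le_rfl h4)).trans ?_
    have hA : (Cn : ℝ≥0∞) * u * (2 ^ ℓ : ℝ≥0∞)⁻¹ ^ 3 = ENNReal.ofReal (Cn * t ^ 3) * u := by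
      rw [wg_inv_pow, ENNReal.ofReal_mul (NNReal.coe_nonneg Cn), ENNReal.ofReal_coe_nnreal]; ring
    have hB : (Cf : ℝ≥0∞) * u * ENNReal.ofReal e1 * (2 ^ ℓ : ℝ≥0∞)⁻¹ = ENNReal.ofReal (Cf * e1 * t) * u := by
      have := wg_inv_pow ℓ 1
      rw [pow_one, pow_one] at this
      rw [this, ENNReal.ofReal_mul (mul_nonneg (NNReal.coe_nonneg Cf) (Real.exp_pos _).le), ENNReal.ofReal_mul (NNReal.coe_nonneg Cf), ENNReal.ofReal_coe_nnreal]; ring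
    have hCc : (Cc : ℝ≥0∞) * u * ENNReal.ofReal (4 * y ^ (2 * 2 - 1) * E ^ 2) = ENNReal.ofReal (Cc * (4 * y ^ 3 * E ^ 2)) * u := by
      rw [ENNReal.ofReal_mul (NNReal.coe_nonneg Cc), ENNReal.ofReal_coe_nnreal]; ring
    rw [hA, hB, hCc]
    have hsum : ENNReal.ofReal (Cn * t ^ 3) * u + 2 * (ENNReal.ofReal (Cf * e1 * t) * u) + ENNReal.ofReal (Cc * (4 * y ^ 3 * E ^ 2)) * u
        = ENNReal.ofReal (Cn * t ^ 3 + 2 * (Cf * e1 * t) + Cc * (4 * y ^ 3 * E ^ 2)) * u := by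
      have p1 : (0 : ℝ) ≤ Cn * t ^ 3 := mul_nonneg (NNReal.coe_nonneg Cn) (by positivity)
      have p2 : (0 : ℝ) ≤ Cf * e1 * t := mul_nonneg (mul_nonneg (NNReal.coe_nonneg Cf) (Real.exp_pos _).le) ht0.le
      have p3 : (0 : ℝ) ≤ Cc * (4 * y ^ 3 * E ^ 2) := mul_nonneg (NNReal.coe_nonneg Cc) (by positivity)
      rw [ENNReal.ofReal_add (by positivity) p3, ENNReal.ofReal_add p1 (by positivity), ENNReal.ofReal_mul zero_le_two]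
      norm_num
      ring
    rw [hsum]
    refine mul_le_mul' ?_ le_rfl
    have hrhs : ((η / (2 ^ ℓ) ^ 2 : ℝ≥0) : ℝ≥0∞) = ENNReal.ofReal (η * t ^ 2) := by
      rw [← ENNReal.ofReal_coe_nnreal]
      congr 1
      rw [ht]; push_cast; field_simp
    rw [hrhs]
    apply ENNReal.ofReal_le_ofReal
    have q1 : (Cf : ℝ) * e1 * t ≤ Cf * (2 * t ^ 2) * t :=
      mul_le_mul_of_nonneg_right (mul_le_mul_of_nonneg_left (he1y.trans hyt) (NNReal.coe_nonneg Cf)) ht0.le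
    have q2 : y ^ 3 ≤ (2 * t ^ 2) ^ 3 := pow_le_pow_left₀ hy0.le hyt 3
    have q3 : (Cc : ℝ) * (4 * y ^ 3 * E ^ 2) ≤ Cc * (4 * (2 * t ^ 2) ^ 3 * E ^ 2) :=
      mul_le_mul_of_nonneg_left (mul_le_mul_of_nonneg_right (mul_le_mul_of_nonneg_left q2 (by norm_num)) (by positivity)) (NNReal.coe_nonneg Cc)
    have q4 : t ^ 4 ≤ t := by
      calc t ^ 4 = t * t ^ 3 := by ring
        _ ≤ t * 1 := mul_le_mul_of_nonneg_left (pow_le_one₀ ht0.le ht1) ht0.le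
        _ = t := mul_one t
    have q5 : (Cc : ℝ) * (4 * (2 * t ^ 2) ^ 3 * E ^ 2) ≤ t ^ 2 * (32 * Cc * E ^ 2 * t) := by
      have : (Cc : ℝ) * (4 * (2 * t ^ 2) ^ 3 * E ^ 2) = t ^ 2 * (32 * Cc * E ^ 2 * t ^ 4) := by ring
      rw [this]
      exact mul_le_mul_of_nonneg_left (mul_le_mul_of_nonneg_left q4 (mul_nonneg (mul_nonneg (by norm_num) (NNReal.coe_nonneg Cc)) (by positivity))) (by positivity)
    have q6 : t ^ 2 * (((Cn : ℝ) + 4 * Cf + 32 * Cc * E ^ 2) * t) ≤ t ^ 2 * η := mul_le_mul_of_nonneg_left hMt (by positivity)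
    nlinarith [q1, q3, q5, q6]

end

end Claimed.Agent.R285.B8
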