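import Claimed.Agent.R285.Map.WKit
import Claimed.Agent.R285.Read.B4
import Claimed.Agent.R285.Hol.Ind

/-!
# ROW 285, unit MAP, weak step: KIT 2 = the two retained singletons `e_B^0`, `c_B^α`                    (owner helper202)

LEAVES `W-SING-*` (paper-free, elementary).  Definitions: `RG.eBC`, `RG.cBC` (Base/RG s.4), `B8.single`, `B8.Kof` (Map/Defs).
`eBC g B z = ½ ∑_{v ∈ B} ∑_e (z (v+e) - z v)²`, `cBC g α B z = m⁻² ∑_{x ∈ B} cos (α z_x)`.
-/

set_option autoImplicit false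

namespace Claimed.Agent.R285.B8

open scoped BigOperators ENNReal NNReal
open MeasureTheory
open Claimed.Agent.R285.RG Claimed.Agent.R285.Hol

noncomputable section

variable {G : Geom}

/-! ## algebra of `single`, `Kof` (PROVED) -/

theorem w_single_singleton (g : Grid G) (α : ℝ) (t z : ℂ) (B : g.I) : single g α t z {B} = (t / 2) • eBC g B + z • cBC g α B := by
  unfold single
  rw [Finset.sum_eq_single B]
  · simp
  · intro B' _ hB'
    rw [if_neg]
    intro h
    exact hB' (Finset.singleton_injective h).symm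
  · intro h; exact absurd (Finset.mem_univ B) h

theorem w_single_of_ne (g : Grid G) (α : ℝ) (t z : ℂ) (X : Finset g.I) (h : ∀ B, X ≠ {B}) : single g α t z X = 0 := by
  unfold single
  exact Finset.sum_eq_zero fun B _ => if_neg (h B)

theorem w_single_add (g : Grid G) (α : ℝ) (t z t' z' : ℂ) : single g α (t + t') (z + z') = single g α t z + single g α t' z' := by
  funext X
  by_cases h : ∃ B, X = {B}
  · obtain ⟨B, rfl⟩ := h
    rw [Pi.add_apply, w_single_singleton, w_single_singleton, w_single_singleton, add_div, add_smul, add_smul]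
    abel
  · have h' : ∀ B, X ≠ {B} := fun B hB => h ⟨B, hB⟩
    rw [Pi.add_apply, w_single_of_ne _ _ _ _ _ h', w_single_of_ne _ _ _ _ _ h', w_single_of_ne _ _ _ _ _ h', add_zero]

theorem w_single_smul (g : Grid G) (α : ℝ) (a t z : ℂ) : single g α (a * t) (a * z) = a • single g α t z := by
  funext X
  by_cases h : ∃ B, X = {B}
  · obtain ⟨B, rfl⟩ := h
    rw [Pi.smul_apply, w_single_singleton, w_single_singleton, smul_add, smul_smul, smul_smul, mul_div_assoc]
  · have h' : ∀ B, X ≠ {B} := fun B hB => h ⟨B, hB⟩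
    rw [Pi.smul_apply, w_single_of_ne _ _ _ _ _ h', w_single_of_ne _ _ _ _ _ h', smul_zero]

theorem w_single_zero (g : Grid G) (α : ℝ) : single g α 0 0 = 0 := by
  have := w_single_smul g α 0 0 0
  simpa using this

theorem w_Kof_add (g : Grid G) (α : ℝ) (x y : ℂ × ℂ × Act g) : Kof g α (x + y) = Kof g α x + Kof g α y := by
  unfold Kof
  rw [Prod.fst_add, Prod.snd_add, Prod.fst_add, Prod.snd_add, w_single_add]
  abel

theorem w_Kof_smul (g : Grid G) (α : ℝ) (a : ℂ) (x : ℂ × ℂ × Act g) : Kof g α (a • x) = a • Kof g α x := by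
  unfold Kof
  rw [Prod.smul_fst, Prod.smul_snd, Prod.smul_fst, Prod.smul_snd, smul_eq_mul, smul_eq_mul, w_single_smul, smul_add]

theorem w_Kof_sub (g : Grid G) (α : ℝ) (x y : ℂ × ℂ × Act g) : Kof g α (x - y) = Kof g α x - Kof g α y := by
  have h := w_Kof_add g α (x - y) y
  rw [sub_add_cancel] at h
  rw [h, add_sub_cancel_right]

/-- `Kof (Phi x) = Kprime ..` -/
theorem w_Kof_Phi {D0 ℓ : ℕ} (S : Step G D0 ℓ) (c : Geo) (ω : ℝ) (cosOn : Bool) (x : ℂ × ℂ × Act S.P.g) :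
    Kof S.P.g' (Step.alpha ω) (S.Phi c ω cosOn x) = Kprime S.P c.r c.R (conv S.Γ) (Kof S.P.g (Step.alpha ω) x) (S.desig c ω cosOn x) := by
  show single S.P.g' (Step.alpha ω) (S.tz c ω cosOn x).1 (S.tz c ω cosOn x).2 + (Kprime S.P c.r c.R (conv S.Γ) (Kof S.P.g (Step.alpha ω) x) (S.desig c ω cosOn x)
    - single S.P.g' (Step.alpha ω) (S.tz c ω cosOn x).1 (S.tz c ω cosOn x).2) = _
  rw [add_sub_cancel]

theorem w_conn_singleton (g : Grid G) (R : ℕ) (B : g.I) : g.Conn R {B} := by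
  refine ⟨Finset.singleton_nonempty B, fun a ha b hb => ?_⟩
  rw [Finset.mem_singleton] at ha hb
  rw [ha, hb]

/-! ## LEAF `W-SING-1`: the singletons are local functions -/

theorem w_dist_self_le (v : G.V) : G.dist v (G.π (G.ι v)) ≤ 0 := by
  unfold Geom.dist
  exact Nat.sInf_le ⟨G.ι v, rfl, by simp⟩

theorem w_dist_step_le (v : G.V) (e : Fin 4) : G.dist v (G.π (G.ι v + dir e)) ≤ 1 := by
  unfold Geom.dist
  refine Nat.sInf_le ⟨G.ι v + dir e, rfl, ?_⟩
  fin_cases e <;> simp [dir]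

/-- plan: `hol`: a polynomial in finitely many coordinates (`Differentiable`, `fun_prop` after unfolding `dif`, `Geom.lift`); `loc`: only `z (π (ι v + e))`, `z (π (ι v)) = z v`, `v ∈ B`, occur and
`G.dist v (π (ι v + e)) ≤ 1` (`Nat.sInf_le` with the witness `ι v + e`), `G.dist v v ≤ 1`; `per`: differences kill constants. -/
theorem w_eBC_local (p : Par) (col : ℕ) (hcol : 1 ≤ col) (g : Grid G) (B : g.I) : LocalFn p col g {B} (eBC g B) where
  hol := by
    have : Differentiable ℂ (eBC g B) := by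
      unfold eBC dif Geom.lift
      fun_prop
    exact this.differentiableOn
  loc := by
    intro z _ z' _ h
    unfold eBC dif Geom.lift
    congr 1
    refine Finset.sum_congr rfl fun v hv => Finset.sum_congr rfl fun e _ => ?_
    rw [h _ ⟨v, hv, (w_dist_step_le v e).trans hcol⟩, h _ ⟨v, hv, (w_dist_self_le v).trans (Nat.zero_le _)⟩]
  per := by
    intro z _
    unfold eBC dif Geom.lift
    congr 1
    refine Finset.sum_congr rfl fun v _ => Finset.sum_congr rfl fun e _ => ?_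
    rw [add_sub_add_right_eq_sub]

/-- plan: as above; `per`: `cos (α (z + ω)) = cos (α z + 2π)`. -/
theorem w_cBC_local (p : Par) (hω : 0 < p.ω) (col : ℕ) (g : Grid G) (B : g.I) : LocalFn p col g {B} (cBC g (Step.alpha p.ω) B) where
  hol := by
    have : Differentiable ℂ (cBC g (Step.alpha p.ω) B) := by
      unfold cBC
      fun_prop
    exact this.differentiableOn
  loc := by
    intro z _ z' _ h
    unfold cBC
    congr 1
    refine Finset.sum_congr rfl fun v hv => ?_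
    have h0 := w_dist_self_le v
    rw [Ker.ker_pi_iota] at h0
    rw [h v ⟨v, hv, h0.trans (Nat.zero_le _)⟩]
  per := by
    intro z _
    unfold cBC
    congr 1
    refine Finset.sum_congr rfl fun v _ => ?_
    rw [← Complex.cos_add_two_pi (↑(Step.alpha p.ω) * z v)]
    congr 1
    have hω' : (p.ω : ℂ) ≠ 0 := by exact_mod_cast hω.ne'
    unfold Step.alpha
    push_cast
    field_simp

/-- closure of `LocalFn` under the vector space operations (used everywhere) -/
theorem w_localFn_add (p : Par) (col : ℕ) (g : Grid G) (X : Finset g.I) {F F' : Fn G} (h : LocalFn p col g X F) (h' : LocalFn p col g X F') :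
    LocalFn p col g X (F + F') where
  hol := h.hol.add h'.hol
  loc := fun z hz z' hz' hv => by rw [Pi.add_apply, Pi.add_apply, h.loc z hz z' hz' hv, h'.loc z hz z' hz' hv]
  per := fun z hz => by rw [Pi.add_apply, Pi.add_apply, h.per z hz, h'.per z hz]

theorem w_localFn_smul (p : Par) (col : ℕ) (g : Grid G) (X : Finset g.I) (a : ℂ) {F : Fn G} (h : LocalFn p col g X F) :
    LocalFn p col g X (a • F) where
  hol := h.hol.const_smul a
  loc := fun z hz z' hz' hv => by rw [Pi.smul_apply, Pi.smul_apply, h.loc z hz z' hz' hv]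
  per := fun z hz => by rw [Pi.smul_apply, Pi.smul_apply, h.per z hz]

theorem w_localFn_zero (p : Par) (col : ℕ) (g : Grid G) (X : Finset g.I) : LocalFn p col g X 0 where
  hol := differentiableOn_const (c := (0 : ℂ))
  loc := fun _ _ _ _ _ => rfl
  per := fun _ _ => rfl

theorem w_localFn_neg (p : Par) (col : ℕ) (g : Grid G) (X : Finset g.I) {F : Fn G} (h : LocalFn p col g X F) : LocalFn p col g X (-F) := by
  have := w_localFn_smul p col g X (-1) h
  simpa using this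

theorem w_localFn_sub (p : Par) (col : ℕ) (g : Grid G) (X : Finset g.I) {F F' : Fn G} (h : LocalFn p col g X F) (h' : LocalFn p col g X F') :
    LocalFn p col g X (F - F') := by
  rw [sub_eq_add_neg]; exact w_localFn_add p col g X h (w_localFn_neg p col g X h')

theorem w_localFn_sum (p : Par) (col : ℕ) (g : Grid G) (X : Finset g.I) {ι : Type} (s : Finset ι) (F : ι → Fn G)
    (h : ∀ i ∈ s, LocalFn p col g X (F i)) : LocalFn p col g X (∑ i ∈ s, F i) := by
  classical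
  induction s using Finset.induction_on with
  | empty => simpa using w_localFn_zero p col g X
  | insert a s ha ih =>
    rw [Finset.sum_insert ha]
    exact w_localFn_add p col g X (h a (Finset.mem_insert_self a s)) (ih fun i hi => h i (Finset.mem_insert_of_mem hi))

theorem w_actOk_add (p : Par) (col R : ℕ) {g : Grid G} {K K' : Act g} (h : K.Ok p col R) (h' : K'.Ok p col R) : (K + K').Ok p col R where
  fn := fun X => w_localFn_add p col g X (h.fn X) (h'.fn X)
  poly := fun X hX => by rw [Pi.add_apply, h.poly X hX, h'.poly X hX, add_zero]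

theorem w_actOk_smul (p : Par) (col R : ℕ) {g : Grid G} (a : ℂ) {K : Act g} (h : K.Ok p col R) : (a • K).Ok p col R where
  fn := fun X => w_localFn_smul p col g X a (h.fn X)
  poly := fun X hX => by rw [Pi.smul_apply, h.poly X hX, smul_zero]

theorem w_actOk_sub (p : Par) (col R : ℕ) {g : Grid G} {K K' : Act g} (h : K.Ok p col R) (h' : K'.Ok p col R) : (K - K').Ok p col R where
  fn := fun X => w_localFn_sub p col g X (h.fn X) (h'.fn X)
  poly := fun X hX => by rw [Pi.sub_apply, h.poly X hX, h'.poly X hX, sub_zero]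

/-- PROVED from `W-SING-1` -/
theorem w_single_ok (p : Par) (hω : 0 < p.ω) (col R : ℕ) (hcol : 1 ≤ col) (g : Grid G) (t z : ℂ) :
    (single g (Step.alpha p.ω) t z).Ok p col R where
  fn := fun X => by
    by_cases h : ∃ B, X = {B}
    · obtain ⟨B, rfl⟩ := h
      rw [w_single_singleton]
      exact w_localFn_add p col g _ (w_localFn_smul p col g _ _ (w_eBC_local p col hcol g B)) (w_localFn_smul p col g _ _ (w_cBC_local p hω col g B))
    · rw [w_single_of_ne _ _ _ _ _ fun B hB => h ⟨B, hB⟩]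
      exact w_localFn_zero p col g X
  poly := fun X hX => w_single_of_ne _ _ _ _ _ fun B hB => hX (hB ▸ w_conn_singleton g R B)

/-! ## LEAF `W-SING-2`: parities (exact identities of entire functions) -/

theorem w_eBC_neg (g : Grid G) (B : g.I) (z : G.V → ℂ) : eBC g B (-z) = eBC g B z := by
  unfold eBC dif Geom.lift
  congr 1
  refine Finset.sum_congr rfl fun v _ => Finset.sum_congr rfl fun e _ => ?_
  simp only [Pi.neg_apply]
  ring

theorem w_cBC_neg (g : Grid G) (α : ℝ) (B : g.I) (z : G.V → ℂ) : cBC g α B (-z) = cBC g α B z := by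
  unfold cBC
  congr 1
  refine Finset.sum_congr rfl fun v _ => ?_
  rw [Pi.neg_apply, mul_neg, Complex.cos_neg]

/-- constants do not matter -/
theorem w_eBC_const (g : Grid G) (B : g.I) (z : G.V → ℂ) (a : ℂ) : eBC g B (fun v => z v + a) = eBC g B z := by
  unfold eBC dif Geom.lift
  congr 1
  refine Finset.sum_congr rfl fun v _ => Finset.sum_congr rfl fun e _ => ?_
  rw [add_sub_add_right_eq_sub]

/-- half period: `α ω / 2 = π` -/
theorem w_cBC_half (g : Grid G) (ω : ℝ) (hω : 0 < ω) (B : g.I) (z : G.V → ℂ) :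
    cBC g (Step.alpha ω) B (fun v => z v + ((ω / 2 : ℝ) : ℂ)) = -cBC g (Step.alpha ω) B z := by
  unfold cBC
  rw [← mul_neg, ← Finset.sum_neg_distrib]
  congr 1
  refine Finset.sum_congr rfl fun v _ => ?_
  rw [← Complex.cos_add_pi]
  congr 1
  have hω' : (ω : ℂ) ≠ 0 := by exact_mod_cast hω.ne'
  unfold Step.alpha
  push_cast
  field_simp

theorem w_eBC_conj (g : Grid G) (B : g.I) (z : G.V → ℂ) : eBC g B (fun v => starRingEnd ℂ (z v)) = starRingEnd ℂ (eBC g B z) := by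
  unfold eBC dif Geom.lift
  have h2 : (starRingEnd ℂ) (2 : ℂ) = 2 := Complex.conj_ofNat 2
  simp only [map_mul, map_sum, map_pow, map_sub, map_div₀, map_one, h2]

theorem w_cBC_conj (g : Grid G) (α : ℝ) (B : g.I) (z : G.V → ℂ) : cBC g α B (fun v => starRingEnd ℂ (z v)) = starRingEnd ℂ (cBC g α B z) := by
  unfold cBC
  simp only [map_mul, map_sum, Complex.conj_ofReal, ← Complex.cos_conj]

/-- PROVED from `W-SING-2` -/
theorem w_single_even (h0 : ℝ≥0) (g : Grid G) (α : ℝ) (t z : ℂ) : (single g α t z).Even h0 := by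
  intro X w _
  by_cases h : ∃ B, X = {B}
  · obtain ⟨B, rfl⟩ := h
    rw [w_single_singleton]
    simp only [Pi.add_apply, Pi.smul_apply, w_eBC_neg, w_cBC_neg]
  · rw [w_single_of_ne _ _ _ _ _ fun B hB => h ⟨B, hB⟩]; rfl

theorem w_halfShift_single (g : Grid G) (ω : ℝ) (hω : 0 < ω) (t z : ℂ) :
    halfShift ω (single g (Step.alpha ω) t z) = single g (Step.alpha ω) t (-z) := by
  funext X w
  unfold halfShift
  by_cases h : ∃ B, X = {B}
  · obtain ⟨B, rfl⟩ := h
    rw [w_single_singleton, w_single_singleton]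
    simp only [Pi.add_apply, Pi.smul_apply, w_eBC_const, w_cBC_half g ω hω, smul_eq_mul]
    ring
  · rw [w_single_of_ne _ _ _ _ _ fun B hB => h ⟨B, hB⟩, w_single_of_ne _ _ _ _ _ fun B hB => h ⟨B, hB⟩]; rfl

theorem w_conjAct_single (g : Grid G) (α : ℝ) (t z : ℂ) :
    conjAct (single g α t z) = single g α (starRingEnd ℂ t) (starRingEnd ℂ z) := by
  funext X w
  unfold conjAct
  by_cases h : ∃ B, X = {B}
  · obtain ⟨B, rfl⟩ := h
    rw [w_single_singleton, w_single_singleton]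
    have h2 : (starRingEnd ℂ) (2 : ℂ) = 2 := Complex.conj_ofNat 2
    simp only [Pi.add_apply, Pi.smul_apply, w_eBC_conj, w_cBC_conj, smul_eq_mul, map_add, map_mul, Complex.conj_conj, map_div₀, h2]
  · rw [w_single_of_ne _ _ _ _ _ fun B hB => h ⟨B, hB⟩, w_single_of_ne _ _ _ _ _ fun B hB => h ⟨B, hB⟩]; simp

/-! ## LEAF `W-SING-3`: coarse blocks are unions of fine blocks -/

open Classical in
theorem w_sum_sites {D0 ℓ : ℕ} (P : Pair G D0 ℓ) (b : P.g'.I) (f : G.V → ℂ) [DecidablePred fun B : P.g.I => P.N.up B = b] :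
    ∑ B ∈ Finset.univ.filter (fun B => P.N.up B = b), ∑ v ∈ P.g.sites {B}, f v = ∑ v ∈ P.g'.sites {b}, f v := by
  classical
  have h : P.g'.sites {b} = (Finset.univ.filter (fun B => P.N.up B = b)).biUnion fun B => P.g.sites {B} := by
    ext v
    simp [Grid.sites, Hol.blk_up P v]
  rw [h, Finset.sum_biUnion]
  intro B _ B' _ hBB
  refine Finset.disjoint_left.2 fun v hv hv' => hBB ?_
  simp only [Grid.sites, Finset.mem_filter, Finset.mem_univ, true_and, Finset.mem_singleton] at hv hv'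
  rw [← hv, ← hv']

/-- plan: `g'.sites {b}` is the disjoint union of `g.sites {B}`, `up B = b` (`Hol.blk_up`); `Finset.sum_biUnion` or `Finset.sum_fiberwise`. -/
theorem w_sum_eBC {D0 ℓ : ℕ} (P : Pair G D0 ℓ) (b : P.g'.I) :
    ∑ B ∈ Finset.univ.filter (fun B => P.N.up B = b), eBC P.g B = eBC P.g' b := by
  funext z
  rw [Finset.sum_apply]
  unfold eBC
  rw [← Finset.mul_sum, w_sum_sites P b]

open Classical in
/-- plan: the same, and `g'.m = 2^ℓ g.m` (`P.hS`), `g.m ≠ 0` (`P.ok.pos`). -/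
theorem w_sum_cBC {D0 ℓ : ℕ} (P : Pair G D0 ℓ) (α : ℝ) (b : P.g'.I) :
    ∑ B ∈ Finset.univ.filter (fun B => P.N.up B = b), cBC P.g α B = (((2 : ℂ) ^ ℓ) ^ 2) • cBC P.g' α b := by
  funext z
  rw [Finset.sum_apply, Pi.smul_apply]
  unfold cBC
  rw [← Finset.mul_sum, w_sum_sites P b, smul_eq_mul, ← mul_assoc]
  congr 1
  have hm : ((P.g.m : ℝ) : ℂ) ≠ 0 := by
    have := P.ok.pos
    exact_mod_cast this.ne'
  rw [P.hS]
  push_cast
  field_simp

/-! ## LEAF `W-SING-4`: sizes -/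

/-- plan: `B4.eB_size`, `B4.cB_size`, `w_fnSize_add_le`, `w_fnSize_smul_le`; only singletons contribute, with the weight `A^1`.  (17:05Z: `z = 0 ∨ α ≤ αmax`: the high-frequency variant has no bound on `α`, but no cosine.) -/
theorem w_single_norm (δ κ : ℝ) (h0 : ℝ≥0) (hδ : 0 < δ) (hκ : 0 < κ) (αmax : ℝ) : ∃ Cs : ℝ≥0, ∀ (A ω : ℝ), 1 ≤ A → 0 < ω →
    ∀ (G : Geom) (g : Grid G), g.Ok → ∀ (V : Extra g) (t z : ℂ), (z = 0 ∨ Step.alpha ω ≤ αmax) →
      actNorm ⟨δ, κ, h0, A, ω⟩ g V (single g (Step.alpha ω) t z) ≤ ENNReal.ofReal A * (Cs * ((‖t‖₊ : ℝ≥0∞) + (‖z‖₊ : ℝ≥0∞))) := by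
  obtain ⟨C, hC⟩ := B4.eB_size δ κ h0 hδ hκ
  refine ⟨C + 4 * Real.toNNReal (Real.exp (|αmax| * h0)), fun A ω hA hω G g hg V t z hz => ?_⟩
  rw [w_actNorm_le_iff]
  intro X
  by_cases h : ∃ B, X = {B}
  · obtain ⟨B, rfl⟩ := h
    rw [w_single_singleton, Finset.card_singleton, pow_one]
    refine mul_le_mul' le_rfl ?_
    refine (w_fnSize_add_le _ g V _ _ _).trans ?_
    have h1 : fnSize ⟨δ, κ, h0, A, ω⟩ g V {B} ((t / 2) • eBC g B) ≤ (C : ℝ≥0∞) * ‖t‖₊ := by
      refine (w_fnSize_smul_le _ g V _ _ _).trans ?_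
      rw [mul_comm]
      refine mul_le_mul' (hC ⟨δ, κ, h0, A, ω⟩ rfl rfl rfl G g hg V B) ?_
      rw [ENNReal.coe_le_coe, ← NNReal.coe_le_coe, coe_nnnorm, coe_nnnorm, norm_div]
      have : ‖(2 : ℂ)‖ = 2 := by simp
      rw [this]
      linarith [norm_nonneg t]
    have h2 : fnSize ⟨δ, κ, h0, A, ω⟩ g V {B} (z • cBC g (Step.alpha ω) B)
        ≤ ((4 * Real.toNNReal (Real.exp (|αmax| * h0)) : ℝ≥0) : ℝ≥0∞) * ‖z‖₊ := by
      rcases hz with rfl | hα
      · rw [zero_smul, w_fnSize_zero]; simp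
      · refine (w_fnSize_smul_le _ g V _ _ _).trans ?_
        rw [mul_comm]
        refine mul_le_mul' ?_ le_rfl
        refine (B4.cB_size ⟨δ, κ, h0, A, ω⟩ hδ.le hκ.le _ g hg V B).trans ?_
        rw [ENNReal.coe_mul]
        refine mul_le_mul' (by simp) ?_
        show ENNReal.ofReal _ ≤ ENNReal.ofReal _
        refine ENNReal.ofReal_le_ofReal (Real.exp_le_exp.2 (mul_le_mul_of_nonneg_right ?_ h0.2))
        have hα0 : 0 ≤ Step.alpha ω := by
          unfold Step.alpha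
          positivity
        rw [abs_of_nonneg hα0]
        exact hα.trans (le_abs_self _)
    refine (add_le_add h1 h2).trans ?_
    rw [ENNReal.coe_add, add_mul]
    exact add_le_add (mul_le_mul' le_rfl le_self_add) (mul_le_mul' le_rfl le_add_self)
  · rw [w_single_of_ne _ _ _ _ _ fun B hB => h ⟨B, hB⟩, w_fnSize_zero, mul_zero]; simp

/-- PROVED from `W-SING-4`: `‖K‖ ≤ A C_s (|t| + |z| + ‖R‖)` -/
theorem w_Kof_norm (δ κ : ℝ) (h0 : ℝ≥0) (hδ : 0 < δ) (hκ : 0 < κ) (αmax : ℝ) : ∃ Cs : ℝ≥0, 1 ≤ Cs ∧ ∀ (A ω : ℝ), 1 ≤ A → 0 < ω →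
    ∀ (G : Geom) (g : Grid G), g.Ok → ∀ (V : Extra g) (x : ℂ × ℂ × Act g), (x.2.1 = 0 ∨ Step.alpha ω ≤ αmax) →
      actNorm ⟨δ, κ, h0, A, ω⟩ g V (Kof g (Step.alpha ω) x) ≤ ENNReal.ofReal A * (Cs * size3 ⟨δ, κ, h0, A, ω⟩ g V x) := by
  obtain ⟨Cs, h⟩ := w_single_norm δ κ h0 hδ hκ αmax
  refine ⟨max Cs 1, le_max_right _ _, fun A ω hA hω G g hg V x hα => ?_⟩
  have h1 := h A ω hA hω G g hg V x.1 x.2.1 hα
  have hA1 : (1 : ℝ≥0∞) ≤ ENNReal.ofReal A := by rw [← ENNReal.ofReal_one]; exact ENNReal.ofReal_le_ofReal hA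
  have hC1 : (1 : ℝ≥0∞) ≤ ((max Cs 1 : ℝ≥0) : ℝ≥0∞) := by exact_mod_cast le_max_right Cs 1
  have hCs : (Cs : ℝ≥0∞) ≤ ((max Cs 1 : ℝ≥0) : ℝ≥0∞) := by exact_mod_cast le_max_left Cs 1
  unfold Kof size3
  refine (w_actNorm_add_le _ g V _ _).trans ?_
  rw [mul_add, mul_add]
  refine add_le_add (h1.trans (mul_le_mul' le_rfl (mul_le_mul' hCs le_rfl))) ?_
  calc actNorm ⟨δ, κ, h0, A, ω⟩ g V x.2.2 = 1 * (1 * actNorm ⟨δ, κ, h0, A, ω⟩ g V x.2.2) := by rw [one_mul, one_mul]
    _ ≤ _ := mul_le_mul' hA1 (mul_le_mul' hC1 le_rfl)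

/-! ## LEAF `W-SING-5`: Gaussian expectations of the singletons (contracts `conv_eBC`, `conv_cBC` of Read/B8 s.2) -/

theorem w5_dif_toC (ψ : G.V → ℝ) (e x : ℤ × ℤ) : dif e (G.lift (toC ψ)) x = ((dif e (G.lift ψ) x : ℝ) : ℂ) := by
  simp only [dif, Geom.lift, toC, Complex.ofReal_sub]

theorem w5_dif_add (z w : G.V → ℂ) (e x : ℤ × ℤ) : dif e (G.lift (z + w)) x = dif e (G.lift z) x + dif e (G.lift w) x := by
  simp only [dif, Geom.lift, Pi.add_apply]
  ring

theorem w5_dif_continuous (e x : ℤ × ℤ) : Continuous fun ψ : G.V → ℝ => dif e (G.lift ψ) x := by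
  unfold dif Geom.lift
  fun_prop

theorem w5_coord_memLp (Γ : Matrix G.V G.V ℝ) (a : G.V) : MemLp (fun ζ : G.V → ℝ => ζ a) 2 (gauss G Γ) :=
  ProbabilityTheory.IsGaussian.memLp_dual (gauss G Γ) (ContinuousLinearMap.proj a) 2 (by simp)

theorem w5_dif_memLp (Γ : Matrix G.V G.V ℝ) (e x : ℤ × ℤ) : MemLp (fun ζ : G.V → ℝ => dif e (G.lift ζ) x) 2 (gauss G Γ) :=
  (w5_coord_memLp Γ _).sub (w5_coord_memLp Γ _)

/-- differences are centred -/
theorem w5_dif_mean (Γ : Matrix G.V G.V ℝ) (hΓ : Γ.PosSemidef) (e x : ℤ × ℤ) :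
    ∫ ζ : G.V → ℝ, dif e (G.lift ζ) x ∂(gauss G Γ) = 0 := by
  have hm : AEStronglyMeasurable (fun ζ : G.V → ℝ => dif e (G.lift ζ) x) (Measure.map (fun ζ => -ζ) (gauss G Γ)) :=
    (w5_dif_continuous e x).aestronglyMeasurable
  have h := integral_map (μ := gauss G Γ) (φ := fun ζ : G.V → ℝ => -ζ) measurable_neg.aemeasurable hm
  have hneg : (gauss G Γ).map (fun ζ => -ζ) = gauss G Γ := Reg.reg_gauss_neg hΓ
  rw [hneg] at h
  have e1 : ∀ ζ : G.V → ℝ, dif e (G.lift (-ζ)) x = -dif e (G.lift ζ) x := fun ζ => by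
    simp only [dif, Geom.lift, Pi.neg_apply]
    ring
  simp only [e1, integral_neg] at h
  linarith

theorem w5_eB_integrable (Γ : Matrix G.V G.V ℝ) (g : Grid G) (B : g.I) : Integrable (fun ζ : G.V → ℝ => eB g B ζ) (gauss G Γ) := by
  unfold eB gE
  exact (integrable_finsetSum _ fun v _ => integrable_finsetSum _ fun e _ => (w5_dif_memLp Γ _ _).integrable_sq).const_mul _

theorem w5_eBC_zero (g : Grid G) (B : g.I) : eBC g B 0 = 0 := by
  simp [eBC, dif, Geom.lift]

/-- the exact expansion of the quadratic singleton around `z` -/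
theorem w5_eBC_expand (g : Grid G) (B : g.I) (z : G.V → ℂ) (ζ : G.V → ℝ) :
    eBC g B (z + toC ζ) = eBC g B z
      + ∑ v ∈ g.sites {B}, ∑ e : Fin 4, dif (dir e) (G.lift z) (G.ι v) * ((dif (dir e) (G.lift ζ) (G.ι v) : ℝ) : ℂ)
      + ((eB g B ζ : ℝ) : ℂ) := by
  unfold eBC eB gE
  push_cast
  simp only [Finset.mul_sum]
  rw [← Finset.sum_add_distrib, ← Finset.sum_add_distrib]
  refine Finset.sum_congr rfl fun v _ => ?_
  rw [← Finset.sum_add_distrib, ← Finset.sum_add_distrib]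
  refine Finset.sum_congr rfl fun e _ => ?_
  rw [w5_dif_add, w5_dif_toC]
  ring

theorem w5_cross_integrable (Γ : Matrix G.V G.V ℝ) (g : Grid G) (B : g.I) (z : G.V → ℂ) :
    Integrable (fun ζ : G.V → ℝ => ∑ v ∈ g.sites {B}, ∑ e : Fin 4,
      dif (dir e) (G.lift z) (G.ι v) * ((dif (dir e) (G.lift ζ) (G.ι v) : ℝ) : ℂ)) (gauss G Γ) :=
  integrable_finsetSum _ fun v _ => integrable_finsetSum _ fun e _ =>
    (((w5_dif_memLp Γ _ _).integrable (by norm_num)).ofReal).const_mul _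

theorem w5_eBC_integrable (Γ : Matrix G.V G.V ℝ) (g : Grid G) (B : g.I) (z : G.V → ℂ) :
    Integrable (fun ζ : G.V → ℝ => eBC g B (z + toC ζ)) (gauss G Γ) := by
  simp only [w5_eBC_expand]
  exact ((integrable_const _).add (w5_cross_integrable Γ g B z)).add (w5_eB_integrable Γ g B).ofReal

theorem w5_conv_eBC_eq (g : Grid G) (Γ : Matrix G.V G.V ℝ) (hΓ : Γ.PosSemidef) (B : g.I) (z : G.V → ℂ) :
    conv Γ (eBC g B) z = eBC g B z + ((∫ ζ, eB g B ζ ∂(gauss G Γ) : ℝ) : ℂ) := by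
  unfold conv
  simp only [w5_eBC_expand]
  have hi : ∀ (v : G.V) (e : Fin 4), Integrable (fun ζ : G.V → ℝ =>
      dif (dir e) (G.lift z) (G.ι v) * ((dif (dir e) (G.lift ζ) (G.ι v) : ℝ) : ℂ)) (gauss G Γ) := fun v e =>
    (((w5_dif_memLp Γ _ _).integrable (by norm_num)).ofReal).const_mul _
  have h12 : Integrable (fun ζ : G.V → ℝ => eBC g B z + ∑ v ∈ g.sites {B}, ∑ e : Fin 4,
      dif (dir e) (G.lift z) (G.ι v) * ((dif (dir e) (G.lift ζ) (G.ι v) : ℝ) : ℂ)) (gauss G Γ) :=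
    (integrable_const _).add (w5_cross_integrable Γ g B z)
  have h3 : Integrable (fun ζ : G.V → ℝ => ((eB g B ζ : ℝ) : ℂ)) (gauss G Γ) := (w5_eB_integrable Γ g B).ofReal
  rw [integral_add h12 h3,
    integral_add (integrable_const _) (w5_cross_integrable Γ g B z), integral_const, probReal_univ, one_smul,
    integral_finsetSum _ fun v _ => integrable_finsetSum _ fun e _ => hi v e, integral_complex_ofReal]
  simp only [integral_finsetSum _ fun e _ => hi _ e, integral_const_mul, integral_complex_ofReal, w5_dif_mean Γ hΓ,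
    Complex.ofReal_zero, mul_zero, Finset.sum_const_zero, add_zero]

/-- plan: `eBC (z + ζ) = eBC z + (bilinear term, linear in ζ) + eBC ζ`; linear functionals of a centred Gaussian have integral `0` (`Reg.regg_lin_law` or `IsGaussian`); all terms are integrable (polynomials of degree
`≤ 2`: `Reg.reg_gauss_lin` gives exponential moments). -/
theorem w_conv_eBC (g : Grid G) (Γ : Matrix G.V G.V ℝ) (hΓ : Γ.PosSemidef) (B : g.I) (z : G.V → ℂ) :
    conv Γ (eBC g B) z = eBC g B z + conv Γ (eBC g B) 0 := by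
  rw [w5_conv_eBC_eq g Γ hΓ B z, w5_conv_eBC_eq g Γ hΓ B 0, w5_eBC_zero, zero_add]

theorem w5_exp_gaussianReal (v : ℝ≥0) (t : ℝ) :
    ∫ y : ℝ, Complex.exp (t * y * Complex.I) ∂(ProbabilityTheory.gaussianReal 0 v) = Complex.exp (-(v * t ^ 2 / 2)) := by
  rw [← charFun_apply_real, ProbabilityTheory.charFun_gaussianReal]
  simp

theorem w5_exp_integrable (v : ℝ≥0) (t : ℝ) :
    Integrable (fun y : ℝ => Complex.exp (t * y * Complex.I)) (ProbabilityTheory.gaussianReal 0 v) := by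
  refine (integrable_const (1 : ℝ)).mono' (by fun_prop) (Filter.Eventually.of_forall fun y => ?_)
  have : (t * y * Complex.I : ℂ) = ((t * y : ℝ) : ℂ) * Complex.I := by push_cast; ring
  rw [this, Complex.norm_exp_ofReal_mul_I]

/-- the characteristic function of a centred real Gaussian, in the form of a cosine with a complex phase -/
theorem w5_cos_gaussianReal (v : ℝ≥0) (a : ℂ) (α : ℝ) :
    ∫ y : ℝ, Complex.cos (a + α * y) ∂(ProbabilityTheory.gaussianReal 0 v) = (Real.exp (-α ^ 2 * v / 2) : ℝ) * Complex.cos a := by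
  have e : ∀ y : ℝ, Complex.cos (a + α * y)
      = (Complex.exp (a * Complex.I) / 2) * Complex.exp (α * y * Complex.I)
        + (Complex.exp (-a * Complex.I) / 2) * Complex.exp ((-α : ℝ) * y * Complex.I) := fun y => by
    rw [Complex.cos, div_mul_eq_mul_div, div_mul_eq_mul_div, ← Complex.exp_add, ← Complex.exp_add, ← add_div]
    congr 3 <;> (push_cast; ring)
  simp only [e]
  rw [integral_add ((w5_exp_integrable v α).const_mul _) ((w5_exp_integrable v (-α)).const_mul _),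
    integral_const_mul, integral_const_mul, w5_exp_gaussianReal, w5_exp_gaussianReal, Complex.cos]
  push_cast
  have : (-((v : ℂ) * (-(α : ℂ)) ^ 2 / 2)) = -((v : ℂ) * (α : ℂ) ^ 2 / 2) := by ring
  rw [this]
  have h2 : (-(α : ℂ) ^ 2 * (v : ℂ) / 2) = -((v : ℂ) * (α : ℂ) ^ 2 / 2) := by ring
  rw [h2]
  ring

/-- the law of one coordinate -/
theorem w5_coord_law (Γ : Matrix G.V G.V ℝ) (hΓ : Γ.PosSemidef) (x : G.V) :
    (gauss G Γ).map (fun ζ : G.V → ℝ => ζ x) = ProbabilityTheory.gaussianReal 0 (Γ x x).toNNReal := by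
  have h := Reg.regg_lin_law hΓ (Pi.single x 1)
  have e1 : (fun ζ : G.V → ℝ => (Pi.single x 1 : G.V → ℝ) ⬝ᵥ ζ) = fun ζ => ζ x := by
    funext ζ
    rw [single_one_dotProduct]
  have e2 : Reg.regQf Γ (Pi.single x 1) = Γ x x := by
    unfold Reg.regQf
    rw [single_one_dotProduct, Matrix.mulVec_single_one]
    rfl
  rw [e1, e2] at h
  exact h

theorem w5_cos_coord (Γ : Matrix G.V G.V ℝ) (hΓ : Γ.PosSemidef) (α : ℝ) (x : G.V) (z : G.V → ℂ) :
    ∫ ζ : G.V → ℝ, Complex.cos (α * (z + toC ζ) x) ∂(gauss G Γ) = (Real.exp (-α ^ 2 * Γ x x / 2) : ℝ) * Complex.cos (α * z x) := by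
  have hm : AEStronglyMeasurable (fun y : ℝ => Complex.cos (α * z x + α * y)) (Measure.map (fun ζ : G.V → ℝ => ζ x) (gauss G Γ)) := by
    have : Continuous fun y : ℝ => Complex.cos (α * z x + α * y) := by fun_prop
    exact this.aestronglyMeasurable
  have h := integral_map (μ := gauss G Γ) (φ := fun ζ : G.V → ℝ => ζ x) (measurable_pi_apply x).aemeasurable hm
  rw [w5_coord_law Γ hΓ x, w5_cos_gaussianReal, Real.coe_toNNReal _ (hΓ.diag_nonneg)] at h
  rw [h]
  refine integral_congr_ae (Filter.Eventually.of_forall fun ζ => ?_)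
  simp only [Pi.add_apply, toC, mul_add]

theorem w5_cos_integrable (Γ : Matrix G.V G.V ℝ) (α : ℝ) (x : G.V) (z : G.V → ℂ) :
    Integrable (fun ζ : G.V → ℝ => Complex.cos (α * (z + toC ζ) x)) (gauss G Γ) := by
  have hc : Continuous fun ζ : G.V → ℝ => Complex.cos (α * (z + toC ζ) x) := by
    unfold toC
    fun_prop
  refine (integrable_const (Real.exp |α * (z x).im|)).mono' hc.aestronglyMeasurable (Filter.Eventually.of_forall fun ζ => ?_)
  refine (Hol.norm_cos_le _).trans (le_of_eq ?_)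
  congr 2
  simp [toC]

/-- plan: `cos w = (e^{iw} + e^{-iw})/2`, `E e^{± i α ζ_x} = e^{-α² Γ_{xx}/2}` (characteristic function: `charFun_multivariateGaussian` / `Reg.regg_lin_law` + `charFun_gaussianReal`). -/
theorem w_conv_cBC (g : Grid G) (Γ : Matrix G.V G.V ℝ) (hΓ : Γ.PosSemidef) (γ0 : ℝ) (hd : ∀ v, Γ v v = γ0) (α : ℝ) (B : g.I) (z : G.V → ℂ) :
    conv Γ (cBC g α B) z = (Real.exp (-α ^ 2 * γ0 / 2) : ℝ) * cBC g α B z := by
  unfold conv cBC
  rw [integral_const_mul, integral_finsetSum _ fun x _ => w5_cos_integrable Γ α x z]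
  simp only [w5_cos_coord Γ hΓ, hd]
  rw [← Finset.mul_sum]
  ring

theorem w5_cBC_integrable (Γ : Matrix G.V G.V ℝ) (g : Grid G) (α : ℝ) (B : g.I) (z : G.V → ℂ) :
    Integrable (fun ζ : G.V → ℝ => cBC g α B (z + toC ζ)) (gauss G Γ) := by
  have hc : Continuous fun ζ : G.V → ℝ => cBC g α B (z + toC ζ) := by
    unfold cBC toC
    fun_prop
  refine (integrable_const (‖((((g.m : ℝ) ^ 2)⁻¹ : ℝ) : ℂ)‖ * ∑ x ∈ g.sites {B}, Real.exp |α * (z x).im|)).mono'
    hc.aestronglyMeasurable (Filter.Eventually.of_forall fun ζ => ?_)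
  unfold cBC
  rw [norm_mul]
  refine mul_le_mul_of_nonneg_left ((norm_sum_le _ _).trans (Finset.sum_le_sum fun x _ => ?_)) (norm_nonneg _)
  refine (Hol.norm_cos_le _).trans (le_of_eq ?_)
  congr 2
  simp [toC]

/-- plan: integrability of both terms (as in the two leaves above), `integral_add`, `integral_const_mul`. -/
theorem w_conv_single (g : Grid G) (Γ : Matrix G.V G.V ℝ) (hΓ : Γ.PosSemidef) (α : ℝ) (B : g.I) (a b : ℂ) :
    conv Γ (a • eBC g B + b • cBC g α B) = a • conv Γ (eBC g B) + b • conv Γ (cBC g α B) := by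
  funext z
  show ∫ ζ, (a • eBC g B (z + toC ζ) + b • cBC g α B (z + toC ζ)) ∂(gauss G Γ)
    = a • ∫ ζ, eBC g B (z + toC ζ) ∂(gauss G Γ) + b • ∫ ζ, cBC g α B (z + toC ζ) ∂(gauss G Γ)
  have h1 : Integrable (fun ζ : G.V → ℝ => a • eBC g B (z + toC ζ)) (gauss G Γ) := (w5_eBC_integrable Γ g B z).smul a
  have h2 : Integrable (fun ζ : G.V → ℝ => b • cBC g α B (z + toC ζ)) (gauss G Γ) := (w5_cBC_integrable Γ g α B z).smul b
  rw [integral_add h1 h2, integral_smul, integral_smul]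

/-- second moments of the differences -/
theorem w5_dif_sq (Γ : Matrix G.V G.V ℝ) (hΓ : Γ.PosSemidef) (v : G.V) (e : Fin 4) :
    ∫ ζ : G.V → ℝ, dif (dir e) (G.lift ζ) (G.ι v) ^ 2 ∂(gauss G Γ) = kdif G ![e] ![e] Γ (G.ι v) (G.ι v) := by
  have hlaw := Reg.regg_lin_law hΓ (Reg.regRow G ![e] v)
  have hrow : ∀ ζ : G.V → ℝ, Reg.regRow G ![e] v ⬝ᵥ ζ = dif (dir e) (G.lift ζ) (G.ι v) := fun ζ => by
    rw [Reg.reg_row_dot, Reg.reg_difs_one]
  simp only [hrow] at hlaw
  have hq : Reg.regQf Γ (Reg.regRow G ![e] v) = kdif G ![e] ![e] Γ (G.ι v) (G.ι v) := Reg.reg_row_cov G ![e] ![e] Γ v v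
  have hq0 : 0 ≤ Reg.regQf Γ (Reg.regRow G ![e] v) := Reg.reg_qf_nonneg hΓ _
  have hm : AEStronglyMeasurable (fun x : ℝ => x ^ 2)
      (Measure.map (fun ζ : G.V → ℝ => dif (dir e) (G.lift ζ) (G.ι v)) (Reg.regGauss Γ)) := by
    exact (continuous_pow 2).aestronglyMeasurable
  have h := integral_map (μ := Reg.regGauss Γ) (w5_dif_continuous (G := G) (dir e) (G.ι v)).measurable.aemeasurable hm
  rw [hlaw] at h
  have hvar : ∫ x : ℝ, x ^ 2 ∂(ProbabilityTheory.gaussianReal 0 (Reg.regQf Γ (Reg.regRow G ![e] v)).toNNReal)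
      = Reg.regQf Γ (Reg.regRow G ![e] v) := by
    have h1 := ProbabilityTheory.variance_of_integral_eq_zero (X := fun x : ℝ => x)
      (μ := ProbabilityTheory.gaussianReal 0 (Reg.regQf Γ (Reg.regRow G ![e] v)).toNNReal) measurable_id.aemeasurable
      ProbabilityTheory.integral_id_gaussianReal
    rw [← h1, ProbabilityTheory.variance_fun_id_gaussianReal, Real.coe_toNNReal _ hq0]
  rw [hvar, hq] at h
  exact h.symm

/-- `|E e_B^0 (ζ)| ≤ 2 C_k`.  plan: `E (∇_e ζ_v)² = kdif ![e] ![e] Γ (ι v) (ι v)` (`Reg.reg_row_cov`), `ShellBounds.mixed` with `r = r' = 1`, `dist v v = 0`; a full block has `m²` sites (`Grid.Ok.full`). -/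
theorem w_conv_eBC_zero (Ck ck : ℝ) (L : ℕ) (g : Grid G) (hg : g.Ok) (hG : G.bc = BC.per) (Γ : Matrix G.V G.V ℝ) (hΓ : Γ.PosSemidef)
    (hb : ShellBounds G Ck ck L g.m Γ) (B : g.I) : ‖conv Γ (eBC g B) 0‖ ≤ 2 * Ck := by
  rw [w5_conv_eBC_eq g Γ hΓ B 0, w5_eBC_zero, zero_add, Complex.norm_real, Real.norm_eq_abs]
  have hm : (0 : ℝ) < g.m := by exact_mod_cast hg.pos
  have hsq : ∀ (v : G.V) (e : Fin 4), ∫ ζ : G.V → ℝ, dif (dir e) (G.lift ζ) (G.ι v) ^ 2 ∂(gauss G Γ)
      = kdif G ![e] ![e] Γ (G.ι v) (G.ι v) := fun v e => w5_dif_sq Γ hΓ v e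
  have hCk : 0 ≤ Ck := by
    obtain ⟨v⟩ : Nonempty G.V := ⟨org G⟩
    have h := (abs_nonneg _).trans (hb.mixed 1 1 (by norm_num) (by norm_num) ![0] ![0] v v)
    have hp : 0 < ((((g.m : ℝ) + G.dist v v) ^ (1 + 1))⁻¹) := by positivity
    exact nonneg_of_mul_nonneg_left h hp
  have hbd : ∀ (v : G.V) (e : Fin 4), |kdif G ![e] ![e] Γ (G.ι v) (G.ι v)| ≤ Ck * ((g.m : ℝ) ^ 2)⁻¹ := by
    intro v e
    refine (hb.mixed 1 1 (by norm_num) (by norm_num) ![e] ![e] v v).trans (mul_le_mul_of_nonneg_left ?_ hCk)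
    have hd : (0 : ℝ) ≤ G.dist v v := Nat.cast_nonneg _
    exact inv_anti₀ (by positivity) (pow_le_pow_left₀ hm.le (by linarith) 2)
  have hcard : ((g.sites {B}).card : ℝ) = (g.m : ℝ) ^ 2 := by
    have h1 : g.sites {B} = (Finset.univ.filter fun i => g.blk1 i = B.1) ×ˢ (Finset.univ.filter fun i => g.blk1 i = B.2) := by
      ext v
      simp only [Grid.sites, Grid.blk, Finset.mem_filter, Finset.mem_univ, true_and, Finset.mem_singleton, Finset.mem_product]
      exact Prod.ext_iff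
    rw [h1, Finset.card_product, hg.full B.1 (Or.inl hG), hg.full B.2 (Or.inl hG)]
    push_cast
    ring
  unfold eB gE
  rw [integral_const_mul, integral_finsetSum _ fun v _ => integrable_finsetSum _ fun e _ => (w5_dif_memLp Γ _ _).integrable_sq]
  simp only [integral_finsetSum _ fun e _ => (w5_dif_memLp Γ _ _).integrable_sq, hsq]
  rw [abs_mul, abs_of_pos (by norm_num : (0 : ℝ) < 1 / 2)]
  have h2 : |∑ v ∈ g.sites {B}, ∑ e : Fin 4, kdif G ![e] ![e] Γ (G.ι v) (G.ι v)| ≤ (g.sites {B}).card • (4 * (Ck * ((g.m : ℝ) ^ 2)⁻¹)) := by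
    refine (Finset.abs_sum_le_sum_abs _ _).trans (Finset.sum_le_card_nsmul _ _ _ fun v _ => ?_)
    refine (Finset.abs_sum_le_sum_abs _ _).trans ((Finset.sum_le_card_nsmul _ _ _ fun e _ => hbd v e).trans (le_of_eq ?_))
    simp
  rw [nsmul_eq_mul, hcard] at h2
  have h3 : (g.m : ℝ) ^ 2 * (4 * (Ck * ((g.m : ℝ) ^ 2)⁻¹)) = 4 * Ck := by field_simp
  rw [h3] at h2
  linarith

end

end Claimed.Agent.R285.B8
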