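import Claimed.Agent.R285.Map.WFin

/-!
# ROW 285, unit MAP, weak step: THE NONLINEAR FIELDS OF `WeakOK`: `cst`, `quad`, `lip` (generic in `cosOn`)                    (owner helper90)

From `B4.nonlinear_map` (with `Cd = 1`: the constants `A C_s` of `w_Kof_norm` and `C_d (L)` of `w_desig_size` are absorbed in `ε = M · size3 x`, `M = A C_s + C_d`), `w_lin` and the linearity of the designated data.
NO LEAF IN THIS FILE.  The extracted constants `a_b` do not contain `z` nor the cosine pieces, so `cst` holds for EVERY `z` (also where `α` is unbounded).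
-/

set_option autoImplicit false

namespace Claimed.Agent.R285.B8

open scoped BigOperators ENNReal NNReal
open MeasureTheory
open Claimed.Agent.R285.RG Claimed.Agent.R285.Hol

noncomputable section

variable {G : Geom} {D0 ℓ : ℕ} {c : Geo} {p : Par} {gs : Grid G} {S : Step G D0 ℓ}

theorem w_a_le_size (p : Par) {g' : Grid G} (V : Extra g') (d : Desig g' (Fn G)) (b : g'.I) : (‖d.a b‖₊ : ℝ≥0∞) ≤ d.size p V :=
  le_trans le_add_self (le_iSup (fun b => (∑ Y : Finset g'.I, fnSize p g' V {b} (d.F Y b)) + (‖d.a b‖₊ : ℝ≥0∞)) b)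

/-- **the extracted constants**, every `z`, every `cosOn`, no bound on `α` -/
theorem w_cst (c : Geo) (hc : c.Ok) (δ κ : ℝ) (h0 : ℝ≥0) (hδ : 0 < δ) (hκ : 0 < κ) (hh : 0 < h0) : ∃ (ℓ0 D1 : ℕ), ∀ ℓ ≥ ℓ0, ∃ Ca : ℝ≥0, 1 ≤ Ca ∧ ∀ D0 ≥ D1,
    ∀ (A ω : ℝ) (G : Geom) (gs : Grid G) (S : Step G D0 ℓ) (cosOn : Bool), Ctx c ⟨δ, κ, h0, A, ω⟩ gs S →
      ∀ x : ℂ × ℂ × Act S.P.g, Adm ⟨δ, κ, h0, A, ω⟩ c gs x.2.2 → ∀ b,
        (‖(S.desig c ω cosOn x).a b‖₊ : ℝ≥0∞) ≤ Ca * size3 ⟨δ, κ, h0, A, ω⟩ S.P.g S.Vf x := by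
  obtain ⟨ℓ0, D1, H⟩ := w_desig_size c hc δ κ h0 hδ hκ hh 0
  refine ⟨ℓ0, D1, fun ℓ hℓ => ?_⟩
  obtain ⟨Cd, hCd, H⟩ := H ℓ hℓ
  refine ⟨Cd, hCd, fun D0 hD A ω G gs S cosOn h x hx b => ?_⟩
  have h1 := H D0 hD A ω G gs S false (fun e => absurd e (by simp)) h (x.1, 0, x.2.2) hx (Or.inl rfl)
  have h2 : (‖(S.desig c ω cosOn x).a b‖₊ : ℝ≥0∞) ≤ (S.desig c ω false (x.1, 0, x.2.2)).size ⟨δ, κ, h0, A, ω⟩ S.Vc :=
    w_a_le_size ⟨δ, κ, h0, A, ω⟩ S.Vc (S.desig c ω false (x.1, 0, x.2.2)) b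
  refine h2.trans (h1.trans (mul_le_mul' le_rfl ?_))
  unfold size3
  simp only [nnnorm_zero, ENNReal.coe_zero, add_zero]
  exact add_le_add le_self_add le_rfl

/-- `Φ(x)_R - C_j R = K' - K'_{lin}` inside the strips -/
theorem w_Phi_sub_Clin (h : Ctx c p gs S) (cosOn : Bool) (x : ℂ × ℂ × Act S.P.g) (hx : Adm p c gs x.2.2) (hfin : actNorm p S.P.g S.Vf x.2.2 ≠ ⊤)
    (hz : cosOn = false → x.2.1 = 0) :
    EqOn p.h0 ((S.Phi c p.ω cosOn x).2.2 - S.Clin c p.ω cosOn x.2.2)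
      (Kprime S.P c.r c.R (conv S.Γ) (Kof S.P.g (Step.alpha p.ω) x) (S.desig c p.ω cosOn x)
        - Klin S.P c.R (conv S.Γ) (Kof S.P.g (Step.alpha p.ω) x) (S.desig c p.ω cosOn x)) := fun Y z hzY => by
  have e := w_lin h cosOn x hx hfin hz Y z hzY
  show (Kprime S.P c.r c.R (conv S.Γ) (Kof S.P.g (Step.alpha p.ω) x) (S.desig c p.ω cosOn x) Y z
      - single S.P.g' (Step.alpha p.ω) (S.tz c p.ω cosOn x).1 (S.tz c p.ω cosOn x).2 Y z) - S.Clin c p.ω cosOn x.2.2 Y z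
    = Kprime S.P c.r c.R (conv S.Γ) (Kof S.P.g (Step.alpha p.ω) x) (S.desig c p.ω cosOn x) Y z
      - Klin S.P c.R (conv S.Γ) (Kof S.P.g (Step.alpha p.ω) x) (S.desig c p.ω cosOn x) Y z
  rw [e]
  show _ = _ - (single S.P.g' (Step.alpha p.ω) (S.tz c p.ω cosOn x).1 (S.tz c p.ω cosOn x).2 Y z + S.Clin c p.ω cosOn x.2.2 Y z)
  ring

/-- linearity of the designated data, difference form -/
theorem w_desig_sub (h : Ctx c p gs S) (cosOn : Bool) (x y : ℂ × ℂ × Act S.P.g) (hx : Adm p c gs x.2.2) (hy : Adm p c gs y.2.2)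
    (hfx : actNorm p S.P.g S.Vf x.2.2 ≠ ⊤) (hfy : actNorm p S.P.g S.Vf y.2.2 ≠ ⊤) :
    S.desig c p.ω cosOn (x - y) = ⟨(S.desig c p.ω cosOn x).F - (S.desig c p.ω cosOn y).F, (S.desig c p.ω cosOn x).a - (S.desig c p.ω cosOn y).a⟩ := by
  have hsy : Adm p c gs ((-1 : ℂ) • y).2.2 := w_cls_smul p c.col c.R gs (-1) hy
  have hfs : actNorm p S.P.g S.Vf ((-1 : ℂ) • y).2.2 ≠ ⊤ :=
    ne_top_of_le_ne_top (ENNReal.mul_ne_top ENNReal.coe_ne_top hfy) (w_actNorm_smul_le p S.P.g S.Vf (-1) y.2.2)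
  obtain ⟨a1, a2⟩ := w_desig_add h cosOn x ((-1 : ℂ) • y) hx hsy hfx hfs
  obtain ⟨b1, b2⟩ := w_desig_smul h cosOn (-1) y hy hfy
  have e : x - y = x + (-1 : ℂ) • y := by rw [neg_one_smul, sub_eq_add_neg]
  have e1 : (S.desig c p.ω cosOn (x - y)).F = (S.desig c p.ω cosOn x).F - (S.desig c p.ω cosOn y).F := by
    rw [e, a1, b1, neg_one_smul, sub_eq_add_neg]
  have e2 : (S.desig c p.ω cosOn (x - y)).a = (S.desig c p.ω cosOn x).a - (S.desig c p.ω cosOn y).a := by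
    rw [e, a2, b2, neg_one_smul, sub_eq_add_neg]
  rw [← e1, ← e2]

/-- **`WeakOK.quad`, `WeakOK.lip`, `WeakOK.cst`.**  Order of the constants: `ℓ0, D1`; `ℓ`; `A0`; `A`; `C, ε0`.  `αmax` only matters where a cosine is present. -/
theorem w_nl (c : Geo) (hc : c.Ok) (δ κ : ℝ) (h0 : ℝ≥0) (hδ : 0 < δ) (hκ : 0 < κ) (hh : 0 < h0) (αmax : ℝ) :
    ∃ (ℓ0 D1 : ℕ), ∀ ℓ ≥ ℓ0, ∃ A0 : ℝ, 1 ≤ A0 ∧ ∀ A ≥ A0, ∃ (C ε0 : ℝ≥0), 0 < ε0 ∧ ∀ D0 ≥ D1,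
      ∀ (ω : ℝ) (G : Geom) (gs : Grid G) (S : Step G D0 ℓ) (cosOn : Bool), (cosOn = true → Step.alpha ω ≤ αmax) → Ctx c ⟨δ, κ, h0, A, ω⟩ gs S →
      (∀ x : ℂ × ℂ × Act S.P.g, Adm ⟨δ, κ, h0, A, ω⟩ c gs x.2.2 → (cosOn = false → x.2.1 = 0) → size3 ⟨δ, κ, h0, A, ω⟩ S.P.g S.Vf x ≤ ε0 →
        actNorm ⟨δ, κ, h0, A, ω⟩ S.P.g' S.Vc ((S.Phi c ω cosOn x).2.2 - S.Clin c ω cosOn x.2.2) ≤ C * size3 ⟨δ, κ, h0, A, ω⟩ S.P.g S.Vf x ^ 2) ∧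
      (∀ x y : ℂ × ℂ × Act S.P.g, Adm ⟨δ, κ, h0, A, ω⟩ c gs x.2.2 → Adm ⟨δ, κ, h0, A, ω⟩ c gs y.2.2 → (cosOn = false → x.2.1 = 0 ∧ y.2.1 = 0) →
        size3 ⟨δ, κ, h0, A, ω⟩ S.P.g S.Vf x ≤ ε0 → size3 ⟨δ, κ, h0, A, ω⟩ S.P.g S.Vf y ≤ ε0 →
        actNorm ⟨δ, κ, h0, A, ω⟩ S.P.g' S.Vc (((S.Phi c ω cosOn x).2.2 - S.Clin c ω cosOn x.2.2) - ((S.Phi c ω cosOn y).2.2 - S.Clin c ω cosOn y.2.2))
          ≤ C * (size3 ⟨δ, κ, h0, A, ω⟩ S.P.g S.Vf x + size3 ⟨δ, κ, h0, A, ω⟩ S.P.g S.Vf y) * size3 ⟨δ, κ, h0, A, ω⟩ S.P.g S.Vf (x - y)) ∧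
      (∀ x : ℂ × ℂ × Act S.P.g, Adm ⟨δ, κ, h0, A, ω⟩ c gs x.2.2 → size3 ⟨δ, κ, h0, A, ω⟩ S.P.g S.Vf x ≤ ε0 → ∀ b,
        (‖(S.desig c ω cosOn x).a b‖₊ : ℝ≥0∞) ≤ C * size3 ⟨δ, κ, h0, A, ω⟩ S.P.g S.Vf x ∧ ‖(S.desig c ω cosOn x).a b‖ ≤ 1 / 2) := by
  obtain ⟨Cs, hCs1, hCs⟩ := w_Kof_norm δ κ h0 hδ hκ αmax
  obtain ⟨ℓa, Da, hdes⟩ := w_desig_size c hc δ κ h0 hδ hκ hh αmax
  obtain ⟨ℓb, Db, hnl⟩ := B4.nonlinear_map c.r c.R c.n0 c.sepV hc.hs hc.hrR c.cst 1 δ κ h0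
  obtain ⟨ℓc, Dc, hcst⟩ := w_cst c hc δ κ h0 hδ hκ hh
  refine ⟨max ℓa (max ℓb ℓc), max Da (max Db Dc), fun ℓ hℓ => ?_⟩
  obtain ⟨Cd, hCd1, hdes⟩ := hdes ℓ (le_trans (le_max_left _ _) hℓ)
  obtain ⟨A0, hnl⟩ := hnl ℓ (le_trans (le_trans (le_max_left _ _) (le_max_right _ _)) hℓ)
  obtain ⟨Ca, hCa1, hcst⟩ := hcst ℓ (le_trans (le_trans (le_max_right _ _) (le_max_right _ _)) hℓ)
  refine ⟨max A0 1, le_max_right _ _, fun A hA => ?_⟩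
  obtain ⟨C', ε', hε', hnl⟩ := hnl A (le_trans (le_max_left _ _) hA)
  have hA1 : 1 ≤ A := le_trans (le_max_right _ _) hA
  set M : ℝ≥0 := A.toNNReal * Cs + Cd with hM
  have hM1 : 1 ≤ M := le_trans hCd1 le_add_self
  have hM0 : 0 < M := lt_of_lt_of_le one_pos hM1
  have hCa0 : 0 < Ca := lt_of_lt_of_le one_pos hCa1
  refine ⟨max (C' * M ^ 2) Ca, min (ε' / (2 * M)) (1 / (2 * Ca)), lt_min (by positivity) (by positivity), ?_⟩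
  intro D0 hD ω G gs S cosOn hα h
  set p : Par := ⟨δ, κ, h0, A, ω⟩ with hp
  set ε0 : ℝ≥0 := min (ε' / (2 * M)) (1 / (2 * Ca)) with hε0
  have F1 : M * (2 * ε0) ≤ ε' := by
    have : ε0 ≤ ε' / (2 * M) := min_le_left _ _
    rw [le_div_iff₀ (by positivity)] at this
    calc M * (2 * ε0) = ε0 * (2 * M) := by ring
      _ ≤ ε' := this
  have F2 : Ca * ε0 ≤ 1 / 2 := by
    have : ε0 ≤ 1 / (2 * Ca) := min_le_right _ _
    rw [le_div_iff₀ (by positivity)] at this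
    have h2 : (2 : ℝ≥0) * (Ca * ε0) ≤ 1 := by
      calc (2 : ℝ≥0) * (Ca * ε0) = ε0 * (2 * Ca) := by ring
        _ ≤ 1 := this
    rw [le_div_iff₀ (by positivity)]
    calc Ca * ε0 * 2 = 2 * (Ca * ε0) := by ring
      _ ≤ 1 := h2
  have hDa : Da ≤ D0 := le_trans (le_max_left _ _) hD
  have hDb : Db ≤ D0 := le_trans (le_trans (le_max_left _ _) (le_max_right _ _)) hD
  have hDc : Dc ≤ D0 := le_trans (le_trans (le_max_right _ _) (le_max_right _ _)) hD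
  -- the constants
  have cst1 : ∀ x : ℂ × ℂ × Act S.P.g, Adm p c gs x.2.2 → ∀ b, (‖(S.desig c ω cosOn x).a b‖₊ : ℝ≥0∞) ≤ Ca * size3 p S.P.g S.Vf x :=
    fun x hx b => hcst D0 hDc A ω G gs S cosOn h x hx b
  have cst2 : ∀ x : ℂ × ℂ × Act S.P.g, Adm p c gs x.2.2 → size3 p S.P.g S.Vf x ≤ ε0 → ∀ b, ‖(S.desig c ω cosOn x).a b‖ ≤ 1 / 2 := by
    intro x hx hs b
    have h1 : (‖(S.desig c ω cosOn x).a b‖₊ : ℝ≥0∞) ≤ ((1 / 2 : ℝ≥0) : ℝ≥0∞) :=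
      calc (‖(S.desig c ω cosOn x).a b‖₊ : ℝ≥0∞) ≤ Ca * size3 p S.P.g S.Vf x := cst1 x hx b
        _ ≤ Ca * ε0 := mul_le_mul' le_rfl hs
        _ = ((Ca * ε0 : ℝ≥0) : ℝ≥0∞) := by push_cast; rfl
        _ ≤ _ := by exact_mod_cast F2
    have h2 : ‖(S.desig c ω cosOn x).a b‖₊ ≤ 1 / 2 := by exact_mod_cast h1
    have h3 : ((‖(S.desig c ω cosOn x).a b‖₊ : ℝ≥0) : ℝ) ≤ ((1 / 2 : ℝ≥0) : ℝ) := NNReal.coe_le_coe.2 h2
    simpa using h3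
  -- sizes of the inputs
  have hzα : ∀ x : ℂ × ℂ × Act S.P.g, (cosOn = false → x.2.1 = 0) → (x.2.1 = 0 ∨ Step.alpha ω ≤ αmax) := by
    intro x hx
    cases cosOn
    · exact Or.inl (hx rfl)
    · exact Or.inr (hα rfl)
  have hofA : ENNReal.ofReal A = (A.toNNReal : ℝ≥0∞) := rfl
  have nK : ∀ x : ℂ × ℂ × Act S.P.g, (cosOn = false → x.2.1 = 0) →
      actNorm p S.P.g S.Vf (Kof S.P.g (Step.alpha ω) x) ≤ (A.toNNReal * Cs : ℝ≥0) * size3 p S.P.g S.Vf x := by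
    intro x hx
    have := hCs A ω hA1 h.hω G S.P.g S.P.ok S.Vf x (hzα x hx)
    rw [hofA, ← mul_assoc] at this
    rw [ENNReal.coe_mul]
    exact this
  have nd : ∀ x : ℂ × ℂ × Act S.P.g, Adm p c gs x.2.2 → (cosOn = false → x.2.1 = 0) →
      (S.desig c ω cosOn x).size p S.Vc ≤ Cd * size3 p S.P.g S.Vf x :=
    fun x hx hz => hdes D0 hDa A ω G gs S cosOn hα h x hx (hzα x hz)
  have nK' : ∀ x : ℂ × ℂ × Act S.P.g, (cosOn = false → x.2.1 = 0) →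
      actNorm p S.P.g S.Vf (Kof S.P.g (Step.alpha ω) x) ≤ M * size3 p S.P.g S.Vf x := fun x hx =>
    (nK x hx).trans (mul_le_mul' (by exact_mod_cast (le_self_add : A.toNNReal * Cs ≤ A.toNNReal * Cs + Cd)) le_rfl)
  have nd' : ∀ x : ℂ × ℂ × Act S.P.g, Adm p c gs x.2.2 → (cosOn = false → x.2.1 = 0) →
      (S.desig c ω cosOn x).size p S.Vc ≤ M * size3 p S.P.g S.Vf x := fun x hx hz =>
    (nd x hx hz).trans (mul_le_mul' (by exact_mod_cast (le_add_self : Cd ≤ A.toNNReal * Cs + Cd)) le_rfl)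
  -- the core estimate for a pair
  have core : ∀ x y : ℂ × ℂ × Act S.P.g, Adm p c gs x.2.2 → Adm p c gs y.2.2 → (cosOn = false → x.2.1 = 0) → (cosOn = false → y.2.1 = 0) →
      size3 p S.P.g S.Vf x ≤ ε0 → size3 p S.P.g S.Vf y ≤ ε0 → ∀ σ : ℝ≥0, size3 p S.P.g S.Vf x ≤ σ → size3 p S.P.g S.Vf y ≤ σ → σ ≤ 2 * ε0 →
      actNorm p S.P.g' S.Vc ((S.Phi c ω cosOn x).2.2 - S.Clin c ω cosOn x.2.2) ≤ C' * ((M * σ : ℝ≥0) : ℝ≥0∞) ^ 2 ∧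
      actNorm p S.P.g' S.Vc (((S.Phi c ω cosOn x).2.2 - S.Clin c ω cosOn x.2.2) - ((S.Phi c ω cosOn y).2.2 - S.Clin c ω cosOn y.2.2))
        ≤ C' * ((M * σ : ℝ≥0) : ℝ≥0∞) * (M * size3 p S.P.g S.Vf (x - y)) := by
    intro x y hx hy hzx hzy hsx hsy σ hσx hσy hσ
    have hfx : actNorm p S.P.g S.Vf x.2.2 ≠ ⊤ := w_fin_of_size3 (ne_top_of_le_ne_top ENNReal.coe_ne_top hsx)
    have hfy : actNorm p S.P.g S.Vf y.2.2 ≠ ⊤ := w_fin_of_size3 (ne_top_of_le_ne_top ENNReal.coe_ne_top hsy)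
    have hε : M * σ ≤ ε' := le_trans (mul_le_mul' le_rfl hσ) F1
    have mono : ∀ u : ℝ≥0∞, u ≤ σ → (M : ℝ≥0∞) * u ≤ ((M * σ : ℝ≥0) : ℝ≥0∞) := fun u hu => by
      rw [ENNReal.coe_mul]; exact mul_le_mul' le_rfl hu
    have mono1 : ∀ u : ℝ≥0∞, u ≤ σ → (M : ℝ≥0∞) * u ≤ ((1 : ℝ≥0) : ℝ≥0∞) * ((M * σ : ℝ≥0) : ℝ≥0∞) := fun u hu => by
      rw [ENNReal.coe_one, one_mul]; exact mono u hu
    obtain ⟨q1, q2⟩ := hnl D0 hDb ω c.col G S.P S.Γ S.Vf S.Vc h.ok.reg h.ok.adm h.ok.sepf h.ok.sep (M * σ) hε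
      (Kof S.P.g (Step.alpha ω) x) (Kof S.P.g (Step.alpha ω) y) (S.desig c ω cosOn x) (S.desig c ω cosOn y)
      (w_Kof_cls h x hx).ok (w_Kof_cls h y hy).ok (w_desig_ok h cosOn x (cst2 x hx hsx)) (w_desig_ok h cosOn y (cst2 y hy hsy))
      ((nK' x hzx).trans (mono _ hσx)) ((nK' y hzy).trans (mono _ hσy))
      ((nd' x hx hzx).trans (mono1 _ hσx)) ((nd' y hy hzy).trans (mono1 _ hσy))
    have ex := w_Phi_sub_Clin h cosOn x hx hfx hzx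
    have ey := w_Phi_sub_Clin h cosOn y hy hfy hzy
    refine ⟨?_, ?_⟩
    · rw [w_actNorm_congr p S.P.g' S.Vc ex]; exact q1
    · rw [w_actNorm_congr p S.P.g' S.Vc (ex.sub' ey)]
      refine q2.trans (mul_le_mul' le_rfl ?_)
      have hzxy : cosOn = false → (x - y).2.1 = 0 := fun e => by
        show x.2.1 - y.2.1 = 0
        rw [hzx e, hzy e, sub_zero]
      have hxy : Adm p c gs (x - y).2.2 := w_cls_sub p c.col c.R gs hx hy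
      rw [← w_Kof_sub, ← w_desig_sub h cosOn x y hx hy hfx hfy]
      calc actNorm p S.P.g S.Vf (Kof S.P.g (Step.alpha ω) (x - y)) + (S.desig c ω cosOn (x - y)).size p S.Vc
          ≤ (A.toNNReal * Cs : ℝ≥0) * size3 p S.P.g S.Vf (x - y) + Cd * size3 p S.P.g S.Vf (x - y) :=
            add_le_add (nK _ hzxy) (nd _ hxy hzxy)
        _ = M * size3 p S.P.g S.Vf (x - y) := by rw [hM, ENNReal.coe_add, add_mul]
  refine ⟨?_, ?_, ?_⟩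
  · intro x hx hzx hsx
    have hne : size3 p S.P.g S.Vf x ≠ ⊤ := ne_top_of_le_ne_top ENNReal.coe_ne_top hsx
    obtain ⟨σ, hσ⟩ : ∃ σ : ℝ≥0, size3 p S.P.g S.Vf x = σ := ⟨_, (ENNReal.coe_toNNReal hne).symm⟩
    have hσε : σ ≤ ε0 := by rw [hσ] at hsx; exact_mod_cast hsx
    have := (core x x hx hx hzx hzx hsx hsx σ hσ.le hσ.le (le_trans hσε (by
      calc ε0 = 1 * ε0 := (one_mul _).symm
        _ ≤ 2 * ε0 := mul_le_mul' (by norm_num) le_rfl))).1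
    refine this.trans ?_
    rw [hσ]
    have e : C' * (M * σ) ^ 2 ≤ max (C' * M ^ 2) Ca * σ ^ 2 := by
      calc C' * (M * σ) ^ 2 = (C' * M ^ 2) * σ ^ 2 := by ring
        _ ≤ _ := mul_le_mul' (le_max_left _ _) le_rfl
    exact_mod_cast e
  · intro x y hx hy hz hsx hsy
    have hnx : size3 p S.P.g S.Vf x ≠ ⊤ := ne_top_of_le_ne_top ENNReal.coe_ne_top hsx
    have hny : size3 p S.P.g S.Vf y ≠ ⊤ := ne_top_of_le_ne_top ENNReal.coe_ne_top hsy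
    obtain ⟨σx, hσx⟩ : ∃ σ : ℝ≥0, size3 p S.P.g S.Vf x = σ := ⟨_, (ENNReal.coe_toNNReal hnx).symm⟩
    obtain ⟨σy, hσy⟩ : ∃ σ : ℝ≥0, size3 p S.P.g S.Vf y = σ := ⟨_, (ENNReal.coe_toNNReal hny).symm⟩
    have hx' : σx ≤ ε0 := by rw [hσx] at hsx; exact_mod_cast hsx
    have hy' : σy ≤ ε0 := by rw [hσy] at hsy; exact_mod_cast hsy
    have := (core x y hx hy (fun e => (hz e).1) (fun e => (hz e).2) hsx hsy (σx + σy)
      (by rw [hσx]; exact_mod_cast (le_self_add : σx ≤ σx + σy)) (by rw [hσy]; exact_mod_cast (le_add_self : σy ≤ σx + σy))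
      (by rw [two_mul]; exact add_le_add hx' hy')).2
    refine this.trans ?_
    rw [hσx, hσy]
    have e : (C' : ℝ≥0∞) * ((M * (σx + σy) : ℝ≥0) : ℝ≥0∞) * (M * size3 p S.P.g S.Vf (x - y))
        = ((C' * M ^ 2 : ℝ≥0) : ℝ≥0∞) * ((σx : ℝ≥0∞) + σy) * size3 p S.P.g S.Vf (x - y) := by
      push_cast; ring
    rw [e]
    exact mul_le_mul' (mul_le_mul' (by exact_mod_cast le_max_left _ _) le_rfl) le_rfl
  · intro x hx hsx b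
    exact ⟨(cst1 x hx b).trans (mul_le_mul' (by exact_mod_cast le_max_right _ _) le_rfl), cst2 x hx hsx b⟩

end

end Claimed.Agent.R285.B8
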