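import Claimed.Agent.R285.Map.PackC
import Claimed.Agent.R285.Rdo.Defs

/-!
# ROW 285, post CHAIN: `Rdo.ChainOK` from the hypotheses `PackIn`, `ExpIn` of MAP-PACK          (owner helper38; recipe of helper114)

EXIT: `Pack.pk_chainOK (H : PackIn K 𝓡 j0 θ C ε0) (E : ExpIn K Ce dm) (hρ : ρ ≤ ε0 / 3) (hd : d1 ≤ dm) : Rdo.ChainOK K 𝓡 j0 ρ d1 Ce`   (generic in `K.cosOn`).
Copying is in the `Copy` form between ANY torus `h > j` (retained or not) and the retained tori: `B8.weak_copy` between the torus `h` and the torus `i`.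
-/

set_option autoImplicit false

namespace Claimed.Agent.R285.Pack

open scoped BigOperators ENNReal NNReal
open Claimed.Agent.R285.RG Claimed.Agent.R285.B8

noncomputable section

/-! ## one-sided cuts -/

theorem pk_ch_cut_right {h0 : ℝ≥0} {c0 : ℕ} {G G' : Geom} {g : Grid G} {g' : Grid G'} (hm : g.m = g'.m) {A : Act g} {A' : Act g'} :
    Copy h0 c0 g g' A (cutW c0 A') ↔ Copy h0 c0 g g' A A' := by
  have key : ∀ S : Finset (ℤ × ℤ), pdiam S + 2 * c0 * g.m < G'.M → cutW c0 A' (g'.foldS S) = A' (g'.foldS S) := fun S h2 => by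
    have u2 : g'.Unwr c0 (g'.foldS S) := ⟨S, rfl, by rw [← hm]; exact h2⟩
    simp only [cutW, if_pos u2]
  constructor
  · intro h S h1 h2 z hz z' hz' hzz
    rw [h S h1 h2 z hz z' hz' hzz, key S h2]
  · intro h S h1 h2 z hz z' hz' hzz
    rw [h S h1 h2 z hz z' hz' hzz, key S h2]

theorem pk_ch_cut_left {h0 : ℝ≥0} {c0 : ℕ} {G G' : Geom} {g : Grid G} {g' : Grid G'} {A : Act g} {A' : Act g'} :
    Copy h0 c0 g g' (cutW c0 A) A' ↔ Copy h0 c0 g g' A A' := by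
  have key : ∀ S : Finset (ℤ × ℤ), pdiam S + 2 * c0 * g.m < G.M → cutW c0 A (g.foldS S) = A (g.foldS S) := fun S h1 => by
    have u1 : g.Unwr c0 (g.foldS S) := ⟨S, rfl, h1⟩
    simp only [cutW, if_pos u1]
  constructor
  · intro h S h1 h2 z hz z' hz' hzz
    rw [← h S h1 h2 z hz z' hz' hzz, key S h1]
  · intro h S h1 h2 z hz z' hz' hzz
    rw [← h S h1 h2 z hz z' hz' hzz, key S h1]

variable {K : Cfg} {𝓡 : Reg K.s} {j0 : ℕ} {θ C ε0 : ℝ≥0} {Ce dm : ℝ}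

theorem pk_ch_side (j h h' : ℕ) (hj : j ≤ h) (hj' : j ≤ h') : (K.s.lev h j).m = (K.s.lev h' j).m := by
  show K.s.L ^ min j h = K.s.L ^ min j h'
  rw [min_eq_left hj, min_eq_left hj']

/-! ## the fields -/

theorem pk_ch_cp_of_eq (hA : 0 < K.p.A) (j h : ℕ) (hj : j < h) (hm : 𝓡.hmin ≤ h) (a : K.To 𝓡 j h) (R : K.Pl 𝓡 j)
    (e : EqOn K.p.h0 (cutW K.c0 (K.toAct 𝓡 a)) (K.plAct 𝓡 R ⟨h, hj, hm⟩)) : Rdo.IsCp K 𝓡 j h a R := fun i =>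
  pk_ch_cut_left.1 (pk_copy_congr ((pk_plAct_spec K 𝓡 hA R).2.2.1 ⟨h, hj, hm⟩ i) (pk_eqOn_symm e) (pk_eqOn_refl _ _))

/-- `weak_copy` between an arbitrary torus `h > j` and a retained torus -/
theorem pk_ch_weak (H : PackIn K 𝓡 j0 θ C ε0) (j h : ℕ) (hj0 : j0 ≤ j) (hj : j < h) (x : ℂ × ℂ × K.Pl 𝓡 j) (a : K.To 𝓡 j h)
    (hcp : Rdo.IsCp K 𝓡 j h a x.2.2) (i : 𝓡.Ix j) :
    (K.PhiT 𝓡 h j hj (x.1, x.2.1, K.toAct 𝓡 a)).1 = (PhiI K 𝓡 j x i).1 ∧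
    (K.PhiT 𝓡 h j hj (x.1, x.2.1, K.toAct 𝓡 a)).2.1 = (PhiI K 𝓡 j x i).2.1 ∧
    Copy K.p.h0 K.c0 (K.s.lev h (j + 1)) (K.s.lev i.1 (j + 1)) (K.PhiT 𝓡 h j hj (x.1, x.2.1, K.toAct 𝓡 a)).2.2 (PhiI K 𝓡 j x i).2.2 := by
  obtain ⟨s1, -, -, -, s5⟩ := pk_plAct_spec K 𝓡 H.hA x.2.2
  obtain ⟨a1, -, a3⟩ := pk_toAct_spec K 𝓡 H.hA a
  have hf : actNorm K.p (K.s.lev i.1 j) (𝓡.V i.1 j) (K.plAct 𝓡 x.2.2 i) ≠ ⊤ := ne_top_of_le_ne_top ENNReal.ofReal_ne_top (s5 i)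
  have hfa : actNorm K.p (K.s.lev h j) (𝓡.V h j) (K.toAct 𝓡 a) ≠ ⊤ := by
    rw [a3]
    exact ENNReal.ofReal_ne_top
  obtain ⟨c1, c2, c3, -⟩ := weak_copy K.c H.geo K.c0 H.cR H.cpp K.p H.hω H.hh H.hA1 H.hℓ H.hD (𝓡.gs h) (𝓡.gs i.1) (K.step 𝓡 h j hj) (K.step 𝓡 i.1 j i.2.1)
    (H.tower.step h j hj0 hj) (H.tower.step i.1 j hj0 i.2.1) (H.scopy h i.1 j hj0 hj i.2.1) K.cosOn x.1 x.2.1
    (K.toAct 𝓡 a) (K.plAct 𝓡 x.2.2 i) a1 (s1 i) hfa hf (hcp i)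
  exact ⟨c1, c2, c3⟩

theorem pk_ch_cp (H : PackIn K 𝓡 j0 θ C ε0) (j h : ℕ) (hj0 : j0 ≤ j) (hj : j < h) (x : ℂ × ℂ × K.Pl 𝓡 j) (a : K.To 𝓡 j h)
    (hx : 3 * ‖x‖ ≤ ε0) (ha : 3 * ‖a‖ ≤ ε0) (hz : K.cosOn = false → x.2.1 = 0) (hcp : Rdo.IsCp K 𝓡 j h a x.2.2) :
    (K.PhiT 𝓡 h j hj (x.1, x.2.1, K.toAct 𝓡 a)).1 = (K.Phi 𝓡 j x).1 ∧ (K.PhiT 𝓡 h j hj (x.1, x.2.1, K.toAct 𝓡 a)).2.1 = (K.Phi 𝓡 j x).2.1 ∧
    Rdo.IsCp K 𝓡 (j + 1) h (K.Psi 𝓡 j h ((x.1, x.2.1), a)) (K.Phi 𝓡 j x).2.2 := by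
  obtain ⟨-, q2, q3, -⟩ := pk_plane_step H j hj0 x hz hx
  have hw := pk_ch_weak H j h hj0 hj x a hcp
  have hn : 3 * ‖(((x.1, x.2.1), a) : (ℂ × ℂ) × K.To 𝓡 j h)‖ ≤ ε0 := by
    have h1 : ‖(((x.1, x.2.1), a) : (ℂ × ℂ) × K.To 𝓡 j h)‖ ≤ max ‖x‖ ‖a‖ := by
      obtain ⟨n1, n2, -⟩ := pk_B5S_norms x
      rw [Prod.norm_def, Prod.norm_def]
      exact max_le (le_max_of_le_left (max_le n1 n2)) (le_max_right _ _)
    rcases le_total ‖x‖ ‖a‖ with h2 | h2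
    · rw [max_eq_right h2] at h1
      linarith
    · rw [max_eq_left h2] at h1
      linarith
  obtain ⟨-, t2, -⟩ := pk_torus_step H j h hj0 hj ((x.1, x.2.1), a) hz hn
  refine ⟨(hw (𝓡.bot j)).1.trans (q2 (𝓡.bot j)).1, (hw (𝓡.bot j)).2.1.trans (q2 (𝓡.bot j)).2, fun i => ?_⟩
  have h3 := (pk_ch_cut_right (c0 := K.c0) (pk_ch_side (K := K) (j + 1) h i.1 hj i.2.1.le)).2 (hw (𝓡.dn i)).2.2
  exact pk_copy_congr h3 (pk_eqOn_symm t2) (pk_eqOn_symm (q3 i))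

theorem pk_ch_exp_cp (E : ExpIn K Ce dm) (j h : ℕ) (hj : j ≤ h) (d : ℂ) (hd : ‖d‖ ≤ dm) :
    Rdo.IsCp K 𝓡 j h (K.eExpT 𝓡 j h d 0) (K.eExp 𝓡 j d 0).2.2 := fun i => by
  have h0 : ‖(0 : ℂ)‖ ≤ dm := by rw [norm_zero]; exact E.hd1.le
  have h1 := pk_Rexp_copy K.s K.c0 K.c.R E.c0 E.cR K.p.h0 (Step.alpha K.p.ω) d 0 j h i.1 hj i.2.1.le
  have h2 := (pk_ch_cut_right (c0 := K.c0) (pk_ch_side (K := K) j h i.1 hj i.2.1.le)).2 h1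
  exact pk_copy_congr h2 (pk_eqOn_symm (pk_eExpT_spec E j h d 0 hd h0).1) (pk_eqOn_symm ((pk_eExp_spec E j d 0 hd h0).1 i))

/-- **THE EXIT OF CHAIN** -/
theorem pk_chainOK (H : PackIn K 𝓡 j0 θ C ε0) (E : ExpIn K Ce dm) (ρ d1 : ℝ) (hρ : ρ ≤ ε0 / 3) (hd : d1 ≤ dm) :
    Rdo.ChainOK K 𝓡 j0 ρ d1 Ce where
  cp := fun j h hj0 hj x a hx ha hz hcp => pk_ch_cp H j h hj0 hj x a (by linarith) (by linarith) hz hcp
  cp_of_eq := fun j h hj hm a R e => pk_ch_cp_of_eq H.hA j h hj hm a R e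
  exact := fun j h hj0 hj X hX hz => pk_exact H j h hj0 hj X hz (pk_ball_le hρ hX)
  exp_eq := fun j h d hd' => (pk_eExpT_spec E j h d 0 (hd'.le.trans hd) (by rw [norm_zero]; exact E.hd1.le)).1
  exp_bd := fun j h d hd' => by
    have := (pk_eExpT_spec (𝓡 := 𝓡) E j h d 0 (hd'.le.trans hd) (by rw [norm_zero]; exact E.hd1.le)).2
    rwa [norm_zero, add_zero] at this
  exp_cp := fun j h hj d hd' => pk_ch_exp_cp E j h hj d (hd'.le.trans hd)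

end

end Claimed.Agent.R285.Pack
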