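import Claimed.Agent.R285.Map.GasTop
import Claimed.Agent.R285.Map.PackA
import Claimed.Agent.R285.Rdo.Stop

/-!
# ROW 285, post BP-F5-L53 (owner helper177), TOP FILE: the chain along the histories started with `R = 0`, the read-outs, **THE EXPORT `coef_block`** (= `Asm.RawMapOK.block`, `B8.Sys8.coef`)

Plan of the whole post: header of `R285/Map/Coef.lean` (gas calculus, kernels, pure sequences).  Here: (B) + the glue.

## VERSION 2 (17:30Z)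
* (B) THE CHAIN IS READOUT's: `Rdo.EE j h q X w = e^{q² a low0(L^j)/2n²} Eter (C_{≥L^j}) q (𝒵_j X) (w q_n)` (REAL source `w`), `Rdo.nextT`, `Rdo.rdo_stop_step` (one step: `EE_j X = cst EE_{j+1} (nextT X)`, `cst ≠ 0`
  independent of the charge and of the source; the factor `hm` takes care of the constant modes of the polynomial covariances).  `Cfg.StopOK` := the conclusion of `rdo_stop_step`.
* READ-OUTS = the basic ones of READOUT: `Rdo.rV0 = g₀''(0)/g₀(0)`, `Rdo.rP0 = (g₁ + g₋₁)/(2 g₀)`; multipliers `K.kV`, `K.kP`.  `Cfg.tor0` = the torus data of `B10` with `rV := Rdo.rV0`.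
* `rP0` of the stopped state is `ϰ (P1 s + P2 s²) + O(s³)`, `ϰ = hm a h 1 / hm h h 1 > 0`: it cancels in `P2/P1`.
-/

set_option autoImplicit false

namespace Claimed.Agent.R285.B8

open scoped BigOperators ENNReal NNReal
open MeasureTheory ProbabilityTheory Polynomial Filter Topology
open Claimed.Agent.R285.RG

noncomputable section

/-! ## 1. Definitions -/

namespace Cfg

variable (K : Cfg) (𝓡 : Reg K.s)

/-- the torus data of `B10` with the BASIC gradient read-out of READOUT -/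
def tor0 (o : K.Ops 𝓡) : B10.Tor where
  T := K.To 𝓡
  Ψ := K.Psi 𝓡
  rV := Rdo.rV0 K 𝓡
  kV := K.kV
  σT := o.σT

/-- **(B), one step** = the conclusion of `Rdo.rdo_stop_step` -/
def StopOK (j0 : ℕ) (ρ : ℝ) : Prop :=
  ∀ j h, j0 ≤ j → ∀ hj : j < h, ∀ X : (ℂ × ℂ) × K.To 𝓡 j h, ‖X‖ < ρ →
    ∃ cst : ℂ, cst ≠ 0 ∧ ∀ (q : ℤ) (w : ℝ), |w| ≤ 1 →
      Rdo.EE K 𝓡 j h q X w = cst * Rdo.EE K 𝓡 (j + 1) h q (Rdo.nextT K 𝓡 j h hj X) w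

/-- **copying** (= the field `copy` of `Pack.MapSys`, `B8.Sys8`, verbatim) -/
def CopyOK (j0 : ℕ) (ρ : ℝ) : Prop :=
  ∀ j h, j0 ≤ j → ∀ (hj : j < h) (hm : 𝓡.hmin ≤ h), ∀ (x : ℂ × ℂ × K.Pl 𝓡 j) (a : K.To 𝓡 j h), ‖x‖ < ρ → ‖a‖ < ρ →
    EqOn K.p.h0 (cutW K.c0 (K.toAct 𝓡 a)) (K.plAct 𝓡 x.2.2 ⟨h, hj, hm⟩) →
    (K.PhiT 𝓡 h j hj (x.1, x.2.1, K.toAct 𝓡 a)).1 = (K.Phi 𝓡 j x).1 ∧ (K.PhiT 𝓡 h j hj (x.1, x.2.1, K.toAct 𝓡 a)).2.1 = (K.Phi 𝓡 j x).2.1 ∧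
    EqOn K.p.h0 (K.toAct 𝓡 (K.Psi 𝓡 j h ((x.1, x.2.1), a))) (K.PhiT 𝓡 h j hj (x.1, x.2.1, K.toAct 𝓡 a)).2.2 ∧
    ∀ hj' : j + 1 < h, EqOn K.p.h0 (cutW K.c0 (K.toAct 𝓡 (K.Psi 𝓡 j h ((x.1, x.2.1), a)))) (K.plAct 𝓡 (K.Phi 𝓡 j x).2.2 ⟨h, hj', hm⟩)

end Cfg

/-! ## 2. (B) the chain along a history -/

/-- **(B) along a history started with `R = 0`** (LEAF `L53-B5`): for small `s` the invariant functionals of the stopped state are a non-zero multiple of those of the gas of singletons.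
Induction on the stage `i ≤ d` (`h = a + d`, `j = a + i`; `a + (i + 1)` IS `(a + i) + 1`, no casts), for the statement
  `∀ᶠ s, (∃ c ≠ 0, ∀ q w, |w| ≤ 1 → EE a h q X_0 w = c * EE (a + i) h q (B10.hts .. i) w) ∧ (∀ hj : a + i < h, EqOn h₀ (cutW c0 (toAct τ_i)) (plAct R_i ⟨h, hj, hm⟩))`.
`i = 0`: `c = 1`; `Pack.pk_toAct_zero`, `Pack.pk_plAct_zero`, `cutW c0 0 = 0`.  Step: smallness `‖X_i‖, ‖τ_i‖ < ρ` eventually (`B10.jet_rem`: `≤ 4 |s|`, `≤ K2 |s|²`); `hcopy` at `x = hpl i`, `a = htr i`: the scalars of `nextT` are the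
plane scalars, so `Rdo.nextT .. (hts i) = hts (i + 1)` (`Prod.ext`; the remainder is `K.Psi` on both sides by definition), and the copy invariant persists (4th clause); `hch` at `X = hts i`; multiply the constants. -/
theorem chain_hist (K : Cfg) (𝓡 : Reg K.s) (hA : 0 < K.p.A) (j0 : ℕ) (o : K.Ops 𝓡) (κr : B10.RawC) (C1 : ℝ)
    (hraw : B10.RawOK κr (K.raw 𝓡 hA j0 o)) (htor : B10.TorOK κr j0 (K.tor0 𝓡 o))
    (nf : B10.NF (K.raw 𝓡 hA j0 o)) (hb : B10.BalOK κr C1 (K.raw 𝓡 hA j0 o) nf)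
    (hch : K.StopOK 𝓡 j0 κr.ρ) (hcopy : K.CopyOK 𝓡 j0 κr.ρ)
    (a d : ℕ) (ha : j0 ≤ a) (hm : 𝓡.hmin ≤ a + d) (t0 z0 : ℂ) (ht : ‖t0‖ ≤ 1) (hz : ‖z0‖ ≤ 1) :
    ∀ᶠ s : ℂ in 𝓝 0, ∃ c : ℂ, c ≠ 0 ∧ ∀ (q : ℤ) (w : ℝ), |w| ≤ 1 →
      Rdo.EE K 𝓡 a (a + d) q ((s * t0, s * z0), 0) w
        = c * Rdo.EE K 𝓡 (a + d) (a + d) q (B10.hst (K.raw 𝓡 hA j0 o) (K.tor0 𝓡 o) a d (s * t0, s * z0)) w := by
  obtain ⟨K2, hK2, hrem⟩ := B10.jet_rem κr C1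
  have hev2 : ∀ᶠ s : ℂ in 𝓝 0, K2 * ‖s‖ ^ 2 < κr.ρ := by
    have h : Tendsto (fun s : ℂ => K2 * ‖s‖ ^ 2) (𝓝 0) (𝓝 0) := by
      have : Continuous (fun s : ℂ => K2 * ‖s‖ ^ 2) := by fun_prop
      simpa using this.tendsto 0
    exact h.eventually (gt_mem_nhds κr.hρ)
  have key : ∀ i, i ≤ d → ∀ᶠ s : ℂ in 𝓝 0,
      (∃ c : ℂ, c ≠ 0 ∧ ∀ (q : ℤ) (w : ℝ), |w| ≤ 1 →
        Rdo.EE K 𝓡 a (a + d) q ((s * t0, s * z0), 0) w
          = c * Rdo.EE K 𝓡 (a + i) (a + d) q (B10.hts (K.raw 𝓡 hA j0 o) (K.tor0 𝓡 o) a (a + d) (s * t0, s * z0) i) w) ∧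
      (∀ hj : a + i < a + d,
        EqOn K.p.h0 (cutW K.c0 (K.toAct 𝓡 (B10.htr (K.raw 𝓡 hA j0 o) (K.tor0 𝓡 o) a (a + d) (s * t0, s * z0) i)))
          (K.plAct 𝓡 (B10.hpl (K.raw 𝓡 hA j0 o) a (s * t0, s * z0) i).2.2 ⟨a + d, hj, hm⟩)) := by
    intro i
    induction i with
    | zero =>
      intro _
      refine Eventually.of_forall fun s => ⟨⟨1, one_ne_zero, fun q w _ => ?_⟩, fun hj => ?_⟩
      · rw [one_mul]
        rfl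
      · intro X z _
        show cutW K.c0 (K.toAct 𝓡 (0 : K.To 𝓡 a (a + d))) X z = K.plAct 𝓡 (0 : K.Pl 𝓡 a) ⟨a + d, hj, hm⟩ X z
        rw [Pack.pk_toAct_zero, Pack.pk_plAct_zero]
        unfold cutW
        split_ifs <;> rfl
    | succ i ih =>
      intro hi
      have hlt : a + i < a + d := by omega
      have hj0 : j0 ≤ a + i := by omega
      filter_upwards [ih (by omega), hrem _ nf (K.tor0 𝓡 o) hraw hb htor a (a + d) ha t0 z0 ht hz i hlt.le,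
        B10.jet_ev_lt (c := 4) κr.hρ, hev2] with s h1 h2 h3 h4
      obtain ⟨⟨c, hc, hE⟩, hcp⟩ := h1
      obtain ⟨n1, -, n3⟩ := h2
      obtain ⟨x, hx⟩ : ∃ x : ℂ × ℂ × K.Pl 𝓡 (a + i), x = B10.hpl (K.raw 𝓡 hA j0 o) a (s * t0, s * z0) i := ⟨_, rfl⟩
      obtain ⟨τ, hτ⟩ : ∃ τ : K.To 𝓡 (a + i) (a + d), τ = B10.htr (K.raw 𝓡 hA j0 o) (K.tor0 𝓡 o) a (a + d) (s * t0, s * z0) i :=
        ⟨_, rfl⟩
      have nx : ‖x‖ < κr.ρ := by
        rw [hx]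
        exact lt_of_le_of_lt n1 h3
      have nτ : ‖τ‖ < κr.ρ := by
        rw [hτ]
        exact lt_of_le_of_lt n3 h4
      have hts_eq : B10.hts (K.raw 𝓡 hA j0 o) (K.tor0 𝓡 o) a (a + d) (s * t0, s * z0) i = ((x.1, x.2.1), τ) := by
        rw [hx, hτ]
        rfl
      have nX : ‖(((x.1, x.2.1), τ) : (ℂ × ℂ) × K.To 𝓡 (a + i) (a + d))‖ < κr.ρ := by
        rw [Prod.norm_def, Prod.norm_def]
        refine max_lt (max_lt ?_ ?_) nτ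
        · exact lt_of_le_of_lt (norm_fst_le x) nx
        · exact lt_of_le_of_lt ((norm_fst_le x.2).trans (norm_snd_le x)) nx
      have hcp' := hcp hlt
      rw [← hx, ← hτ] at hcp'
      obtain ⟨c1, c2, -, c4⟩ := hcopy (a + i) (a + d) hj0 hlt hm x τ nx nτ hcp'
      have hnext : Rdo.nextT K 𝓡 (a + i) (a + d) hlt ((x.1, x.2.1), τ)
          = B10.hts (K.raw 𝓡 hA j0 o) (K.tor0 𝓡 o) a (a + d) (s * t0, s * z0) (i + 1) := by
        have e1 : B10.hts (K.raw 𝓡 hA j0 o) (K.tor0 𝓡 o) a (a + d) (s * t0, s * z0) (i + 1)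
            = (((K.Phi 𝓡 (a + i) x).1, (K.Phi 𝓡 (a + i) x).2.1), K.Psi 𝓡 (a + i) (a + d) ((x.1, x.2.1), τ)) := by
          rw [hx, hτ]
          rfl
        rw [e1]
        exact Prod.ext (Prod.ext c1 c2) rfl
      obtain ⟨cst, hcst, hS⟩ := hch (a + i) (a + d) hj0 hlt ((x.1, x.2.1), τ) nX
      refine ⟨⟨c * cst, mul_ne_zero hc hcst, fun q w hw => ?_⟩, fun hj' => ?_⟩
      · rw [hE q w hw, hts_eq, hS q w hw, hnext, mul_assoc]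
        rfl
      · have := c4 hj'
        have e2 : B10.htr (K.raw 𝓡 hA j0 o) (K.tor0 𝓡 o) a (a + d) (s * t0, s * z0) (i + 1)
            = K.Psi 𝓡 (a + i) (a + d) ((x.1, x.2.1), τ) := by
          rw [hx, hτ]
          rfl
        have e3 : B10.hpl (K.raw 𝓡 hA j0 o) a (s * t0, s * z0) (i + 1) = K.Phi 𝓡 (a + i) x := by
          rw [hx]
          rfl
        rw [e2, e3]
        exact this
  exact (key d le_rfl).mono fun s hs => hs.1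

/-! ## 3. The read-outs of the histories started with `R = 0`  (glue of (B) and (C)) -/

/-- the partition functional of a state without remainder is the gas of singletons -/
theorem l53_Zlev_zero (K : Cfg) (𝓡 : Reg K.s) (j h : ℕ) (t z : ℂ) :
    Rdo.Zlev K 𝓡 j h ((t, z), 0) = ZA (K.s.lev h j) K.c.R (single (K.s.lev h j) (Step.alpha K.p.ω) t z) := by
  unfold Rdo.Zlev Kof
  simp only [Pack.pk_toAct_zero, add_zero]

theorem l53_hm_zero (K : Cfg) (j h : ℕ) : Rdo.hm K j h 0 = 1 := by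
  unfold Rdo.hm
  simp

theorem l53_hm_neg (K : Cfg) (j h : ℕ) : Rdo.hm K j h (-1) = Rdo.hm K j h 1 := by
  unfold Rdo.hm
  simp

theorem l53_hm_pos (K : Cfg) (j h : ℕ) (q : ℤ) : 0 < Rdo.hm K j h q := Real.exp_pos _

theorem l53_bg_zero (G : Geom) : Rdo.bg G 0 = 0 := by
  funext v
  simp [Rdo.bg]

theorem l53_Gge_psd (K : Cfg) (hF : K.F = Fam.entry) (j h : ℕ) : (Rdo.Gge K j h).PosSemidef := by
  unfold Rdo.Gge
  rw [hF]
  exact (termCov_spec _ _ (Nat.pow_pos K.s.L_pos)).psd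

/-- `[s²] rV0_h = -(α²/4) Nsep` -/
theorem rV_expand (K : Cfg) (𝓡 : Reg K.s) (hF : K.F = Fam.entry) (hω : 0 < K.p.ω) (hA : 0 < K.p.A) (j0 : ℕ) (o : K.Ops 𝓡) (κr : B10.RawC) (C1 : ℝ)
    (hraw : B10.RawOK κr (K.raw 𝓡 hA j0 o)) (htor : B10.TorOK κr j0 (K.tor0 𝓡 o))
    (nf : B10.NF (K.raw 𝓡 hA j0 o)) (hb : B10.BalOK κr C1 (K.raw 𝓡 hA j0 o) nf)
    (hch : K.StopOK 𝓡 j0 κr.ρ) (hcopy : K.CopyOK 𝓡 j0 κr.ρ)
    (a d : ℕ) (ha : j0 ≤ a) (hm : 𝓡.hmin ≤ a + d) :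
    ∃ Kc : ℝ, ∀ᶠ s : ℂ in 𝓝 0, ‖Rdo.rV0 K 𝓡 (a + d) (B10.hst (K.raw 𝓡 hA j0 o) (K.tor0 𝓡 o) a d (0, s))
      - ((-(Step.alpha K.p.ω ^ 2 / 4) * NsepG (K.s.lev (a + d) a) K.c.R (Step.alpha K.p.ω) (Rdo.Gge K a (a + d)) (cos1 _) : ℝ) : ℂ) * s ^ 2‖ ≤ Kc * ‖s‖ ^ 3 := by
  obtain ⟨Kc, hK⟩ := gas_zz (K.s.lev (a + d) a) (K.s.lev_ok _ _) K.c.R K.p.ω hω (Rdo.Gge K a (a + d)) (l53_Gge_psd K hF _ _) (cos1 _)
  refine ⟨Kc, ?_⟩
  filter_upwards [hK, chain_hist K 𝓡 hA j0 o κr C1 hraw htor nf hb hch hcopy a d ha hm 0 1 (by simp) (by simp)] with s h1 h2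
  obtain ⟨c, hc, h2⟩ := h2
  rw [mul_zero, mul_one] at h2
  set Xh := B10.hst (K.raw 𝓡 hA j0 o) (K.tor0 𝓡 o) a d (0, s) with hXh
  -- the neutral functional of the gas is `c` times the terminal functional
  have key : ∀ w : ℝ, |w| ≤ 1 →
      Eter (K.s.T (a + d)) (Rdo.Gge K a (a + d)) K.p.ω 0
          (ZA (K.s.lev (a + d) a) K.c.R (single (K.s.lev (a + d) a) (Step.alpha K.p.ω) 0 s)) (fun v => ((w * cos1 _ v : ℝ) : ℂ))
        = c * Rdo.gq K 𝓡 (a + d) 0 Xh w := by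
    intro w hw
    have := h2 0 w hw
    unfold Rdo.EE at this
    rw [l53_hm_zero, l53_hm_zero, l53_Zlev_zero] at this
    simp only [Complex.ofReal_one, one_mul] at this
    exact this
  have e2 : iteratedDeriv 2 (fun w : ℝ => Eter (K.s.T (a + d)) (Rdo.Gge K a (a + d)) K.p.ω 0
          (ZA (K.s.lev (a + d) a) K.c.R (single (K.s.lev (a + d) a) (Step.alpha K.p.ω) 0 s)) (fun v => ((w * cos1 _ v : ℝ) : ℂ))) 0
      = c * iteratedDeriv 2 (Rdo.gq K 𝓡 (a + d) 0 Xh) 0 := by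
    rw [← iteratedDeriv_const_mul_field]
    apply Filter.EventuallyEq.iteratedDeriv_eq
    have hball : ∀ᶠ w : ℝ in 𝓝 0, |w| ≤ 1 := by
      have := Metric.closedBall_mem_nhds (0 : ℝ) one_pos
      filter_upwards [this] with w hw
      simpa using hw
    filter_upwards [hball] with w hw
    exact key w hw
  have e0 := key 0 (by simp)
  rw [e2, e0, mul_div_mul_left _ _ hc] at h1
  exact h1

/-- the factor of the constant modes between the levels `a` and `h` -/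
def kapH (K : Cfg) (a h : ℕ) : ℝ := Rdo.hm K a h 1 / Rdo.hm K h h 1

theorem kapH_pos (K : Cfg) (a h : ℕ) : 0 < kapH K a h := div_pos (l53_hm_pos _ _ _ _) (l53_hm_pos _ _ _ _)

/-- `rP0_h = ϰ (P1 s + P2 s²) + O(s³)` -/
theorem rP_expand (K : Cfg) (𝓡 : Reg K.s) (hF : K.F = Fam.entry) (hω : 0 < K.p.ω) (hA : 0 < K.p.A) (j0 : ℕ) (o : K.Ops 𝓡) (κr : B10.RawC) (C1 : ℝ)
    (hraw : B10.RawOK κr (K.raw 𝓡 hA j0 o)) (htor : B10.TorOK κr j0 (K.tor0 𝓡 o))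
    (nf : B10.NF (K.raw 𝓡 hA j0 o)) (hb : B10.BalOK κr C1 (K.raw 𝓡 hA j0 o) nf)
    (hch : K.StopOK 𝓡 j0 κr.ρ) (hcopy : K.CopyOK 𝓡 j0 κr.ρ)
    (a d : ℕ) (ha : j0 ≤ a) (hm : 𝓡.hmin ≤ a + d) :
    ∃ Kc : ℝ, ∀ᶠ s : ℂ in 𝓝 0, ‖Rdo.rP0 K 𝓡 (a + d) (B10.hst (K.raw 𝓡 hA j0 o) (K.tor0 𝓡 o) a d (s, s))
      - (((kapH K a (a + d) * P1G (K.s.lev (a + d) a) (Step.alpha K.p.ω) (Rdo.Gge K a (a + d)) : ℝ) : ℂ) * s
          + ((kapH K a (a + d) * P2G (K.s.lev (a + d) a) K.c.R (Step.alpha K.p.ω) (Rdo.Gge K a (a + d)) : ℝ) : ℂ) * s ^ 2)‖ ≤ Kc * ‖s‖ ^ 3 := by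
  obtain ⟨Kc, hK⟩ := gas_tz (K.s.lev (a + d) a) (K.s.lev_ok _ _) K.c.R K.p.ω hω (Rdo.Gge K a (a + d)) (l53_Gge_psd K hF _ _)
  refine ⟨kapH K a (a + d) * Kc, ?_⟩
  filter_upwards [hK, chain_hist K 𝓡 hA j0 o κr C1 hraw htor nf hb hch hcopy a d ha hm 1 1 (by simp) (by simp)] with s h1 h2
  obtain ⟨c, hc, h2⟩ := h2
  rw [mul_one] at h2
  set Xh := B10.hst (K.raw 𝓡 hA j0 o) (K.tor0 𝓡 o) a d (s, s) with hXh
  set Z := ZA (K.s.lev (a + d) a) K.c.R (single (K.s.lev (a + d) a) (Step.alpha K.p.ω) s s) with hZ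
  set Γ := Rdo.Gge K a (a + d) with hΓ
  have key : ∀ q : ℤ, (Rdo.hm K a (a + d) q : ℂ) * Eter (K.s.T (a + d)) Γ K.p.ω q Z 0
      = c * ((Rdo.hm K (a + d) (a + d) q : ℂ) * Rdo.gq K 𝓡 (a + d) q Xh 0) := by
    intro q
    have := h2 q 0 (by simp)
    unfold Rdo.EE at this
    rw [l53_Zlev_zero, l53_bg_zero] at this
    simpa [Rdo.gq, l53_bg_zero] using this
  have k0' := key 0
  have k1 := key 1
  have km := key (-1)
  rw [l53_hm_zero, l53_hm_zero] at k0'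
  rw [l53_hm_neg, l53_hm_neg, gas_even (K.s.lev (a + d) a) K.c.R K.p.ω hω Γ (l53_Gge_psd K hF _ _) s s] at km
  simp only [Complex.ofReal_one, one_mul] at k0'
  have hha : (Rdo.hm K a (a + d) 1 : ℂ) ≠ 0 := by exact_mod_cast (l53_hm_pos K a (a + d) 1).ne'
  have hhh : (Rdo.hm K (a + d) (a + d) 1 : ℂ) ≠ 0 := by exact_mod_cast (l53_hm_pos K (a + d) (a + d) 1).ne'
  have e : Rdo.rP0 K 𝓡 (a + d) Xh = (kapH K a (a + d) : ℂ) * (Eter (K.s.T (a + d)) Γ K.p.ω 1 Z 0 / Eter (K.s.T (a + d)) Γ K.p.ω 0 Z 0) := by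
    have g1 : Rdo.gq K 𝓡 (a + d) 1 Xh 0 = (Rdo.hm K a (a + d) 1 : ℂ) * Eter (K.s.T (a + d)) Γ K.p.ω 1 Z 0 / (c * (Rdo.hm K (a + d) (a + d) 1 : ℂ)) := by
      rw [k1]; field_simp
    have gm : Rdo.gq K 𝓡 (a + d) (-1) Xh 0 = (Rdo.hm K a (a + d) 1 : ℂ) * Eter (K.s.T (a + d)) Γ K.p.ω 1 Z 0 / (c * (Rdo.hm K (a + d) (a + d) 1 : ℂ)) := by
      rw [km]; field_simp
    unfold Rdo.rP0 Rdo.gc kapH
    rw [g1, gm, k0']
    by_cases hg : Rdo.gq K 𝓡 (a + d) 0 Xh 0 = 0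
    · simp [hg]
    · push_cast
      field_simp
      ring
  rw [e]
  have e3 : (kapH K a (a + d) : ℂ) * (Eter (K.s.T (a + d)) Γ K.p.ω 1 Z 0 / Eter (K.s.T (a + d)) Γ K.p.ω 0 Z 0)
      - (((kapH K a (a + d) * P1G (K.s.lev (a + d) a) (Step.alpha K.p.ω) Γ : ℝ) : ℂ) * s
          + ((kapH K a (a + d) * P2G (K.s.lev (a + d) a) K.c.R (Step.alpha K.p.ω) Γ : ℝ) : ℂ) * s ^ 2)
      = (kapH K a (a + d) : ℂ) * (Eter (K.s.T (a + d)) Γ K.p.ω 1 Z 0 / Eter (K.s.T (a + d)) Γ K.p.ω 0 Z 0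
          - ((P1G (K.s.lev (a + d) a) (Step.alpha K.p.ω) Γ : ℝ) * s + (P2G (K.s.lev (a + d) a) K.c.R (Step.alpha K.p.ω) Γ : ℝ) * s ^ 2)) := by
    push_cast; ring
  rw [e3, norm_mul, Complex.norm_real, Real.norm_eq_abs, abs_of_pos (kapH_pos K a (a + d)), mul_assoc]
  exact mul_le_mul_of_nonneg_left h1 (kapH_pos K a (a + d)).le

/-! ## 4. The block sums -/

/-- the recursion of `ℓ_j` from the summability alone -/
theorem l53_ellK_rec (s : Sc) (j : ℕ) (hsum : Summable fun i => delK s (j + i)) :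
    ellK s j = ((2 : ℝ) ^ s.ℓ) ^ 2 * Real.exp (-k0 * shell (s.T (j + 1)) Fam.entry (s.L ^ j) (s.L ^ (j + 1)) (org _) (org _) / 2) * ellK s (j + 1) := by
  have h1 : ∑' i, delK s (j + i) = delK s j + ∑' i, delK s (j + 1 + i) := by
    rw [hsum.tsum_eq_zero_add]
    simp only [add_zero]
    congr 1
    refine tsum_congr fun i => ?_
    congr 1
    omega
  unfold ellK
  rw [h1, mul_add, Real.exp_add]
  congr 1
  have h3 : ((2 : ℝ) ^ s.ℓ) ^ 2 = Real.exp (2 * (s.ℓ * Real.log 2)) := by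
    rw [← Real.log_pow, show (2 : ℝ) * Real.log (2 ^ s.ℓ) = ((2 : ℕ) : ℝ) * Real.log (2 ^ s.ℓ) by norm_num, ← Real.log_pow,
      Real.exp_log (by positivity)]
  rw [h3, ← Real.exp_add]
  congr 1
  unfold delK k0
  have := Real.pi_pos.ne'
  field_simp
  ring

/-- the concrete `ℓ_j` is the abstract one (`B10.ell_unique`) -/
theorem ell_eq (K : Cfg) (𝓡 : Reg K.s) (hF : K.F = Fam.entry) (hω : K.p.ω = ω8) (hA : 0 < K.p.A) (j0 : ℕ) (o : K.Ops 𝓡) (κr : B10.RawC) (C1 : ℝ)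
    (hraw : B10.RawOK κr (K.raw 𝓡 hA j0 o)) (nf : B10.NF (K.raw 𝓡 hA j0 o)) (hb : B10.BalOK κr C1 (K.raw 𝓡 hA j0 o) nf)
    (hsum : ∀ j, Summable fun i => delK K.s (j + i)) (j : ℕ) (hj : j0 ≤ j) : nf.ell j = (ellK K.s j : ℂ) := by
  have hrec : ∀ j, ellK K.s j = K.lam 𝓡 j * ellK K.s (j + 1) := fun j => by
    rw [l53_ellK_rec K.s j (hsum j)]
    congr 1
    show _ = ((2 : ℝ) ^ K.s.ℓ) ^ 2 * Real.exp (-(Step.alpha K.p.ω) ^ 2 * shell (K.s.T (j + 1)) K.F (K.s.L ^ j) (K.s.L ^ (j + 1)) (org _) (org _) / 2)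
    have := al8_sq
    unfold al8 at this
    rw [hω, hF, this]
  have l : Tendsto nf.ell atTop (𝓝 1) := by
    rw [tendsto_iff_norm_sub_tendsto_zero]
    have h0 : Tendsto (fun j : ℕ => C1 * Real.exp (-κr.c * j)) atTop (𝓝 0) := by
      have h1 : Tendsto (fun j : ℕ => κr.c * (j : ℝ)) atTop atTop := tendsto_natCast_atTop_atTop.const_mul_atTop κr.hc
      have h2 := (Real.tendsto_exp_neg_atTop_nhds_zero.comp h1).const_mul C1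
      simp only [mul_zero] at h2
      refine h2.congr fun j => ?_
      simp only [Function.comp, neg_mul]
    exact squeeze_zero' (Eventually.of_forall fun _ => norm_nonneg _)
      (eventually_atTop.2 ⟨j0, fun j hj => (hb.ell_bd j hj).1⟩) h0
  have l' : Tendsto (fun j => (ellK K.s j : ℂ)) atTop (𝓝 1) := by
    have h1 : Tendsto (fun j => ∑' i, delK K.s (j + i)) atTop (𝓝 0) := by
      refine (tendsto_sum_nat_add (delK K.s)).congr fun j => ?_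
      exact tsum_congr fun i => by rw [add_comm]
    have h2 : Tendsto (fun j => ellK K.s j) atTop (𝓝 1) := by
      have := (Real.continuous_exp.tendsto _).comp (h1.const_mul (-(k0 / 2)))
      rw [mul_zero, Real.exp_zero] at this
      exact this
    have := (Complex.continuous_ofReal.tendsto 1).comp h2
    rw [Complex.ofReal_one] at this
    exact this
  exact B10.ell_unique κr _ hraw nf.ell (fun j => (ellK K.s j : ℂ)) hb.ell_rec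
    (fun j _ => by
      show (ellK K.s j : ℂ) = ((K.lam 𝓡 j : ℝ) : ℂ) * (ellK K.s (j + 1) : ℂ)
      rw [hrec j]
      push_cast
      rfl) l l' j hj

/-- `zz`: the accumulated coefficient is `-T (j, j + D)` up to a uniform constant -/
theorem zz_block (κr : B10.RawC) (C1 : ℝ) : ∃ C : ℝ, ∀ (K : Cfg), K.F = Fam.entry → K.p.ω = ω8 → ∀ (𝓡 : Reg K.s) (j0 : ℕ) (hA : 0 < K.p.A) (o : K.Ops 𝓡),
    B10.RawOK κr (K.raw 𝓡 hA j0 o) → B10.TorOK κr j0 (K.tor0 𝓡 o) → K.CopyOK 𝓡 j0 κr.ρ → K.StopOK 𝓡 j0 κr.ρ →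
    (∀ j, Summable fun i => delK K.s (j + i)) →
    ∀ (nf : B10.NF (K.raw 𝓡 hA j0 o)), B10.BalOK κr C1 (K.raw 𝓡 hA j0 o) nf → ∀ j D : ℕ, j0 ≤ j → 𝓡.hmin ≤ j + D →
      ‖∑ k ∈ Finset.range D, nf.bzz (j + k) + (Tn K.s K.c.R j (j + D) : ℂ)‖ ≤ C := by
  obtain ⟨C, hC⟩ := B10.jet_zz κr C1
  refine ⟨|C| * (κr.C + 1) * 4, ?_⟩
  intro K hF hω 𝓡 j0 hA o hraw htor hcopy hch hsum nf hb j D hj hm
  have hω0 : 0 < K.p.ω := by
    rw [hω]; unfold ω8 k0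
    have := Real.pi_pos
    positivity
  obtain ⟨Kc, hKc⟩ := rV_expand K 𝓡 hF hω0 hA j0 o κr C1 hraw htor nf hb hch hcopy j D hj hm
  have h1 := hC (K.raw 𝓡 hA j0 o) nf (K.tor0 𝓡 o) hraw hb htor j D hj _ Kc hKc
  have hell : nf.ell j = (ellK K.s j : ℂ) := ell_eq K 𝓡 hF hω hA j0 o κr C1 hraw nf hb hsum j hj
  have hkV : (K.tor0 𝓡 o).kV (j + D) = kVs K.s (j + D) := rfl
  have hkV1 : 1 / κr.C ≤ kVs K.s (j + D) := by
    rw [← hkV]; exact htor.kV_bd (j + D) (by omega)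
  have hCpos : 0 < κr.C := lt_of_lt_of_le one_pos κr.hC
  have hkVpos : 0 < kVs K.s (j + D) := lt_of_lt_of_le (by positivity) hkV1
  have hl : (1 / 2 : ℝ) ≤ |ellK K.s j| := by
    have h2 := (hb.ell_bd j hj).2
    rw [hell] at h2
    have h3 : ‖((ellK K.s j : ℝ) : ℂ) - 1‖ = |ellK K.s j - 1| := by
      rw [← Complex.ofReal_one, ← Complex.ofReal_sub, Complex.norm_real, Real.norm_eq_abs]
    rw [h3] at h2
    have h4 : |(1 : ℝ)| - |ellK K.s j| ≤ |1 - ellK K.s j| := abs_sub_abs_le_abs_sub _ _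
    rw [abs_one, abs_sub_comm] at h4
    linarith
  have hal : Step.alpha K.p.ω = al8 := by rw [hω]; rfl
  have hG : Rdo.Gge K j (j + D) = Gk K.s (j + D) j := by unfold Rdo.Gge Gk; rw [hF]
  rw [hkV, hell, hal, hG, al8_sq] at h1
  set N : ℝ := NsepG (K.s.lev (j + D) j) K.c.R al8 (Gk K.s (j + D) j) (cos1 _) with hN
  set kv : ℝ := kVs K.s (j + D) with hkv
  set l : ℝ := ellK K.s j with hl'
  set S : ℂ := ∑ k ∈ Finset.range D, nf.bzz (j + k) with hS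
  have hl0 : l ≠ 0 := by
    intro h0; rw [h0, abs_zero] at hl; linarith
  have hT : Tn K.s K.c.R j (j + D) = k0 / 4 * N / (kv * l ^ 2) := rfl
  have e1 : (kv : ℂ) * (l : ℂ) ^ 2 * S - ((-(k0 / 4) * N : ℝ) : ℂ) = ((kv * l ^ 2 : ℝ) : ℂ) * (S + (Tn K.s K.c.R j (j + D) : ℂ)) := by
    rw [hT]
    have hkc : (kv : ℂ) ≠ 0 := by exact_mod_cast hkVpos.ne'
    have hlc : (l : ℂ) ≠ 0 := by exact_mod_cast hl0
    push_cast
    field_simp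
    ring
  rw [e1, norm_mul, Complex.norm_real, Real.norm_eq_abs] at h1
  have hpos : 0 < kv * l ^ 2 := by positivity
  rw [abs_of_pos hpos] at h1
  have hl2 : (1 / 4 : ℝ) ≤ l ^ 2 := by
    have : l ^ 2 = |l| ^ 2 := (sq_abs l).symm
    rw [this]; nlinarith
  have h5 : ‖S + (Tn K.s K.c.R j (j + D) : ℂ)‖ ≤ C * (1 + kv) / (kv * l ^ 2) := by
    rw [le_div_iff₀ hpos]; linarith
  refine h5.trans ?_
  have h6 : C * (1 + kv) / (kv * l ^ 2) ≤ |C| * (1 + kv) / (kv * l ^ 2) := by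
    apply div_le_div_of_nonneg_right _ hpos.le
    exact mul_le_mul_of_nonneg_right (le_abs_self C) (by linarith)
  refine h6.trans ?_
  have h7 : (1 + kv) / (kv * l ^ 2) ≤ (κr.C + 1) * 4 := by
    rw [div_le_iff₀ hpos]
    have h8 : 1 ≤ κr.C * kv := by
      have := (div_le_iff₀' hCpos).1 hkV1
      linarith
    nlinarith [mul_nonneg hCpos.le hkVpos.le]
  calc |C| * (1 + kv) / (kv * l ^ 2) = |C| * ((1 + kv) / (kv * l ^ 2)) := by ring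
    _ ≤ |C| * ((κr.C + 1) * 4) := mul_le_mul_of_nonneg_left h7 (abs_nonneg C)
    _ = |C| * (κr.C + 1) * 4 := by ring

/-- `tz`: the accumulated coefficient is `-2 D log L` up to a uniform constant -/
theorem tz_block (ℓ : ℕ) (hℓ : 1 ≤ ℓ) (R : ℕ) : ∃ D1 : ℕ, ∀ (D0 : ℕ) (hD : 0 < D0), D1 ≤ D0 → ∀ (κr : B10.RawC) (C1 : ℝ), ∃ C : ℝ,
    ∀ (K : Cfg), K.s = ⟨ℓ, D0, hD⟩ → K.c.R = R → K.F = Fam.entry → K.p.ω = ω8 → ∀ (𝓡 : Reg K.s) (j0 : ℕ) (hA : 0 < K.p.A) (o : K.Ops 𝓡),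
    B10.RawOK κr (K.raw 𝓡 hA j0 o) → B10.TorOK κr j0 (K.tor0 𝓡 o) →
    (∀ h, j0 ≤ h → ∀ X ∈ Metric.ball (0 : (ℂ × ℂ) × K.To 𝓡 h h) κr.ρ, ‖Rdo.rP0 K 𝓡 h X - K.kP h * X.1.2‖ ≤ κr.C * (‖X.2‖ + ‖X‖ ^ 2)) →
    (∀ h, j0 ≤ h → 1 / κr.C ≤ K.kP h ∧ K.kP h ≤ κr.C) →
    K.CopyOK 𝓡 j0 κr.ρ → K.StopOK 𝓡 j0 κr.ρ →
    ∀ (nf : B10.NF (K.raw 𝓡 hA j0 o)), B10.BalOK κr C1 (K.raw 𝓡 hA j0 o) nf → ∀ j D : ℕ, j0 ≤ j → 𝓡.hmin ≤ j + D →
      ‖∑ k ∈ Finset.range D, nf.btz (j + k) + ((2 * (D * (ℓ * Real.log 2)) : ℝ) : ℂ)‖ ≤ C := by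
  obtain ⟨D1, hnear⟩ := tz_near ℓ hℓ R
  obtain ⟨Cc, hcac⟩ := cac_diag ℓ hℓ
  refine ⟨max D1 2, ?_⟩
  intro D0 hD hD1 κr C1
  obtain ⟨Cn, hnear⟩ := hnear D0 hD (le_trans (le_max_left _ _) hD1)
  obtain ⟨Cj, hjet⟩ := B10.jet_tz κr C1
  refine ⟨3 * |Cj| * (κr.C + 1) + Cn + k0 / 2 * Cc + 2 * |Real.log D0|, ?_⟩
  intro K hs hR hF hω 𝓡 j0 hA o hraw htor hrP hkP hcopy hch nf hb j D hj hm
  have hω0 : 0 < K.p.ω := by
    rw [hω]; unfold ω8 k0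
    have := Real.pi_pos
    positivity
  obtain ⟨Kc, hKc⟩ := rP_expand K 𝓡 hF hω0 hA j0 o κr C1 hraw htor nf hb hch hcopy j D hj hm
  obtain ⟨hp1, hp2⟩ := hjet (K.raw 𝓡 hA j0 o) nf (K.tor0 𝓡 o) hraw hb htor (Rdo.rP0 K 𝓡) K.kP hrP j D hj _ _ Kc hKc
  have hal : Step.alpha K.p.ω = al8 := by rw [hω]; rfl
  have hG : Rdo.Gge K j (j + D) = Gk K.s (j + D) j := by unfold Rdo.Gge Gk; rw [hF]
  rw [hal, hG] at hp1 hp2
  rw [hR] at hp2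
  -- kernel facts, transported to `K.s`
  have hn : 0 < P1G (K.s.lev (j + D) j) al8 (Gk K.s (j + D) j) ∧
      |P2G (K.s.lev (j + D) j) R al8 (Gk K.s (j + D) j) / P1G (K.s.lev (j + D) j) al8 (Gk K.s (j + D) j)
        + k0 / 2 * (Gk K.s (j + D) j * lap (K.s.T (j + D)) * Gk K.s (j + D) j) (org _) (org _)| ≤ Cn := by
    rw [hs]; exact hnear j (j + D) (by omega)
  have hc : |(Gk K.s (j + D) j * lap (K.s.T (j + D)) * Gk K.s (j + D) j) (org _) (org _)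
      - (((j + D - j : ℕ) : ℝ) * (ℓ * Real.log 2) + Real.log K.s.D0) / (2 * Real.pi)| ≤ Cc :=
    hcac K.s (by rw [hs]) (by rw [hs]; exact le_trans (le_max_right _ _) hD1) j (j + D) (by omega) _ rfl
  have hD0 : K.s.D0 = D0 := by rw [hs]
  rw [hD0, Nat.add_sub_cancel_left] at hc
  -- the factor of the constant modes cancels in the ratio
  have hkap := kapH_pos K j (j + D)
  have hn : 0 < kapH K j (j + D) * P1G (K.s.lev (j + D) j) al8 (Gk K.s (j + D) j) ∧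
      |kapH K j (j + D) * P2G (K.s.lev (j + D) j) R al8 (Gk K.s (j + D) j) / (kapH K j (j + D) * P1G (K.s.lev (j + D) j) al8 (Gk K.s (j + D) j))
        + k0 / 2 * (Gk K.s (j + D) j * lap (K.s.T (j + D)) * Gk K.s (j + D) j) (org _) (org _)| ≤ Cn := by
    rw [mul_div_mul_left _ _ hkap.ne']
    exact ⟨mul_pos hkap hn.1, hn.2⟩
  set p1 : ℝ := kapH K j (j + D) * P1G (K.s.lev (j + D) j) al8 (Gk K.s (j + D) j) with hp1'
  set p2 : ℝ := kapH K j (j + D) * P2G (K.s.lev (j + D) j) R al8 (Gk K.s (j + D) j) with hp2'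
  set gag : ℝ := (Gk K.s (j + D) j * lap (K.s.T (j + D)) * Gk K.s (j + D) j) (org _) (org _) with hgag
  set S : ℂ := ∑ k ∈ Finset.range D, nf.btz (j + k) with hS
  obtain ⟨hp1pos, hn2⟩ := hn
  have hCpos : 0 < κr.C := lt_of_lt_of_le one_pos κr.hC
  obtain ⟨hk1, hk2⟩ := hkP (j + D) (by omega)
  have hkpos : 0 < K.kP (j + D) := lt_of_lt_of_le (by positivity) hk1
  -- lower bound for `p1`
  have hla : (1 / 2 : ℝ) ≤ ‖nf.ell j‖ := by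
    have h2 := (hb.ell_bd j hj).2
    have h4 : ‖(1 : ℂ)‖ - ‖nf.ell j‖ ≤ ‖1 - nf.ell j‖ := norm_sub_norm_le _ _
    rw [norm_one, norm_sub_rev] at h4
    linarith
  have hlh : ‖nf.ell (j + D)‖ ≤ 3 / 2 ∧ 0 < ‖nf.ell (j + D)‖ := by
    have h2 := (hb.ell_bd (j + D) (le_trans hj (Nat.le_add_right _ _))).2
    have h4 : ‖nf.ell (j + D)‖ - ‖(1 : ℂ)‖ ≤ ‖nf.ell (j + D) - 1‖ := norm_sub_norm_le _ _
    have h5 : ‖(1 : ℂ)‖ - ‖nf.ell (j + D)‖ ≤ ‖1 - nf.ell (j + D)‖ := norm_sub_norm_le _ _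
    rw [norm_one] at h4
    rw [norm_one, norm_sub_rev] at h5
    constructor <;> linarith
  have hp1lo : K.kP (j + D) / 3 ≤ p1 := by
    have h1 : ‖(p1 : ℂ)‖ = K.kP (j + D) * ‖nf.ell j‖ / ‖nf.ell (j + D)‖ := by
      rw [hp1, norm_div, norm_mul, Complex.norm_real, Real.norm_eq_abs, abs_of_pos hkpos]
    rw [Complex.norm_real, Real.norm_eq_abs, abs_of_pos hp1pos] at h1
    rw [h1, div_le_div_iff₀ (by norm_num) hlh.2]
    nlinarith [hlh.1, hla, hkpos]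
  -- `S - p2 / p1`
  have e1 : (p1 : ℂ) * S - (p2 : ℂ) = (p1 : ℂ) * (S - ((p2 / p1 : ℝ) : ℂ)) := by
    have : (p1 : ℂ) ≠ 0 := by exact_mod_cast hp1pos.ne'
    push_cast
    field_simp
  rw [e1, norm_mul, Complex.norm_real, Real.norm_eq_abs, abs_of_pos hp1pos, abs_of_pos hkpos] at hp2
  have h3 : ‖S - ((p2 / p1 : ℝ) : ℂ)‖ ≤ 3 * |Cj| * (κr.C + 1) := by
    have h4 : p1 * ‖S - ((p2 / p1 : ℝ) : ℂ)‖ ≤ |Cj| * (1 + K.kP (j + D)) :=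
      hp2.trans (mul_le_mul_of_nonneg_right (le_abs_self Cj) (by linarith))
    have h5 : 1 ≤ κr.C * K.kP (j + D) := by
      have := (div_le_iff₀' hCpos).1 hk1
      linarith
    have h6 : 1 + K.kP (j + D) ≤ 3 * (κr.C + 1) * p1 := by nlinarith
    have h7 : p1 * ‖S - ((p2 / p1 : ℝ) : ℂ)‖ ≤ p1 * (3 * |Cj| * (κr.C + 1)) := by
      calc p1 * ‖S - ((p2 / p1 : ℝ) : ℂ)‖ ≤ |Cj| * (1 + K.kP (j + D)) := h4
        _ ≤ |Cj| * (3 * (κr.C + 1) * p1) := mul_le_mul_of_nonneg_left h6 (abs_nonneg _)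
        _ = p1 * (3 * |Cj| * (κr.C + 1)) := by ring
    exact le_of_mul_le_mul_left h7 hp1pos
  -- the real number `p2 / p1 + 2 D log L`
  have h8 : |p2 / p1 + 2 * (D * (ℓ * Real.log 2))| ≤ Cn + k0 / 2 * Cc + 2 * |Real.log D0| := by
    have hk0 : 0 < k0 := by unfold k0; have := Real.pi_pos; positivity
    have e2 : p2 / p1 + 2 * (D * (ℓ * Real.log 2))
        = (p2 / p1 + k0 / 2 * gag) - k0 / 2 * (gag - ((D : ℝ) * (ℓ * Real.log 2) + Real.log D0) / (2 * Real.pi)) - 2 * Real.log D0 := by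
      unfold k0
      have := Real.pi_pos.ne'
      field_simp
      ring
    rw [e2]
    have a1 := abs_sub (p2 / p1 + k0 / 2 * gag - k0 / 2 * (gag - ((D : ℝ) * (ℓ * Real.log 2) + Real.log D0) / (2 * Real.pi))) (2 * Real.log D0)
    have a2 := abs_sub (p2 / p1 + k0 / 2 * gag) (k0 / 2 * (gag - ((D : ℝ) * (ℓ * Real.log 2) + Real.log D0) / (2 * Real.pi)))
    have a3 : |k0 / 2 * (gag - ((D : ℝ) * (ℓ * Real.log 2) + Real.log D0) / (2 * Real.pi))| ≤ k0 / 2 * Cc := by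
      rw [abs_mul, abs_of_pos (by positivity : 0 < k0 / 2)]
      exact mul_le_mul_of_nonneg_left hc (by positivity)
    have a4 : |2 * Real.log D0| = 2 * |Real.log D0| := by rw [abs_mul]; norm_num
    linarith
  calc ‖S + ((2 * (D * (ℓ * Real.log 2)) : ℝ) : ℂ)‖
      = ‖(S - ((p2 / p1 : ℝ) : ℂ)) + ((p2 / p1 + 2 * (D * (ℓ * Real.log 2)) : ℝ) : ℂ)‖ := by
        congr 1; push_cast; ring
    _ ≤ ‖S - ((p2 / p1 : ℝ) : ℂ)‖ + ‖((p2 / p1 + 2 * (D * (ℓ * Real.log 2)) : ℝ) : ℂ)‖ := norm_add_le _ _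
    _ ≤ 3 * |Cj| * (κr.C + 1) + (Cn + k0 / 2 * Cc + 2 * |Real.log D0|) := by
        rw [Complex.norm_real, Real.norm_eq_abs]; linarith
    _ = _ := by ring

/-- **THE EXPORT OF BP-F5-L53** = the field `coef` of `B8.Sys8`: bounded block sums, `b_* = 2 log L`, `H = Hq8 > 0` (a constant of the kernels only) -/
theorem coef_block (ℓ : ℕ) (hℓ : 1 ≤ ℓ) (R : ℕ) (hR : pp < R) : ∃ D1 : ℕ, ∀ (D0 : ℕ) (hD : 0 < D0), D1 ≤ D0 → 0 < Hq8 ⟨ℓ, D0, hD⟩ R ∧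
    ∀ κr : B10.RawC, ∃ (jmin : ℕ) (Cb : ℝ → ℝ),
    ∀ (K : Cfg), K.s = ⟨ℓ, D0, hD⟩ → K.c.R = R → K.F = Fam.entry → K.p.ω = ω8 → ∀ (𝓡 : Reg K.s) (j0 : ℕ) (hA : 0 < K.p.A) (o : K.Ops 𝓡), jmin ≤ j0 →
    B10.RawOK κr (K.raw 𝓡 hA j0 o) → B10.TorOK κr j0 (K.tor0 𝓡 o) →
    (∀ h, j0 ≤ h → ∀ X ∈ Metric.ball (0 : (ℂ × ℂ) × K.To 𝓡 h h) κr.ρ, ‖Rdo.rP0 K 𝓡 h X - K.kP h * X.1.2‖ ≤ κr.C * (‖X.2‖ + ‖X‖ ^ 2)) →
    (∀ h, j0 ≤ h → 1 / κr.C ≤ K.kP h ∧ K.kP h ≤ κr.C) →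
    K.CopyOK 𝓡 j0 κr.ρ → K.StopOK 𝓡 j0 κr.ρ →
    ∀ (nf : B10.NF (K.raw 𝓡 hA j0 o)) (C1 : ℝ), B10.BalOK κr C1 (K.raw 𝓡 hA j0 o) nf →
      CoefBlock (K.raw 𝓡 hA j0 o) nf (Hq8 ⟨ℓ, D0, hD⟩ R) (2 * (ℓ * Real.log 2)) (Cb C1) := by
  obtain ⟨Da, hpos⟩ := Hq8_pos ℓ hℓ R hR
  obtain ⟨Db, hlin⟩ := Tn_linear ℓ hℓ R hR
  obtain ⟨Dc, htz⟩ := tz_block ℓ hℓ R
  obtain ⟨Ce, Dd, hell⟩ := ellK_spec ℓ hℓ
  refine ⟨max (max Da Db) (max Dc Dd), ?_⟩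
  intro D0 hD hD1
  have hDa : Da ≤ D0 := le_trans (le_trans (le_max_left _ _) (le_max_left _ _)) hD1
  have hDb : Db ≤ D0 := le_trans (le_trans (le_max_right _ _) (le_max_left _ _)) hD1
  have hDc : Dc ≤ D0 := le_trans (le_trans (le_max_left _ _) (le_max_right _ _)) hD1
  have hDd : Dd ≤ D0 := le_trans (le_trans (le_max_right _ _) (le_max_right _ _)) hD1
  refine ⟨hpos D0 hD hDa, ?_⟩
  intro κr
  obtain ⟨jmin, Cl, hlin⟩ := hlin D0 hD hDb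
  choose Cz hCz using fun C1 : ℝ => zz_block κr C1
  choose Ct hCt using fun C1 : ℝ => htz D0 hD hDc κr C1
  refine ⟨jmin, fun C1 => max (2 * (2 * Cz C1 + Cl (Cz C1))) (2 * Ct C1), ?_⟩
  intro K hs hRK hF hω 𝓡 j0 hA o hj0 hraw htor hrP hkP hcopy hch nf C1 hb
  have hsum : ∀ j, Summable fun i => delK K.s (j + i) := fun j =>
    (hell K.s (by rw [hs]) (by rw [hs]; exact hDd) j).2.2.2
  have hz0 := hCz C1 K hF hω 𝓡 j0 hA o hraw htor hcopy hch hsum nf hb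
  have ht := hCt C1 K hs hRK hF hω 𝓡 j0 hA o hraw htor hrP hkP hcopy hch nf hb
  have hz : ∀ j D : ℕ, j0 ≤ j → 𝓡.hmin ≤ j + D →
      ‖∑ k ∈ Finset.range D, nf.bzz (j + k) + (Tn ⟨ℓ, D0, hD⟩ R j (j + D) : ℂ)‖ ≤ Cz C1 := by
    intro j D hj hm
    have h := hz0 j D hj hm
    rw [hRK] at h
    have e : Tn K.s R j (j + D) = Tn ⟨ℓ, D0, hD⟩ R j (j + D) := by rw [hs]
    rwa [e] at h
  -- the real sequence
  have hH : ∀ j D : ℕ, j0 ≤ j → 𝓡.hmin ≤ j + D →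
      |∑ i ∈ Finset.range D, (-(nf.bzz (j + i)).re) - Tn ⟨ℓ, D0, hD⟩ R j (j + D)| ≤ Cz C1 := by
    intro j D hj hm
    have h1 := hz j D hj hm
    have h2 := Complex.abs_re_le_norm (∑ k ∈ Finset.range D, nf.bzz (j + k) + (Tn ⟨ℓ, D0, hD⟩ R j (j + D) : ℂ))
    rw [Complex.add_re, Complex.ofReal_re, Complex.re_sum] at h2
    have e : ∑ i ∈ Finset.range D, (-(nf.bzz (j + i)).re) - Tn ⟨ℓ, D0, hD⟩ R j (j + D)
        = -(∑ i ∈ Finset.range D, (nf.bzz (j + i)).re + Tn ⟨ℓ, D0, hD⟩ R j (j + D)) := by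
      rw [Finset.sum_neg_distrib]; ring
    rw [e, abs_neg]
    exact h2.trans h1
  have hL := hlin j0 𝓡.hmin (fun i => -(nf.bzz i).re) (Cz C1) hj0 hH
  -- block sums which end at a retained stop
  have hzz : ∀ j D : ℕ, j0 ≤ j → 𝓡.hmin ≤ j + D →
      ‖∑ k ∈ Finset.range D, (nf.bzz (j + k) + ((Hq8 ⟨ℓ, D0, hD⟩ R : ℝ) : ℂ))‖ ≤ 2 * Cz C1 + Cl (Cz C1) := by
    intro j D hj hm
    rw [Finset.sum_add_distrib, Finset.sum_const, Finset.card_range]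
    have h1 := hz j D hj hm
    have h2 := hH j D hj hm
    have h3 := hL j D hj
    have h4 : |Hq8 ⟨ℓ, D0, hD⟩ R * D - Tn ⟨ℓ, D0, hD⟩ R j (j + D)| ≤ Cz C1 + Cl (Cz C1) := by
      have := abs_sub_le (Hq8 ⟨ℓ, D0, hD⟩ R * D) (∑ i ∈ Finset.range D, (-(nf.bzz (j + i)).re)) (Tn ⟨ℓ, D0, hD⟩ R j (j + D))
      rw [abs_sub_comm (Hq8 ⟨ℓ, D0, hD⟩ R * D) (∑ i ∈ Finset.range D, (-(nf.bzz (j + i)).re))] at this
      linarith
    have e : ∑ k ∈ Finset.range D, nf.bzz (j + k) + D • ((Hq8 ⟨ℓ, D0, hD⟩ R : ℝ) : ℂ)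
        = (∑ k ∈ Finset.range D, nf.bzz (j + k) + (Tn ⟨ℓ, D0, hD⟩ R j (j + D) : ℂ))
          + ((Hq8 ⟨ℓ, D0, hD⟩ R * D - Tn ⟨ℓ, D0, hD⟩ R j (j + D) : ℝ) : ℂ) := by
      rw [nsmul_eq_mul]; push_cast; ring
    rw [e]
    refine (norm_add_le _ _).trans ?_
    rw [Complex.norm_real, Real.norm_eq_abs]
    linarith
  have htz' : ∀ j D : ℕ, j0 ≤ j → 𝓡.hmin ≤ j + D →
      ‖∑ k ∈ Finset.range D, (nf.btz (j + k) + ((2 * (ℓ * Real.log 2) : ℝ) : ℂ))‖ ≤ Ct C1 := by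
    intro j D hj hm
    rw [Finset.sum_add_distrib, Finset.sum_const, Finset.card_range]
    have h1 := ht j D hj hm
    have e : ∑ k ∈ Finset.range D, nf.btz (j + k) + D • ((2 * (ℓ * Real.log 2) : ℝ) : ℂ)
        = ∑ k ∈ Finset.range D, nf.btz (j + k) + ((2 * (D * (ℓ * Real.log 2)) : ℝ) : ℂ) := by
      rw [nsmul_eq_mul]; push_cast; ring
    rw [e]
    exact h1
  -- all block sums: subtract two block sums which end at the same retained stop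
  have hall : ∀ (f : ℕ → ℂ) (B : ℝ), (∀ j D : ℕ, j0 ≤ j → 𝓡.hmin ≤ j + D → ‖∑ k ∈ Finset.range D, f (j + k)‖ ≤ B) →
      ∀ j j' : ℕ, j0 ≤ j → j ≤ j' → ‖∑ i ∈ Finset.Ico j j', f i‖ ≤ 2 * B := by
    intro f B hf j j' hj hjj'
    have hI : ∀ a b : ℕ, j0 ≤ a → a ≤ b → 𝓡.hmin ≤ b → ‖∑ i ∈ Finset.Ico a b, f i‖ ≤ B := by
      intro a b ha hab hb'
      obtain ⟨D, rfl⟩ := Nat.exists_eq_add_of_le hab
      rw [Finset.sum_Ico_eq_sum_range, Nat.add_sub_cancel_left]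
      exact hf a D ha hb'
    have h1 := hI j (max j' 𝓡.hmin) hj (le_trans hjj' (le_max_left _ _)) (le_max_right _ _)
    have h2 := hI j' (max j' 𝓡.hmin) (le_trans hj hjj') (le_max_left _ _) (le_max_right _ _)
    have e := Finset.sum_Ico_consecutive f hjj' (le_max_left j' 𝓡.hmin)
    have e2 : ∑ i ∈ Finset.Ico j j', f i = ∑ i ∈ Finset.Ico j (max j' 𝓡.hmin), f i - ∑ i ∈ Finset.Ico j' (max j' 𝓡.hmin), f i := by
      rw [← e]; ring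
    rw [e2]
    refine (norm_sub_le _ _).trans ?_
    linarith
  intro j j' hj hjj'
  have hj : j0 ≤ j := hj
  constructor
  · exact (hall _ _ hzz j j' hj hjj').trans (le_max_left _ _)
  · exact (hall _ _ htz' j j' hj hjj').trans (le_max_right _ _)

end

end Claimed.Agent.R285.B8
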