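import Claimed.Agent.R285.Map.PackC
import Claimed.Agent.R285.Map.Chain
import Claimed.Agent.R285.Map.CoefTop
import Claimed.Agent.R285.Rdo.Main
import Claimed.Agent.R285.Rdo.Gok

/-!
# ROW 285, **THE EXPORT OF [B] P8.3 + P8.5 TO `B10`, `Flow`, `Asm`**: `Pack.Sys8`, `Pack.raw_system`      (chief helper114)

ASSEMBLY of the producers (no `sorry` of its own)
* MAP-PACK  (`Map/PackA-C.lean`, helper114): `Pack.map_inputs` (`PackIn`, `ExpIn`, `LamIn`), `Pack.pk_mapSys : MapSys`;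
* CHAIN     (`Map/Chain.lean`, helper38): `Pack.pk_chainOK : Rdo.ChainOK` from `PackIn`, `ExpIn`;
* READOUT   (`Rdo/*`, helper16): `rdo_gok`, `rdo_r0` (bounds of the basic read-outs `Rdo.rV0`, `Rdo.rP0`), `rdo_mult` (multipliers), `rdo_pure`, `rdo_stop_step`;
* COEF      (`Map/Coef.lean`, `Map/CoefTop.lean`, helper177): `B8.coef_block` (bounded block sums).
`Pack.Sys8`, `Pack.raw_system` REPLACE `B8.Sys8`, `B8.raw_system` of `Read/B8b.lean` (same parameter lists), TRIMMED to what the consumers use (`Asm/Concrete.lean`, `Asm/EntSp.lean`, READOUT, OBS):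
the read-outs `Cfg.rV`, `Cfg.rP` (complex source, complex logarithm) of `Read/B8b.lean` do NOT occur any more; `tor` is about `Cfg.tor0` (`rV := Rdo.rV0`); `PureOK.resp`, `rV_an`, `rP_an` are dropped (READOUT owns them);
the operators are the canonical ones (`o_eq`).
CHANGES OF THE STATEMENT of `raw_system`: new hypotheses `c.R ≤ c0`, `pp + 4 ≤ c.R`; `0 < C₁`, `1 ≤ A₀`; `D₁` is chosen after `ℓ`; `TermOK` is replaced by `Rdo.TermGeo` (`= TermOK` + separation / measurability of the regulators + whole cells).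
-/

set_option autoImplicit false

namespace Claimed.Agent.R285.Pack

open scoped BigOperators ENNReal NNReal
open Claimed.Agent.R285.RG Claimed.Agent.R285.B8

noncomputable section

/-- everything `B10`, the dynamics, READOUT, ENT-SPACE and OBS need about one tower -/
structure Sys8 (K : Cfg) (𝓡 : Reg K.s) (j0 : ℕ) (hA : 0 < K.p.A) (κr : B10.RawC) (d1 Hq : ℝ) (Cb : ℝ → ℝ) (o : K.Ops 𝓡) : Prop where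
  /-- the operators are the canonical ones -/
  o_eq : o = ops K 𝓡
  /-- MAP-PACK -/
  map : MapSys K 𝓡 j0 hA κr d1
  /-- CHAIN: copying in the `Copy` form on ALL tori, the exact identity of one step, the pure entries -/
  chain : Rdo.ChainOK K 𝓡 j0 κr.ρ d1 κr.C
  /-- the torus data with the BASIC gradient read-out `Rdo.rV0` -/
  tor : B10.TorOK κr j0 (K.tor0 𝓡 o)
  /-- the BASIC phase read-out `Rdo.rP0` -/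
  rP_bd : ∀ h, j0 ≤ h → ∀ X ∈ Metric.ball (0 : (ℂ × ℂ) × K.To 𝓡 h h) κr.ρ, ‖Rdo.rP0 K 𝓡 h X - K.kP h * X.1.2‖ ≤ κr.C * (‖X.2‖ + ‖X‖ ^ 2)
  kP_bd : ∀ h, j0 ≤ h → 1 / κr.C ≤ K.kP h ∧ K.kP h ≤ κr.C
  /-- **P8.5** in the form of bounded block sums; `b_* = 2 log L` -/
  coef : ∀ (nf : B10.NF (K.raw 𝓡 hA j0 o)) (C1 : ℝ), B10.BalOK κr C1 (K.raw 𝓡 hA j0 o) nf →
    CoefBlock (K.raw 𝓡 hA j0 o) nf Hq (2 * (K.s.ℓ * Real.log 2)) (Cb C1)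

/-- `B10.PureOK` without the field `resp` (which belongs to READOUT) -/
structure PureE (κ : B10.RawC) (d1 : ℝ) (F : B10.Raw) (𝒯 : B10.Tor) (e : B10.Curve F) (eT : ∀ j h, ℂ → 𝒯.T j h) : Prop where
  e_an : DifferentiableOn ℂ (e F.j0) (Metric.ball 0 d1)
  e_t : ∀ d ∈ Metric.ball (0 : ℂ) d1, (e F.j0 d).1 = d
  e_R : ∀ d ∈ Metric.ball (0 : ℂ) d1, ‖(e F.j0 d).2.2‖ ≤ κ.C * ‖d‖ ^ 2
  e_S : ∀ d ∈ Metric.ball (0 : ℂ) d1, F.S F.j0 (e F.j0 d) = e F.j0 d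
  e_re : ∀ d ∈ Metric.ball (0 : ℂ) d1, F.K F.j0 (e F.j0 d) = e F.j0 (starRingEnd ℂ d)
  eT_an : ∀ h, F.j0 ≤ h → DifferentiableOn ℂ (eT F.j0 h) (Metric.ball 0 d1)
  eT_bd : ∀ h, F.j0 ≤ h → ∀ d ∈ Metric.ball (0 : ℂ) d1, ‖eT F.j0 h d‖ ≤ κ.C * ‖d‖ ^ 2
  eT_S : ∀ h, F.j0 ≤ h → ∀ d ∈ Metric.ball (0 : ℂ) d1, 𝒯.σT F.j0 h (eT F.j0 h d) = eT F.j0 h d

theorem MapSys.pureE {K : Cfg} {𝓡 : Reg K.s} {j0 : ℕ} {hA : 0 < K.p.A} {κr : B10.RawC} {d1 : ℝ} (M : MapSys K 𝓡 j0 hA κr d1) :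
    PureE κr d1 (K.raw 𝓡 hA j0 (ops K 𝓡)) (K.tor0 𝓡 (ops K 𝓡)) (fun j d => K.eExp 𝓡 j d 0) (fun j h d => K.eExpT 𝓡 j h d 0) where
  e_an := by
    have := (M.e_an j0).comp (pk_diff_inl d1) (pk_mapsTo_ball d1)
    exact this
  e_t := fun _ _ => rfl
  e_R := fun d hd => by
    have := M.e_R j0 d 0 (pk_in_ball hd).1 (pk_in_ball hd).2
    rwa [norm_zero, add_zero] at this
  e_S := fun d hd => by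
    have := M.e_S j0 d 0 (pk_in_ball hd).1 (pk_in_ball hd).2
    rw [neg_zero] at this
    exact Prod.ext rfl (Prod.ext neg_zero this)
  e_re := fun d hd => by
    have := M.e_re j0 d 0 (pk_in_ball hd).1 (pk_in_ball hd).2
    rw [map_zero] at this
    exact Prod.ext rfl (Prod.ext (map_zero _) this)
  eT_an := fun h _ => by
    have := (M.eT_an j0 h).comp (pk_diff_inl d1) (pk_mapsTo_ball d1)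
    exact this
  eT_bd := fun h _ d hd => by
    have := M.eT_bd j0 h d 0 (pk_in_ball hd).1 (pk_in_ball hd).2
    rwa [norm_zero, add_zero] at this
  eT_S := fun h _ d hd => by
    have := M.eT_S j0 h d 0 (pk_in_ball hd).1 (pk_in_ball hd).2
    rwa [neg_zero] at this

namespace Sys8

variable {K : Cfg} {𝓡 : Reg K.s} {j0 : ℕ} {hA : 0 < K.p.A} {κr : B10.RawC} {d1 Hq : ℝ} {Cb : ℝ → ℝ} {o : K.Ops 𝓡}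

/-! ### the fields of the old `B8.Sys8`, for the operators `o` -/

theorem ops (h : Sys8 K 𝓡 j0 hA κr d1 Hq Cb o) : K.OpsOK 𝓡 j0 o := by
  obtain rfl := h.o_eq
  exact
    { σ := fun j a i => by
        show EqOn K.p.h0 (K.plAct 𝓡 (sig K 𝓡 j a) i) _
        rw [h.map.σ_act]
        exact pk_eqOn_refl _ _
      cj := fun j a i => by
        show EqOn K.p.h0 (K.plAct 𝓡 (cjg K 𝓡 j a) i) _
        rw [h.map.cj_act]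
        exact pk_eqOn_refl _ _
      σT := fun j h' a => by
        show EqOn K.p.h0 (K.toAct 𝓡 (sigT K 𝓡 j h' a)) _
        rw [h.map.σT_act]
        exact pk_eqOn_refl _ _ }

theorem raw (h : Sys8 K 𝓡 j0 hA κr d1 Hq Cb o) : B10.RawOK κr (K.raw 𝓡 hA j0 o) := by
  obtain rfl := h.o_eq
  exact h.map.raw

/-- the fields of `B10.PureOK` (except `resp`) for the pure Gaussian entries `z = 0` -/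
theorem pure (h : Sys8 K 𝓡 j0 hA κr d1 Hq Cb o) :
    PureE κr d1 (K.raw 𝓡 hA j0 o) (K.tor0 𝓡 o) (fun j d => K.eExp 𝓡 j d 0) (fun j h d => K.eExpT 𝓡 j h d 0) := by
  obtain rfl := h.o_eq
  exact h.map.pureE

/-! the same, one by one -/

theorem e_an (h : Sys8 K 𝓡 j0 hA κr d1 Hq Cb o) : DifferentiableOn ℂ (fun d : ℂ => K.eExp 𝓡 j0 d 0) (Metric.ball 0 d1) :=
  h.pure.e_an

theorem e_R (h : Sys8 K 𝓡 j0 hA κr d1 Hq Cb o) : ∀ d ∈ Metric.ball (0 : ℂ) d1, ‖(K.eExp 𝓡 j0 d 0).2.2‖ ≤ κr.C * ‖d‖ ^ 2 :=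
  h.pure.e_R

theorem e_S (h : Sys8 K 𝓡 j0 hA κr d1 Hq Cb o) : ∀ d ∈ Metric.ball (0 : ℂ) d1,
    B10.Raw.S (K.raw 𝓡 hA j0 o) (K.raw 𝓡 hA j0 o).j0 (K.eExp 𝓡 j0 d 0) = K.eExp 𝓡 j0 d 0 :=
  h.pure.e_S

theorem e_re (h : Sys8 K 𝓡 j0 hA κr d1 Hq Cb o) : ∀ d ∈ Metric.ball (0 : ℂ) d1,
    B10.Raw.K (K.raw 𝓡 hA j0 o) (K.raw 𝓡 hA j0 o).j0 (K.eExp 𝓡 j0 d 0) = K.eExp 𝓡 j0 (starRingEnd ℂ d) 0 :=
  h.pure.e_re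

theorem eT_an (h : Sys8 K 𝓡 j0 hA κr d1 Hq Cb o) (h' : ℕ) : DifferentiableOn ℂ (fun d : ℂ => K.eExpT 𝓡 j0 h' d 0) (Metric.ball 0 d1) := by
  have := (h.map.eT_an j0 h').comp (pk_diff_inl d1) (pk_mapsTo_ball d1)
  exact this

theorem eT_bd (h : Sys8 K 𝓡 j0 hA κr d1 Hq Cb o) (h' : ℕ) : ∀ d ∈ Metric.ball (0 : ℂ) d1, ‖K.eExpT 𝓡 j0 h' d 0‖ ≤ κr.C * ‖d‖ ^ 2 := fun d hd => by
  have := h.map.eT_bd j0 h' d 0 (pk_in_ball hd).1 (pk_in_ball hd).2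
  rwa [norm_zero, add_zero] at this

theorem eT_S (h : Sys8 K 𝓡 j0 hA κr d1 Hq Cb o) (h' : ℕ) : ∀ d ∈ Metric.ball (0 : ℂ) d1, o.σT j0 h' (K.eExpT 𝓡 j0 h' d 0) = K.eExpT 𝓡 j0 h' d 0 := by
  obtain rfl := h.o_eq
  intro d hd
  have := h.map.eT_S j0 h' d 0 (pk_in_ball hd).1 (pk_in_ball hd).2
  rwa [neg_zero] at this

theorem Ψ_an (h : Sys8 K 𝓡 j0 hA κr d1 Hq Cb o) : ∀ j h', j0 ≤ j → j < h' → DifferentiableOn ℂ (K.Psi 𝓡 j h') (Metric.ball 0 κr.ρ) :=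
  h.map.Ψ_an

theorem Ψ_bd (h : Sys8 K 𝓡 j0 hA κr d1 Hq Cb o) : ∀ j h', j0 ≤ j → j < h' → ∀ X ∈ Metric.ball (0 : (ℂ × ℂ) × K.To 𝓡 j h') κr.ρ,
    ‖K.Psi 𝓡 j h' X‖ ≤ κr.θ * ‖X.2‖ + κr.C * ‖X‖ ^ 2 :=
  h.map.Ψ_bd

theorem σT_inv (h : Sys8 K 𝓡 j0 hA κr d1 Hq Cb o) : ∀ j h' q, o.σT j h' (o.σT j h' q) = q := by
  obtain rfl := h.o_eq
  exact h.map.σT_inv

theorem σT_iso (h : Sys8 K 𝓡 j0 hA κr d1 Hq Cb o) : ∀ j h' q, ‖o.σT j h' q‖ = ‖q‖ := by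
  obtain rfl := h.o_eq
  exact h.map.σT_iso

theorem Ψ_par (h : Sys8 K 𝓡 j0 hA κr d1 Hq Cb o) : ∀ j h', j0 ≤ j → j < h' → ∀ X ∈ Metric.ball (0 : (ℂ × ℂ) × K.To 𝓡 j h') κr.ρ,
    K.Psi 𝓡 j h' (Flow.parX (o.σT j h') X) = o.σT (j + 1) h' (K.Psi 𝓡 j h' X) := by
  obtain rfl := h.o_eq
  exact h.map.Ψ_par

/-- **copying** on the retained tori -/
theorem copy (h : Sys8 K 𝓡 j0 hA κr d1 Hq Cb o) : ∀ j h', j0 ≤ j → ∀ (hj : j < h') (hm : 𝓡.hmin ≤ h'), ∀ (x : ℂ × ℂ × K.Pl 𝓡 j) (a : K.To 𝓡 j h'), ‖x‖ < κr.ρ → ‖a‖ < κr.ρ →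
    EqOn K.p.h0 (cutW K.c0 (K.toAct 𝓡 a)) (K.plAct 𝓡 x.2.2 ⟨h', hj, hm⟩) →
    (K.PhiT 𝓡 h' j hj (x.1, x.2.1, K.toAct 𝓡 a)).1 = (K.Phi 𝓡 j x).1 ∧ (K.PhiT 𝓡 h' j hj (x.1, x.2.1, K.toAct 𝓡 a)).2.1 = (K.Phi 𝓡 j x).2.1 ∧
    EqOn K.p.h0 (K.toAct 𝓡 (K.Psi 𝓡 j h' ((x.1, x.2.1), a))) (K.PhiT 𝓡 h' j hj (x.1, x.2.1, K.toAct 𝓡 a)).2.2 ∧
    ∀ hj' : j + 1 < h', EqOn K.p.h0 (cutW K.c0 (K.toAct 𝓡 (K.Psi 𝓡 j h' ((x.1, x.2.1), a)))) (K.plAct 𝓡 (K.Phi 𝓡 j x).2.2 ⟨h', hj', hm⟩) :=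
  h.map.copy

end Sys8

/-! ## The links -/

/-- `Rdo.ChainOK` is monotone in the constant of the pure entries -/
theorem pk_chain_mono {K : Cfg} {𝓡 : Reg K.s} {j0 : ℕ} {ρ d1 Ce Cc : ℝ} (h : Rdo.ChainOK K 𝓡 j0 ρ d1 Ce) (hC : Ce ≤ Cc) : Rdo.ChainOK K 𝓡 j0 ρ d1 Cc :=
  { h with exp_bd := fun j h' d hd => (h.exp_bd j h' d hd).trans (mul_le_mul_of_nonneg_right hC (by positivity)) }

/-- what READOUT + COEF give for one tower -/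
structure Read8 (K : Cfg) (𝓡 : Reg K.s) (j0 : ℕ) (hA : 0 < K.p.A) (κr : B10.RawC) (Hq : ℝ) (Cb : ℝ → ℝ) : Prop where
  tor : B10.TorOK κr j0 (K.tor0 𝓡 (ops K 𝓡))
  rP_bd : ∀ h, j0 ≤ h → ∀ X ∈ Metric.ball (0 : (ℂ × ℂ) × K.To 𝓡 h h) κr.ρ, ‖Rdo.rP0 K 𝓡 h X - K.kP h * X.1.2‖ ≤ κr.C * (‖X.2‖ + ‖X‖ ^ 2)
  kP_bd : ∀ h, j0 ≤ h → 1 / κr.C ≤ K.kP h ∧ K.kP h ≤ κr.C
  coef : ∀ (nf : B10.NF (K.raw 𝓡 hA j0 (ops K 𝓡))) (C1 : ℝ), B10.BalOK κr C1 (K.raw 𝓡 hA j0 (ops K 𝓡)) nf →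
    CoefBlock (K.raw 𝓡 hA j0 (ops K 𝓡)) nf Hq (2 * (K.s.ℓ * Real.log 2)) (Cb C1)

/-- **READOUT + COEF** = the basic read-outs and [B] P8.5 as bounded block sums, in FLEXIBLE-CONSTANT form: thresholds `ρc, Cc`, then ANY raw constants beyond them. -/
theorem sys8_read (c : Geo) (hpp : pp < c.R) (ℓ : ℕ) (hℓ : 1 ≤ ℓ) : ∃ D1 : ℕ,
    ∀ (cT : ℝ≥0) (c0 : ℕ) (δ κ : ℝ) (h0 : ℝ≥0) (A : ℝ), 0 < δ → 0 < κ → 0 < h0 → 1 ≤ A → ∀ (D0 : ℕ) (hD : 0 < D0), D1 ≤ D0 →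
    ∃ (Hq ρc Cc : ℝ), 0 < Hq ∧ 0 < ρc ∧ ∀ κr : B10.RawC, κr.ρ ≤ ρc → Cc ≤ κr.C → ∃ (jmin : ℕ) (Cb : ℝ → ℝ),
    ∀ (𝓡 : Reg (cfg8 c δ κ h0 A c0 ℓ D0 hD).s) (j0 : ℕ) (d1 : ℝ), jmin ≤ j0 → 0 < d1 →
      (cfg8 c δ κ h0 A c0 ℓ D0 hD).TowerOK 𝓡 j0 → Rdo.TermGeo (cfg8 c δ κ h0 A c0 ℓ D0 hD) 𝓡 j0 cT →
    ∀ hA' : 0 < (cfg8 c δ κ h0 A c0 ℓ D0 hD).p.A, MapSys (cfg8 c δ κ h0 A c0 ℓ D0 hD) 𝓡 j0 hA' κr d1 →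
      Rdo.ChainOK (cfg8 c δ κ h0 A c0 ℓ D0 hD) 𝓡 j0 κr.ρ d1 κr.C → Read8 (cfg8 c δ κ h0 A c0 ℓ D0 hD) 𝓡 j0 hA' κr Hq Cb := by
  obtain ⟨Da, hcb⟩ := coef_block ℓ hℓ c.R hpp
  obtain ⟨Db, hgok⟩ := Rdo.rdo_gok
  obtain ⟨w0, Dc, -, hmult⟩ := Rdo.rdo_mult
  obtain ⟨dst, hdst, hpure⟩ := Rdo.rdo_pure
  refine ⟨max (max Da Db) (max Dc 2), fun cT c0 δ κ h0 A hδ hκ hh hA D0 hD hD1 => ?_⟩
  have hDa : Da ≤ D0 := ((le_max_left _ _).trans (le_max_left _ _)).trans hD1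
  have hDb : Db ≤ D0 := ((le_max_right _ _).trans (le_max_left _ _)).trans hD1
  have hDc : Dc ≤ D0 := ((le_max_left _ _).trans (le_max_right _ _)).trans hD1
  have hD2 : 2 ≤ D0 := ((le_max_right _ _).trans (le_max_right _ _)).trans hD1
  obtain ⟨hHq, hcb⟩ := hcb D0 hD hDa
  obtain ⟨ρ1, Cg, hρ1, hCg, hgok⟩ := hgok δ κ h0 A (Step.alpha ω8) cT D0 hδ hκ hh hA hDb
  obtain ⟨Cm, cm, hCm, -, hmult⟩ := hmult D0 hDc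
  refine ⟨Hq8 ⟨ℓ, D0, hD⟩ c.R, ρ1, max Cm (2 * (4 * Cg) / ρ1 + 4 * (4 * Cg) / ρ1 ^ 2), hHq, hρ1, fun κr hρ hC => ?_⟩
  have hC1 : Cm ≤ κr.C := (le_max_left _ _).trans hC
  have hC2 : 2 * (4 * Cg) / ρ1 + 4 * (4 * Cg) / ρ1 ^ 2 ≤ κr.C := (le_max_right _ _).trans hC
  obtain ⟨jmin, Cb, hcb⟩ := hcb κr
  refine ⟨jmin, Cb, fun 𝓡 j0 d1 hj0 hd1 hT hG hA' M Ch => ?_⟩
  obtain ⟨-, hkV, hkP, hpG, -⟩ := hmult (cfg8 c δ κ h0 A c0 ℓ D0 hD) rfl rfl rfl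
  have hP : Rdo.PureAt (cfg8 c δ κ h0 A c0 ℓ D0 hD) dst := hpure _ rfl pk_omega8_pos hD2
  have hCm0 : 0 < Cm := lt_of_lt_of_le one_pos hCm
  have hinv : 1 / κr.C ≤ 1 / Cm := one_div_le_one_div_of_le hCm0 hC1
  have hR0 : ∀ h, j0 ≤ h → Rdo.R0OK (cfg8 c δ κ h0 A c0 ℓ D0 hD) 𝓡 h (sigT _ 𝓡 h h) ρ1 (2 * (4 * Cg) / ρ1 + 4 * (4 * Cg) / ρ1 ^ 2) 0 := fun h hh' =>
    Rdo.rdo_r0 hh Ch hP hd1 hdst
      (hgok _ rfl rfl rfl rfl rfl rfl hℓ pk_omega8_pos le_rfl 𝓡 j0 hG h hh' (sigT _ 𝓡 h h) (fun a => by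
        rw [M.σT_act]
        exact pk_eqOn_refl _ _))
      hρ1 (hpG h h le_rfl).1 (hpG h h le_rfl).2.1 (by simp)
  have hsub : ∀ h, Metric.ball (0 : (ℂ × ℂ) × (cfg8 c δ κ h0 A c0 ℓ D0 hD).To 𝓡 h h) κr.ρ ⊆ Metric.ball 0 ρ1 := fun h => Metric.ball_subset_ball hρ
  have htor : B10.TorOK κr j0 ((cfg8 c δ κ h0 A c0 ℓ D0 hD).tor0 𝓡 (ops _ 𝓡)) :=
    { Ψ_an := M.Ψ_an
      Ψ_par := M.Ψ_par
      Ψ_bd := M.Ψ_bd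
      rV_bd := fun h hh' X hX => ((hR0 h hh').V_bd X (hsub h hX)).trans (mul_le_mul_of_nonneg_right hC2 (by positivity))
      kV_bd := fun h _ => hinv.trans (hkV h).1 }
  have hrP : ∀ h, j0 ≤ h → ∀ X ∈ Metric.ball (0 : (ℂ × ℂ) × (cfg8 c δ κ h0 A c0 ℓ D0 hD).To 𝓡 h h) κr.ρ,
      ‖Rdo.rP0 _ 𝓡 h X - (cfg8 c δ κ h0 A c0 ℓ D0 hD).kP h * X.1.2‖ ≤ κr.C * (‖X.2‖ + ‖X‖ ^ 2) := fun h hh' X hX =>
    ((hR0 h hh').P_bd X (hsub h hX)).trans (mul_le_mul_of_nonneg_right hC2 (by positivity))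
  have hkP' : ∀ h, j0 ≤ h → 1 / κr.C ≤ (cfg8 c δ κ h0 A c0 ℓ D0 hD).kP h ∧ (cfg8 c δ κ h0 A c0 ℓ D0 hD).kP h ≤ κr.C := fun h _ =>
    ⟨hinv.trans (hkP h).1, (hkP h).2.trans hC1⟩
  have hstop : (cfg8 c δ κ h0 A c0 ℓ D0 hD).StopOK 𝓡 j0 κr.ρ := fun j h hj0' hj X hX =>
    Rdo.rdo_stop_step _ 𝓡 rfl pk_omega8_pos hh hA hδ hκ j0 cT κr.ρ d1 κr.C hT hG Ch j h hj0' hj X hX (pk_hz rfl _)
  exact ⟨htor, hrP, hkP', fun nf C1 hb => hcb _ rfl rfl rfl rfl 𝓡 j0 hA' (ops _ 𝓡) hj0 M.raw htor hrP hkP' M.copy hstop nf C1 hb⟩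

/-! ## The export -/

/-- **THE EXPORT OF P8.3 + P8.5 TO `B10`, `Flow`, `Asm`** (marginal reference `a' = 8π`, entry family, arbitrary regulators).
Order: geometry, per-block costs, padding `c0 ≥ max (2 (ρ + 4)) R`; `δ, κ`; `h₀ ≥ C₁ > 0`; `θ`; `L = 2^ℓ`; `A ≥ A₀ ≥ 1`, `D₀ ≥ D₁`; then the raw constants `κr`, the first scale `jmin`, the disc `d1`, `H > 0`, `C_b`.
They may depend on `D₀` (number of terminal blocks) but NOT on the regulators / cells, nor on the entry index `j0 ≥ jmin`. -/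
theorem raw_system (c : Geo) (hc : c.Ok) (cT : ℝ≥0) (c0 : ℕ) (hc0 : 2 * (c.ρ + 4) ≤ c0) (hcR : c.R ≤ c0) (hpp : pp + 4 ≤ c.R) :
    ∃ C1 : ℝ≥0, 0 < C1 ∧ ∀ (δ κ : ℝ) (h0 : ℝ≥0), 0 < δ → 0 < κ → C1 ≤ h0 →
    ∀ θ : ℝ, 0 < θ → θ < 1 → ∃ ℓ0 : ℕ, ∀ ℓ ≥ ℓ0, ∃ (A0 : ℝ) (D1 : ℕ), 1 ≤ A0 ∧ ∀ A, A0 ≤ A → ∀ (D0 : ℕ) (hD : 0 < D0), D1 ≤ D0 →
      ∃ (κr : B10.RawC) (jmin : ℕ) (d1 Hq : ℝ) (Cb : ℝ → ℝ), κr.θ = θ ∧ 0 < d1 ∧ 0 < Hq ∧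
      ∀ (𝓡 : Reg (cfg8 c δ κ h0 A c0 ℓ D0 hD).s) (j0 : ℕ), jmin ≤ j0 →
        (cfg8 c δ κ h0 A c0 ℓ D0 hD).TowerOK 𝓡 j0 → Rdo.TermGeo (cfg8 c δ κ h0 A c0 ℓ D0 hD) 𝓡 j0 cT → ∀ hA' : 0 < (cfg8 c δ κ h0 A c0 ℓ D0 hD).p.A,
        ∃ o : (cfg8 c δ κ h0 A c0 ℓ D0 hD).Ops 𝓡, Sys8 (cfg8 c δ κ h0 A c0 ℓ D0 hD) 𝓡 j0 hA' κr d1 Hq Cb o := by
  obtain ⟨C1, hC1, W⟩ := map_inputs c hc c0 hc0 hcR (hpp.trans hcR)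
  refine ⟨C1, hC1, fun δ κ h0 hδ hκ hh θ hθ0 hθ1 => ?_⟩
  have hh0 : 0 < h0 := lt_of_lt_of_le hC1 hh
  obtain ⟨ℓ0, W⟩ := W δ κ h0 hδ hκ hh ⟨θ, hθ0.le⟩ (by exact_mod_cast hθ0)
  refine ⟨ℓ0, fun ℓ hℓ => ?_⟩
  obtain ⟨hℓ1, A0, D1, hA0, W⟩ := W ℓ hℓ
  obtain ⟨D1c, Wc⟩ := sys8_read c (by omega) ℓ hℓ1
  refine ⟨A0, max D1 D1c, hA0, fun A hA D0 hD hD1 => ?_⟩
  obtain ⟨C, ε0, Ce, dm, Cl, j2, hε, hdm, W⟩ := W A hA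
  obtain ⟨Hq, ρc, Cc, hHq, hρc, Wc⟩ := Wc cT c0 δ κ h0 A hδ hκ hh0 (hA0.trans hA) D0 hD ((le_max_right _ _).trans hD1)
  have hε' : (0 : ℝ) < ε0 := by exact_mod_cast hε
  obtain ⟨κr, hκρ, hκθ, hκC, hκc⟩ : ∃ κr : B10.RawC, κr.ρ = min ((ε0 : ℝ) / 3) ρc ∧ κr.θ = θ ∧
      κr.C = max (max (Cmap ⟨θ, hθ0.le⟩ C ε0 Ce Cl) Cc) 1 ∧ κr.c = ℓ * Real.log 2 / 2 :=
    ⟨⟨min ((ε0 : ℝ) / 3) ρc, θ, max (max (Cmap ⟨θ, hθ0.le⟩ C ε0 Ce Cl) Cc) 1, ℓ * Real.log 2 / 2, lt_min (by positivity) hρc, hθ0, hθ1,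
      le_max_right _ _, pk_rate_pos hℓ1⟩, rfl, rfl, rfl, rfl⟩
  have hC1 : Cmap ⟨θ, hθ0.le⟩ C ε0 Ce Cl ≤ κr.C := by rw [hκC]; exact (le_max_left _ _).trans (le_max_left _ _)
  have hC2 : Cc ≤ κr.C := by rw [hκC]; exact (le_max_right _ _).trans (le_max_left _ _)
  have hρ1 : κr.ρ ≤ ε0 / 3 := by rw [hκρ]; exact min_le_left _ _
  have hρ2 : κr.ρ ≤ ρc := by rw [hκρ]; exact min_le_right _ _
  obtain ⟨j1, hj1⟩ := pk_lam_sm κr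
  obtain ⟨jc, Cb, Wc⟩ := Wc κr hρ2 hC2
  refine ⟨κr, max (max j1 j2) (max jc 1), dm, Hq, Cb, hκθ, hdm, hHq, fun 𝓡 j0 hj0 hT hG hA' => ?_⟩
  have hjA : j1 ≤ j0 := ((le_max_left _ _).trans (le_max_left _ _)).trans hj0
  have hjB : j2 ≤ j0 := ((le_max_right _ _).trans (le_max_left _ _)).trans hj0
  have hjC : jc ≤ j0 := ((le_max_left _ _).trans (le_max_right _ _)).trans hj0
  have hjD : 1 ≤ j0 := ((le_max_right _ _).trans (le_max_right _ _)).trans hj0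
  obtain ⟨H, E, Lm⟩ := W D0 hD ((le_max_left _ _).trans hD1) 𝓡 j0 hjB hT
  have M : MapSys (cfg8 c δ κ h0 A c0 ℓ D0 hD) 𝓡 j0 hA' κr dm :=
    pk_mapSys H rfl E Lm κr dm hκθ hC1 hρ1 (le_of_eq hκc) le_rfl hjD (hj1 j0 hjA)
  have Ch : Rdo.ChainOK (cfg8 c δ κ h0 A c0 ℓ D0 hD) 𝓡 j0 κr.ρ dm κr.C :=
    pk_chain_mono (pk_chainOK H E κr.ρ dm hρ1 le_rfl) ((pk_Cmap_le3 _ C ε0 Ce Cl).trans hC1)
  have Rd := Wc 𝓡 j0 dm hjC hdm hT hG hA' M Ch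
  exact ⟨ops _ 𝓡, rfl, M, Ch, Rd.tor, Rd.rP_bd, Rd.kP_bd, Rd.coef⟩

end

end Claimed.Agent.R285.Pack
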