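import Claimed.Agent.R285.Map.GasKit

/-!
# ROW 285, L53-C4: the neutral response of the gas of cosines to second order (`gas_zz` of `Map/Coef.lean`)          (owner helper155)

`N (s, w) = Eter_0 (∑_{V separated} ∏_{B ∈ V} s c_B) (w q) = ∑_V s^{|V|} M_V (w)`, every `M_V` an exponential sum in `w` (hence entire);  `∑_{|V| = 0} M_V = 1`, `∑_{|V| = 1} M_V = 0`,
`∑_{|V| = 2} M_V (w) = (1/4) m⁻⁴ ∑_{(x,y) separated} cos (α w (q_x - q_y)) e^{-α² D (x,y)}`.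
-/

set_option autoImplicit false

namespace Claimed.Agent.R285.B8

open scoped BigOperators ENNReal NNReal
open MeasureTheory ProbabilityTheory Polynomial Filter Topology
open Claimed.Agent.R285.RG

noncomputable section

variable {G : Geom}

/-! ## 1. Characters -/

/-- characters with a real frequency vector of integer total charge -/
theorem c53z_Eter_char (Γ : Matrix G.V G.V ℝ) (hΓ : Γ.PosSemidef) (ω : ℝ) (hω : 0 < ω) (q N : ℤ) (n : G.V → ℝ) (hn : ∑ v, n v = N) (Fb : G.V → ℂ) :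
    Eter G Γ ω q (fun z => Complex.exp (Complex.I * ((2 * Real.pi / ω : ℝ) : ℂ) * ∑ v, (n v : ℂ) * z v)) Fb
      = if N = q then Complex.exp (Complex.I * ((2 * Real.pi / ω : ℝ) : ℂ) * ∑ v, (n v : ℂ) * Fb v)
          * (Real.exp (-(2 * Real.pi / ω) ^ 2 * (n ⬝ᵥ Γ.mulVec n) / 2) : ℝ) else 0 := by
  rw [c53g_Eter_charge Γ ω hω q N _ ?_ Fb, c53g_conv_char Γ hΓ]
  intro z θ
  rw [← Complex.exp_add]
  congr 1
  have h : (∑ v, (n v : ℂ)) = N := by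
    have := congrArg (fun x : ℝ => (x : ℂ)) hn
    push_cast at this
    exact this
  simp only [mul_add, Finset.sum_add_distrib, ← Finset.sum_mul, h]
  ring

/-- trigonometric polynomials of the field -/
def TrigP (α : ℝ) (Z : Fn G) : Prop :=
  ∃ (κ : Type) (_ : Fintype κ) (c : κ → ℂ) (n : κ → G.V → ℝ) (N : κ → ℤ), (∀ k, ∑ v, n k v = N k) ∧
    ∀ z, Z z = ∑ k, c k * Complex.exp (Complex.I * (α : ℂ) * ∑ v, (n k v : ℂ) * z v)

theorem c53z_eqns_cite : True := by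
  have := @TrigP.eq_1; trivial

theorem c53z_trig_const (α : ℝ) (c : ℂ) : TrigP α (fun _ : G.V → ℂ => c) :=
  ⟨Unit, inferInstance, fun _ => c, fun _ _ => 0, fun _ => 0, fun _ => by simp, fun z => by simp⟩

theorem c53z_trig_add {α : ℝ} {Z Z' : Fn G} (h : TrigP α Z) (h' : TrigP α Z') : TrigP α (fun z => Z z + Z' z) := by
  obtain ⟨κ, _, c, n, N, hN, hZ⟩ := h
  obtain ⟨κ', _, c', n', N', hN', hZ'⟩ := h'
  refine ⟨κ ⊕ κ', inferInstance, Sum.elim c c', Sum.elim n n', Sum.elim N N', ?_, fun z => ?_⟩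
  · rintro (k | k)
    · exact hN k
    · exact hN' k
  · beta_reduce
    rw [Fintype.sum_sum_type, hZ, hZ']
    rfl

theorem c53z_trig_mul {α : ℝ} {Z Z' : Fn G} (h : TrigP α Z) (h' : TrigP α Z') : TrigP α (fun z => Z z * Z' z) := by
  obtain ⟨κ, _, c, n, N, hN, hZ⟩ := h
  obtain ⟨κ', _, c', n', N', hN', hZ'⟩ := h'
  refine ⟨κ × κ', inferInstance, fun k => c k.1 * c' k.2, fun k v => n k.1 v + n' k.2 v, fun k => N k.1 + N' k.2, ?_, fun z => ?_⟩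
  · intro k
    rw [Finset.sum_add_distrib, hN, hN']
    push_cast
    rfl
  · beta_reduce
    rw [hZ, hZ', Finset.sum_mul_sum, Fintype.sum_prod_type]
    refine Finset.sum_congr rfl fun k _ => ?_
    refine Finset.sum_congr rfl fun k' _ => ?_
    have e : Complex.I * (α : ℂ) * ∑ v, ((n k v + n' k' v : ℝ) : ℂ) * z v
        = Complex.I * (α : ℂ) * ∑ v, (n k v : ℂ) * z v + Complex.I * (α : ℂ) * ∑ v, (n' k' v : ℂ) * z v := by
      push_cast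
      simp only [add_mul, Finset.sum_add_distrib]
      ring
    rw [e, Complex.exp_add]
    ring

theorem c53z_trig_smul {α : ℝ} (c : ℂ) {Z : Fn G} (h : TrigP α Z) : TrigP α (fun z => c * Z z) :=
  c53z_trig_mul (c53z_trig_const α c) h

theorem c53z_trig_sum {α : ℝ} {ι : Type} (s : Finset ι) (Z : ι → Fn G) (h : ∀ i ∈ s, TrigP α (Z i)) :
    TrigP α (fun z => ∑ i ∈ s, Z i z) := by
  classical
  induction s using Finset.induction_on with
  | empty => simpa using c53z_trig_const (G := G) α 0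
  | insert a s ha ih =>
    simp only [Finset.sum_insert ha]
    exact c53z_trig_add (h a (Finset.mem_insert_self a s)) (ih fun i hi => h i (Finset.mem_insert_of_mem hi))

theorem c53z_trig_prod {α : ℝ} {ι : Type} (s : Finset ι) (Z : ι → Fn G) (h : ∀ i ∈ s, TrigP α (Z i)) :
    TrigP α (fun z => ∏ i ∈ s, Z i z) := by
  classical
  induction s using Finset.induction_on with
  | empty => simpa using c53z_trig_const (G := G) α 1
  | insert a s ha ih =>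
    simp only [Finset.prod_insert ha]
    exact c53z_trig_mul (h a (Finset.mem_insert_self a s)) (ih fun i hi => h i (Finset.mem_insert_of_mem hi))

/-- sums against a two-point vector -/
theorem c53z_two_sum (x y : G.V) (a b : ℝ) (z : G.V → ℂ) :
    ∑ v, (((a • (Pi.single x 1 : G.V → ℝ) + b • (Pi.single y 1 : G.V → ℝ)) v : ℝ) : ℂ) * z v = a * z x + b * z y := by
  simp only [Pi.add_apply, Pi.smul_apply, smul_eq_mul, Pi.single_apply, mul_ite, mul_one, mul_zero]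
  push_cast
  simp only [add_mul, Finset.sum_add_distrib, apply_ite (fun r : ℝ => (r : ℂ)), Complex.ofReal_zero, ite_mul, zero_mul,
    Finset.sum_ite_eq', Finset.mem_univ, if_true]

theorem c53z_two_charge (x y : G.V) (a b : ℝ) :
    ∑ v, (a • (Pi.single x 1 : G.V → ℝ) + b • (Pi.single y 1 : G.V → ℝ)) v = a + b := by
  simp only [Pi.add_apply, Pi.smul_apply, smul_eq_mul, Pi.single_apply, mul_ite, mul_one, mul_zero,
    Finset.sum_add_distrib, Finset.sum_ite_eq', Finset.mem_univ, if_true]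

theorem c53z_two_qf (Γ : Matrix G.V G.V ℝ) (hΓ : Γ.PosSemidef) (x y : G.V) (a b : ℝ) :
    (a • (Pi.single x 1 : G.V → ℝ) + b • (Pi.single y 1 : G.V → ℝ)) ⬝ᵥ Γ.mulVec (a • (Pi.single x 1 : G.V → ℝ) + b • (Pi.single y 1 : G.V → ℝ))
      = a ^ 2 * Γ x x + 2 * a * b * Γ x y + b ^ 2 * Γ y y := by
  have hs : Γ y x = Γ x y := by
    have := hΓ.1.apply x y
    simpa using this
  simp only [Matrix.mulVec_add, Matrix.mulVec_smul, add_dotProduct, dotProduct_add, smul_dotProduct, dotProduct_smul,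
    Matrix.mulVec_single_one, single_one_dotProduct, smul_eq_mul, Matrix.col_apply, hs]
  ring

/-- two-point characters -/
theorem c53z_Eter_two (Γ : Matrix G.V G.V ℝ) (hΓ : Γ.PosSemidef) (ω : ℝ) (hω : 0 < ω) (q N : ℤ) (x y : G.V) (a b : ℝ) (hN : a + b = N) (Fb : G.V → ℂ) :
    Eter G Γ ω q (fun z => Complex.exp (Complex.I * ((2 * Real.pi / ω : ℝ) : ℂ) * (a * z x + b * z y))) Fb
      = if N = q then Complex.exp (Complex.I * ((2 * Real.pi / ω : ℝ) : ℂ) * (a * Fb x + b * Fb y))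
          * (Real.exp (-(2 * Real.pi / ω) ^ 2 * (a ^ 2 * Γ x x + 2 * a * b * Γ x y + b ^ 2 * Γ y y) / 2) : ℝ) else 0 := by
  have h := c53z_Eter_char Γ hΓ ω hω q N (a • (Pi.single x 1 : G.V → ℝ) + b • (Pi.single y 1 : G.V → ℝ))
    ((c53z_two_charge x y a b).trans hN) Fb
  simp only [c53z_two_sum, c53z_two_qf Γ hΓ] at h
  exact h

theorem c53z_tame_two {Γ : Matrix G.V G.V ℝ} {ω : ℝ} (c : ℝ) (x y : G.V) (a b : ℝ) :
    GTame Γ ω (fun z => Complex.exp (Complex.I * (c : ℂ) * (a * z x + b * z y))) := by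
  have h := c53g_tame_char (Γ := Γ) (ω := ω) c (a • (Pi.single x 1 : G.V → ℝ) + b • (Pi.single y 1 : G.V → ℝ))
  simp only [c53z_two_sum] at h
  exact h

theorem c53z_trig_two (α : ℝ) (x y : G.V) (a b : ℝ) (N : ℤ) (hN : a + b = N) :
    TrigP α (fun z : G.V → ℂ => Complex.exp (Complex.I * (α : ℂ) * (a * z x + b * z y))) :=
  ⟨Unit, inferInstance, fun _ => 1, fun _ => a • (Pi.single x 1 : G.V → ℝ) + b • (Pi.single y 1 : G.V → ℝ), fun _ => N,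
    fun _ => (c53z_two_charge x y a b).trans hN, fun z => by
      rw [Finset.univ_unique, Finset.sum_singleton, c53z_two_sum, one_mul]⟩

/-- `cos` as two characters -/
theorem c53z_cos_eq (α : ℝ) (x : G.V) (z : G.V → ℂ) :
    Complex.cos (α * z x) = (1 / 2 : ℂ) * (Complex.exp (Complex.I * (α : ℂ) * (((1 : ℝ) : ℂ) * z x + ((0 : ℝ) : ℂ) * z x))
      + Complex.exp (Complex.I * (α : ℂ) * (((-1 : ℝ) : ℂ) * z x + ((0 : ℝ) : ℂ) * z x))) := by
  rw [Complex.cos]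
  have e2 : Complex.I * (α : ℂ) * (((1 : ℝ) : ℂ) * z x + ((0 : ℝ) : ℂ) * z x) = (α : ℂ) * z x * Complex.I := by
    push_cast; ring
  have e3 : Complex.I * (α : ℂ) * (((-1 : ℝ) : ℂ) * z x + ((0 : ℝ) : ℂ) * z x) = -((α : ℂ) * z x) * Complex.I := by
    push_cast; ring
  rw [e2, e3]
  ring

/-- `cos cos` as four characters -/
theorem c53z_coscos_eq (α : ℝ) (x y : G.V) (z : G.V → ℂ) :
    Complex.cos (α * z x) * Complex.cos (α * z y)
      = (1 / 4 : ℂ) * (Complex.exp (Complex.I * (α : ℂ) * (((1 : ℝ) : ℂ) * z x + ((1 : ℝ) : ℂ) * z y))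
        + Complex.exp (Complex.I * (α : ℂ) * (((1 : ℝ) : ℂ) * z x + ((-1 : ℝ) : ℂ) * z y))
        + Complex.exp (Complex.I * (α : ℂ) * (((-1 : ℝ) : ℂ) * z x + ((1 : ℝ) : ℂ) * z y))
        + Complex.exp (Complex.I * (α : ℂ) * (((-1 : ℝ) : ℂ) * z x + ((-1 : ℝ) : ℂ) * z y))) := by
  rw [Complex.cos, Complex.cos]
  have e1 : Complex.I * (α : ℂ) * (((1 : ℝ) : ℂ) * z x + ((1 : ℝ) : ℂ) * z y) = (α : ℂ) * z x * Complex.I + (α : ℂ) * z y * Complex.I := by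
    push_cast; ring
  have e2 : Complex.I * (α : ℂ) * (((1 : ℝ) : ℂ) * z x + ((-1 : ℝ) : ℂ) * z y) = (α : ℂ) * z x * Complex.I + -((α : ℂ) * z y) * Complex.I := by
    push_cast; ring
  have e3 : Complex.I * (α : ℂ) * (((-1 : ℝ) : ℂ) * z x + ((1 : ℝ) : ℂ) * z y) = -((α : ℂ) * z x) * Complex.I + (α : ℂ) * z y * Complex.I := by
    push_cast; ring
  have e4 : Complex.I * (α : ℂ) * (((-1 : ℝ) : ℂ) * z x + ((-1 : ℝ) : ℂ) * z y) = -((α : ℂ) * z x) * Complex.I + -((α : ℂ) * z y) * Complex.I := by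
    push_cast; ring
  rw [e1, e2, e3, e4, Complex.exp_add, Complex.exp_add, Complex.exp_add, Complex.exp_add]
  ring

theorem c53z_trig_cos (α : ℝ) (x : G.V) : TrigP α (fun z : G.V → ℂ => Complex.cos (α * z x)) := by
  simp only [c53z_cos_eq]
  exact c53z_trig_smul _ (c53z_trig_add (c53z_trig_two α x x 1 0 1 (by norm_num)) (c53z_trig_two α x x (-1) 0 (-1) (by norm_num)))

theorem c53z_trig_cBC (g : Grid G) (α : ℝ) (B : g.I) : TrigP α (cBC g α B) := by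
  unfold cBC
  exact c53z_trig_smul _ (c53z_trig_sum _ _ fun x _ => c53z_trig_cos α x)

/-- the factor of the pure cosine gas -/
theorem c53z_gasF (g : Grid G) (α : ℝ) (B : g.I) : gasF g α 0 1 B = cBC g α B := by
  funext ζ
  unfold gasF
  ring

/-! ## 2. `Eter` of a trigonometric polynomial is an exponential sum of the background -/

theorem c53z_trig_tame {Γ : Matrix G.V G.V ℝ} {ω α : ℝ} {Z : Fn G} (h : TrigP α Z) : GTame Γ ω Z := by
  obtain ⟨κ, _, c, n, N, hN, hZ⟩ := h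
  have e : Z = fun z => ∑ k, c k * Complex.exp (Complex.I * (α : ℂ) * ∑ v, (n k v : ℂ) * z v) := funext hZ
  rw [e]
  exact c53g_tame_sum _ _ fun k _ => c53g_tame_smul _ (c53g_tame_char α (n k))

theorem c53z_trig_diff (Γ : Matrix G.V G.V ℝ) (hΓ : Γ.PosSemidef) (ω : ℝ) (hω : 0 < ω) (q : ℤ) {Z : Fn G}
    (h : TrigP (2 * Real.pi / ω) Z) (b : G.V → ℂ) : Differentiable ℂ (fun w : ℂ => Eter G Γ ω q Z (fun v => w * b v)) := by
  obtain ⟨κ, _, c, n, N, hN, hZ⟩ := h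
  have e : Z = fun z => ∑ k, c k * Complex.exp (Complex.I * ((2 * Real.pi / ω : ℝ) : ℂ) * ∑ v, (n k v : ℂ) * z v) := funext hZ
  have e2 : (fun w : ℂ => Eter G Γ ω q Z (fun v => w * b v))
      = fun w : ℂ => ∑ k, c k * (if N k = q then Complex.exp (Complex.I * ((2 * Real.pi / ω : ℝ) : ℂ) * ∑ v, (n k v : ℂ) * (w * b v))
          * (Real.exp (-(2 * Real.pi / ω) ^ 2 * (n k ⬝ᵥ Γ.mulVec (n k)) / 2) : ℝ) else 0) := by
    funext w
    rw [e, c53g_Eter_sum Γ ω hω q Finset.univ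
      (fun k z => c k * Complex.exp (Complex.I * ((2 * Real.pi / ω : ℝ) : ℂ) * ∑ v, (n k v : ℂ) * z v))
      (fun k _ => c53g_tame_smul _ (c53g_tame_char _ (n k)))]
    refine Finset.sum_congr rfl fun k _ => ?_
    rw [c53g_Eter_smul, c53z_Eter_char Γ hΓ ω hω q (N k) (n k) (hN k)]
  rw [e2]
  refine Differentiable.fun_sum fun k _ => ?_
  by_cases hk : N k = q
  · simp only [if_pos hk]
    fun_prop
  · simp only [if_neg hk]
    fun_prop

/-! ## 3. The explicit coefficients -/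

theorem c53z_Eter_cos (Γ : Matrix G.V G.V ℝ) (hΓ : Γ.PosSemidef) (ω : ℝ) (hω : 0 < ω) (x : G.V) (Fb : G.V → ℂ) :
    Eter G Γ ω 0 (fun z => Complex.cos (((2 * Real.pi / ω : ℝ) : ℂ) * z x)) Fb = 0 := by
  simp only [c53z_cos_eq]
  rw [c53g_Eter_smul, c53g_Eter_add Γ ω hω 0 (c53z_tame_two _ x x 1 0) (c53z_tame_two _ x x (-1) 0),
    c53z_Eter_two Γ hΓ ω hω 0 1 x x 1 0 (by norm_num), c53z_Eter_two Γ hΓ ω hω 0 (-1) x x (-1) 0 (by norm_num)]
  simp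

theorem c53z_Eter_coscos (Γ : Matrix G.V G.V ℝ) (hΓ : Γ.PosSemidef) (ω : ℝ) (hω : 0 < ω) (x y : G.V) (Fb : G.V → ℂ) :
    Eter G Γ ω 0 (fun z => Complex.cos (((2 * Real.pi / ω : ℝ) : ℂ) * z x) * Complex.cos (((2 * Real.pi / ω : ℝ) : ℂ) * z y)) Fb
      = (1 / 2 : ℂ) * (Real.exp (-(2 * Real.pi / ω) ^ 2 * ((Γ x x + Γ y y) / 2 - Γ x y)) : ℝ)
          * Complex.cos (((2 * Real.pi / ω : ℝ) : ℂ) * (Fb x - Fb y)) := by
  simp only [c53z_coscos_eq]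
  rw [c53g_Eter_smul,
    c53g_Eter_add Γ ω hω 0 (c53g_tame_add (c53g_tame_add (c53z_tame_two _ x y 1 1) (c53z_tame_two _ x y 1 (-1))) (c53z_tame_two _ x y (-1) 1))
      (c53z_tame_two _ x y (-1) (-1)),
    c53g_Eter_add Γ ω hω 0 (c53g_tame_add (c53z_tame_two _ x y 1 1) (c53z_tame_two _ x y 1 (-1))) (c53z_tame_two _ x y (-1) 1),
    c53g_Eter_add Γ ω hω 0 (c53z_tame_two _ x y 1 1) (c53z_tame_two _ x y 1 (-1)),
    c53z_Eter_two Γ hΓ ω hω 0 2 x y 1 1 (by norm_num), c53z_Eter_two Γ hΓ ω hω 0 0 x y 1 (-1) (by norm_num),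
    c53z_Eter_two Γ hΓ ω hω 0 0 x y (-1) 1 (by norm_num), c53z_Eter_two Γ hΓ ω hω 0 (-2) x y (-1) (-1) (by norm_num)]
  rw [if_neg (show ¬ ((2 : ℤ) = 0) by norm_num), if_neg (show ¬ ((-2 : ℤ) = 0) by norm_num), if_pos rfl, if_pos rfl, Complex.cos]
  have e1 : -(2 * Real.pi / ω) ^ 2 * (1 ^ 2 * Γ x x + 2 * 1 * -1 * Γ x y + (-1) ^ 2 * Γ y y) / 2
      = -(2 * Real.pi / ω) ^ 2 * ((Γ x x + Γ y y) / 2 - Γ x y) := by ring
  have e2 : -(2 * Real.pi / ω) ^ 2 * ((-1) ^ 2 * Γ x x + 2 * -1 * 1 * Γ x y + 1 ^ 2 * Γ y y) / 2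
      = -(2 * Real.pi / ω) ^ 2 * ((Γ x x + Γ y y) / 2 - Γ x y) := by ring
  have e3 : Complex.I * ((2 * Real.pi / ω : ℝ) : ℂ) * (((1 : ℝ) : ℂ) * Fb x + ((-1 : ℝ) : ℂ) * Fb y)
      = ((2 * Real.pi / ω : ℝ) : ℂ) * (Fb x - Fb y) * Complex.I := by push_cast; ring
  have e4 : Complex.I * ((2 * Real.pi / ω : ℝ) : ℂ) * (((-1 : ℝ) : ℂ) * Fb x + ((1 : ℝ) : ℂ) * Fb y)
      = -(((2 * Real.pi / ω : ℝ) : ℂ) * (Fb x - Fb y)) * Complex.I := by push_cast; ring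
  rw [e1, e2, e3, e4]
  ring

/-- the weights of the second order coefficient -/
def zzK (g : Grid G) (R : ℕ) (α : ℝ) (Γ : Matrix G.V G.V ℝ) (x y : G.V) : ℝ :=
  if R < g.idist (g.blk x) (g.blk y) then (1 / 4) * ((g.m : ℝ) ^ 4)⁻¹ * Real.exp (-α ^ 2 * ((Γ x x + Γ y y) / 2 - Γ x y)) else 0

theorem c53z_eqns_cite2 : True := by
  have := @zzK.eq_1; trivial

theorem c53z_coeff1 (g : Grid G) (R : ℕ) (Γ : Matrix G.V G.V ℝ) (hΓ : Γ.PosSemidef) (ω : ℝ) (hω : 0 < ω) (Fb : G.V → ℂ) :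
    (gasPoly g R (2 * Real.pi / ω) Γ ω 0 1 0 Fb).coeff 1 = 0 := by
  rw [c53g_gas_coeff1]
  refine Finset.sum_eq_zero fun B _ => ?_
  rw [c53z_gasF]
  unfold cBC
  rw [c53g_Eter_smul, c53g_Eter_sum Γ ω hω 0 _ (fun x z => Complex.cos (((2 * Real.pi / ω : ℝ) : ℂ) * z x)) (fun x _ => c53g_tame_cos _ x)]
  simp only [c53z_Eter_cos Γ hΓ ω hω, Finset.sum_const_zero, mul_zero]

theorem c53z_Eter_cc (g : Grid G) (Γ : Matrix G.V G.V ℝ) (hΓ : Γ.PosSemidef) (ω : ℝ) (hω : 0 < ω) (B B' : g.I) (Fb : G.V → ℂ) :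
    Eter G Γ ω 0 (fun ζ => cBC g (2 * Real.pi / ω) B ζ * cBC g (2 * Real.pi / ω) B' ζ) Fb
      = ∑ x ∈ g.sites {B}, ∑ y ∈ g.sites {B'}, ((((g.m : ℝ) ^ 2)⁻¹ : ℝ) : ℂ) * ((((g.m : ℝ) ^ 2)⁻¹ : ℝ) : ℂ)
          * ((1 / 2 : ℂ) * (Real.exp (-(2 * Real.pi / ω) ^ 2 * ((Γ x x + Γ y y) / 2 - Γ x y)) : ℝ)
          * Complex.cos (((2 * Real.pi / ω : ℝ) : ℂ) * (Fb x - Fb y))) := by
  have e : (fun ζ : G.V → ℂ => cBC g (2 * Real.pi / ω) B ζ * cBC g (2 * Real.pi / ω) B' ζ)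
      = fun ζ => ∑ x ∈ g.sites {B}, ∑ y ∈ g.sites {B'}, ((((g.m : ℝ) ^ 2)⁻¹ : ℝ) : ℂ) * ((((g.m : ℝ) ^ 2)⁻¹ : ℝ) : ℂ)
          * (Complex.cos (((2 * Real.pi / ω : ℝ) : ℂ) * ζ x) * Complex.cos (((2 * Real.pi / ω : ℝ) : ℂ) * ζ y)) := by
    funext ζ
    unfold cBC
    rw [mul_mul_mul_comm, Finset.sum_mul_sum, Finset.mul_sum]
    refine Finset.sum_congr rfl fun x _ => ?_
    rw [Finset.mul_sum]
  rw [e, c53g_Eter_sum Γ ω hω 0 _ (fun x ζ => ∑ y ∈ g.sites {B'}, ((((g.m : ℝ) ^ 2)⁻¹ : ℝ) : ℂ) * ((((g.m : ℝ) ^ 2)⁻¹ : ℝ) : ℂ)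
          * (Complex.cos (((2 * Real.pi / ω : ℝ) : ℂ) * ζ x) * Complex.cos (((2 * Real.pi / ω : ℝ) : ℂ) * ζ y)))
      (fun x _ => c53g_tame_sum _ _ fun y _ => c53g_tame_smul _ (c53g_tame_mul (c53g_tame_cos _ x) (c53g_tame_cos _ y)))]
  refine Finset.sum_congr rfl fun x _ => ?_
  rw [c53g_Eter_sum Γ ω hω 0 _ (fun y ζ => ((((g.m : ℝ) ^ 2)⁻¹ : ℝ) : ℂ) * ((((g.m : ℝ) ^ 2)⁻¹ : ℝ) : ℂ)
          * (Complex.cos (((2 * Real.pi / ω : ℝ) : ℂ) * ζ x) * Complex.cos (((2 * Real.pi / ω : ℝ) : ℂ) * ζ y)))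
      (fun y _ => c53g_tame_smul _ (c53g_tame_mul (c53g_tame_cos _ x) (c53g_tame_cos _ y)))]
  refine Finset.sum_congr rfl fun y _ => ?_
  rw [c53g_Eter_smul, c53z_Eter_coscos Γ hΓ ω hω]

theorem c53z_coeff2 (g : Grid G) (R : ℕ) (Γ : Matrix G.V G.V ℝ) (hΓ : Γ.PosSemidef) (ω : ℝ) (hω : 0 < ω) (Fb : G.V → ℂ) :
    (gasPoly g R (2 * Real.pi / ω) Γ ω 0 1 0 Fb).coeff 2
      = ∑ x : G.V, ∑ y : G.V, (zzK g R (2 * Real.pi / ω) Γ x y : ℂ) * Complex.cos (((2 * Real.pi / ω : ℝ) : ℂ) * (Fb x - Fb y)) := by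
  rw [c53g_gas_coeff2]
  simp only [c53z_gasF, c53z_Eter_cc g Γ hΓ ω hω]
  obtain ⟨F, hF⟩ : ∃ F : g.I → g.I → G.V → G.V → ℂ, F = fun B B' x y => if R < g.idist B B' then
      ((((g.m : ℝ) ^ 2)⁻¹ : ℝ) : ℂ) * ((((g.m : ℝ) ^ 2)⁻¹ : ℝ) : ℂ)
          * ((1 / 2 : ℂ) * (Real.exp (-(2 * Real.pi / ω) ^ 2 * ((Γ x x + Γ y y) / 2 - Γ x y)) : ℝ)
          * Complex.cos (((2 * Real.pi / ω : ℝ) : ℂ) * (Fb x - Fb y))) else 0 := ⟨_, rfl⟩
  have e1 : ∀ B B' : g.I, (if R < g.idist B B' then ∑ x ∈ g.sites {B}, ∑ y ∈ g.sites {B'}, ((((g.m : ℝ) ^ 2)⁻¹ : ℝ) : ℂ) * ((((g.m : ℝ) ^ 2)⁻¹ : ℝ) : ℂ)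
          * ((1 / 2 : ℂ) * (Real.exp (-(2 * Real.pi / ω) ^ 2 * ((Γ x x + Γ y y) / 2 - Γ x y)) : ℝ)
          * Complex.cos (((2 * Real.pi / ω : ℝ) : ℂ) * (Fb x - Fb y))) else 0) = ∑ x ∈ g.sites {B}, ∑ y ∈ g.sites {B'}, F B B' x y := by
    intro B B'
    rw [hF]
    by_cases h : R < g.idist B B'
    · simp only [if_pos h]
    · simp only [if_neg h, Finset.sum_const_zero]
  simp only [e1]
  have e2 : ∑ B : g.I, ∑ B' : g.I, ∑ x ∈ g.sites {B}, ∑ y ∈ g.sites {B'}, F B B' x y = ∑ x : G.V, ∑ y : G.V, F (g.blk x) (g.blk y) x y := by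
    have h1 : ∀ B : g.I, ∑ B' : g.I, ∑ x ∈ g.sites {B}, ∑ y ∈ g.sites {B'}, F B B' x y
        = ∑ x ∈ g.sites {B}, ∑ y : G.V, F B (g.blk y) x y := by
      intro B
      rw [Finset.sum_comm]
      refine Finset.sum_congr rfl fun x _ => ?_
      exact c53g_sum_sites g (fun B' y => F B B' x y)
    simp only [h1]
    exact c53g_sum_sites g (fun B x => ∑ y : G.V, F B (g.blk y) x y)
  rw [e2, Finset.mul_sum]
  refine Finset.sum_congr rfl fun x _ => ?_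
  rw [Finset.mul_sum]
  refine Finset.sum_congr rfl fun y _ => ?_
  rw [hF]
  unfold zzK
  by_cases h : R < g.idist (g.blk x) (g.blk y)
  · simp only [if_pos h]
    push_cast
    ring
  · simp only [if_neg h]
    simp

/-! ## 4. The abstract expansion -/

theorem c53z_d2 (f : ℂ → ℂ) : iteratedDeriv 2 f = deriv (deriv f) := by
  rw [iteratedDeriv_succ, iteratedDeriv_one]

theorem c53z_log_deriv2 (f : ℂ → ℂ) (hf : Differentiable ℂ f) (h0 : f 0 ≠ 0) :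
    iteratedDeriv 2 (fun w => Complex.log (f w / f 0)) 0 = deriv (deriv f) 0 / f 0 - (deriv f 0 / f 0) ^ 2 := by
  rw [c53z_d2]
  have hd : Differentiable ℂ (deriv f) := hf.deriv
  have hev : ∀ᶠ w in 𝓝 (0:ℂ), f w / f 0 ∈ Complex.slitPlane := by
    have hc : ContinuousAt (fun w => f w / f 0) 0 := (hf.continuous.div_const _).continuousAt
    refine hc.eventually_mem (Complex.isOpen_slitPlane.mem_nhds ?_)
    rw [div_self h0]
    exact Complex.one_mem_slitPlane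
  have h1 : deriv (fun w => Complex.log (f w / f 0)) =ᶠ[𝓝 0] fun w => deriv f w / f w := by
    filter_upwards [hev] with w hw
    have h2 : HasDerivAt (fun w => f w / f 0) (deriv f w / f 0) w := (hf w).hasDerivAt.div_const _
    have h3 := h2.clog hw
    rw [h3.deriv]
    have hfw : f w ≠ 0 := by
      intro h
      rw [h, zero_div] at hw
      exact Complex.slitPlane_ne_zero hw rfl
    field_simp
  rw [h1.deriv_eq]
  have h4 : HasDerivAt (fun w => deriv f w / f w) ((deriv (deriv f) 0 * f 0 - deriv f 0 * deriv f 0) / f 0 ^ 2) 0 :=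
    (hd 0).hasDerivAt.div (hf 0).hasDerivAt h0
  rw [h4.deriv]
  field_simp

theorem c53z_deriv_sum {ι : Type} (T : Finset ι) (M : ι → ℂ → ℂ) (hM : ∀ i ∈ T, Differentiable ℂ (M i)) (c : ι → ℂ) :
    deriv (fun w => ∑ i ∈ T, M i w * c i) = fun w => ∑ i ∈ T, deriv (M i) w * c i := by
  funext w
  exact (HasDerivAt.fun_sum fun i hi => ((hM i hi w).hasDerivAt.mul_const (c i))).deriv

theorem c53z_poly_coeff {ι : Type} (S : Finset ι) (d : ι → ℕ) (a : ι → ℂ) (k : ℕ) :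
    (∑ i ∈ S, C (a i) * X ^ d i : ℂ[X]).coeff k = ∑ i ∈ S.filter (fun i => d i = k), a i := by
  rw [finsetSum_coeff, Finset.sum_filter]
  refine Finset.sum_congr rfl fun i _ => ?_
  rw [coeff_C_mul_X_pow]
  by_cases h : d i = k
  · rw [if_pos h, if_pos h.symm]
  · rw [if_neg h, if_neg fun h' => h h'.symm]

theorem c53z_poly_eval {ι : Type} (S : Finset ι) (d : ι → ℕ) (a : ι → ℂ) (s : ℂ) :
    (∑ i ∈ S, C (a i) * X ^ d i : ℂ[X]).eval s = ∑ i ∈ S, a i * s ^ d i := by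
  rw [eval_finsetSum]
  refine Finset.sum_congr rfl fun i _ => ?_
  rw [eval_mul, eval_C, eval_pow, eval_X]

theorem c53z_abstract {ι : Type} (S : Finset ι) (d : ι → ℕ) (M : ι → ℂ → ℂ) (hM : ∀ i ∈ S, Differentiable ℂ (M i)) (β : ℂ)
    (h0 : ∀ w, ∑ i ∈ S.filter (fun i => d i = 0), M i w = 1)
    (h1 : ∀ w, ∑ i ∈ S.filter (fun i => d i = 1), M i w = 0)
    (h2 : iteratedDeriv 2 (fun w => ∑ i ∈ S.filter (fun i => d i = 2), M i w) 0 = β) :
    ∃ Kc : ℝ, ∀ᶠ s : ℂ in 𝓝 0,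
      ‖iteratedDeriv 2 (fun w => Complex.log ((∑ i ∈ S, M i w * s ^ d i) / (∑ i ∈ S, M i 0 * s ^ d i))) 0 - β * s ^ 2‖ ≤ Kc * ‖s‖ ^ 3 := by
  have hM' : ∀ i ∈ S, Differentiable ℂ (deriv (M i)) := fun i hi => (hM i hi).deriv
  -- derivatives of the coefficient sums
  have hc1 : ∀ k, ∑ i ∈ S.filter (fun i => d i = k), deriv (M i) 0 = deriv (fun w => ∑ i ∈ S.filter (fun i => d i = k), M i w) 0 := by
    intro k
    have := congrFun (c53z_deriv_sum (S.filter (fun i => d i = k)) M (fun i hi => hM i (Finset.mem_filter.1 hi).1) (fun _ => 1)) 0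
    simpa using this.symm
  have hc2 : ∀ k, ∑ i ∈ S.filter (fun i => d i = k), deriv (deriv (M i)) 0
      = deriv (deriv (fun w => ∑ i ∈ S.filter (fun i => d i = k), M i w)) 0 := by
    intro k
    have e1 := c53z_deriv_sum (S.filter (fun i => d i = k)) M (fun i hi => hM i (Finset.mem_filter.1 hi).1) (fun _ => 1)
    have e2 := congrFun (c53z_deriv_sum (S.filter (fun i => d i = k)) (fun i => deriv (M i)) (fun i hi => hM' i (Finset.mem_filter.1 hi).1) (fun _ => 1)) 0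
    simp only [mul_one] at e1 e2
    rw [e1, e2]
  obtain ⟨A, hA⟩ : ∃ A : ℂ[X], A = ∑ i ∈ S, C (M i 0) * X ^ d i := ⟨_, rfl⟩
  obtain ⟨P1, hP1⟩ : ∃ P : ℂ[X], P = ∑ i ∈ S, C (deriv (M i) 0) * X ^ d i := ⟨_, rfl⟩
  obtain ⟨P2, hP2⟩ : ∃ P : ℂ[X], P = ∑ i ∈ S, C (deriv (deriv (M i)) 0) * X ^ d i := ⟨_, rfl⟩
  have hA0 : A.coeff 0 = 1 := by rw [hA, c53z_poly_coeff, h0]
  have hA1 : A.coeff 1 = 0 := by rw [hA, c53z_poly_coeff, h1]
  have hP10 : P1.coeff 0 = 0 := by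
    rw [hP1, c53z_poly_coeff, hc1]
    simp only [h0, deriv_const']
  have hP11 : P1.coeff 1 = 0 := by
    rw [hP1, c53z_poly_coeff, hc1]
    simp only [h1, deriv_const']
  have hP20 : P2.coeff 0 = 0 := by
    rw [hP2, c53z_poly_coeff, hc2]
    simp only [h0, deriv_const']
  have hP21 : P2.coeff 1 = 0 := by
    rw [hP2, c53z_poly_coeff, hc2]
    simp only [h1, deriv_const']
  have hP22 : P2.coeff 2 = β := by
    rw [hP2, c53z_poly_coeff, hc2, ← c53z_d2, h2]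
  obtain ⟨K1, hK1⟩ := c53g_ratio A P1 hA0 hP10
  obtain ⟨K2, hK2⟩ := c53g_ratio A P2 hA0 hP20
  rw [hP11, hA1] at hK1
  rw [hP21, hP22, hA1] at hK2
  have hne : ∀ᶠ s : ℂ in 𝓝 0, A.eval s ≠ 0 := by
    have hc : ContinuousAt (fun s : ℂ => A.eval s) 0 := A.continuous.continuousAt
    refine hc.eventually_ne ?_
    rw [← coeff_zero_eq_eval_zero, hA0]
    exact one_ne_zero
  have hsm : ∀ᶠ s : ℂ in 𝓝 0, ‖s‖ < 1 := by
    have : ContinuousAt (fun s : ℂ => ‖s‖) 0 := continuous_norm.continuousAt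
    exact this.eventually (gt_mem_nhds (by simp))
  refine ⟨K2 + (‖P1.coeff 2‖ + |K1|) ^ 2, ?_⟩
  filter_upwards [hK1, hK2, hne, hsm] with s h1s h2s hnes hs1
  have hf : Differentiable ℂ (fun w => ∑ i ∈ S, M i w * s ^ d i) :=
    Differentiable.fun_sum fun i hi => (hM i hi).mul_const _
  have eA : ∑ i ∈ S, M i 0 * s ^ d i = A.eval s := by rw [hA, c53z_poly_eval]
  have e1 : deriv (fun w => ∑ i ∈ S, M i w * s ^ d i) 0 = P1.eval s := by
    rw [c53z_deriv_sum S M hM, hP1, c53z_poly_eval]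
  have e2 : deriv (deriv (fun w => ∑ i ∈ S, M i w * s ^ d i)) 0 = P2.eval s := by
    rw [c53z_deriv_sum S M hM, c53z_deriv_sum S (fun i => deriv (M i)) hM', hP2, c53z_poly_eval]
  have h3 := c53z_log_deriv2 (fun w => ∑ i ∈ S, M i w * s ^ d i) hf (by rw [eA]; exact hnes)
  beta_reduce at h3
  rw [h3, e1, e2, eA]
  simp only [zero_mul, zero_add, mul_zero, sub_zero] at h1s h2s
  have hs0 : 0 ≤ ‖s‖ := norm_nonneg s
  have b1 : ‖P1.eval s / A.eval s‖ ≤ (‖P1.coeff 2‖ + |K1|) * ‖s‖ ^ 2 := by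
    have t1 : ‖P1.eval s / A.eval s‖ ≤ ‖P1.eval s / A.eval s - P1.coeff 2 * s ^ 2‖ + ‖P1.coeff 2 * s ^ 2‖ := by
      have := norm_add_le (P1.eval s / A.eval s - P1.coeff 2 * s ^ 2) (P1.coeff 2 * s ^ 2)
      simpa using this
    have t2 : ‖P1.coeff 2 * s ^ 2‖ = ‖P1.coeff 2‖ * ‖s‖ ^ 2 := by rw [norm_mul, norm_pow]
    have t3 : K1 * ‖s‖ ^ 3 ≤ |K1| * ‖s‖ ^ 2 := by
      have : ‖s‖ ^ 3 ≤ ‖s‖ ^ 2 := pow_le_pow_of_le_one hs0 hs1.le (by norm_num)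
      calc K1 * ‖s‖ ^ 3 ≤ |K1| * ‖s‖ ^ 3 := by gcongr; exact le_abs_self K1
        _ ≤ |K1| * ‖s‖ ^ 2 := by gcongr
    rw [t2] at t1
    linarith
  have b2 : ‖(P1.eval s / A.eval s) ^ 2‖ ≤ (‖P1.coeff 2‖ + |K1|) ^ 2 * ‖s‖ ^ 3 := by
    rw [norm_pow]
    have t4 : ‖s‖ ^ 4 ≤ ‖s‖ ^ 3 := pow_le_pow_of_le_one hs0 hs1.le (by norm_num)
    calc ‖P1.eval s / A.eval s‖ ^ 2 ≤ ((‖P1.coeff 2‖ + |K1|) * ‖s‖ ^ 2) ^ 2 := by gcongr
      _ = (‖P1.coeff 2‖ + |K1|) ^ 2 * ‖s‖ ^ 4 := by ring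
      _ ≤ (‖P1.coeff 2‖ + |K1|) ^ 2 * ‖s‖ ^ 3 := by gcongr
  calc ‖P2.eval s / A.eval s - (P1.eval s / A.eval s) ^ 2 - β * s ^ 2‖
      = ‖(P2.eval s / A.eval s - β * s ^ 2) - (P1.eval s / A.eval s) ^ 2‖ := by congr 1; ring
    _ ≤ ‖P2.eval s / A.eval s - β * s ^ 2‖ + ‖(P1.eval s / A.eval s) ^ 2‖ := norm_sub_le _ _
    _ ≤ K2 * ‖s‖ ^ 3 + (‖P1.coeff 2‖ + |K1|) ^ 2 * ‖s‖ ^ 3 := add_le_add h2s b2
    _ = (K2 + (‖P1.coeff 2‖ + |K1|) ^ 2) * ‖s‖ ^ 3 := by ring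

/-! ## 5. Assembly -/

theorem c53z_c2_deriv (K : G.V → G.V → ℂ) (a : ℂ) (q : G.V → ℂ) :
    iteratedDeriv 2 (fun w : ℂ => ∑ x, ∑ y, K x y * Complex.cos (a * (w * q x - w * q y))) 0
      = ∑ x, ∑ y, K x y * (-(a * (q x - q y)) ^ 2) := by
  rw [c53z_d2]
  have h1 : ∀ (x y : G.V) (w : ℂ), HasDerivAt (fun w : ℂ => a * (w * q x - w * q y)) (a * (q x - q y)) w := by
    intro x y w
    have := (((hasDerivAt_id w).mul_const (q x)).sub ((hasDerivAt_id w).mul_const (q y))).const_mul a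
    simpa using this
  have e1 : deriv (fun w : ℂ => ∑ x, ∑ y, K x y * Complex.cos (a * (w * q x - w * q y)))
      = fun w : ℂ => ∑ x, ∑ y, K x y * (-Complex.sin (a * (w * q x - w * q y)) * (a * (q x - q y))) := by
    funext w
    exact (HasDerivAt.fun_sum fun x _ => HasDerivAt.fun_sum fun y _ => ((h1 x y w).ccos.const_mul (K x y))).deriv
  rw [e1]
  have h2 : HasDerivAt (fun w : ℂ => ∑ x, ∑ y, K x y * (-Complex.sin (a * (w * q x - w * q y)) * (a * (q x - q y))))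
      (∑ x, ∑ y, K x y * (-(Complex.cos (a * (0 * q x - 0 * q y)) * (a * (q x - q y))) * (a * (q x - q y)))) 0 :=
    HasDerivAt.fun_sum fun x _ => HasDerivAt.fun_sum fun y _ => (((h1 x y 0).csin.neg.mul_const _).const_mul (K x y))
  rw [h2.deriv]
  refine Finset.sum_congr rfl fun x _ => Finset.sum_congr rfl fun y _ => ?_
  simp only [zero_mul, sub_self, mul_zero, Complex.cos_zero]
  ring

/-- **`gas_zz`**, for the right side of `ZA_single` and the explicit form of `NsepG` -/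
theorem c53z_gas_zz (g : Grid G) (R : ℕ) (ω : ℝ) (hω : 0 < ω) (Γ : Matrix G.V G.V ℝ) (hΓ : Γ.PosSemidef) (q : G.V → ℝ) :
    ∃ Kc : ℝ, ∀ᶠ s : ℂ in 𝓝 0,
      ‖iteratedDeriv 2 (fun w : ℂ => Complex.log (
          Eter G Γ ω 0 (fun ζ => ∑ V ∈ sepSets g R, ∏ B ∈ V, (0 / 2 * eBC g B ζ + s * cBC g (2 * Real.pi / ω) B ζ)) (fun v => w * (q v : ℝ))
            / Eter G Γ ω 0 (fun ζ => ∑ V ∈ sepSets g R, ∏ B ∈ V, (0 / 2 * eBC g B ζ + s * cBC g (2 * Real.pi / ω) B ζ)) 0)) 0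
          - ((-((2 * Real.pi / ω) ^ 2 / 4) * (((g.m : ℝ) ^ 4)⁻¹ * ∑ x : G.V, ∑ y : G.V, if R < g.idist (g.blk x) (g.blk y) then
              (q x - q y) ^ 2 * Real.exp (-(2 * Real.pi / ω) ^ 2 * ((Γ x x + Γ y y) / 2 - Γ x y)) else 0) : ℝ) : ℂ) * s ^ 2‖ ≤ Kc * ‖s‖ ^ 3 := by
  obtain ⟨M, hMdef⟩ : ∃ M : Finset g.I → ℂ → ℂ, M = fun V w =>
      Eter G Γ ω 0 (fun ζ => ∏ B ∈ V, gasF g (2 * Real.pi / ω) 0 1 B ζ) (fun v => w * (q v : ℝ)) := ⟨_, rfl⟩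
  have hM : ∀ V ∈ sepSets g R, Differentiable ℂ (M V) := by
    intro V _
    rw [hMdef]
    refine c53z_trig_diff Γ hΓ ω hω 0 (c53z_trig_prod _ _ fun B _ => ?_) (fun v => ((q v : ℝ) : ℂ))
    rw [c53z_gasF]
    exact c53z_trig_cBC g _ B
  have hco : ∀ (k : ℕ) (w : ℂ), ∑ V ∈ (sepSets g R).filter (fun V => V.card = k), M V w
      = (gasPoly g R (2 * Real.pi / ω) Γ ω 0 1 0 (fun v => w * (q v : ℝ))).coeff k := by
    intro k w
    rw [c53g_gas_coeff, hMdef]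
  have hev : ∀ (s w : ℂ), Eter G Γ ω 0 (fun ζ => ∑ V ∈ sepSets g R, ∏ B ∈ V, (0 / 2 * eBC g B ζ + s * cBC g (2 * Real.pi / ω) B ζ)) (fun v => w * (q v : ℝ))
      = ∑ V ∈ sepSets g R, M V w * s ^ V.card := by
    intro s w
    have h := c53g_gas_eval g R (2 * Real.pi / ω) Γ hΓ ω hω 0 1 s 0 (fun v => w * (q v : ℝ))
    simp only [mul_zero, mul_one] at h
    rw [h, hMdef]
    unfold gasPoly
    rw [c53z_poly_eval]
  have hz : (0 : G.V → ℂ) = fun v => (0 : ℂ) * ((q v : ℝ) : ℂ) := by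
    funext v
    simp
  obtain ⟨Kc, hK⟩ := c53z_abstract (sepSets g R) Finset.card M hM
    ((-((2 * Real.pi / ω) ^ 2 / 4) * (((g.m : ℝ) ^ 4)⁻¹ * ∑ x : G.V, ∑ y : G.V, if R < g.idist (g.blk x) (g.blk y) then
              (q x - q y) ^ 2 * Real.exp (-(2 * Real.pi / ω) ^ 2 * ((Γ x x + Γ y y) / 2 - Γ x y)) else 0) : ℝ) : ℂ)
    (fun w => by rw [hco, c53g_gas_coeff0 g R _ Γ ω hω, if_pos rfl])
    (fun w => by rw [hco, c53z_coeff1 g R Γ hΓ ω hω])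
    (by
      simp only [hco, c53z_coeff2 g R Γ hΓ ω hω]
      rw [c53z_c2_deriv]
      push_cast
      rw [Finset.mul_sum, Finset.mul_sum]
      refine Finset.sum_congr rfl fun x _ => ?_
      rw [Finset.mul_sum, Finset.mul_sum]
      refine Finset.sum_congr rfl fun y _ => ?_
      unfold zzK
      by_cases h : R < g.idist (g.blk x) (g.blk y)
      · simp only [if_pos h]
        push_cast
        ring
      · simp only [if_neg h]
        simp)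
  refine ⟨Kc, ?_⟩
  filter_upwards [hK] with s hs
  rw [hz]
  simp only [hev]
  exact hs

/-! ## 6. VERSION 2: real source, no logarithm -/

/-- derivatives of an entire function along the real axis -/
theorem c53z_real_deriv (F : ℂ → ℂ) (hF : Differentiable ℂ F) : deriv (fun w : ℝ => F (w : ℂ)) = fun w : ℝ => deriv F (w : ℂ) := by
  funext w
  exact ((hF (w : ℂ)).hasDerivAt.comp_ofReal).deriv

theorem c53z_real_d2 (F : ℂ → ℂ) (hF : Differentiable ℂ F) : iteratedDeriv 2 (fun w : ℝ => F (w : ℂ)) 0 = deriv (deriv F) 0 := by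
  rw [iteratedDeriv_succ, iteratedDeriv_one, c53z_real_deriv F hF, c53z_real_deriv (deriv F) hF.deriv]
  simp

theorem c53z_abstract_real {ι : Type} (S : Finset ι) (d : ι → ℕ) (M : ι → ℂ → ℂ) (hM : ∀ i ∈ S, Differentiable ℂ (M i)) (β : ℂ)
    (h0 : ∀ w, ∑ i ∈ S.filter (fun i => d i = 0), M i w = 1)
    (h1 : ∀ w, ∑ i ∈ S.filter (fun i => d i = 1), M i w = 0)
    (h2 : iteratedDeriv 2 (fun w => ∑ i ∈ S.filter (fun i => d i = 2), M i w) 0 = β) :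
    ∃ Kc : ℝ, ∀ᶠ s : ℂ in 𝓝 0,
      ‖iteratedDeriv 2 (fun w : ℝ => ∑ i ∈ S, M i (w : ℂ) * s ^ d i) 0 / (∑ i ∈ S, M i 0 * s ^ d i) - β * s ^ 2‖ ≤ Kc * ‖s‖ ^ 3 := by
  have hM' : ∀ i ∈ S, Differentiable ℂ (deriv (M i)) := fun i hi => (hM i hi).deriv
  have hc2 : ∀ k, ∑ i ∈ S.filter (fun i => d i = k), deriv (deriv (M i)) 0
      = deriv (deriv (fun w => ∑ i ∈ S.filter (fun i => d i = k), M i w)) 0 := by
    intro k
    have e1 := c53z_deriv_sum (S.filter (fun i => d i = k)) M (fun i hi => hM i (Finset.mem_filter.1 hi).1) (fun _ => 1)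
    have e2 := congrFun (c53z_deriv_sum (S.filter (fun i => d i = k)) (fun i => deriv (M i)) (fun i hi => hM' i (Finset.mem_filter.1 hi).1) (fun _ => 1)) 0
    simp only [mul_one] at e1 e2
    rw [e1, e2]
  obtain ⟨A, hA⟩ : ∃ A : ℂ[X], A = ∑ i ∈ S, C (M i 0) * X ^ d i := ⟨_, rfl⟩
  obtain ⟨P2, hP2⟩ : ∃ P : ℂ[X], P = ∑ i ∈ S, C (deriv (deriv (M i)) 0) * X ^ d i := ⟨_, rfl⟩
  have hA0 : A.coeff 0 = 1 := by rw [hA, c53z_poly_coeff, h0]
  have hA1 : A.coeff 1 = 0 := by rw [hA, c53z_poly_coeff, h1]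
  have hP20 : P2.coeff 0 = 0 := by
    rw [hP2, c53z_poly_coeff, hc2]
    simp only [h0, deriv_const']
  have hP21 : P2.coeff 1 = 0 := by
    rw [hP2, c53z_poly_coeff, hc2]
    simp only [h1, deriv_const']
  have hP22 : P2.coeff 2 = β := by
    rw [hP2, c53z_poly_coeff, hc2, ← c53z_d2, h2]
  obtain ⟨K2, hK2⟩ := c53g_ratio A P2 hA0 hP20
  rw [hP21, hP22, hA1] at hK2
  refine ⟨K2, ?_⟩
  filter_upwards [hK2] with s h2s
  have hf : Differentiable ℂ (fun w => ∑ i ∈ S, M i w * s ^ d i) :=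
    Differentiable.fun_sum fun i hi => (hM i hi).mul_const _
  have eA : ∑ i ∈ S, M i 0 * s ^ d i = A.eval s := by rw [hA, c53z_poly_eval]
  have e2 : deriv (deriv (fun w => ∑ i ∈ S, M i w * s ^ d i)) 0 = P2.eval s := by
    rw [c53z_deriv_sum S M hM, c53z_deriv_sum S (fun i => deriv (M i)) hM', hP2, c53z_poly_eval]
  rw [c53z_real_d2 (fun w => ∑ i ∈ S, M i w * s ^ d i) hf, e2, eA]
  simpa using h2s

/-- **`gas_zz`, VERSION 2**, for the right side of `ZA_single` and the explicit form of `NsepG` -/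
theorem c53z_gas_zz_real (g : Grid G) (R : ℕ) (ω : ℝ) (hω : 0 < ω) (Γ : Matrix G.V G.V ℝ) (hΓ : Γ.PosSemidef) (q : G.V → ℝ) :
    ∃ Kc : ℝ, ∀ᶠ s : ℂ in 𝓝 0,
      ‖iteratedDeriv 2 (fun w : ℝ =>
          Eter G Γ ω 0 (fun ζ => ∑ V ∈ sepSets g R, ∏ B ∈ V, (0 / 2 * eBC g B ζ + s * cBC g (2 * Real.pi / ω) B ζ)) (fun v => ((w * q v : ℝ) : ℂ))) 0
            / Eter G Γ ω 0 (fun ζ => ∑ V ∈ sepSets g R, ∏ B ∈ V, (0 / 2 * eBC g B ζ + s * cBC g (2 * Real.pi / ω) B ζ)) (fun v => (((0 : ℝ) * q v : ℝ) : ℂ))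
          - ((-((2 * Real.pi / ω) ^ 2 / 4) * (((g.m : ℝ) ^ 4)⁻¹ * ∑ x : G.V, ∑ y : G.V, if R < g.idist (g.blk x) (g.blk y) then
              (q x - q y) ^ 2 * Real.exp (-(2 * Real.pi / ω) ^ 2 * ((Γ x x + Γ y y) / 2 - Γ x y)) else 0) : ℝ) : ℂ) * s ^ 2‖ ≤ Kc * ‖s‖ ^ 3 := by
  obtain ⟨M, hMdef⟩ : ∃ M : Finset g.I → ℂ → ℂ, M = fun V w =>
      Eter G Γ ω 0 (fun ζ => ∏ B ∈ V, gasF g (2 * Real.pi / ω) 0 1 B ζ) (fun v => w * (q v : ℝ)) := ⟨_, rfl⟩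
  have hM : ∀ V ∈ sepSets g R, Differentiable ℂ (M V) := by
    intro V _
    rw [hMdef]
    refine c53z_trig_diff Γ hΓ ω hω 0 (c53z_trig_prod _ _ fun B _ => ?_) (fun v => ((q v : ℝ) : ℂ))
    rw [c53z_gasF]
    exact c53z_trig_cBC g _ B
  have hco : ∀ (k : ℕ) (w : ℂ), ∑ V ∈ (sepSets g R).filter (fun V => V.card = k), M V w
      = (gasPoly g R (2 * Real.pi / ω) Γ ω 0 1 0 (fun v => w * (q v : ℝ))).coeff k := by
    intro k w
    rw [c53g_gas_coeff, hMdef]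
  have hev : ∀ (s : ℂ) (w : ℝ), Eter G Γ ω 0 (fun ζ => ∑ V ∈ sepSets g R, ∏ B ∈ V, (0 / 2 * eBC g B ζ + s * cBC g (2 * Real.pi / ω) B ζ)) (fun v => ((w * q v : ℝ) : ℂ))
      = ∑ V ∈ sepSets g R, M V (w : ℂ) * s ^ V.card := by
    intro s w
    have h := c53g_gas_eval g R (2 * Real.pi / ω) Γ hΓ ω hω 0 1 s 0 (fun v => (w : ℂ) * (q v : ℝ))
    simp only [mul_zero, mul_one] at h
    simp only [Complex.ofReal_mul]
    rw [h, hMdef]
    unfold gasPoly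
    rw [c53z_poly_eval]
  obtain ⟨Kc, hK⟩ := c53z_abstract_real (sepSets g R) Finset.card M hM
    ((-((2 * Real.pi / ω) ^ 2 / 4) * (((g.m : ℝ) ^ 4)⁻¹ * ∑ x : G.V, ∑ y : G.V, if R < g.idist (g.blk x) (g.blk y) then
              (q x - q y) ^ 2 * Real.exp (-(2 * Real.pi / ω) ^ 2 * ((Γ x x + Γ y y) / 2 - Γ x y)) else 0) : ℝ) : ℂ)
    (fun w => by rw [hco, c53g_gas_coeff0 g R _ Γ ω hω, if_pos rfl])
    (fun w => by rw [hco, c53z_coeff1 g R Γ hΓ ω hω])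
    (by
      simp only [hco, c53z_coeff2 g R Γ hΓ ω hω]
      rw [c53z_c2_deriv]
      push_cast
      rw [Finset.mul_sum, Finset.mul_sum]
      refine Finset.sum_congr rfl fun x _ => ?_
      rw [Finset.mul_sum, Finset.mul_sum]
      refine Finset.sum_congr rfl fun y _ => ?_
      unfold zzK
      by_cases h : R < g.idist (g.blk x) (g.blk y)
      · simp only [if_pos h]
        push_cast
        ring
      · simp only [if_neg h]
        simp)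
  refine ⟨Kc, ?_⟩
  filter_upwards [hK] with s hs
  simp only [hev]
  simpa using hs

end

end Claimed.Agent.R285.B8
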