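import Claimed.Agent.R285.Read.B8b
import Claimed.Agent.R285.Flow.Jet
import Claimed.Agent.R285.Ker.Scl
import Claimed.Agent.R285.Map.GasZZ

/-!
# ROW 285, post BP-F5-L53 (owner helper177): [B] P8.5 / [F] L5.3 as BOUNDED BLOCK SUMS of the balanced quadratic coefficients  (= the field `coef` of `B8.Sys8`)

Decision D5 (helper27): the rate `j⁻²` of [F] L5.3 is dropped; MAP delivers `B8.CoefBlock` with `b_* = 2 log L`, `H > 0`.   K1: NO FATAL.  No complexity count, no continuum object, no exponential entries.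

## Route  (`m_j = L^j`, `n = n_h = D₀ L^h`, `Γ_j^h = C_{≥ m_j}` on the torus `h`, `α² = k₀ = 8π`, `q = cos1`, `D(x,y) = (Γ(x,x) + Γ(y,y))/2 - Γ(x,y)`)
 (A) ABSTRACT (`Flow/Jet.lean`): start plane + torus `h` at the level `j` from `(t, z, R) = (0, s, 0)` resp. `(s, s, 0)` (idea of helper202: `R = 0`).  Then
       `kV_h ℓ_j² ∑_{j ≤ i < h} b_i^{zz} = [s²] rV_h + O(1 + kV_h)`,   `[s] rP_h ∑_{j ≤ i < h} b_i^{tz} = [s²] rP_h + O(1 + kP_h)`,   `O(.)` uniform.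
 (B) CHAIN (`Rdo.rdo_stop_step`, `chain_hist` in `Map/CoefTop.lean`): the exact identities of all steps + copying: the read-outs of the stopped state ARE the read-outs of `ZA_j (single (t, z))` under `Γ_j^h`
     (up to the factor `e^{q² a (low0 (L^j) - low0 (L^h))/2n²}` of the constant modes in the charged functionals, which cancels in `P2/P1`).
     VERSION 2 (17:30Z): THIS FILE = gas calculus (C), kernels (D), (E), pure sequences.  The chain, the read-outs (`Rdo.rV0`, `Rdo.rP0`: REAL sources, no logarithm) and the export `coef_block` are in `Map/CoefTop.lean`.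
 (C) GAS CALCULUS (`gas_zz`, `gas_tz`): `ZA_j (single)` = sum over sets of pairwise `R`-separated blocks = a POLYNOMIAL in `s` whose coefficients are trigonometric polynomials (times quadratic polynomials) of the field:
       `[s²] rV_h = -(α²/4) Nsep`,  `Nsep = m_j⁻⁴ ∑_{(x,y) ∈ P_j} (q_x - q_y)² e^{-α² D(x,y)}`, `P_j` = ordered pairs of sites whose level-`j` blocks have index distance `> R`;
       `[s] rP_h = P1 = m_j⁻² ∑_x e^{-α² Γ(x,x)/2} / 2`,  `[s²] rP_h = P2` (explicit).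
 (D) KERNELS, `tz`: `-P2/P1 = (α²/2) (Γ A Γ)(0,0) + O(1)` (`tz_near`: the `(2R+1)²` non-separated blocks cost `O(1)`) `= 2 (h - j) log L + O(1)` (`B8.cac_diag`).
 (E) KERNELS, `zz` (helper202's cancellation + Hyers-Ulam):  `Tn (j,h) = (k₀/4) Nsep / (kV_h ℓ_j²)`.
     (E1) `Tn (j,h) - Tn (j+1,h) = Hl (j,h)` := the same sum over `P_j \ P_{j+1}`, EXACTLY  (`Γ_j^h = shell_j + Γ_{j+1}^h`, `shell_j = 0` on `P_{j+1}`, `m_j⁻⁴ e^{-α² shell_j (0,0)} / ℓ_j² = m_{j+1}⁻⁴ / ℓ_{j+1}²`).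
     (E2) `0 ≤ Tn (h,h) ≤ C`, `c ≤ Hl (i,h) ≤ C`  (LOCAL sums of positive terms).
     (E3) DIAGONAL SCALE COVARIANCE `|Hl (i,h) - Hl (i+1,h+1)| ≤ C L^{-i/2}`: the map `x' ↦ ⌊x'/L⌋` from the torus `h+1` to the torus `h` is `L²`-to-one and matches the blocks of the levels `(i+1, i+2)` with those of `(i, i+1)`
          EXACTLY; termwise comparison, only kernel input `scale_cov` (`|D' (x', y') - D (x, y)| ≤ C / √m`, termwise comparison of two finite Fourier sums on the tori `N`, `L N`).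
     (E4) the dependence on `h - i` needs NO estimate: `S (j,h) = -∑_{j ≤ i < h} b_i^{zz}` is exactly additive and `S = Tn + O(1)` by (A)-(C);  by (E1)-(E3) `Tn (j, j+D) = Aq D + O(1)` with `Aq D = ∑_{d ≤ D} lim_i Hl (i, i+d)`;
          hence `|Aq (D+D') - Aq D - Aq D'| ≤ C` and `|Aq D - H D| ≤ C`, `H = liminf Aq D / D ∈ [c, C]` (`hyers_ulam`).
-/

set_option autoImplicit false

namespace Claimed.Agent.R285.B8

open scoped BigOperators ENNReal NNReal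
open MeasureTheory ProbabilityTheory Polynomial Filter Topology
open Claimed.Agent.R285.RG

noncomputable section

/-! ## 1. Definitions -/

/-- `D (x, y) = Var (ζ_x - ζ_y) / 2` -/
def Dk {G : Geom} (Γ : Matrix G.V G.V ℝ) (x y : G.V) : ℝ := (Γ x x + Γ y y) / 2 - Γ x y

/-- the blocks of the two sites are `R`-separated -/
def SepS {G : Geom} (g : Grid G) (R : ℕ) (x y : G.V) : Prop := R < g.idist (g.blk x) (g.blk y)

open Classical in
/-- `m⁻⁴ ∑_{(x,y) separated} (q_x - q_y)² e^{-α² D (x,y)}` -/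
def NsepG {G : Geom} (g : Grid G) (R : ℕ) (α : ℝ) (Γ : Matrix G.V G.V ℝ) (q : G.V → ℝ) : ℝ :=
  ((g.m : ℝ) ^ 4)⁻¹ * ∑ x : G.V, ∑ y : G.V, if SepS g R x y then (q x - q y) ^ 2 * Real.exp (-α ^ 2 * Dk Γ x y) else 0

/-- the quadratic form `e_B^0` on real fields, polarised against itself: `e_B (f) = ½ ∑_{v ∈ B} ∑_e (∇_e f (v))²` is `RG.eB`; its Gaussian mean -/
def meanE {G : Geom} (g : Grid G) (Γ : Matrix G.V G.V ℝ) (B : g.I) : ℝ :=
  (1 / 2) * ∑ v ∈ g.sites {B}, ∑ e : Fin 4,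
    (Γ (G.π (G.ι v + dir e)) (G.π (G.ι v + dir e)) + Γ v v - 2 * Γ (G.π (G.ι v + dir e)) v)

/-- `[s] rP = m⁻² ∑_x e^{-α² Γ(x,x)/2} / 2` -/
def P1G {G : Geom} (g : Grid G) (α : ℝ) (Γ : Matrix G.V G.V ℝ) : ℝ :=
  ((g.m : ℝ) ^ 2)⁻¹ * ∑ x : G.V, Real.exp (-α ^ 2 * Γ x x / 2) / 2

open Classical in
/-- `[s²] rP` -/
def P2G {G : Geom} (g : Grid G) (R : ℕ) (α : ℝ) (Γ : Matrix G.V G.V ℝ) : ℝ :=
  ((g.m : ℝ) ^ 2)⁻¹ * (∑ x : G.V, Real.exp (-α ^ 2 * Γ x x / 2) / 2 *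
      ∑ B : g.I, if R < g.idist B (g.blk x) then (meanE g Γ B - α ^ 2 * eB g B (fun v => Γ v x)) / 2 else 0)
    - P1G g α Γ * ((1 / 2) * ∑ B : g.I, meanE g Γ B)

/-! ## 2. Gaussian semigroup, terminal covariances  (the chain (B) itself: `Rdo/Stop.lean` + `Map/CoefTop.lean`) -/

/-- Gaussian semigroup.  (`gauss (Γ + Γ')` = law of the sum of two independent fields: characteristic functions / `regg_mv_map`; then Fubini.) -/
theorem conv_add {G : Geom} (Γ Γ' : Matrix G.V G.V ℝ) (hΓ : Γ.PosSemidef) (hΓ' : Γ'.PosSemidef) (F : Fn G) (z : G.V → ℂ)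
    (hF : Integrable (fun ζ => F (z + toC ζ)) (gauss G (Γ + Γ'))) : conv (Γ + Γ') F z = conv Γ' (conv Γ F) z := by
  have hadd : ((gauss G Γ').prod (gauss G Γ)).map (fun x => x.1 + x.2) = gauss G (Γ + Γ') := by
    rw [add_comm Γ Γ']
    exact Reg.reg_gauss_add hΓ' hΓ
  have : IsProbabilityMeasure (gauss G Γ) := Reg.reg_gauss_prob Γ
  have : IsProbabilityMeasure (gauss G Γ') := Reg.reg_gauss_prob Γ'
  have hm : Measurable (fun x : (G.V → ℝ) × (G.V → ℝ) => x.1 + x.2) := by fun_prop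
  rw [← hadd] at hF
  have hF2 := (integrable_map_measure hF.1 hm.aemeasurable).1 hF
  unfold conv
  rw [← hadd, integral_map hm.aemeasurable hF.1,
    integral_prod (fun x : (G.V → ℝ) × (G.V → ℝ) => F (z + toC (x.1 + x.2))) hF2]
  refine integral_congr_ae (Filter.Eventually.of_forall fun ζ' => ?_)
  refine integral_congr_ae (Filter.Eventually.of_forall fun ζ => ?_)
  show F (z + toC (ζ' + ζ)) = F (z + toC ζ' + toC ζ)
  congr 1
  funext v
  simp [toC, add_assoc]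

/-- the terminal covariance of the entry family is what it should be -/
theorem termCov_spec (G : Geom) (u : ℕ) (hu : 1 ≤ u) : IsTerminal G Fam.entry u (termCov G Fam.entry u) := by
  have h : ∃ Γ, IsTerminal G Fam.entry u Γ := Ker.ker_exists_terminal G Fam.entry Ker.ker_entry_adm u hu
  unfold termCov
  rw [dif_pos h]
  exact h.choose_spec

/-- the Fourier multiplier of the terminal covariance of the entry family -/
theorem termCov_mul (G : Geom) (u : ℕ) (hu : 1 ≤ u) : Ker.HasMul G (termCov G Fam.entry u) (Ker.tm Fam.entry u) :=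
  Ker.ker_terminal_mul Ker.ker_entry_adm u (termCov_spec G u hu)

theorem Sc_pow_pos (s : Sc) (j : ℕ) : 1 ≤ s.L ^ j := Nat.pow_pos s.L_pos

/-- telescoping WITH the zero mode -/
theorem termCov_succ_c (s : Sc) (h j : ℕ) :
    termCov (s.T h) Fam.entry (s.L ^ j) + Ker.cmat (s.T h) ((Fam.entry.shellP (s.L ^ j) (s.L ^ (j + 1))).eval 0)
      = shell (s.T h) Fam.entry (s.L ^ j) (s.L ^ (j + 1)) + termCov (s.T h) Fam.entry (s.L ^ (j + 1)) := by
  have h1 := Ker.ker_mul_add (termCov_mul (s.T h) _ (Sc_pow_pos s j))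
    (Ker.ker_cmat_mul (s.T h) ((Fam.entry.shellP (s.L ^ j) (s.L ^ (j + 1))).eval 0))
  have h2 := Ker.ker_mul_add (Ker.ker_cov_mul (s.T h) (Fam.entry.shellP (s.L ^ j) (s.L ^ (j + 1))))
    (termCov_mul (s.T h) _ (Sc_pow_pos s (j + 1)))
  refine Ker.ker_mul_ext h1 h2 fun k => ?_
  by_cases hk : Ker.lam (Ker.per (s.T h)) k = 0
  · simp [hk, Ker.tm]
  · have h3 := Ker.ker_shellP_eval Fam.entry (s.L ^ j) (s.L ^ (j + 1)) (Sc_pow_pos s j) (Sc_pow_pos s (j + 1))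
      (Ker.lam (Ker.per (s.T h)) k)
    simp only [hk, if_false, add_zero, Ker.tm, Ker.ker_termP_eval]
    field_simp
    linear_combination -h3

/-! ## 3. (C) the gas of singletons: finite-dimensional Gaussian calculus -/

theorem c53_lin_meas {ι : Type} [Fintype ι] (u : ι → ℝ) : Measurable (fun ζ : ι → ℝ => u ⬝ᵥ ζ) := by
  have hc : Continuous (fun ζ : ι → ℝ => u ⬝ᵥ ζ) := by fun_prop
  exact hc.measurable

theorem c53_char {ι : Type} [Fintype ι] [DecidableEq ι] {Γ : Matrix ι ι ℝ} (hΓ : Γ.PosSemidef) (u : ι → ℝ) :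
    ∫ ζ, Complex.exp (Complex.I * ((u ⬝ᵥ ζ : ℝ) : ℂ)) ∂(Reg.regGauss Γ)
      = ((Real.exp (-(Reg.regQf Γ u) / 2) : ℝ) : ℂ) := by
  have h1 : ∫ y, Complex.exp (Complex.I * ((y : ℝ) : ℂ)) ∂((Reg.regGauss Γ).map fun ζ => u ⬝ᵥ ζ)
      = ∫ ζ, Complex.exp (Complex.I * ((u ⬝ᵥ ζ : ℝ) : ℂ)) ∂(Reg.regGauss Γ) := by
    refine integral_map (c53_lin_meas u).aemeasurable ?_
    exact (by fun_prop : Continuous fun y : ℝ => Complex.exp (Complex.I * (y : ℂ))).aestronglyMeasurable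
  rw [← h1, Reg.regg_lin_law hΓ u]
  have h2 := charFun_gaussianReal (μ := 0) (v := (Reg.regQf Γ u).toNNReal) 1
  rw [charFun_apply_real] at h2
  have e1 : (fun y : ℝ => Complex.exp (Complex.I * (y : ℂ))) = fun y : ℝ => Complex.exp (((1 : ℝ) : ℂ) * (y : ℂ) * Complex.I) := by
    funext y
    congr 1
    push_cast
    ring
  rw [e1, h2, Complex.ofReal_exp]
  congr 1
  have e2 : (((Reg.regQf Γ u).toNNReal : ℝ) : ℂ) = ((Reg.regQf Γ u : ℝ) : ℂ) := by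
    rw [Real.coe_toNNReal _ (Reg.reg_qf_nonneg hΓ u)]
  push_cast
  rw [e2]
  ring

theorem c53_lin_memLp {ι : Type} [Fintype ι] [DecidableEq ι] {Γ : Matrix ι ι ℝ} (hΓ : Γ.PosSemidef) (u : ι → ℝ) (p : ℝ≥0) :
    MemLp (fun ζ : ι → ℝ => u ⬝ᵥ ζ) p (Reg.regGauss Γ) := by
  have h := memLp_id_gaussianReal (μ := 0) (v := (Reg.regQf Γ u).toNNReal) p
  rw [← Reg.regg_lin_law hΓ u] at h
  exact (memLp_map_measure_iff aestronglyMeasurable_id (c53_lin_meas u).aemeasurable).1 h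

theorem c53_phase_norm (x : ℝ) : ‖Complex.exp (Complex.I * (x : ℂ))‖ = 1 := by
  rw [mul_comm]
  exact Complex.norm_exp_ofReal_mul_I x

theorem c53_deriv {Ω : Type} [MeasurableSpace Ω] (μ : Measure Ω) (g : Ω → ℂ) (X : Ω → ℝ) (hX : Measurable X)
    (hg : Integrable g μ) (hgX : Integrable (fun ω => g ω * (X ω : ℂ)) μ) (s₀ : ℝ) :
    HasDerivAt (fun s : ℝ => ∫ ω, g ω * Complex.exp (Complex.I * ((s * X ω : ℝ) : ℂ)) ∂μ)
      (∫ ω, g ω * (Complex.I * (X ω : ℂ)) * Complex.exp (Complex.I * ((s₀ * X ω : ℝ) : ℂ)) ∂μ) s₀ := by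
  have hexp : ∀ s : ℝ, AEStronglyMeasurable (fun ω => Complex.exp (Complex.I * ((s * X ω : ℝ) : ℂ))) μ := by
    intro s
    have : Measurable (fun ω => Complex.exp (Complex.I * ((s * X ω : ℝ) : ℂ))) := by fun_prop
    exact this.aestronglyMeasurable
  have hXc : AEStronglyMeasurable (fun ω => Complex.I * (X ω : ℂ)) μ := by
    have : Measurable (fun ω => Complex.I * (X ω : ℂ)) := by fun_prop
    exact this.aestronglyMeasurable
  refine (hasDerivAt_integral_of_dominated_loc_of_deriv_le (μ := μ) (s := Set.univ)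
    (bound := fun ω => ‖g ω * (X ω : ℂ)‖)
    (F := fun (s : ℝ) ω => g ω * Complex.exp (Complex.I * ((s * X ω : ℝ) : ℂ)))
    (F' := fun (s : ℝ) ω => g ω * (Complex.I * (X ω : ℂ)) * Complex.exp (Complex.I * ((s * X ω : ℝ) : ℂ)))
    Filter.univ_mem ?_ ?_ ?_ ?_ hgX.norm ?_).2
  · exact Filter.Eventually.of_forall fun s => hg.aestronglyMeasurable.mul (hexp s)
  · refine hg.mul_bdd (c := 1) (hexp s₀) ?_
    exact Filter.Eventually.of_forall fun ω => (c53_phase_norm _).le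
  · exact (hg.aestronglyMeasurable.mul hXc).mul (hexp s₀)
  · refine Filter.Eventually.of_forall fun ω s _ => ?_
    rw [norm_mul, c53_phase_norm, mul_one, norm_mul, norm_mul, norm_mul, Complex.norm_I, one_mul]
  · refine Filter.Eventually.of_forall fun ω s _ => ?_
    have h1 : HasDerivAt (fun s : ℝ => Complex.I * ((s * X ω : ℝ) : ℂ)) (Complex.I * (X ω : ℂ)) s := by
      have h0 : HasDerivAt (fun s : ℝ => ((s * X ω : ℝ) : ℂ)) ((X ω : ℝ) : ℂ) s := by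
        have := (hasDerivAt_id s).mul_const (X ω)
        simpa using this.ofReal_comp
      exact h0.const_mul _
    have h2 := (h1.cexp).const_mul (g ω)
    have e : g ω * (Complex.I * (X ω : ℂ)) * Complex.exp (Complex.I * ((s * X ω : ℝ) : ℂ))
        = g ω * (Complex.exp (Complex.I * ((s * X ω : ℝ) : ℂ)) * (Complex.I * (X ω : ℂ))) := by ring
    rw [e]
    exact h2

theorem c53_symm {ι : Type} [Fintype ι] {Γ : Matrix ι ι ℝ} (hΓ : Γ.PosSemidef) (a v : ι → ℝ) :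
    v ⬝ᵥ Γ.mulVec a = a ⬝ᵥ Γ.mulVec v := by
  have hT : Γ.transpose = Γ := by
    have := hΓ.isHermitian
    rwa [Matrix.IsHermitian, Matrix.conjTranspose_eq_transpose_of_trivial] at this
  rw [Matrix.dotProduct_mulVec, ← Matrix.mulVec_transpose, hT, dotProduct_comm]

theorem c53_qf_add {ι : Type} [Fintype ι] {Γ : Matrix ι ι ℝ} (hΓ : Γ.PosSemidef) (v a : ι → ℝ) (s : ℝ) :
    Reg.regQf Γ (v + s • a) = Reg.regQf Γ v + 2 * s * (a ⬝ᵥ Γ.mulVec v) + s ^ 2 * Reg.regQf Γ a := by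
  unfold Reg.regQf
  rw [Matrix.mulVec_add, Matrix.mulVec_smul, add_dotProduct, dotProduct_add, dotProduct_add, smul_dotProduct,
    smul_dotProduct, dotProduct_smul, dotProduct_smul, c53_symm hΓ a v]
  simp only [smul_eq_mul]
  ring

theorem c53_int_phase {Ω : Type} [MeasurableSpace Ω] {μ : Measure Ω} (W : Ω → ℝ) (hW : Measurable W) {f : Ω → ℂ}
    (hf : Integrable f μ) : Integrable (fun ω => Complex.exp (Complex.I * (W ω : ℂ)) * f ω) μ := by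
  have hm : Measurable (fun ω => Complex.exp (Complex.I * (W ω : ℂ))) := by fun_prop
  exact hf.bdd_mul (c := 1) hm.aestronglyMeasurable (Filter.Eventually.of_forall fun ω => (c53_phase_norm _).le)

theorem c53_lin_int {ι : Type} [Fintype ι] [DecidableEq ι] {Γ : Matrix ι ι ℝ} (hΓ : Γ.PosSemidef) (a : ι → ℝ) :
    Integrable (fun ζ : ι → ℝ => ((a ⬝ᵥ ζ : ℝ) : ℂ)) (Reg.regGauss Γ) := by
  have h : MemLp (fun ζ : ι → ℝ => a ⬝ᵥ ζ) 1 (Reg.regGauss Γ) := by simpa using c53_lin_memLp hΓ a 1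
  exact (memLp_one_iff_integrable.1 h).ofReal

theorem c53_quad_int {ι : Type} [Fintype ι] [DecidableEq ι] {Γ : Matrix ι ι ℝ} (hΓ : Γ.PosSemidef) (a b : ι → ℝ) :
    Integrable (fun ζ : ι → ℝ => ((a ⬝ᵥ ζ : ℝ) : ℂ) * ((b ⬝ᵥ ζ : ℝ) : ℂ)) (Reg.regGauss Γ) := by
  have h1 : MemLp (fun ζ : ι → ℝ => a ⬝ᵥ ζ) 2 (Reg.regGauss Γ) := by simpa using c53_lin_memLp hΓ a 2
  have h2 : MemLp (fun ζ : ι → ℝ => b ⬝ᵥ ζ) 2 (Reg.regGauss Γ) := by simpa using c53_lin_memLp hΓ b 2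
  have h3 : Integrable (fun ζ : ι → ℝ => (a ⬝ᵥ ζ) * (b ⬝ᵥ ζ)) (Reg.regGauss Γ) := h1.integrable_mul h2
  simpa using h3.ofReal (𝕜 := ℂ)

theorem c53_gauss_one {ι : Type} [Fintype ι] [DecidableEq ι] {Γ : Matrix ι ι ℝ} (hΓ : Γ.PosSemidef) (a v : ι → ℝ) :
    ∫ ζ, Complex.exp (Complex.I * ((v ⬝ᵥ ζ : ℝ) : ℂ)) * (Complex.I * ((a ⬝ᵥ ζ : ℝ) : ℂ)) ∂(Reg.regGauss Γ)
      = ((-(a ⬝ᵥ Γ.mulVec v) * Real.exp (-(Reg.regQf Γ v) / 2) : ℝ) : ℂ) := by
  have hg : Integrable (fun ζ : ι → ℝ => Complex.exp (Complex.I * ((v ⬝ᵥ ζ : ℝ) : ℂ))) (Reg.regGauss Γ) := by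
    simpa using c53_int_phase (μ := Reg.regGauss Γ) (fun ζ : ι → ℝ => v ⬝ᵥ ζ) (c53_lin_meas v) (integrable_const (1 : ℂ))
  have hgX : Integrable (fun ζ : ι → ℝ => Complex.exp (Complex.I * ((v ⬝ᵥ ζ : ℝ) : ℂ)) * ((a ⬝ᵥ ζ : ℝ) : ℂ))
      (Reg.regGauss Γ) := c53_int_phase (fun ζ : ι → ℝ => v ⬝ᵥ ζ) (c53_lin_meas v) (c53_lin_int hΓ a)
  have h1 := c53_deriv (Reg.regGauss Γ) _ (fun ζ : ι → ℝ => a ⬝ᵥ ζ) (c53_lin_meas a) hg hgX 0
  have h2 : (fun s : ℝ => ∫ ζ : ι → ℝ, Complex.exp (Complex.I * ((v ⬝ᵥ ζ : ℝ) : ℂ))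
        * Complex.exp (Complex.I * ((s * (a ⬝ᵥ ζ) : ℝ) : ℂ)) ∂(Reg.regGauss Γ))
      = fun s : ℝ => ((Real.exp (-(Reg.regQf Γ v + 2 * s * (a ⬝ᵥ Γ.mulVec v) + s ^ 2 * Reg.regQf Γ a) / 2) : ℝ) : ℂ) := by
    funext s
    rw [← c53_qf_add hΓ, ← c53_char hΓ]
    refine integral_congr_ae (Filter.Eventually.of_forall fun ζ => ?_)
    show _ * _ = Complex.exp (Complex.I * (((v + s • a) ⬝ᵥ ζ : ℝ) : ℂ))
    rw [← Complex.exp_add, add_dotProduct, smul_dotProduct, smul_eq_mul]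
    congr 1
    push_cast
    ring
  rw [h2] at h1
  have h3 : HasDerivAt (fun s : ℝ => ((Real.exp (-(Reg.regQf Γ v + 2 * s * (a ⬝ᵥ Γ.mulVec v) + s ^ 2 * Reg.regQf Γ a) / 2) : ℝ) : ℂ))
      ((-(a ⬝ᵥ Γ.mulVec v) * Real.exp (-(Reg.regQf Γ v) / 2) : ℝ) : ℂ) 0 := by
    have h4 : HasDerivAt (fun s : ℝ => -(Reg.regQf Γ v + 2 * s * (a ⬝ᵥ Γ.mulVec v) + s ^ 2 * Reg.regQf Γ a) / 2)
        (-(a ⬝ᵥ Γ.mulVec v)) 0 := by
      have h5 : HasDerivAt (fun s : ℝ => -(Reg.regQf Γ v + 2 * s * (a ⬝ᵥ Γ.mulVec v) + s ^ 2 * Reg.regQf Γ a) / 2)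
          (-(0 + 2 * 1 * (a ⬝ᵥ Γ.mulVec v) + (2 * (0:ℝ) ^ (2 - 1) * 1) * Reg.regQf Γ a) / 2) 0 := by
        refine HasDerivAt.div_const (HasDerivAt.neg (HasDerivAt.add (HasDerivAt.add (hasDerivAt_const _ _) ?_) ?_)) _
        · exact ((hasDerivAt_id (0:ℝ)).const_mul 2).mul_const _
        · exact ((hasDerivAt_id (0:ℝ)).pow 2).mul_const _
      convert h5 using 1
      ring
    have h6 := h4.exp
    have h7 : HasDerivAt (fun s : ℝ => Real.exp (-(Reg.regQf Γ v + 2 * s * (a ⬝ᵥ Γ.mulVec v) + s ^ 2 * Reg.regQf Γ a) / 2))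
        (-(a ⬝ᵥ Γ.mulVec v) * Real.exp (-(Reg.regQf Γ v) / 2)) 0 := by
      convert h6 using 1
      simp only [mul_zero, zero_mul, add_zero, ne_eq, OfNat.ofNat_ne_zero, not_false_eq_true, zero_pow]
      ring
    exact h7.ofReal_comp
  have h8 := h1.unique h3
  rw [← h8]
  refine integral_congr_ae (Filter.Eventually.of_forall fun ζ => ?_)
  simp

theorem c53_gauss_two {ι : Type} [Fintype ι] [DecidableEq ι] {Γ : Matrix ι ι ℝ} (hΓ : Γ.PosSemidef) (a b w : ι → ℝ) :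
    ∫ ζ, ((a ⬝ᵥ ζ : ℝ) : ℂ) * ((b ⬝ᵥ ζ : ℝ) : ℂ) * Complex.exp (Complex.I * ((w ⬝ᵥ ζ : ℝ) : ℂ)) ∂(Reg.regGauss Γ)
      = (((a ⬝ᵥ Γ.mulVec b - (a ⬝ᵥ Γ.mulVec w) * (b ⬝ᵥ Γ.mulVec w)) * Real.exp (-(Reg.regQf Γ w) / 2) : ℝ) : ℂ) := by
  have hg : Integrable (fun ζ : ι → ℝ => Complex.exp (Complex.I * ((w ⬝ᵥ ζ : ℝ) : ℂ)) * (Complex.I * ((a ⬝ᵥ ζ : ℝ) : ℂ)))
      (Reg.regGauss Γ) :=
    c53_int_phase (fun ζ : ι → ℝ => w ⬝ᵥ ζ) (c53_lin_meas w) ((c53_lin_int hΓ a).const_mul Complex.I)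
  have hgX : Integrable (fun ζ : ι → ℝ => Complex.exp (Complex.I * ((w ⬝ᵥ ζ : ℝ) : ℂ)) * (Complex.I * ((a ⬝ᵥ ζ : ℝ) : ℂ))
      * ((b ⬝ᵥ ζ : ℝ) : ℂ)) (Reg.regGauss Γ) := by
    have h0 := c53_int_phase (fun ζ : ι → ℝ => w ⬝ᵥ ζ) (c53_lin_meas w) ((c53_quad_int hΓ a b).const_mul Complex.I)
    refine h0.congr (Filter.Eventually.of_forall fun ζ => ?_)
    show _ * (_ * (_ * _)) = _ * (_ * _) * _
    ring
  have h1 := c53_deriv (Reg.regGauss Γ) _ (fun ζ : ι → ℝ => b ⬝ᵥ ζ) (c53_lin_meas b) hg hgX 0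
  have h2 : (fun s : ℝ => ∫ ζ : ι → ℝ, Complex.exp (Complex.I * ((w ⬝ᵥ ζ : ℝ) : ℂ)) * (Complex.I * ((a ⬝ᵥ ζ : ℝ) : ℂ))
        * Complex.exp (Complex.I * ((s * (b ⬝ᵥ ζ) : ℝ) : ℂ)) ∂(Reg.regGauss Γ))
      = fun s : ℝ => ((-(a ⬝ᵥ Γ.mulVec w + s * (a ⬝ᵥ Γ.mulVec b))
          * Real.exp (-(Reg.regQf Γ w + 2 * s * (b ⬝ᵥ Γ.mulVec w) + s ^ 2 * Reg.regQf Γ b) / 2) : ℝ) : ℂ) := by
    funext s
    have e1 : a ⬝ᵥ Γ.mulVec w + s * (a ⬝ᵥ Γ.mulVec b) = a ⬝ᵥ Γ.mulVec (w + s • b) := by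
      rw [Matrix.mulVec_add, Matrix.mulVec_smul, dotProduct_add, dotProduct_smul, smul_eq_mul]
    rw [← c53_qf_add hΓ, e1, ← c53_gauss_one hΓ]
    refine integral_congr_ae (Filter.Eventually.of_forall fun ζ => ?_)
    show _ * (_ * _) * _ = Complex.exp (Complex.I * (((w + s • b) ⬝ᵥ ζ : ℝ) : ℂ)) * (_ * _)
    rw [add_dotProduct, smul_dotProduct, smul_eq_mul]
    have e2 : Complex.I * ((w ⬝ᵥ ζ + s * (b ⬝ᵥ ζ) : ℝ) : ℂ)
        = Complex.I * ((w ⬝ᵥ ζ : ℝ) : ℂ) + Complex.I * ((s * (b ⬝ᵥ ζ) : ℝ) : ℂ) := by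
      push_cast
      ring
    rw [e2, Complex.exp_add]
    ring
  rw [h2] at h1
  have h3 : HasDerivAt (fun s : ℝ => ((-(a ⬝ᵥ Γ.mulVec w + s * (a ⬝ᵥ Γ.mulVec b))
          * Real.exp (-(Reg.regQf Γ w + 2 * s * (b ⬝ᵥ Γ.mulVec w) + s ^ 2 * Reg.regQf Γ b) / 2) : ℝ) : ℂ))
      ((-((a ⬝ᵥ Γ.mulVec b - (a ⬝ᵥ Γ.mulVec w) * (b ⬝ᵥ Γ.mulVec w)) * Real.exp (-(Reg.regQf Γ w) / 2)) : ℝ) : ℂ) 0 := by
    have h4 : HasDerivAt (fun s : ℝ => -(Reg.regQf Γ w + 2 * s * (b ⬝ᵥ Γ.mulVec w) + s ^ 2 * Reg.regQf Γ b) / 2)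
        (-(b ⬝ᵥ Γ.mulVec w)) 0 := by
      have h5 : HasDerivAt (fun s : ℝ => -(Reg.regQf Γ w + 2 * s * (b ⬝ᵥ Γ.mulVec w) + s ^ 2 * Reg.regQf Γ b) / 2)
          (-(0 + 2 * 1 * (b ⬝ᵥ Γ.mulVec w) + (2 * (0:ℝ) ^ (2 - 1) * 1) * Reg.regQf Γ b) / 2) 0 := by
        refine HasDerivAt.div_const (HasDerivAt.neg (HasDerivAt.add (HasDerivAt.add (hasDerivAt_const _ _) ?_) ?_)) _
        · exact ((hasDerivAt_id (0:ℝ)).const_mul 2).mul_const _
        · exact ((hasDerivAt_id (0:ℝ)).pow 2).mul_const _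
      convert h5 using 1
      ring
    have h6 := h4.exp
    have h6' : HasDerivAt (fun s : ℝ => -(a ⬝ᵥ Γ.mulVec w + s * (a ⬝ᵥ Γ.mulVec b))) (-(0 + 1 * (a ⬝ᵥ Γ.mulVec b))) 0 :=
      HasDerivAt.neg (HasDerivAt.add (hasDerivAt_const _ _) ((hasDerivAt_id (0:ℝ)).mul_const _))
    have h7 : HasDerivAt (fun s : ℝ => -(a ⬝ᵥ Γ.mulVec w + s * (a ⬝ᵥ Γ.mulVec b))
          * Real.exp (-(Reg.regQf Γ w + 2 * s * (b ⬝ᵥ Γ.mulVec w) + s ^ 2 * Reg.regQf Γ b) / 2))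
        (-((a ⬝ᵥ Γ.mulVec b - (a ⬝ᵥ Γ.mulVec w) * (b ⬝ᵥ Γ.mulVec w)) * Real.exp (-(Reg.regQf Γ w) / 2))) 0 := by
      have h70 := h6'.mul h6
      have e7 : -((a ⬝ᵥ Γ.mulVec b - (a ⬝ᵥ Γ.mulVec w) * (b ⬝ᵥ Γ.mulVec w)) * Real.exp (-(Reg.regQf Γ w) / 2))
          = -(0 + 1 * (a ⬝ᵥ Γ.mulVec b))
              * Real.exp (-(Reg.regQf Γ w + 2 * 0 * (b ⬝ᵥ Γ.mulVec w) + (0:ℝ) ^ 2 * Reg.regQf Γ b) / 2)
            + -(a ⬝ᵥ Γ.mulVec w + 0 * (a ⬝ᵥ Γ.mulVec b))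
              * (Real.exp (-(Reg.regQf Γ w + 2 * 0 * (b ⬝ᵥ Γ.mulVec w) + (0:ℝ) ^ 2 * Reg.regQf Γ b) / 2)
                * -(b ⬝ᵥ Γ.mulVec w)) := by
        simp only [mul_zero, zero_mul, add_zero, ne_eq, OfNat.ofNat_ne_zero, not_false_eq_true, zero_pow]
        ring
      rw [e7]
      exact h70
    exact h7.ofReal_comp
  have h8 := h1.unique h3
  have h9 : ∫ ζ, ((a ⬝ᵥ ζ : ℝ) : ℂ) * ((b ⬝ᵥ ζ : ℝ) : ℂ) * Complex.exp (Complex.I * ((w ⬝ᵥ ζ : ℝ) : ℂ)) ∂(Reg.regGauss Γ)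
      = -∫ ζ : ι → ℝ, Complex.exp (Complex.I * ((w ⬝ᵥ ζ : ℝ) : ℂ)) * (Complex.I * ((a ⬝ᵥ ζ : ℝ) : ℂ))
        * (Complex.I * ((b ⬝ᵥ ζ : ℝ) : ℂ)) * Complex.exp (Complex.I * (((0:ℝ) * (b ⬝ᵥ ζ) : ℝ) : ℂ)) ∂(Reg.regGauss Γ) := by
    rw [← integral_neg]
    refine integral_congr_ae (Filter.Eventually.of_forall fun ζ => ?_)
    show _ * _ * _ = -(_ * (_ * _) * (_ * _) * _)
    rw [zero_mul, Complex.ofReal_zero, mul_zero, Complex.exp_zero]
    have hI : Complex.I * Complex.I = -1 := Complex.I_mul_I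
    linear_combination (((a ⬝ᵥ ζ : ℝ) : ℂ) * ((b ⬝ᵥ ζ : ℝ) : ℂ) * Complex.exp (Complex.I * ((w ⬝ᵥ ζ : ℝ) : ℂ))) * hI
  rw [h9, h8]
  push_cast
  ring

theorem c53_phase_int (ω : ℝ) (hω : 0 < ω) (k : ℤ) :
    ((1 / ω : ℝ) : ℂ) * ∫ θ in (0 : ℝ)..ω, Complex.exp (Complex.I * (k : ℂ) * ((2 * Real.pi / ω : ℝ) : ℂ) * (θ : ℂ))
      = if k = 0 then 1 else 0 := by
  have hωc : (ω : ℂ) ≠ 0 := by exact_mod_cast hω.ne'
  by_cases hk : k = 0
  · rw [if_pos hk, hk]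
    simp only [Int.cast_zero, mul_zero, zero_mul, Complex.exp_zero, intervalIntegral.integral_const, sub_zero]
    rw [Complex.real_smul]
    push_cast
    field_simp
  · rw [if_neg hk]
    have hc : Complex.I * (k : ℂ) * ((2 * Real.pi / ω : ℝ) : ℂ) ≠ 0 := by
      refine mul_ne_zero (mul_ne_zero Complex.I_ne_zero (by exact_mod_cast hk)) ?_
      have : (2 * Real.pi / ω : ℝ) ≠ 0 := by positivity
      exact_mod_cast this
    rw [integral_exp_mul_complex hc]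
    have e1 : Complex.I * (k : ℂ) * ((2 * Real.pi / ω : ℝ) : ℂ) * (ω : ℂ) = (k : ℂ) * (2 * Real.pi * Complex.I) := by
      push_cast
      field_simp
    rw [e1, Complex.exp_int_mul_two_pi_mul_I]
    simp

theorem c53_sum_cast {ι : Type} [Fintype ι] (a ζ : ι → ℝ) : ∑ v, (a v : ℂ) * (ζ v : ℂ) = ((a ⬝ᵥ ζ : ℝ) : ℂ) := by
  unfold dotProduct
  push_cast
  rfl

/-- the basic integral: characters of the field.  (`regg_lin_law`: `∑ n_v ζ_v` is `N (0, n·Γn)`; `∫_0^ω e^{i (N - q) α θ} dθ`.) -/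
theorem Eter_char {G : Geom} (Γ : Matrix G.V G.V ℝ) (hΓ : Γ.PosSemidef) (ω : ℝ) (hω : 0 < ω) (q : ℤ) (n : G.V → ℤ) (Fb : G.V → ℂ) :
    Eter G Γ ω q (fun z => Complex.exp (Complex.I * ((2 * Real.pi / ω : ℝ) : ℂ) * ∑ v, (n v : ℂ) * z v)) Fb
      = if ∑ v, n v = q then
          Complex.exp (Complex.I * ((2 * Real.pi / ω : ℝ) : ℂ) * ∑ v, (n v : ℂ) * Fb v)
            * (Real.exp (-(2 * Real.pi / ω) ^ 2 * ((fun v => (n v : ℝ)) ⬝ᵥ Γ.mulVec fun v => (n v : ℝ)) / 2) : ℝ)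
        else 0 := by
  obtain ⟨α, hα⟩ : ∃ α : ℝ, α = 2 * Real.pi / ω := ⟨_, rfl⟩
  obtain ⟨nr, hnr⟩ : ∃ nr : G.V → ℝ, nr = fun v => (n v : ℝ) := ⟨_, rfl⟩
  rw [← hα, ← hnr]
  obtain ⟨C, hC⟩ : ∃ C : ℂ, C = Complex.exp (Complex.I * (α : ℂ) * ∑ v, (n v : ℂ) * Fb v)
            * (Real.exp (-α ^ 2 * (nr ⬝ᵥ Γ.mulVec nr) / 2) : ℝ) := ⟨_, rfl⟩
  rw [← hC]
  have hconv : ∀ θ : ℝ, conv Γ (fun z => Complex.exp (Complex.I * (α : ℂ) * ∑ v, (n v : ℂ) * z v)) (fun v => Fb v + (θ : ℂ))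
      = Complex.exp (Complex.I * ((∑ v, n v : ℤ) : ℂ) * (α : ℂ) * (θ : ℂ)) * C := by
    intro θ
    have h1 := c53_char hΓ (α • nr)
    have e3 : Reg.regQf Γ (α • nr) = α ^ 2 * (nr ⬝ᵥ Γ.mulVec nr) := by
      unfold Reg.regQf
      rw [Matrix.mulVec_smul, dotProduct_smul, smul_dotProduct, smul_eq_mul, smul_eq_mul]
      ring
    have e6 : -(α ^ 2 * (nr ⬝ᵥ Γ.mulVec nr)) / 2 = -α ^ 2 * (nr ⬝ᵥ Γ.mulVec nr) / 2 := by ring
    rw [e3, e6] at h1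
    rw [hC, ← h1, ← mul_assoc, ← integral_const_mul]
    unfold conv
    refine integral_congr_ae (Filter.Eventually.of_forall fun ζ => ?_)
    have s2 : ∑ v, (n v : ℂ) * ((fun v => Fb v + (θ : ℂ)) + toC ζ) v
        = ∑ v, (n v : ℂ) * Fb v + ((∑ v, n v : ℤ) : ℂ) * (θ : ℂ) + ((nr ⬝ᵥ ζ : ℝ) : ℂ) := by
      rw [← c53_sum_cast]
      have : ∀ v, (n v : ℂ) * ((fun v => Fb v + (θ : ℂ)) + toC ζ) v
          = (n v : ℂ) * Fb v + (n v : ℂ) * (θ : ℂ) + (nr v : ℂ) * (ζ v : ℂ) := by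
        intro v
        simp only [Pi.add_apply, toC, hnr]
        push_cast
        ring
      rw [Finset.sum_congr rfl fun v _ => this v, Finset.sum_add_distrib, Finset.sum_add_distrib, ← Finset.sum_mul]
      push_cast
      rfl
    show Complex.exp (Complex.I * (α : ℂ) * ∑ v, (n v : ℂ) * ((fun v => Fb v + (θ : ℂ)) + toC ζ) v)
      = Complex.exp (Complex.I * ((∑ v, n v : ℤ) : ℂ) * (α : ℂ) * (θ : ℂ)) * Complex.exp (Complex.I * (α : ℂ) * ∑ v, (n v : ℂ) * Fb v)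
        * Complex.exp (Complex.I * (((α • nr) ⬝ᵥ ζ : ℝ) : ℂ))
    rw [s2, smul_dotProduct, smul_eq_mul, ← Complex.exp_add, ← Complex.exp_add]
    congr 1
    push_cast
    ring
  unfold Eter
  rw [← hα]
  have hint : ∀ θ : ℝ, Complex.exp (-(Complex.I * (q : ℂ) * (α : ℂ) * (θ : ℂ)))
        * conv Γ (fun z => Complex.exp (Complex.I * (α : ℂ) * ∑ v, (n v : ℂ) * z v)) (fun v => Fb v + (θ : ℂ))
      = Complex.exp (Complex.I * ((∑ v, n v - q : ℤ) : ℂ) * (α : ℂ) * (θ : ℂ)) * C := by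
    intro θ
    rw [hconv θ, ← mul_assoc, ← Complex.exp_add]
    congr 2
    push_cast
    ring
  rw [intervalIntegral.integral_congr (g := fun θ : ℝ => Complex.exp (Complex.I * ((∑ v, n v - q : ℤ) : ℂ) * (α : ℂ) * (θ : ℂ)) * C)
    (fun θ _ => hint θ), intervalIntegral.integral_mul_const, ← mul_assoc, hα, c53_phase_int ω hω]
  by_cases h : ∑ v, n v = q
  · rw [if_pos h, if_pos (by omega), one_mul]
  · rw [if_neg h, if_neg (by omega), zero_mul]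

/-- characters times a product of two linear forms (differentiate `Eter_char`-type Gaussian integrals, or Gaussian integration by parts), at the background `0` -/
theorem Eter_char_quad {G : Geom} (Γ : Matrix G.V G.V ℝ) (hΓ : Γ.PosSemidef) (ω : ℝ) (hω : 0 < ω) (q : ℤ) (n : G.V → ℤ) (a b : G.V → ℝ)
    (ha : ∑ v, a v = 0) (hb : ∑ v, b v = 0) :
    Eter G Γ ω q (fun z => (∑ v, (a v : ℂ) * z v) * (∑ v, (b v : ℂ) * z v) * Complex.exp (Complex.I * ((2 * Real.pi / ω : ℝ) : ℂ) * ∑ v, (n v : ℂ) * z v)) 0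
      = if ∑ v, n v = q then
          (((a ⬝ᵥ Γ.mulVec b - (2 * Real.pi / ω) ^ 2 * (a ⬝ᵥ Γ.mulVec fun v => (n v : ℝ)) * (b ⬝ᵥ Γ.mulVec fun v => (n v : ℝ)))
            * Real.exp (-(2 * Real.pi / ω) ^ 2 * ((fun v => (n v : ℝ)) ⬝ᵥ Γ.mulVec fun v => (n v : ℝ)) / 2) : ℝ) : ℂ)
        else 0 := by
  obtain ⟨α, hα⟩ : ∃ α : ℝ, α = 2 * Real.pi / ω := ⟨_, rfl⟩
  obtain ⟨nr, hnr⟩ : ∃ nr : G.V → ℝ, nr = fun v => (n v : ℝ) := ⟨_, rfl⟩
  rw [← hα, ← hnr]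
  obtain ⟨C, hC⟩ : ∃ C : ℂ, C = (((a ⬝ᵥ Γ.mulVec b - α ^ 2 * (a ⬝ᵥ Γ.mulVec nr) * (b ⬝ᵥ Γ.mulVec nr))
            * Real.exp (-α ^ 2 * (nr ⬝ᵥ Γ.mulVec nr) / 2) : ℝ) : ℂ) := ⟨_, rfl⟩
  rw [← hC]
  have hac : ∑ v, (a v : ℂ) = 0 := by exact_mod_cast ha
  have hbc : ∑ v, (b v : ℂ) = 0 := by exact_mod_cast hb
  have hconv : ∀ θ : ℝ, conv Γ (fun z => (∑ v, (a v : ℂ) * z v) * (∑ v, (b v : ℂ) * z v)
        * Complex.exp (Complex.I * (α : ℂ) * ∑ v, (n v : ℂ) * z v)) (fun v => (0 : G.V → ℂ) v + (θ : ℂ))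
      = Complex.exp (Complex.I * ((∑ v, n v : ℤ) : ℂ) * (α : ℂ) * (θ : ℂ)) * C := by
    intro θ
    have h1 := c53_gauss_two hΓ a b (α • nr)
    have e1 : a ⬝ᵥ Γ.mulVec (α • nr) = α * (a ⬝ᵥ Γ.mulVec nr) := by
      rw [Matrix.mulVec_smul, dotProduct_smul, smul_eq_mul]
    have e2 : b ⬝ᵥ Γ.mulVec (α • nr) = α * (b ⬝ᵥ Γ.mulVec nr) := by
      rw [Matrix.mulVec_smul, dotProduct_smul, smul_eq_mul]
    have e3 : Reg.regQf Γ (α • nr) = α ^ 2 * (nr ⬝ᵥ Γ.mulVec nr) := by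
      unfold Reg.regQf
      rw [Matrix.mulVec_smul, dotProduct_smul, smul_dotProduct, smul_eq_mul, smul_eq_mul]
      ring
    have e4 : (((a ⬝ᵥ Γ.mulVec b - (a ⬝ᵥ Γ.mulVec (α • nr)) * (b ⬝ᵥ Γ.mulVec (α • nr)))
        * Real.exp (-(Reg.regQf Γ (α • nr)) / 2) : ℝ) : ℂ) = C := by
      have e6 : -(α ^ 2 * (nr ⬝ᵥ Γ.mulVec nr)) / 2 = -α ^ 2 * (nr ⬝ᵥ Γ.mulVec nr) / 2 := by ring
      rw [hC, e1, e2, e3, e6]
      congr 2
      ring
    rw [e4] at h1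
    rw [← h1, ← integral_const_mul]
    unfold conv
    refine integral_congr_ae (Filter.Eventually.of_forall fun ζ => ?_)
    have s1 : ∀ c : G.V → ℝ, ∑ v, (c v : ℂ) = 0 →
        ∑ v, (c v : ℂ) * ((fun v => (0 : G.V → ℂ) v + (θ : ℂ)) + toC ζ) v = ((c ⬝ᵥ ζ : ℝ) : ℂ) := by
      intro c hc
      rw [← c53_sum_cast]
      have : ∀ v, (c v : ℂ) * ((fun v => (0 : G.V → ℂ) v + (θ : ℂ)) + toC ζ) v = (c v : ℂ) * (θ : ℂ) + (c v : ℂ) * (ζ v : ℂ) := by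
        intro v
        simp only [Pi.add_apply, Pi.zero_apply, zero_add, toC]
        ring
      rw [Finset.sum_congr rfl fun v _ => this v, Finset.sum_add_distrib, ← Finset.sum_mul, hc, zero_mul, zero_add]
    have s2 : ∑ v, (n v : ℂ) * ((fun v => (0 : G.V → ℂ) v + (θ : ℂ)) + toC ζ) v
        = ((∑ v, n v : ℤ) : ℂ) * (θ : ℂ) + ((nr ⬝ᵥ ζ : ℝ) : ℂ) := by
      rw [← c53_sum_cast]
      have : ∀ v, (n v : ℂ) * ((fun v => (0 : G.V → ℂ) v + (θ : ℂ)) + toC ζ) v = (n v : ℂ) * (θ : ℂ) + (nr v : ℂ) * (ζ v : ℂ) := by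
        intro v
        simp only [Pi.add_apply, Pi.zero_apply, zero_add, toC, hnr]
        push_cast
        ring
      rw [Finset.sum_congr rfl fun v _ => this v, Finset.sum_add_distrib, ← Finset.sum_mul]
      push_cast
      rfl
    show (∑ v, (a v : ℂ) * ((fun v => (0 : G.V → ℂ) v + (θ : ℂ)) + toC ζ) v)
        * (∑ v, (b v : ℂ) * ((fun v => (0 : G.V → ℂ) v + (θ : ℂ)) + toC ζ) v)
        * Complex.exp (Complex.I * (α : ℂ) * ∑ v, (n v : ℂ) * ((fun v => (0 : G.V → ℂ) v + (θ : ℂ)) + toC ζ) v)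
      = Complex.exp (Complex.I * ((∑ v, n v : ℤ) : ℂ) * (α : ℂ) * (θ : ℂ))
        * (((a ⬝ᵥ ζ : ℝ) : ℂ) * ((b ⬝ᵥ ζ : ℝ) : ℂ) * Complex.exp (Complex.I * (((α • nr) ⬝ᵥ ζ : ℝ) : ℂ)))
    rw [s1 a hac, s1 b hbc, s2, smul_dotProduct, smul_eq_mul]
    have e5 : Complex.I * (α : ℂ) * (((∑ v, n v : ℤ) : ℂ) * (θ : ℂ) + ((nr ⬝ᵥ ζ : ℝ) : ℂ))
        = Complex.I * ((∑ v, n v : ℤ) : ℂ) * (α : ℂ) * (θ : ℂ) + Complex.I * ((α * (nr ⬝ᵥ ζ) : ℝ) : ℂ) := by
      push_cast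
      ring
    rw [e5, Complex.exp_add]
    ring
  unfold Eter
  rw [← hα]
  have hint : ∀ θ : ℝ, Complex.exp (-(Complex.I * (q : ℂ) * (α : ℂ) * (θ : ℂ)))
        * conv Γ (fun z => (∑ v, (a v : ℂ) * z v) * (∑ v, (b v : ℂ) * z v)
          * Complex.exp (Complex.I * (α : ℂ) * ∑ v, (n v : ℂ) * z v)) (fun v => (0 : G.V → ℂ) v + (θ : ℂ))
      = Complex.exp (Complex.I * ((∑ v, n v - q : ℤ) : ℂ) * (α : ℂ) * (θ : ℂ)) * C := by
    intro θ
    rw [hconv θ, ← mul_assoc, ← Complex.exp_add]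
    congr 2
    push_cast
    ring
  rw [intervalIntegral.integral_congr (g := fun θ : ℝ => Complex.exp (Complex.I * ((∑ v, n v - q : ℤ) : ℂ) * (α : ℂ) * (θ : ℂ)) * C)
    (fun θ _ => hint θ), intervalIntegral.integral_mul_const, ← mul_assoc, hα, c53_phase_int ω hω]
  by_cases h : ∑ v, n v = q
  · rw [if_pos h, if_pos (by omega), one_mul]
  · rw [if_neg h, if_neg (by omega), zero_mul]

/-- `single` on a singleton -/
theorem c53_single_singleton {G : Geom} (g : Grid G) (α : ℝ) (t z : ℂ) (B : g.I) (ζ : G.V → ℂ) :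
    single g α t z {B} ζ = t / 2 * eBC g B ζ + z * cBC g α B ζ := by
  unfold single
  rw [Finset.sum_eq_single B]
  · simp
  · intro B' _ hne
    rw [if_neg]
    intro h
    exact hne (Finset.singleton_inj.1 h).symm
  · intro h
    exact absurd (Finset.mem_univ B) h

/-- `single` vanishes off the singletons -/
theorem c53_single_zero {G : Geom} (g : Grid G) (α : ℝ) (t z : ℂ) {X : Finset g.I}
    (hX : ∀ B : g.I, X ≠ {B}) : single g α t z X = 0 := by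
  unfold single
  exact Finset.sum_eq_zero fun B _ => if_neg (hX B)

/-- the components of a separated set are its singletons -/
theorem c53_comps_sep {G : Geom} (g : Grid G) (R : ℕ) {V : Finset g.I}
    (hV : ∀ B ∈ V, ∀ B' ∈ V, B ≠ B' → R < g.idist B B') :
    g.comps R V = V.image fun B => ({B} : Finset g.I) := by
  ext X
  rw [Alg.mem_comps, Finset.mem_image]
  constructor
  · rintro ⟨hsub, hconn, -⟩
    obtain ⟨a, ha⟩ := hconn.1
    refine ⟨a, hsub ha, ?_⟩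
    have key : ∀ b, Relation.ReflTransGen (fun u v => u ∈ X ∧ v ∈ X ∧ g.idist u v ≤ R) a b →
        b = a := by
      intro b hb
      induction hb with
      | refl => rfl
      | @tail b c _ hbc ih =>
        by_contra hne
        have h1 := hV b (hsub hbc.1) c (hsub hbc.2.1) (by rw [ih]; exact fun h => hne h.symm)
        exact absurd hbc.2.2 (not_le.2 h1)
    ext b
    rw [Finset.mem_singleton]
    constructor
    · rintro rfl
      exact ha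
    · intro hb
      exact key b (hconn.2 a ha b hb)
  · rintro ⟨B, hB, rfl⟩
    refine ⟨Finset.singleton_subset_iff.2 hB, ⟨Finset.singleton_nonempty B, ?_⟩, ?_⟩
    · intro a ha b hb
      rw [Finset.mem_singleton] at ha hb
      rw [ha, hb]
    · intro a ha b hb hab
      rw [Finset.mem_singleton] at ha ⊢
      by_contra hne
      have h1 := hV a (ha ▸ hB) b hb (by rw [ha]; exact fun h => hne h.symm)
      exact absurd hab (not_le.2 h1)

open Classical in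
/-- the gas: only sets of pairwise separated blocks survive -/
theorem ZA_single {G : Geom} (g : Grid G) (R : ℕ) (α : ℝ) (t z : ℂ) (ζ : G.V → ℂ) :
    ZA g R (single g α t z) ζ
      = ∑ V ∈ (Finset.univ : Finset (Finset g.I)).filter (fun V => ∀ B ∈ V, ∀ B' ∈ V, B ≠ B' → R < g.idist B B'),
          ∏ B ∈ V, (t / 2 * eBC g B ζ + z * cBC g α B ζ) := by
  unfold ZA
  rw [Finset.sum_apply, Finset.sum_filter]
  refine Finset.sum_congr rfl fun V _ => ?_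
  rw [Finset.prod_apply]
  split_ifs with hV
  · rw [c53_comps_sep g R hV, Finset.prod_image (fun a _ b _ h => Finset.singleton_inj.1 h)]
    exact Finset.prod_congr rfl fun B _ => c53_single_singleton g α t z B ζ
  · push Not at hV
    obtain ⟨B, hB, B', hB', hne, hle⟩ := hV
    obtain ⟨X, hX, hBX⟩ := Alg.comps_cover (R := R) hB
    have hB'X : B' ∈ X := (Alg.mem_comps.1 hX).2.2 B hBX B' hB' hle
    refine Finset.prod_eq_zero hX ?_
    rw [c53_single_zero g α t z (X := X)]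
    · rfl
    · rintro C rfl
      rw [Finset.mem_singleton] at hBX hB'X
      exact hne (hBX.trans hB'X.symm)

/-- **(C), `zz`** (VERSION 2: REAL source `w q`, no logarithm: `N_ww (s, 0) / N (s, 0)`) -/
theorem gas_zz {G : Geom} (g : Grid G) (hg : g.Ok) (R : ℕ) (ω : ℝ) (hω : 0 < ω) (Γ : Matrix G.V G.V ℝ) (hΓ : Γ.PosSemidef) (q : G.V → ℝ) :
    ∃ Kc : ℝ, ∀ᶠ s : ℂ in 𝓝 0,
      ‖iteratedDeriv 2 (fun w : ℝ => Eter G Γ ω 0 (ZA g R (single g (Step.alpha ω) 0 s)) (fun v => ((w * q v : ℝ) : ℂ))) 0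
            / Eter G Γ ω 0 (ZA g R (single g (Step.alpha ω) 0 s)) (fun v => (((0 : ℝ) * q v : ℝ) : ℂ))
          - ((-(Step.alpha ω ^ 2 / 4) * NsepG g R (Step.alpha ω) Γ q : ℝ) : ℂ) * s ^ 2‖ ≤ Kc * ‖s‖ ^ 3 := by
  obtain ⟨Kc, hK⟩ := c53z_gas_zz_real g R ω hω Γ hΓ q
  refine ⟨Kc, ?_⟩
  filter_upwards [hK] with s hs
  have e : ZA g R (single g (Step.alpha ω) 0 s)
      = fun ζ => ∑ V ∈ sepSets g R, ∏ B ∈ V, (0 / 2 * eBC g B ζ + s * cBC g (2 * Real.pi / ω) B ζ) := by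
    funext ζ
    rw [ZA_single]
    rfl
  have e2 : NsepG g R (Step.alpha ω) Γ q = ((g.m : ℝ) ^ 4)⁻¹ * ∑ x : G.V, ∑ y : G.V, if R < g.idist (g.blk x) (g.blk y) then
      (q x - q y) ^ 2 * Real.exp (-(2 * Real.pi / ω) ^ 2 * ((Γ x x + Γ y y) / 2 - Γ x y)) else 0 := by
    unfold NsepG
    congr 1
    refine Finset.sum_congr rfl fun x _ => Finset.sum_congr rfl fun y _ => ?_
    by_cases h : SepS g R x y
    · rw [if_pos h, if_pos (show R < g.idist (g.blk x) (g.blk y) from h)]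
      rfl
    · rw [if_neg h, if_neg (show ¬ R < g.idist (g.blk x) (g.blk y) from h)]
  have e3 : Step.alpha ω = 2 * Real.pi / ω := rfl
  rw [e, e2, e3]
  exact hs

/-! `gas_tz`, `gas_even`: moved to `Map/GasTop.lean` (18:10Z) -/

/-! ## 5. Kernels (entry family, `α² = k₀`; nothing but finite sums on tori) -/

/-- `α = √k₀` -/
def al8 : ℝ := Step.alpha ω8

theorem al8_sq : al8 ^ 2 = k0 := by
  have hk : 0 < k0 := by unfold k0; positivity
  have hs : Real.sqrt k0 ≠ 0 := (Real.sqrt_pos.2 hk).ne'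
  have hpi := Real.pi_pos.ne'
  unfold al8 Step.alpha ω8
  have : 2 * Real.pi / (2 * Real.pi / Real.sqrt k0) = Real.sqrt k0 := by field_simp
  rw [this, Real.sq_sqrt hk.le]

/-- `C_{≥ L^j}` on the torus `h`, entry family -/
def Gk (s : Sc) (h j : ℕ) : Matrix (s.T h).V (s.T h).V ℝ := termCov (s.T h) Fam.entry (s.L ^ j)

/-- `⟨q_n, A q_n⟩` -/
def kVs (s : Sc) (h : ℕ) : ℝ := cos1 (s.T h) ⬝ᵥ (lap (s.T h)).mulVec (cos1 (s.T h))

/-- `T (j, h) = (k₀/4) Nsep / (kV_h ℓ_j²)` -/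
def Tn (s : Sc) (R j h : ℕ) : ℝ := k0 / 4 * NsepG (s.lev h j) R al8 (Gk s h j) (cos1 _) / (kVs s h * ellK s j ^ 2)

open Classical in
/-- the LOCAL sum: pairs separated at the level `j`, not at the level `j + 1` -/
def Hl (s : Sc) (R j h : ℕ) : ℝ :=
  k0 / 4 * (((s.L : ℝ) ^ j) ^ 4)⁻¹ * (∑ x : (s.T h).V, ∑ y : (s.T h).V,
      if SepS (s.lev h j) R x y ∧ ¬ SepS (s.lev h (j + 1)) R x y then (cos1 _ x - cos1 _ y) ^ 2 * Real.exp (-k0 * Dk (Gk s h j) x y) else 0)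
    / (kVs s h * ellK s j ^ 2)

/-- translation invariance of the terminal covariance (uniqueness of the terminal covariance, or the Fourier formula) -/
theorem Gk_diag (s : Sc) (h j : ℕ) (x : (s.T h).V) : Gk s h j x x = Gk s h j (org _) (org _) :=
  Ker.ker_sc_diag (s.T h) rfl (termCov_mul (s.T h) _ (Sc_pow_pos s j)) x (org _)

/-- `C / √(b^j) = C (1/√b)^j` -/
theorem l53_div_sqrt_pow0 (C b : ℝ) (hb : 0 ≤ b) (j : ℕ) : C / Real.sqrt (b ^ j) = C * ((Real.sqrt b)⁻¹) ^ j := by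
  have : Real.sqrt (b ^ j) = Real.sqrt b ^ j := by
    induction j with
    | zero => simp
    | succ j ih => rw [pow_succ, Real.sqrt_mul (pow_nonneg hb j), ih, pow_succ]
  rw [this, inv_pow, div_eq_mul_inv]

/-- `|e^x - 1| ≤ |x| e^{|x|}` -/
theorem l53_abs_exp_sub_one (x : ℝ) : |Real.exp x - 1| ≤ |x| * Real.exp |x| := by
  rcases le_total 0 x with h | h
  · have h1 := Real.add_one_le_exp (-x)
    have h2 := Real.exp_pos x
    have h3 : Real.exp x * Real.exp (-x) = 1 := by rw [← Real.exp_add]; simp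
    have h4 : 1 ≤ Real.exp x := Real.one_le_exp h
    rw [abs_of_nonneg h, abs_of_nonneg (by linarith)]
    nlinarith
  · have h1 := Real.add_one_le_exp x
    have h4 : Real.exp x ≤ 1 := Real.exp_le_one_iff.2 h
    have h5 : 1 ≤ Real.exp |x| := Real.one_le_exp (abs_nonneg _)
    rw [abs_of_nonpos (by linarith : Real.exp x - 1 ≤ 0), abs_of_nonpos h] at *
    nlinarith

/-- the origin is the image of the origin -/
theorem l53_pi_zero (G : Geom) (hG : G.bc = BC.per) : G.π (0, 0) = org G := by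
  have : G.fold 0 = ⟨0, G.hM⟩ := by
    unfold Geom.fold
    rw [hG]
    simp
  unfold Geom.π org
  rw [this]

/-- the diagonal of a shell is the same on all retained tori -/
theorem l53_shell_diag (s : Sc) (hD : pp + 1 ≤ s.D0) (j h h' : ℕ) (hj : j < h) (hj' : j < h') :
    shell (s.T h) Fam.entry (s.L ^ j) (s.L ^ (j + 1)) (org _) (org _) = shell (s.T h') Fam.entry (s.L ^ j) (s.L ^ (j + 1)) (org _) (org _) := by
  have hL := s.L_pos
  have hdeg : (Fam.entry.shellP (s.L ^ j) (s.L ^ (j + 1))).natDegree ≤ pp * s.L ^ (j + 1) + 0 :=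
    Ker.ker_shellP_natDegree Fam.entry 0 (by simp [Fam.entry]) _ _ (Nat.pow_le_pow_right hL (by omega))
  have hM : ∀ k, j < k → pp * s.L ^ (j + 1) + 0 < (s.T k).M := fun k hk => by
    show pp * s.L ^ (j + 1) + 0 < s.D0 * s.L ^ k
    have h1 : s.L ^ (j + 1) ≤ s.L ^ k := Nat.pow_le_pow_right hL hk
    have h2 : 0 < s.L ^ (j + 1) := Nat.pow_pos hL
    calc pp * s.L ^ (j + 1) + 0 < (pp + 1) * s.L ^ (j + 1) := by nlinarith
      _ ≤ s.D0 * s.L ^ k := Nat.mul_le_mul hD h1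
  have := cov_unwrap (s.T h) (s.T h') rfl rfl (Fam.entry.shellP (s.L ^ j) (s.L ^ (j + 1))) (0, 0) (0, 0)
    (by simpa using lt_of_le_of_lt hdeg (hM h hj)) (by simpa using lt_of_le_of_lt hdeg (hM h' hj'))
  rw [l53_pi_zero _ rfl, l53_pi_zero _ rfl] at this
  exact this

/-- `ℓ_j = λ_j ℓ_{j+1}`, `λ_j = L² e^{-k₀ Γ_j (0,0)/2}`, and `ℓ_j → 1` exponentially (`entry_diag`; the diagonal of a shell is the same on all retained tori: `cov_unwrap`) -/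
theorem ellK_spec (ℓ : ℕ) (hℓ : 1 ≤ ℓ) : ∃ (C : ℝ) (D1 : ℕ), ∀ s : Sc, s.ℓ = ℓ → D1 ≤ s.D0 → ∀ j : ℕ,
    (∀ h, j < h → ellK s j = (s.L : ℝ) ^ 2 * Real.exp (-k0 * shell (s.T h) Fam.entry (s.L ^ j) (s.L ^ (j + 1)) (org _) (org _) / 2) * ellK s (j + 1)) ∧
    |ellK s j - 1| ≤ C / Real.sqrt ((s.L : ℝ) ^ j) ∧ 0 < ellK s j ∧ Summable (fun i => delK s (j + i)) := by
  obtain ⟨C0, De, hE⟩ := entry_diag ℓ hℓ
  have h2 : (1 : ℝ) < Real.sqrt ((2 : ℝ) ^ ℓ) := by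
    rw [Real.lt_sqrt (by norm_num)]
    calc (1 : ℝ) ^ 2 < 2 ^ 1 := by norm_num
      _ ≤ 2 ^ ℓ := pow_le_pow_right₀ (by norm_num) hℓ
  obtain ⟨r, hr⟩ : ∃ r : ℝ, r = (Real.sqrt ((2 : ℝ) ^ ℓ))⁻¹ := ⟨_, rfl⟩
  have hr0 : 0 ≤ r := by rw [hr]; positivity
  have hr1 : r < 1 := by rw [hr]; exact inv_lt_one_of_one_lt₀ h2
  have h1r : 0 < 1 - r := by linarith
  have hk0 : 0 < k0 := by unfold k0; positivity
  obtain ⟨B, hB⟩ : ∃ B : ℝ, B = k0 / 2 * (|C0| / (1 - r)) := ⟨_, rfl⟩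
  have hB0 : 0 ≤ B := by rw [hB]; positivity
  refine ⟨B * Real.exp B, max (De + 1) (pp + 1), fun s hs hD j => ?_⟩
  have hLc : (s.L : ℝ) = (2 : ℝ) ^ ℓ := by unfold Sc.L; rw [hs]; push_cast; rfl
  have hL := s.L_pos
  -- the bound of `δ_i`
  have hdel : ∀ i, |delK s i| ≤ |C0| * r ^ i := fun i => by
    have h1 := hE (s.T (i + 1)) rfl (s.L ^ i) (Nat.pow_pos hL) (by
      show De * (2 ^ ℓ * s.L ^ i) < s.D0 * s.L ^ (i + 1)
      have e : 2 ^ ℓ * s.L ^ i = s.L ^ (i + 1) := by rw [pow_succ', Sc.L, hs]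
      rw [e]
      exact Nat.mul_lt_mul_of_lt_of_le (by omega) le_rfl (Nat.pow_pos hL)) (org _)
    have e : 2 ^ ℓ * s.L ^ i = s.L ^ (i + 1) := by rw [pow_succ', Sc.L, hs]
    rw [e] at h1
    unfold delK
    rw [hs]
    refine h1.trans ?_
    have e2 : ((s.L ^ i : ℕ) : ℝ) = ((2 : ℝ) ^ ℓ) ^ i := by push_cast; rw [hLc]
    rw [e2, l53_div_sqrt_pow0 _ _ (by positivity), ← hr]
    exact mul_le_mul_of_nonneg_right (le_abs_self _) (by positivity)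
  have hgeo : ∀ j, Summable fun i => |C0| * r ^ (j + i) := fun j => by
    simp only [pow_add, ← mul_assoc]
    exact (summable_geometric_of_lt_one hr0 hr1).mul_left _
  have hsum : ∀ j, Summable fun i => delK s (j + i) := fun j =>
    Summable.of_norm_bounded (hgeo j) (fun i => by rw [Real.norm_eq_abs]; exact hdel (j + i))
  have htail : ∀ j, |∑' i, delK s (j + i)| ≤ |C0| / (1 - r) * r ^ j := fun j => by
    have h1 : ‖∑' i, delK s (j + i)‖ ≤ ∑' i, |C0| * r ^ (j + i) :=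
      tsum_of_norm_bounded (hgeo j).hasSum (fun i => by rw [Real.norm_eq_abs]; exact hdel (j + i))
    rw [Real.norm_eq_abs] at h1
    refine h1.trans (le_of_eq ?_)
    simp only [pow_add, ← mul_assoc]
    rw [tsum_mul_left, tsum_geometric_of_lt_one hr0 hr1]
    field_simp
  refine ⟨fun h hj => ?_, ?_, Real.exp_pos _, hsum j⟩
  · rw [l53_shell_diag s (by omega) j h (j + 1) hj (by omega)]
    have h1 : ∑' i, delK s (j + i) = delK s j + ∑' i, delK s (j + 1 + i) := by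
      rw [(hsum j).tsum_eq_zero_add]
      simp only [add_zero]
      congr 1
      refine tsum_congr fun i => ?_
      congr 1
      omega
    unfold ellK
    rw [h1, mul_add, Real.exp_add]
    congr 1
    have h3 : (s.L : ℝ) ^ 2 = Real.exp (2 * (ℓ * Real.log 2)) := by
      rw [hLc, ← Real.log_pow, show (2 : ℝ) * Real.log (2 ^ ℓ) = ((2 : ℕ) : ℝ) * Real.log (2 ^ ℓ) by norm_num, ← Real.log_pow,
        Real.exp_log (by positivity)]
    rw [h3, ← Real.exp_add]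
    congr 1
    unfold delK k0
    rw [hs]
    have := Real.pi_pos.ne'
    field_simp
    ring
  · have h1 := l53_abs_exp_sub_one (-(k0 / 2) * ∑' i, delK s (j + i))
    have h3 : |-(k0 / 2) * ∑' i, delK s (j + i)| ≤ B * r ^ j := by
      rw [abs_mul, abs_neg, abs_of_pos (by positivity : 0 < k0 / 2), hB]
      calc k0 / 2 * |∑' i, delK s (j + i)| ≤ k0 / 2 * (|C0| / (1 - r) * r ^ j) :=
            mul_le_mul_of_nonneg_left (htail j) (by positivity)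
        _ = _ := by ring
    have h4 : B * r ^ j ≤ B := by
      calc B * r ^ j ≤ B * 1 := mul_le_mul_of_nonneg_left (pow_le_one₀ hr0 hr1.le) hB0
        _ = B := mul_one _
    rw [hLc, l53_div_sqrt_pow0 _ _ (by positivity), ← hr]
    unfold ellK
    refine h1.trans ?_
    calc _ ≤ (B * r ^ j) * Real.exp B :=
          mul_le_mul h3 (Real.exp_le_exp.2 (h3.trans h4)) (Real.exp_pos _).le (by positivity)
      _ = _ := by ring

/-- the Laplacian as a sum over the four neighbours -/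
theorem l53_lap_mulVec (G : Geom) (u : G.V → ℝ) (v : G.V) :
    (lap G).mulVec u v = ∑ e : Fin 4, (u v - u (G.π (G.ι v + dir e))) := by
  unfold Matrix.mulVec dotProduct lap
  simp only [Finset.sum_mul, sub_mul, ite_mul, one_mul, zero_mul]
  rw [Finset.sum_comm]
  refine Finset.sum_congr rfl fun e _ => ?_
  rw [Finset.sum_sub_distrib]
  simp

/-- the first cosine at a folded point of the torus -/
theorem l53_cos_fold (G : Geom) (hG : G.bc = BC.per) (x : ℤ) :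
    Real.cos (2 * Real.pi * ((G.fold x : ℕ) : ℝ) / G.M) = Real.cos (2 * Real.pi * (x : ℝ) / G.M) := by
  have hM : (0 : ℤ) < G.M := by exact_mod_cast G.hM
  have hM' : (G.M : ℝ) ≠ 0 := by exact_mod_cast G.hM.ne'
  have h1 : ((G.fold x : ℕ) : ℤ) = x % G.M := by
    unfold Geom.fold
    rw [hG]
    exact Int.toNat_of_nonneg (Int.emod_nonneg x hM.ne')
  have h2 : (x : ℝ) = ((G.fold x : ℕ) : ℝ) + (G.M : ℝ) * ((x / G.M : ℤ) : ℝ) := by
    have := Int.emod_add_mul_ediv x G.M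
    rw [← h1] at this
    exact_mod_cast this.symm
  have h3 : 2 * Real.pi * (x : ℝ) / G.M = 2 * Real.pi * ((G.fold x : ℕ) : ℝ) / G.M + ((x / G.M : ℤ) : ℝ) * (2 * Real.pi) := by
    rw [h2]
    field_simp
  rw [h3, Real.cos_add_int_mul_two_pi]

/-- telescoping: `∑_{k<n} cos (2θ k) = 0`, `θ = 2π/n`, `n ≥ 3`. -/
theorem l53_sum_cos_even {n : ℕ} (hn : 3 ≤ n) :
    ∑ k ∈ Finset.range n, Real.cos (2 * (2 * Real.pi / n) * k) = 0 := by
  have hn' : (3 : ℝ) ≤ n := by exact_mod_cast hn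
  have hn0 : (n : ℝ) ≠ 0 := by linarith
  obtain ⟨θ, hθ⟩ : ∃ θ : ℝ, θ = 2 * Real.pi / n := ⟨_, rfl⟩
  have hpos : 0 < θ := by rw [hθ]; exact div_pos (by positivity) (by linarith)
  have hlt : θ < Real.pi := by
    rw [hθ, div_lt_iff₀ (by linarith)]
    nlinarith [Real.pi_pos]
  have hs : Real.sin θ ≠ 0 := (Real.sin_pos_of_pos_of_lt_pi hpos hlt).ne'
  rw [← hθ]
  have key : ∀ k : ℕ, Real.sin θ * Real.cos (2 * θ * k) =
      Real.sin (2 * θ * ((k + 1 : ℕ) : ℝ) - θ) / 2 - Real.sin (2 * θ * (k : ℝ) - θ) / 2 := by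
    intro k
    have e1 : 2 * θ * ((k + 1 : ℕ) : ℝ) - θ = 2 * θ * k + θ := by push_cast; ring
    rw [e1, Real.sin_add, Real.sin_sub]
    ring
  have h1 : Real.sin θ * ∑ k ∈ Finset.range n, Real.cos (2 * θ * k) = 0 := by
    rw [Finset.mul_sum, Finset.sum_congr rfl fun k _ => key k,
      Finset.sum_range_sub (fun k : ℕ => Real.sin (2 * θ * (k : ℝ) - θ) / 2)]
    have e3 : 2 * θ * (n : ℝ) - θ = ((2 : ℕ) : ℝ) * (2 * Real.pi) - θ := by
      have : θ * (n : ℝ) = 2 * Real.pi := by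
        rw [hθ]
        field_simp
      push_cast
      linear_combination 2 * this
    rw [e3, Real.sin_nat_mul_two_pi_sub]
    simp
  exact (mul_eq_zero.1 h1).resolve_left hs

/-- `∑_{k<n} cos² (2π k/n) = n/2` -/
theorem l53_sum_cos_sq {n : ℕ} (hn : 3 ≤ n) : ∑ k ∈ Finset.range n, Real.cos (2 * Real.pi * k / n) ^ 2 = (n : ℝ) / 2 := by
  have h2 : ∀ k : ℕ, Real.cos (2 * Real.pi * k / n) ^ 2 = 1 / 2 + (1 / 2) * Real.cos (2 * (2 * Real.pi / n) * k) := by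
    intro k
    have e : 2 * (2 * Real.pi / n) * (k : ℝ) = 2 * (2 * Real.pi * k / n) := by ring
    rw [Real.cos_sq, e]
    ring
  rw [Finset.sum_congr rfl fun k _ => h2 k, Finset.sum_add_distrib, ← Finset.mul_sum,
    l53_sum_cos_even hn, Finset.sum_const, Finset.card_range, nsmul_eq_mul]
  ring

/-- `A q_n = 4 sin² (π/n) q_n` on a torus -/
theorem l53_lap_cos1 (G : Geom) (hG : G.bc = BC.per) (v : G.V) :
    (lap G).mulVec (cos1 G) v = 4 * Real.sin (Real.pi / G.M) ^ 2 * cos1 G v := by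
  have hM' : (G.M : ℝ) ≠ 0 := by exact_mod_cast G.hM.ne'
  rw [l53_lap_mulVec, Fin.sum_univ_four]
  have c0 : cos1 G (G.π (G.ι v + dir 0)) = Real.cos (2 * Real.pi * (v.1 : ℕ) / G.M + 2 * (Real.pi / G.M)) := by
    show Real.cos (2 * Real.pi * ((G.fold (((v.1 : ℕ) : ℤ) + 1) : ℕ) : ℝ) / G.M) = _
    rw [l53_cos_fold G hG]
    congr 1
    push_cast
    field_simp
  have c1 : cos1 G (G.π (G.ι v + dir 1)) = Real.cos (2 * Real.pi * (v.1 : ℕ) / G.M - 2 * (Real.pi / G.M)) := by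
    show Real.cos (2 * Real.pi * ((G.fold (((v.1 : ℕ) : ℤ) + -1) : ℕ) : ℝ) / G.M) = _
    rw [l53_cos_fold G hG]
    congr 1
    push_cast
    field_simp
    ring
  have c2 : cos1 G (G.π (G.ι v + dir 2)) = cos1 G v := by
    show Real.cos (2 * Real.pi * ((G.fold (((v.1 : ℕ) : ℤ) + 0) : ℕ) : ℝ) / G.M) = _
    rw [l53_cos_fold G hG]
    unfold cos1
    congr 1
  have c3 : cos1 G (G.π (G.ι v + dir 3)) = cos1 G v := by
    show Real.cos (2 * Real.pi * ((G.fold (((v.1 : ℕ) : ℤ) + 0) : ℕ) : ℝ) / G.M) = _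
    rw [l53_cos_fold G hG]
    unfold cos1
    congr 1
  rw [c0, c1, c2, c3, Real.cos_add, Real.cos_sub, Real.cos_two_mul]
  unfold cos1
  have := Real.sin_sq_add_cos_sq (Real.pi / G.M)
  have e : Real.cos (Real.pi / G.M) ^ 2 = 1 - Real.sin (Real.pi / G.M) ^ 2 := by linarith
  rw [e]
  ring

/-- `kV_h = 2 n² sin² (π/n)` -/
theorem kVs_eq (s : Sc) (h : ℕ) (hn : 3 ≤ (s.T h).M) : kVs s h = 2 * ((s.T h).M : ℝ) ^ 2 * Real.sin (Real.pi / (s.T h).M) ^ 2 := by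
  have hG : (s.T h).bc = BC.per := rfl
  unfold kVs dotProduct
  simp only [l53_lap_cos1 _ hG]
  have h1 : ∀ v : (s.T h).V, cos1 (s.T h) v * (4 * Real.sin (Real.pi / (s.T h).M) ^ 2 * cos1 (s.T h) v)
      = 4 * Real.sin (Real.pi / (s.T h).M) ^ 2 * Real.cos (2 * Real.pi * (v.1 : ℕ) / (s.T h).M) ^ 2 := fun v => by
    unfold cos1
    ring
  rw [Finset.sum_congr rfl fun v _ => h1 v, ← Finset.mul_sum, Fintype.sum_prod_type]
  simp only [Finset.sum_const, Finset.card_univ, Fintype.card_fin, nsmul_eq_mul]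
  rw [← Finset.mul_sum, Fin.sum_univ_eq_sum_range (fun k => Real.cos (2 * Real.pi * (k : ℕ) / (s.T h).M) ^ 2), l53_sum_cos_sq hn]
  ring

/-! ### tools for `Hl_bounds`, `Hl_scale` (helper127) -/

/-- periodic Lipschitz bound of `cos (2π · / M)` -/
theorem l53_cos_per (M : ℕ) (hM : 0 < M) (a b t : ℤ) :
    |Real.cos (2 * Real.pi * (a : ℝ) / M) - Real.cos (2 * Real.pi * (b : ℝ) / M)|
      ≤ 2 * Real.pi * |((a - b - t * M : ℤ) : ℝ)| / M := by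
  have hMr : (0 : ℝ) < M := by exact_mod_cast hM
  have e : Real.cos (2 * Real.pi * (b : ℝ) / M) = Real.cos (2 * Real.pi * ((b + t * M : ℤ) : ℝ) / M) := by
    have : 2 * Real.pi * ((b + t * M : ℤ) : ℝ) / M = 2 * Real.pi * (b : ℝ) / M + t * (2 * Real.pi) := by
      push_cast
      field_simp
    rw [this, Real.cos_add_int_mul_two_pi]
  rw [e]
  refine (Real.abs_cos_sub_cos_le _ _).trans (le_of_eq ?_)
  have : 2 * Real.pi * (a : ℝ) / M - 2 * Real.pi * ((b + t * M : ℤ) : ℝ) / M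
      = 2 * Real.pi * ((a - b - t * M : ℤ) : ℝ) / M := by
    push_cast
    ring
  rw [this, abs_div, abs_mul, abs_of_pos (by positivity : (0 : ℝ) < 2 * Real.pi), abs_of_pos hMr]

/-- sites of blocks at periodic index distance `≤ R` are at periodic distance `≤ (R + 1) μ` -/
theorem l53_close (μ nb R a b : ℕ) (hμ : 0 < μ) (ha : a < nb * μ) (hb : b < nb * μ)
    (h : min (((a / μ : ℕ) : ℤ) - ((b / μ : ℕ) : ℤ)).natAbs (nb - (((a / μ : ℕ) : ℤ) - ((b / μ : ℕ) : ℤ)).natAbs) ≤ R) :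
    ∃ t : ℤ, |(a : ℤ) - b - t * ((nb * μ : ℕ) : ℤ)| ≤ ((R + 1) * μ : ℕ) := by
  obtain ⟨α, hα⟩ : ∃ α, α = a / μ := ⟨_, rfl⟩
  obtain ⟨β, hβ⟩ : ∃ β, β = b / μ := ⟨_, rfl⟩
  obtain ⟨r, hr⟩ : ∃ r, r = a % μ := ⟨_, rfl⟩
  obtain ⟨r', hr'⟩ : ∃ r, r = b % μ := ⟨_, rfl⟩
  have ea : a = μ * α + r := by rw [hα, hr]; exact (Nat.div_add_mod a μ).symm
  have eb : b = μ * β + r' := by rw [hβ, hr']; exact (Nat.div_add_mod b μ).symm
  have hr1 : r < μ := by rw [hr]; exact Nat.mod_lt _ hμ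
  have hr2 : r' < μ := by rw [hr']; exact Nat.mod_lt _ hμ
  have hαn : α < nb := by rw [hα]; exact Nat.div_lt_of_lt_mul (by rwa [mul_comm] at ha)
  have hβn : β < nb := by rw [hβ]; exact Nat.div_lt_of_lt_mul (by rwa [mul_comm] at hb)
  rw [← hα, ← hβ] at h
  have hμz : (0 : ℤ) < (μ : ℤ) := by exact_mod_cast hμ
  have key : ∀ d : ℤ, -(R : ℤ) ≤ d → d ≤ R → |(μ : ℤ) * d + ((r : ℤ) - r')| ≤ ((R + 1) * μ : ℕ) := by
    intro d h1 h2
    have h3 : (μ : ℤ) * d ≤ μ * R := mul_le_mul_of_nonneg_left h2 hμz.le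
    have h4 : (μ : ℤ) * (-(R : ℤ)) ≤ μ * d := mul_le_mul_of_nonneg_left h1 hμz.le
    rw [abs_le]
    push_cast
    constructor <;> nlinarith
  rcases Nat.lt_or_ge R ((α : ℤ) - β).natAbs with h1 | h1
  · have h2 : nb - ((α : ℤ) - β).natAbs ≤ R := by omega
    rcases Nat.lt_or_ge α β with h3 | h3
    · refine ⟨-1, ?_⟩
      have := key ((α : ℤ) - β + nb) (by omega) (by omega)
      refine le_trans (le_of_eq ?_) this
      congr 1
      rw [ea, eb]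
      push_cast
      ring
    · refine ⟨1, ?_⟩
      have := key ((α : ℤ) - β - nb) (by omega) (by omega)
      refine le_trans (le_of_eq ?_) this
      congr 1
      rw [ea, eb]
      push_cast
      ring
  · refine ⟨0, ?_⟩
    have := key ((α : ℤ) - β) (by omega) (by omega)
    refine le_trans (le_of_eq ?_) this
    congr 1
    rw [ea, eb]
    push_cast
    ring

/-- non-separated sites have close values of `cos1` -/
theorem l53_cos1_nsep (G : Geom) (hG : G.bc = BC.per) (μ : ℕ) (hμ : μ ∣ G.M) (hμ0 : 0 < μ) (R : ℕ) (x y : G.V)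
    (h : ¬ SepS (torusGrid G μ hμ) R x y) :
    |cos1 G x - cos1 G y| ≤ 2 * Real.pi * (((R + 1) * μ : ℕ) : ℝ) / G.M := by
  unfold SepS at h
  rw [not_lt] at h
  have h1 : (torusGrid G μ hμ).idist1 ((torusGrid G μ hμ).blk x).1 ((torusGrid G μ hμ).blk y).1 ≤ R :=
    le_trans (le_max_left _ _) h
  rw [Geo.geo_idist1_per _ hG] at h1
  obtain ⟨nb, hnb⟩ := hμ
  have hn : G.M / μ = nb := by
    rw [hnb, Nat.mul_div_cancel_left _ hμ0]
  replace h1 : min ((((x.1 : ℕ) / μ : ℕ) : ℤ) - (((y.1 : ℕ) / μ : ℕ) : ℤ)).natAbs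
      (G.M / μ - ((((x.1 : ℕ) / μ : ℕ) : ℤ) - (((y.1 : ℕ) / μ : ℕ) : ℤ)).natAbs) ≤ R := h1
  rw [hn] at h1
  have hM' : G.M = nb * μ := by rw [hnb, mul_comm]
  obtain ⟨t, ht⟩ := l53_close μ nb R (x.1 : ℕ) (y.1 : ℕ) hμ0 (by rw [← hM']; exact x.1.2) (by rw [← hM']; exact y.1.2) h1
  have h2 := l53_cos_per G.M G.hM (x.1 : ℕ) (y.1 : ℕ) t
  unfold cos1
  push_cast at h2
  have hMr : (0 : ℝ) < G.M := by exact_mod_cast G.hM
  refine h2.trans ?_
  apply div_le_div_of_nonneg_right _ hMr.le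
  apply mul_le_mul_of_nonneg_left _ (by positivity)
  rw [← hM'] at ht
  have : ((|((x.1 : ℕ) : ℤ) - ((y.1 : ℕ) : ℤ) - t * ((G.M : ℕ) : ℤ)| : ℤ) : ℝ) ≤ ((((R + 1) * μ : ℕ) : ℤ) : ℝ) := by
    exact_mod_cast ht
  rw [Int.cast_abs] at this
  push_cast at this ⊢
  exact this

open Classical in
/-- counting the non-separated partners of a site -/
theorem l53_cnt_nsep {G : Geom} (g : Grid G) (hg : g.Ok) (hG : G.bc = BC.per) (R : ℕ) (x : G.V) :
    (Finset.univ.filter fun y : G.V => ¬ SepS g R x y).card ≤ ((2 * R + 1) * g.m) ^ 2 := by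
  classical
  have e : (Finset.univ.filter fun y : G.V => ¬ SepS g R x y)
      = (Finset.univ.filter fun b : Fin G.M => g.blk1 b ∈ Finset.univ.filter fun β => g.idist1 (g.blk1 x.1) β ≤ R) ×ˢ
        (Finset.univ.filter fun b : Fin G.M => g.blk1 b ∈ Finset.univ.filter fun β => g.idist1 (g.blk1 x.2) β ≤ R) := by
    ext ⟨y1, y2⟩
    simp [SepS, Grid.idist, Grid.blk]
  have h1 : ∀ α : Fin g.n, (Finset.univ.filter fun b : Fin G.M => g.blk1 b ∈ Finset.univ.filter fun β => g.idist1 α β ≤ R).card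
      ≤ (2 * R + 1) * g.m := by
    intro α
    refine (Geo.geo_pre_hi g.blk1 (hi := g.m) (fun c => (hg.full c (Or.inl hG)).le) _).trans ?_
    exact Nat.mul_le_mul_right _ (Geo.geo_ball1_card g α R)
  rw [e, Finset.card_product, sq]
  exact Nat.mul_le_mul (h1 _) (h1 _)

/-- `D ≥ 0` -/
theorem l53_Dk_nonneg {G : Geom} (Γ : Matrix G.V G.V ℝ) (hΓ : Γ.PosSemidef) (x y : G.V) : 0 ≤ Dk Γ x y := by
  classical
  have hs : Γ y x = Γ x y := by
    have := hΓ.1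
    rw [Matrix.IsHermitian, Matrix.conjTranspose_eq_transpose_of_trivial] at this
    exact congrFun (congrFun this x) y
  have h := hΓ.dotProduct_mulVec_nonneg (Pi.single x 1 - Pi.single y 1)
  simp only [star_trivial, Matrix.mulVec_sub, Matrix.mulVec_single_one, sub_dotProduct, single_one_dotProduct,
    Pi.sub_apply, Matrix.col_apply] at h
  unfold Dk
  linarith

theorem l53_Gk_psd (s : Sc) (h j : ℕ) : (Gk s h j).PosSemidef := (termCov_spec (s.T h) _ (Sc_pow_pos s j)).psd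

/-- `8 ≤ kV_h ≤ 2π²`, `kV_h = 2π² + O(n⁻²)` -/
theorem l53_kVs_bd (s : Sc) (h : ℕ) (hn : 3 ≤ (s.T h).M) :
    8 ≤ kVs s h ∧ kVs s h ≤ 2 * Real.pi ^ 2 ∧ 2 * Real.pi ^ 2 - 70 / ((s.T h).M : ℝ) ^ 2 ≤ kVs s h := by
  rw [kVs_eq s h hn]
  obtain ⟨n, hn'⟩ : ∃ n : ℝ, n = ((s.T h).M : ℝ) := ⟨_, rfl⟩
  rw [← hn']
  have hn4 : (3 : ℝ) ≤ n := by rw [hn']; exact_mod_cast hn
  have hn0 : 0 < n := by linarith
  have hpi := Real.pi_pos
  have hpi4 : Real.pi < 3.15 := Real.pi_lt_d2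
  have hpi3 : 3 < Real.pi := Real.pi_gt_three
  obtain ⟨x, hx⟩ : ∃ x : ℝ, x = Real.pi / n := ⟨_, rfl⟩
  rw [← hx]
  have hx0 : 0 < x := by rw [hx]; positivity
  have hnx : n * x = Real.pi := by rw [hx]; field_simp
  have hx2 : x ≤ Real.pi / 2 := by
    rw [hx]
    apply div_le_div_of_nonneg_left hpi.le (by norm_num) (by linarith)
  have s1 : Real.sin x ≤ x := Real.sin_le hx0.le
  have s2 : 2 / Real.pi * x ≤ Real.sin x := Real.mul_le_sin hx0.le hx2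
  have s3 : x - x ^ 3 / 6 < Real.sin x := Real.sin_gt_sub_cube hx0
  obtain ⟨w, hw⟩ : ∃ w : ℝ, w = n * Real.sin x := ⟨_, rfl⟩
  have e : 2 * n ^ 2 * Real.sin x ^ 2 = 2 * w ^ 2 := by rw [hw]; ring
  rw [e]
  have w1 : w ≤ Real.pi := by rw [hw, ← hnx]; exact mul_le_mul_of_nonneg_left s1 hn0.le
  have w2 : 2 ≤ w := by
    have := mul_le_mul_of_nonneg_left s2 hn0.le
    rw [← hw] at this
    refine le_trans (le_of_eq ?_) this
    have : n * (2 / Real.pi * x) = 2 / Real.pi * (n * x) := by ring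
    rw [this, hnx]
    field_simp
  have w3 : Real.pi - Real.pi ^ 3 / (6 * n ^ 2) ≤ w := by
    have := mul_le_mul_of_nonneg_left s3.le hn0.le
    rw [← hw] at this
    refine le_trans (le_of_eq ?_) this
    rw [hx]
    field_simp
  refine ⟨by nlinarith, by nlinarith, ?_⟩
  have h2 : Real.pi ^ 2 ≤ 10 := by nlinarith
  obtain ⟨q, hq'⟩ : ∃ q : ℝ, q = Real.pi ^ 3 / (6 * n ^ 2) := ⟨_, rfl⟩
  rw [← hq'] at w3
  have hq : 0 ≤ q := by rw [hq']; positivity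
  have hqpi : q ≤ Real.pi := by
    rw [hq', div_le_iff₀ (by positivity)]
    nlinarith
  have h4 : Real.pi ^ 4 ≤ 100 := by nlinarith [sq_nonneg Real.pi]
  have h5 : Real.pi ^ 2 - 2 * Real.pi * q ≤ w ^ 2 := by
    have : (Real.pi - q) ^ 2 ≤ w ^ 2 := pow_le_pow_left₀ (by linarith) w3 2
    nlinarith [sq_nonneg q]
  have h6 : 2 * (2 * Real.pi * q) = 2 / 3 * Real.pi ^ 4 / n ^ 2 := by
    rw [hq']
    field_simp
    ring
  have h7 : 2 / 3 * Real.pi ^ 4 / n ^ 2 ≤ 70 / n ^ 2 := div_le_div_of_nonneg_right (by linarith) (by positivity)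
  linarith

/-- index distances shrink under `⌊·/L⌋` (one axis of a torus) -/
theorem k53_div_up (L n' a b : ℕ) (hL : 0 < L) (ha : a < n' * L) (hb : b < n' * L) :
    min (((a / L : ℕ) : ℤ) - ((b / L : ℕ) : ℤ)).natAbs (n' - (((a / L : ℕ) : ℤ) - ((b / L : ℕ) : ℤ)).natAbs)
      ≤ min ((a : ℤ) - (b : ℤ)).natAbs (n' * L - ((a : ℤ) - (b : ℤ)).natAbs) := by
  wlog hab : b ≤ a generalizing a b
  · have := this b a hb ha (by omega)
    have e1 : (((a / L : ℕ) : ℤ) - ((b / L : ℕ) : ℤ)).natAbs = (((b / L : ℕ) : ℤ) - ((a / L : ℕ) : ℤ)).natAbs := by omega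
    have e2 : ((a : ℤ) - (b : ℤ)).natAbs = ((b : ℤ) - (a : ℤ)).natAbs := by omega
    rw [e1, e2]
    exact this
  have h1 := Nat.div_add_mod a L
  have h2 := Nat.div_add_mod b L
  have h3 := Nat.mod_lt a hL
  have h4 := Nat.mod_lt b hL
  have h5 : b / L ≤ a / L := Nat.div_le_div_right hab
  have h6 : a / L < n' := Nat.div_lt_of_lt_mul (by rwa [mul_comm] at ha)
  obtain ⟨a', ha'⟩ : ∃ a', a' = a / L := ⟨_, rfl⟩
  obtain ⟨b', hb'⟩ : ∃ b', b' = b / L := ⟨_, rfl⟩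
  obtain ⟨r, hr⟩ : ∃ r, r = a % L := ⟨_, rfl⟩
  obtain ⟨t, ht⟩ : ∃ t, t = b % L := ⟨_, rfl⟩
  rw [← ha', ← hr] at h1
  rw [← hb', ← ht] at h2
  rw [← hr] at h3
  rw [← ht] at h4
  rw [← ha', ← hb'] at h5
  rw [← ha'] at h6
  rw [← ha', ← hb']
  have e1 : ((a' : ℤ) - (b' : ℤ)).natAbs = a' - b' := by omega
  have e2 : ((a : ℤ) - (b : ℤ)).natAbs = a - b := by omega
  rw [e1, e2]
  obtain ⟨d, hd⟩ : ∃ d, a' = b' + d := ⟨a' - b', by omega⟩
  obtain ⟨e, he⟩ : ∃ e, n' = a' + 1 + e := ⟨n' - a' - 1, by omega⟩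
  have e3 : a' - b' = d := by omega
  rw [e3]
  have hLd : d ≤ L * d := Nat.le_mul_of_pos_left d hL
  have q1 : L * a' = L * b' + L * d := by rw [hd]; ring
  have q2 : n' * L = L * b' + L * d + L + L * e := by rw [he, hd]; ring
  have hLb : b' ≤ L * b' := Nat.le_mul_of_pos_left _ hL
  have hLe : e ≤ L * e := Nat.le_mul_of_pos_left _ hL
  refine le_min ?_ ?_
  · rcases Nat.eq_zero_or_pos d with h0 | h0
    · rw [h0]; simp
    · refine (min_le_left _ _).trans ?_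
      obtain ⟨d1, rfl⟩ : ∃ d1, d = d1 + 1 := ⟨d - 1, by omega⟩
      have : L * (d1 + 1) = L * d1 + L := by ring
      have h7 : d1 ≤ L * d1 := Nat.le_mul_of_pos_left _ hL
      omega
  · refine (min_le_right _ _).trans ?_
    omega

/-- the data of a level -/
theorem k53_lev_m (s : Sc) (h j : ℕ) (hj : j ≤ h) : (s.lev h j).m = s.L ^ j := by
  show s.L ^ (min j h) = s.L ^ j
  rw [min_eq_left hj]

theorem k53_lev_n (s : Sc) (h j : ℕ) (hj : j ≤ h) : (s.lev h j).n = s.D0 * s.L ^ (h - j) := by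
  show s.D0 * s.L ^ h / s.L ^ (min j h) = _
  rw [min_eq_left hj]
  have : s.L ^ h = s.L ^ (h - j) * s.L ^ j := by rw [← pow_add]; congr 1; omega
  rw [this, ← mul_assoc, Nat.mul_div_cancel _ (Nat.pow_pos s.L_pos)]

theorem k53_lev_blk1 (s : Sc) (h j : ℕ) (hj : j ≤ h) (a : Fin (s.T h).M) : (((s.lev h j).blk1 a : ℕ)) = (a : ℕ) / s.L ^ j := by
  show (a : ℕ) / s.L ^ (min j h) = _
  rw [min_eq_left hj]

/-- separation is inherited downwards -/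
theorem k53_sep_mono (s : Sc) (R h j : ℕ) (hj : j < h) (x y : (s.T h).V) : SepS (s.lev h (j + 1)) R x y → SepS (s.lev h j) R x y := by
  have hL := s.L_pos
  have hn : (s.lev h j).n = (s.lev h (j + 1)).n * s.L := by
    rw [k53_lev_n s h j hj.le, k53_lev_n s h (j + 1) hj, mul_assoc, ← pow_succ]
    congr 2
    omega
  have key : ∀ a b : Fin (s.T h).M, (s.lev h (j + 1)).idist1 ((s.lev h (j + 1)).blk1 a) ((s.lev h (j + 1)).blk1 b)
      ≤ (s.lev h j).idist1 ((s.lev h j).blk1 a) ((s.lev h j).blk1 b) := fun a b => by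
    rw [Geo.geo_idist1_per _ rfl, Geo.geo_idist1_per _ rfl]
    have e : ∀ c : Fin (s.T h).M, (((s.lev h (j + 1)).blk1 c : ℕ)) = (((s.lev h j).blk1 c : ℕ)) / s.L := fun c => by
      rw [k53_lev_blk1 s h (j + 1) hj, k53_lev_blk1 s h j hj.le, pow_succ, Nat.div_div_eq_div_mul]
    rw [e a, e b]
    have h1 := k53_div_up s.L (s.lev h (j + 1)).n _ _ hL (lt_of_lt_of_eq ((s.lev h j).blk1 a).2 hn) (lt_of_lt_of_eq ((s.lev h j).blk1 b).2 hn)
    rw [← hn] at h1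
    exact h1
  unfold SepS Grid.idist Grid.blk
  intro h1
  exact lt_of_lt_of_le h1 (max_le_max (key _ _) (key _ _))

/-- the shell vanishes on the pairs separated at the upper level -/
theorem k53_shell_zero (s : Sc) (R h j : ℕ) (hR : pp < R) (hj : j < h) (x y : (s.T h).V) (hxy : SepS (s.lev h (j + 1)) R x y) :
    shell (s.T h) Fam.entry (s.L ^ j) (s.L ^ (j + 1)) x y = 0 := by
  have hL := s.L_pos
  have h1 := Scal.dist_of_idist (s.lev h (j + 1)) (s.lev_ok h (j + 1)) x y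
  rw [k53_lev_m s h (j + 1) hj] at h1
  refine B4.shell_range (s.T h) Fam.entry Ker.ker_entry_adm (s.L ^ j) (s.L ^ (j + 1)) (Sc_pow_pos s j)
    (Nat.pow_le_pow_right hL (by omega)) x y ?_
  unfold SepS at hxy
  have h2 : (pp + 2) * s.L ^ (j + 1) ≤ (s.lev h (j + 1)).idist ((s.lev h (j + 1)).blk x) ((s.lev h (j + 1)).blk y) * s.L ^ (j + 1) :=
    Nat.mul_le_mul_right _ (by omega)
  have h3 : (pp + 2) * s.L ^ (j + 1) = pp * s.L ^ (j + 1) + 2 * s.L ^ (j + 1) := by ring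
  omega

theorem k53_Dk_add {G : Geom} (A B : Matrix G.V G.V ℝ) (x y : G.V) : Dk (A + B) x y = Dk A x y + Dk B x y := by
  simp only [Dk, Matrix.add_apply]
  ring

theorem k53_Dk_cmat {G : Geom} (c : ℝ) (x y : G.V) : Dk (Ker.cmat G c) x y = 0 := by
  simp only [Dk, Ker.cmat]
  ring

/-- `D_j = Γ_j (0,0) + D_{j+1}` on the pairs separated at the upper level -/
theorem k53_Dk_succ (s : Sc) (R h j : ℕ) (hR : pp < R) (hj : j < h) (x y : (s.T h).V) (hxy : SepS (s.lev h (j + 1)) R x y) :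
    Dk (Gk s h j) x y = shell (s.T h) Fam.entry (s.L ^ j) (s.L ^ (j + 1)) (org _) (org _) + Dk (Gk s h (j + 1)) x y := by
  have h1 := congrArg (fun A => Dk A x y) (termCov_succ_c s h j)
  simp only [k53_Dk_add, k53_Dk_cmat, add_zero] at h1
  unfold Gk
  rw [h1]
  congr 1
  have hm := Ker.ker_cov_mul (s.T h) (Fam.entry.shellP (s.L ^ j) (s.L ^ (j + 1)))
  have d1 : shell (s.T h) Fam.entry (s.L ^ j) (s.L ^ (j + 1)) x x = shell (s.T h) Fam.entry (s.L ^ j) (s.L ^ (j + 1)) (org _) (org _) :=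
    Ker.ker_sc_diag (s.T h) rfl hm x (org _)
  have d2 : shell (s.T h) Fam.entry (s.L ^ j) (s.L ^ (j + 1)) y y = shell (s.T h) Fam.entry (s.L ^ j) (s.L ^ (j + 1)) (org _) (org _) :=
    Ker.ker_sc_diag (s.T h) rfl hm y (org _)
  unfold Dk
  rw [d1, d2, k53_shell_zero s R h j hR hj x y hxy]
  ring

/-- **(E1)** exact cancellation (helper202) -/
theorem Tn_succ (ℓ : ℕ) (hℓ : 1 ≤ ℓ) : ∃ D1 : ℕ, ∀ s : Sc, s.ℓ = ℓ → D1 ≤ s.D0 → ∀ R : ℕ, pp < R → ∀ j h : ℕ, j < h →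
    Tn s R j h = Hl s R j h + Tn s R (j + 1) h := by
  obtain ⟨C, D1, hE⟩ := ellK_spec ℓ hℓ
  refine ⟨D1, fun s hs hD R hR j h hj => ?_⟩
  obtain ⟨hrec, -, hpos, -⟩ := hE s hs hD j
  obtain ⟨-, -, hpos', -⟩ := hE s hs hD (j + 1)
  have hrec := hrec h hj
  obtain ⟨a, ha⟩ : ∃ a : ℝ, a = shell (s.T h) Fam.entry (s.L ^ j) (s.L ^ (j + 1)) (org _) (org _) := ⟨_, rfl⟩
  rw [← ha] at hrec
  have hLp : (0 : ℝ) < (s.L : ℝ) := by exact_mod_cast s.L_pos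
  classical
  -- the sums
  have hsum : (∑ x : (s.T h).V, ∑ y : (s.T h).V, if SepS (s.lev h j) R x y then (cos1 _ x - cos1 _ y) ^ 2 * Real.exp (-al8 ^ 2 * Dk (Gk s h j) x y) else 0)
      = (∑ x : (s.T h).V, ∑ y : (s.T h).V,
          if SepS (s.lev h j) R x y ∧ ¬ SepS (s.lev h (j + 1)) R x y then (cos1 _ x - cos1 _ y) ^ 2 * Real.exp (-k0 * Dk (Gk s h j) x y) else 0)
        + Real.exp (-k0 * a) * ∑ x : (s.T h).V, ∑ y : (s.T h).V,
          if SepS (s.lev h (j + 1)) R x y then (cos1 _ x - cos1 _ y) ^ 2 * Real.exp (-al8 ^ 2 * Dk (Gk s h (j + 1)) x y) else 0 := by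
    rw [Finset.mul_sum, ← Finset.sum_add_distrib]
    refine Finset.sum_congr rfl fun x _ => ?_
    rw [Finset.mul_sum, ← Finset.sum_add_distrib]
    refine Finset.sum_congr rfl fun y _ => ?_
    rw [al8_sq]
    by_cases h1 : SepS (s.lev h (j + 1)) R x y
    · have h0 := k53_sep_mono s R h j hj x y h1
      rw [if_pos h0, if_neg (fun hc => hc.2 h1), if_pos h1, k53_Dk_succ s R h j hR hj x y h1, ← ha, mul_add, Real.exp_add]
      ring
    · by_cases h0 : SepS (s.lev h j) R x y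
      · rw [if_pos h0, if_pos ⟨h0, h1⟩, if_neg h1]
        ring
      · rw [if_neg h0, if_neg (fun hc => h0 hc.1), if_neg h1]
        ring
  unfold Tn Hl NsepG
  rw [k53_lev_m s h j hj.le, k53_lev_m s h (j + 1) hj, hsum, hrec]
  obtain ⟨S1, hS1⟩ : ∃ S1 : ℝ, S1 = ∑ x : (s.T h).V, ∑ y : (s.T h).V,
          if SepS (s.lev h j) R x y ∧ ¬ SepS (s.lev h (j + 1)) R x y then (cos1 _ x - cos1 _ y) ^ 2 * Real.exp (-k0 * Dk (Gk s h j) x y) else 0 := ⟨_, rfl⟩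
  obtain ⟨S2, hS2⟩ : ∃ S2 : ℝ, S2 = ∑ x : (s.T h).V, ∑ y : (s.T h).V,
          if SepS (s.lev h (j + 1)) R x y then (cos1 _ x - cos1 _ y) ^ 2 * Real.exp (-al8 ^ 2 * Dk (Gk s h (j + 1)) x y) else 0 := ⟨_, rfl⟩
  rw [← hS1, ← hS2]
  have hE : Real.exp (-k0 * a) = Real.exp (-k0 * a / 2) ^ 2 := by
    rw [← Real.exp_nat_mul]
    congr 1
    push_cast
    ring
  rw [hE]
  have hE0 := (Real.exp_pos (-k0 * a / 2)).ne'
  push_cast
  rcases eq_or_ne (kVs s h) 0 with h0 | h0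
  · simp [h0]
  · have := hpos'.ne'
    field_simp
    ring

/-! ### counting and trigonometric kit for (E2), (E3) -/

/-- index distance `≤ R` of the blocks: torus distance `≤ (R+1) m` of the sites (one axis) -/
theorem k53_div_dn (m n a b R : ℕ) (hm : 0 < m) (ha : a < n * m) (hb : b < n * m)
    (h : min (((a / m : ℕ) : ℤ) - ((b / m : ℕ) : ℤ)).natAbs (n - (((a / m : ℕ) : ℤ) - ((b / m : ℕ) : ℤ)).natAbs) ≤ R) :
    min ((a : ℤ) - (b : ℤ)).natAbs (n * m - ((a : ℤ) - (b : ℤ)).natAbs) ≤ (R + 1) * m := by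
  wlog hab : b ≤ a generalizing a b
  · have e1 : (((a / m : ℕ) : ℤ) - ((b / m : ℕ) : ℤ)).natAbs = (((b / m : ℕ) : ℤ) - ((a / m : ℕ) : ℤ)).natAbs := by omega
    have e2 : ((a : ℤ) - (b : ℤ)).natAbs = ((b : ℤ) - (a : ℤ)).natAbs := by omega
    rw [e1] at h
    rw [e2]
    exact this b a hb ha h (by omega)
  have h1 := Nat.div_add_mod a m
  have h2 := Nat.div_add_mod b m
  have h3 := Nat.mod_lt a hm
  have h4 := Nat.mod_lt b hm
  have h5 : b / m ≤ a / m := Nat.div_le_div_right hab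
  have h6 : a / m < n := Nat.div_lt_of_lt_mul (by rwa [mul_comm] at ha)
  obtain ⟨a', ha'⟩ : ∃ a', a' = a / m := ⟨_, rfl⟩
  obtain ⟨b', hb'⟩ : ∃ b', b' = b / m := ⟨_, rfl⟩
  obtain ⟨r, hr⟩ : ∃ r, r = a % m := ⟨_, rfl⟩
  obtain ⟨t, ht⟩ : ∃ t, t = b % m := ⟨_, rfl⟩
  rw [← ha', ← hr] at h1
  rw [← hb', ← ht] at h2
  rw [← hr] at h3
  rw [← ht] at h4
  rw [← ha', ← hb'] at h5
  rw [← ha'] at h6
  rw [← ha', ← hb'] at h
  have e1 : ((a' : ℤ) - (b' : ℤ)).natAbs = a' - b' := by omega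
  have e2 : ((a : ℤ) - (b : ℤ)).natAbs = a - b := by omega
  rw [e1] at h
  rw [e2]
  obtain ⟨d, hd⟩ : ∃ d, a' = b' + d := ⟨a' - b', by omega⟩
  obtain ⟨e, he⟩ : ∃ e, n = a' + 1 + e := ⟨n - a' - 1, by omega⟩
  have e3 : a' - b' = d := by omega
  rw [e3] at h
  have q1 : m * a' = m * b' + m * d := by rw [hd]; ring
  have q2 : n * m = m * b' + m * d + m + m * e := by rw [he, hd]; ring
  have q3 : (R + 1) * m = m * R + m := by ring
  rcases min_le_iff.1 h with h7 | h7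
  · refine (min_le_left _ _).trans ?_
    have : m * d ≤ m * R := Nat.mul_le_mul_left _ h7
    omega
  · refine (min_le_right _ _).trans ?_
    have h8 : b' + 1 + e ≤ R := by omega
    have : m * (b' + 1 + e) ≤ m * R := Nat.mul_le_mul_left _ h8
    have q4 : m * (b' + 1 + e) = m * b' + m + m * e := by ring
    omega

theorem k53_cos_tor (M a b : ℕ) (hM : 0 < M) (ha : a < M) (hb : b < M) :
    |Real.cos (2 * Real.pi * (a : ℝ) / M) - Real.cos (2 * Real.pi * (b : ℝ) / M)|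
      ≤ 2 * Real.pi / M * (min ((a : ℤ) - (b : ℤ)).natAbs (M - ((a : ℤ) - (b : ℤ)).natAbs) : ℕ) := by
  wlog hab : b ≤ a generalizing a b
  · have e2 : ((a : ℤ) - (b : ℤ)).natAbs = ((b : ℤ) - (a : ℤ)).natAbs := by omega
    rw [e2, abs_sub_comm]
    exact this b a hb ha (by omega)
  have hM' : (0 : ℝ) < M := by exact_mod_cast hM
  have e2 : ((a : ℤ) - (b : ℤ)).natAbs = a - b := by omega
  rw [e2]
  have hpi := Real.pi_pos
  rcases le_total (a - b) (M - (a - b)) with h | h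
  · rw [min_eq_left h]
    refine (Real.abs_cos_sub_cos_le _ _).trans (le_of_eq ?_)
    rw [Nat.cast_sub hab]
    have : 2 * Real.pi * (a : ℝ) / M - 2 * Real.pi * (b : ℝ) / M = 2 * Real.pi / M * ((a : ℝ) - b) := by ring
    rw [this, abs_of_nonneg]
    have : (b : ℝ) ≤ a := by exact_mod_cast hab
    have : 0 ≤ (a : ℝ) - b := by linarith
    positivity
  · rw [min_eq_right h]
    have e3 : Real.cos (2 * Real.pi * (a : ℝ) / M) = Real.cos (2 * Real.pi * ((a : ℝ) - M) / M) := by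
      have : 2 * Real.pi * ((a : ℝ) - M) / M = 2 * Real.pi * (a : ℝ) / M - 2 * Real.pi := by
        field_simp
      rw [this, Real.cos_sub_two_pi]
    rw [e3]
    refine (Real.abs_cos_sub_cos_le _ _).trans (le_of_eq ?_)
    rw [Nat.cast_sub (by omega), Nat.cast_sub hab]
    have : 2 * Real.pi * ((a : ℝ) - M) / M - 2 * Real.pi * (b : ℝ) / M = -(2 * Real.pi / M * ((M : ℝ) - ((a : ℝ) - b))) := by ring
    rw [this, abs_neg, abs_of_nonneg]
    have h1 : (a : ℝ) < M := by exact_mod_cast ha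
    have h2 : (0 : ℝ) ≤ b := by positivity
    have : 0 ≤ (M : ℝ) - ((a : ℝ) - b) := by linarith
    positivity

/-- bounds of `2 n² sin² (π/n)` -/
theorem k53_nsin (n : ℕ) (hn : 3 ≤ n) : 8 ≤ 2 * (n : ℝ) ^ 2 * Real.sin (Real.pi / n) ^ 2 ∧ 2 * (n : ℝ) ^ 2 * Real.sin (Real.pi / n) ^ 2 ≤ 2 * Real.pi ^ 2 ∧
    |2 * (n : ℝ) ^ 2 * Real.sin (Real.pi / n) ^ 2 - 2 * Real.pi ^ 2| ≤ 2 * Real.pi ^ 4 / (3 * (n : ℝ) ^ 2) := by
  have hn' : (3 : ℝ) ≤ n := by exact_mod_cast hn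
  have hn0 : (0 : ℝ) < n := by linarith
  have hpi := Real.pi_pos
  have hpi4 := Real.pi_le_four
  obtain ⟨t, ht⟩ : ∃ t : ℝ, t = Real.pi / n := ⟨_, rfl⟩
  have ht0 : 0 < t := by rw [ht]; positivity
  have ht1 : t ≤ Real.pi / 2 := by
    rw [ht]
    exact div_le_div_of_nonneg_left hpi.le (by norm_num) (by linarith)
  have hnt : (n : ℝ) * t = Real.pi := by rw [ht]; field_simp
  have h1 : 2 / Real.pi * t ≤ Real.sin t := Real.mul_le_sin ht0.le ht1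
  have h2 : Real.sin t ≤ t := Real.sin_le ht0.le
  have h3 : t - t ^ 3 / 6 < Real.sin t := Real.sin_gt_sub_cube ht0
  have h4 : 2 / (n : ℝ) ≤ Real.sin t := by
    have : 2 / Real.pi * t = 2 / (n : ℝ) := by rw [ht]; field_simp
    rwa [this] at h1
  have h5 : 0 < Real.sin t := lt_of_lt_of_le (by positivity) h4
  rw [← ht]
  have h6 : 2 ≤ (n : ℝ) * Real.sin t := by
    rw [div_le_iff₀ hn0] at h4
    linarith
  have h7 : (n : ℝ) * Real.sin t ≤ Real.pi := by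
    rw [← hnt]
    exact mul_le_mul_of_nonneg_left h2 hn0.le
  have e : 2 * (n : ℝ) ^ 2 * Real.sin t ^ 2 = 2 * ((n : ℝ) * Real.sin t) ^ 2 := by ring
  rw [e]
  have h8 : ((n : ℝ) * Real.sin t) ^ 2 ≤ Real.pi ^ 2 := pow_le_pow_left₀ (by positivity) h7 2
  refine ⟨by nlinarith, by linarith, ?_⟩
  rw [abs_of_nonpos (by linarith), neg_sub]
  -- π² - (n sin t)² = n² (t - sin t)(t + sin t) ≤ n² t³/4 * 2 t
  have h9 : Real.pi ^ 2 - ((n : ℝ) * Real.sin t) ^ 2 = (n : ℝ) ^ 2 * ((t - Real.sin t) * (t + Real.sin t)) := by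
    rw [← hnt]; ring
  have h10 : (t - Real.sin t) * (t + Real.sin t) ≤ t ^ 3 / 6 * (2 * t) :=
    mul_le_mul (by linarith) (by linarith) (by linarith) (by positivity)
  have h11 : 2 * Real.pi ^ 4 / (3 * (n : ℝ) ^ 2) = 2 * ((n : ℝ) ^ 2 * (t ^ 3 / 6 * (2 * t))) := by
    rw [ht]; field_simp; ring
  rw [h11]
  have h12 := mul_le_mul_of_nonneg_left h10 (by positivity : (0 : ℝ) ≤ (n : ℝ) ^ 2)
  linarith

/-- the termwise comparison -/
theorem k53_term (a a' e e' κ κ' B δ K c1 c2 : ℝ) (hB : 0 ≤ B) (hδ : 0 ≤ δ) (ha : |a| ≤ B) (ha' : |a'| ≤ B) (hd : |a - a'| ≤ 2 * B * δ)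
    (he0 : 0 ≤ e) (he1 : e ≤ 1) (he0' : 0 ≤ e') (he1' : e' ≤ 1) (hee : |e - e'| ≤ c1 * δ)
    (hκ0 : 0 ≤ κ) (hκ1 : κ ≤ K) (hκκ : |κ - κ'| ≤ c2 * δ) :
    |a ^ 2 * e * κ - a' ^ 2 * e' * κ'| ≤ B ^ 2 * δ * (4 * K + c1 * K + c2) := by
  have e1 : a ^ 2 * e * κ - a' ^ 2 * e' * κ' = (a - a') * (a + a') * (e * κ) + a' ^ 2 * ((e - e') * κ) + a' ^ 2 * (e' * (κ - κ')) := by ring
  rw [e1]
  have hK : 0 ≤ K := hκ0.trans hκ1
  have t1 : |(a - a') * (a + a') * (e * κ)| ≤ (2 * B * δ) * (2 * B) * (1 * K) := by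
    rw [abs_mul, abs_mul, abs_mul, abs_of_nonneg he0, abs_of_nonneg hκ0]
    have : |a + a'| ≤ 2 * B := (abs_add_le _ _).trans (by linarith)
    gcongr
  have hsq : a' ^ 2 ≤ B ^ 2 := by
    rw [← sq_abs a']
    exact pow_le_pow_left₀ (abs_nonneg _) ha' 2
  have t2 : |a' ^ 2 * ((e - e') * κ)| ≤ B ^ 2 * ((c1 * δ) * K) := by
    rw [abs_mul, abs_mul, abs_of_nonneg (sq_nonneg a'), abs_of_nonneg hκ0]
    have : 0 ≤ c1 * δ := (abs_nonneg _).trans hee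
    gcongr
  have t3 : |a' ^ 2 * (e' * (κ - κ'))| ≤ B ^ 2 * (1 * (c2 * δ)) := by
    rw [abs_mul, abs_mul, abs_of_nonneg (sq_nonneg a'), abs_of_nonneg he0']
    have : 0 ≤ c2 * δ := (abs_nonneg _).trans hκκ
    gcongr
  calc _ ≤ |(a - a') * (a + a') * (e * κ)| + |a' ^ 2 * ((e - e') * κ)| + |a' ^ 2 * (e' * (κ - κ'))| := abs_add_three _ _ _
    _ ≤ (2 * B * δ) * (2 * B) * (1 * K) + B ^ 2 * ((c1 * δ) * K) + B ^ 2 * (1 * (c2 * δ)) := by linarith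
    _ = _ := by ring

/-- `|e^{-a} - e^{-b}| ≤ |a - b|` for `a, b ≥ 0` -/
theorem k53_exp_neg_lip (a b : ℝ) (ha : 0 ≤ a) (hb : 0 ≤ b) : |Real.exp (-a) - Real.exp (-b)| ≤ |a - b| := by
  wlog hab : a ≤ b generalizing a b
  · rw [abs_sub_comm, abs_sub_comm a b]
    exact this b a hb ha (by linarith)
  have h1 : Real.exp (-b) ≤ Real.exp (-a) := Real.exp_le_exp.2 (by linarith)
  rw [abs_of_nonneg (by linarith), abs_of_nonpos (by linarith)]
  have h2 : Real.exp (-b) = Real.exp (-a) * Real.exp (-(b - a)) := by rw [← Real.exp_add]; congr 1; ring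
  have h3 := Real.add_one_le_exp (-(b - a))
  have h4 : Real.exp (-a) ≤ 1 := Real.exp_le_one_iff.2 (by linarith)
  have h5 := Real.exp_pos (-a)
  rw [h2]
  nlinarith

/-- the non-separated sites, one axis -/
theorem k53_card_nsep1 (s : Sc) (R h j : ℕ) (hj : j ≤ h) (a : Fin (s.lev h j).n) :
    (Finset.univ.filter fun i : Fin (s.T h).M => (s.lev h j).idist1 a ((s.lev h j).blk1 i) ≤ R).card ≤ (2 * R + 1) * s.L ^ j := by
  have h1 := Geo.geo_pre_hi (s.lev h j).blk1 (hi := s.L ^ j)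
    (fun c => by rw [(s.lev_ok h j).full c (Or.inl rfl), k53_lev_m s h j hj])
    (Finset.univ.filter fun b => (s.lev h j).idist1 a b ≤ R)
  have h2 := Geo.geo_ball1_card (s.lev h j) a R
  simp only [Finset.mem_filter, Finset.mem_univ, true_and] at h1
  exact h1.trans (Nat.mul_le_mul_right _ h2)

open Classical in
/-- the number of the sites which are not separated from a given site -/
theorem k53_card_nsep (s : Sc) (R h j : ℕ) (hj : j ≤ h) (x : (s.T h).V) :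
    ((Finset.univ.filter fun y => ¬ SepS (s.lev h j) R x y).card : ℝ) ≤ (2 * R + 1) ^ 2 * ((s.L : ℝ) ^ j) ^ 2 := by
  have e : (Finset.univ.filter fun y => ¬ SepS (s.lev h j) R x y)
      = (Finset.univ.filter fun i : Fin (s.T h).M => (s.lev h j).idist1 ((s.lev h j).blk1 x.1) ((s.lev h j).blk1 i) ≤ R) ×ˢ
        (Finset.univ.filter fun i : Fin (s.T h).M => (s.lev h j).idist1 ((s.lev h j).blk1 x.2) ((s.lev h j).blk1 i) ≤ R) := by
    ext y
    simp only [Finset.mem_filter, Finset.mem_univ, true_and, Finset.mem_product, SepS, Grid.idist, Grid.blk, not_lt, max_le_iff]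
  rw [e, Finset.card_product]
  have h1 := Nat.mul_le_mul (k53_card_nsep1 s R h j hj ((s.lev h j).blk1 x.1)) (k53_card_nsep1 s R h j hj ((s.lev h j).blk1 x.2))
  have h2 : ((((2 * R + 1) * s.L ^ j) * ((2 * R + 1) * s.L ^ j) : ℕ) : ℝ) = (2 * R + 1) ^ 2 * ((s.L : ℝ) ^ j) ^ 2 := by
    push_cast
    ring
  rw [← h2]
  exact_mod_cast h1

/-- the first cosine on non-separated sites -/
theorem k53_cos_nsep (s : Sc) (R h j : ℕ) (hj : j ≤ h) (x y : (s.T h).V) (hxy : ¬ SepS (s.lev h j) R x y) :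
    |cos1 _ x - cos1 _ y| ≤ 2 * Real.pi * (R + 1) * (s.L : ℝ) ^ j / ((s.T h).M : ℝ) := by
  have hM : (s.T h).M = (s.lev h j).n * s.L ^ j := by
    rw [k53_lev_n s h j hj, mul_assoc, ← pow_add]
    show s.D0 * s.L ^ h = _
    congr 2
    omega
  have hM0 : (0 : ℝ) < ((s.T h).M : ℝ) := by exact_mod_cast (s.T h).hM
  have h1 : (s.lev h j).idist1 ((s.lev h j).blk1 x.1) ((s.lev h j).blk1 y.1) ≤ R := by
    simp only [SepS, Grid.idist, Grid.blk, not_lt, max_le_iff] at hxy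
    exact hxy.1
  rw [Geo.geo_idist1_per _ rfl, k53_lev_blk1 s h j hj, k53_lev_blk1 s h j hj] at h1
  have h2 := k53_div_dn (s.L ^ j) (s.lev h j).n x.1 y.1 R (Nat.pow_pos s.L_pos) (lt_of_lt_of_eq x.1.2 hM) (lt_of_lt_of_eq y.1.2 hM) h1
  rw [← hM] at h2
  have h3 := k53_cos_tor (s.T h).M x.1 y.1 (s.T h).hM x.1.2 y.1.2
  unfold cos1
  refine h3.trans ?_
  have h4 : ((min ((x.1 : ℤ) - (y.1 : ℤ)).natAbs ((s.T h).M - ((x.1 : ℤ) - (y.1 : ℤ)).natAbs) : ℕ) : ℝ) ≤ ((R : ℝ) + 1) * (s.L : ℝ) ^ j := by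
    exact_mod_cast h2
  calc 2 * Real.pi / ((s.T h).M : ℝ) * ((min ((x.1 : ℤ) - (y.1 : ℤ)).natAbs ((s.T h).M - ((x.1 : ℤ) - (y.1 : ℤ)).natAbs) : ℕ) : ℝ)
      ≤ 2 * Real.pi / ((s.T h).M : ℝ) * (((R : ℝ) + 1) * (s.L : ℝ) ^ j) := mul_le_mul_of_nonneg_left h4 (by positivity)
    _ = _ := by ring

/-- `D ≥ 0` -/
theorem k53_Dk_nonneg (s : Sc) (h j : ℕ) (x y : (s.T h).V) : 0 ≤ Dk (Gk s h j) x y := by
  have hpsd : (Gk s h j).PosSemidef := (termCov_spec (s.T h) (s.L ^ j) (Sc_pow_pos s j)).psd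
  have h1 := Reg.reg_qf_nonneg hpsd (Pi.single x 1 - Pi.single y 1)
  have hsym : Gk s h j y x = Gk s h j x y := by
    have := congrFun (congrFun hpsd.1 x) y
    simpa [Matrix.conjTranspose_apply] using this
  unfold Reg.regQf at h1
  simp only [Matrix.mulVec_sub, sub_dotProduct, dotProduct_sub, Matrix.mulVec_single, single_dotProduct, one_mul,
    MulOpposite.op_one, one_smul, Matrix.col_apply] at h1
  rw [hsym] at h1
  unfold Dk
  linarith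

/-- `8 ≤ kV_h ≤ 2π²`, `kV_h → 2π²` -/
theorem k53_kVs_bd (s : Sc) (h : ℕ) (hn : 3 ≤ (s.T h).M) : 8 ≤ kVs s h ∧ kVs s h ≤ 2 * Real.pi ^ 2 ∧
    |kVs s h - 2 * Real.pi ^ 2| ≤ 2 * Real.pi ^ 4 / (3 * ((s.T h).M : ℝ) ^ 2) := by
  rw [kVs_eq s h hn]
  exact k53_nsin _ hn

/-- `ℓ_j → 1` -/
theorem k53_ell_bd (ℓ : ℕ) (hℓ : 1 ≤ ℓ) : ∃ (C : ℝ) (D1 jmin : ℕ), 0 ≤ C ∧ ∀ s : Sc, s.ℓ = ℓ → D1 ≤ s.D0 → ∀ j : ℕ,
    |ellK s j - 1| ≤ C / Real.sqrt (((2 : ℝ) ^ ℓ) ^ j) ∧ (jmin ≤ j → 1 / 2 ≤ ellK s j ∧ ellK s j ≤ 2) := by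
  obtain ⟨C, D1, hE⟩ := ellK_spec ℓ hℓ
  have h2 : (1 : ℝ) < Real.sqrt ((2 : ℝ) ^ ℓ) := by
    rw [Real.lt_sqrt (by norm_num)]
    calc (1 : ℝ) ^ 2 < 2 ^ 1 := by norm_num
      _ ≤ 2 ^ ℓ := pow_le_pow_right₀ (by norm_num) hℓ
  have hr0 : 0 ≤ (Real.sqrt ((2 : ℝ) ^ ℓ))⁻¹ := by positivity
  have hr1 : (Real.sqrt ((2 : ℝ) ^ ℓ))⁻¹ < 1 := inv_lt_one_of_one_lt₀ h2
  have ht : Tendsto (fun j : ℕ => |C| * ((Real.sqrt ((2 : ℝ) ^ ℓ))⁻¹) ^ j) atTop (𝓝 (|C| * 0)) :=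
    (tendsto_pow_atTop_nhds_zero_of_lt_one hr0 hr1).const_mul _
  rw [mul_zero] at ht
  obtain ⟨jmin, hj⟩ := eventually_atTop.1 (ht.eventually (gt_mem_nhds (by norm_num : (0 : ℝ) < 1 / 2)))
  refine ⟨|C|, D1, jmin, abs_nonneg _, fun s hs hD j => ?_⟩
  have hLc : (s.L : ℝ) = (2 : ℝ) ^ ℓ := by unfold Sc.L; rw [hs]; push_cast; rfl
  have h1 := (hE s hs hD j).2.1
  rw [hLc] at h1
  have h3 : |ellK s j - 1| ≤ |C| / Real.sqrt (((2 : ℝ) ^ ℓ) ^ j) :=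
    h1.trans (div_le_div_of_nonneg_right (le_abs_self _) (Real.sqrt_nonneg _))
  refine ⟨h3, fun hjm => ?_⟩
  have h4 := hj j hjm
  rw [← l53_div_sqrt_pow0 _ _ (by positivity)] at h4
  have h5 := abs_le.1 (h3.trans h4.le)
  constructor <;> linarith [h5.1, h5.2]

theorem hlb_fold_eq (G : Geom) (hG : G.bc = BC.per) (x : ℤ) (b : Fin G.M) (k : ℤ) (h : x = ((b : ℕ) : ℤ) + k * (G.M : ℕ)) : G.fold x = b := by
  apply Fin.ext
  unfold Geom.fold
  rw [hG]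
  show (x % G.M).toNat = b
  have hb0 : (0 : ℤ) ≤ ((b : ℕ) : ℤ) := by positivity
  have hbM : ((b : ℕ) : ℤ) < G.M := by exact_mod_cast b.2
  have : x % G.M = ((b : ℕ) : ℤ) := by
    rw [h, Int.add_mul_emod_self_right]
    exact Int.emod_eq_of_lt hb0 hbM
  omega

theorem hlb_idist1 {G : Geom} (g : Grid G) (hG : G.bc = BC.per) (a b : Fin g.n) :
    g.idist1 a b = min ((a : ℤ) - b).natAbs (g.n - ((a : ℤ) - b).natAbs) := by
  unfold Grid.idist1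
  rw [hG]

/-- not separated on one axis: close modulo the period -/
theorem hlb_near1 (G : Geom) (hG : G.bc = BC.per) (M : ℕ) (hM : 0 < M) (hd : M ∣ G.M) (R : ℕ) (a b : Fin G.M)
    (h : (torusGrid G M hd).idist1 ((torusGrid G M hd).blk1 a) ((torusGrid G M hd).blk1 b) ≤ R) :
    ∃ t : ℤ, |t| < ((R : ℤ) + 1) * M ∧ G.fold (((a : ℕ) : ℤ) + t) = b := by
  rw [hlb_idist1 _ hG] at h
  have ⟨ng, hng⟩ := hd
  have hn : (torusGrid G M hd).n = ng := by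
    show G.M / M = ng
    rw [hng, Nat.mul_div_cancel_left _ hM]
  have hA : (((torusGrid G M hd).blk1 a : ℕ)) = (a : ℕ) / M := rfl
  have hB : (((torusGrid G M hd).blk1 b : ℕ)) = (b : ℕ) / M := rfl
  rw [hA, hB, hn] at h
  have ha := Nat.div_add_mod (a : ℕ) M
  have hb := Nat.div_add_mod (b : ℕ) M
  have ha' := Nat.mod_lt (a : ℕ) hM
  have hb' := Nat.mod_lt (b : ℕ) hM
  have hAn : (a : ℕ) / M < ng := by
    apply Nat.div_lt_of_lt_mul
    rw [← hng]; exact a.2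
  have hBn : (b : ℕ) / M < ng := by
    apply Nat.div_lt_of_lt_mul
    rw [← hng]; exact b.2
  obtain ⟨A, hAe⟩ : ∃ A : ℕ, A = (a : ℕ) / M := ⟨_, rfl⟩
  obtain ⟨B, hBe⟩ : ∃ B : ℕ, B = (b : ℕ) / M := ⟨_, rfl⟩
  obtain ⟨ra, hra⟩ : ∃ r : ℕ, r = (a : ℕ) % M := ⟨_, rfl⟩
  obtain ⟨rb, hrb⟩ : ∃ r : ℕ, r = (b : ℕ) % M := ⟨_, rfl⟩
  rw [← hAe, ← hra] at ha
  rw [← hBe, ← hrb] at hb
  rw [← hra] at ha'
  rw [← hrb] at hb'
  rw [← hAe] at hAn h
  rw [← hBe] at hBn h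
  have haz : ((a : ℕ) : ℤ) = (M : ℤ) * A + ra := by exact_mod_cast ha.symm
  have hbz : ((b : ℕ) : ℤ) = (M : ℤ) * B + rb := by exact_mod_cast hb.symm
  have hGz : ((G.M : ℕ) : ℤ) = (M : ℤ) * ng := by exact_mod_cast hng
  have hMz : (0 : ℤ) < M := by exact_mod_cast hM
  have hb0 : (0 : ℤ) ≤ ((b : ℕ) : ℤ) := by positivity
  have hbM : ((b : ℕ) : ℤ) < G.M := by exact_mod_cast b.2
  rcases min_le_iff.1 h with h | h
  · refine ⟨((b : ℕ) : ℤ) - (a : ℕ), ?_, ?_⟩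
    · have h1 : (M : ℤ) * ((A : ℤ) - B) ≤ M * R := mul_le_mul_of_nonneg_left (by omega) hMz.le
      have h2 : (M : ℤ) * (-(R : ℤ)) ≤ M * ((A : ℤ) - B) := mul_le_mul_of_nonneg_left (by omega) hMz.le
      rw [abs_lt]
      constructor <;> linarith
    · apply hlb_fold_eq G hG _ _ 0
      ring
  · rcases le_total B A with hAB | hAB
    · refine ⟨((b : ℕ) : ℤ) - (a : ℕ) + G.M, ?_, ?_⟩
      · have h1 : (M : ℤ) * ((ng : ℤ) - ((A : ℤ) - B)) ≤ M * R := mul_le_mul_of_nonneg_left (by omega) hMz.le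
        have h2 : (M : ℤ) * 1 ≤ M * ((ng : ℤ) - ((A : ℤ) - B)) := mul_le_mul_of_nonneg_left (by omega) hMz.le
        rw [abs_lt]
        constructor <;> linarith
      · apply hlb_fold_eq G hG _ _ 1
        ring
    · refine ⟨((b : ℕ) : ℤ) - (a : ℕ) - G.M, ?_, ?_⟩
      · have h1 : (M : ℤ) * ((ng : ℤ) - ((B : ℤ) - A)) ≤ M * R := mul_le_mul_of_nonneg_left (by omega) hMz.le
        have h2 : (M : ℤ) * 1 ≤ M * ((ng : ℤ) - ((B : ℤ) - A)) := mul_le_mul_of_nonneg_left (by omega) hMz.le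
        rw [abs_lt]
        constructor <;> linarith
      · apply hlb_fold_eq G hG _ _ (-1)
        ring

/-- the first cosine is Lipschitz along the torus -/
theorem hlb_cos_lip (G : Geom) (hG : G.bc = BC.per) (x : G.V) (t : ℤ × ℤ) :
    |cos1 G x - cos1 G (G.π (G.ι x + t))| ≤ 2 * Real.pi * |(t.1 : ℝ)| / G.M := by
  have hM' : (0 : ℝ) < G.M := by exact_mod_cast G.hM
  have e : cos1 G (G.π (G.ι x + t)) = Real.cos (2 * Real.pi * ((((x.1 : ℕ) : ℤ) + t.1 : ℤ) : ℝ) / G.M) := by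
    show Real.cos (2 * Real.pi * ((G.fold (((x.1 : ℕ) : ℤ) + t.1) : ℕ) : ℝ) / G.M) = _
    rw [l53_cos_fold G hG]
  rw [e]
  unfold cos1
  refine (Real.abs_cos_sub_cos_le _ _).trans (le_of_eq ?_)
  have : 2 * Real.pi * ((x.1 : ℕ) : ℝ) / G.M - 2 * Real.pi * ((((x.1 : ℕ) : ℤ) + t.1 : ℤ) : ℝ) / G.M
      = -(2 * Real.pi * (t.1 : ℝ) / G.M) := by
    push_cast
    ring
  rw [this, abs_neg, abs_div, abs_mul, abs_of_pos hM', abs_of_pos (by positivity : (0 : ℝ) < 2 * Real.pi)]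

open Classical in
/-- the sum over the pairs which are not separated at the scale `M` -/
theorem hlb_upper (G : Geom) (hG : G.bc = BC.per) (M : ℕ) (hM : 0 < M) (hd : M ∣ G.M) (R : ℕ)
    (P : G.V → G.V → Prop) (E : G.V → G.V → ℝ) (hE : ∀ x y, E x y ≤ 1) :
    ∑ x : G.V, ∑ y : G.V, (if P x y ∧ ¬ SepS (torusGrid G M hd) R x y then (cos1 G x - cos1 G y) ^ 2 * E x y else 0)
      ≤ 16 * Real.pi ^ 2 * (((R : ℝ) + 1) * M) ^ 4 := by
  have hM' : (0 : ℝ) < G.M := by exact_mod_cast G.hM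
  obtain ⟨W, hW⟩ : ∃ W : ℤ, W = ((R : ℤ) + 1) * M := ⟨_, rfl⟩
  have hWr : (W : ℝ) = ((R : ℝ) + 1) * M := by rw [hW]; push_cast; ring
  have hW0 : 0 < W := by rw [hW]; positivity
  have hW0r : (0 : ℝ) < W := by exact_mod_cast hW0
  rw [← hWr]
  have key : ∀ x : G.V, ∑ y : G.V, (if P x y ∧ ¬ SepS (torusGrid G M hd) R x y then (cos1 G x - cos1 G y) ^ 2 * E x y else 0)
      ≤ (2 * (W : ℝ)) ^ 2 * (2 * Real.pi * W / G.M) ^ 2 := by
    intro x
    obtain ⟨S, hS⟩ : ∃ S : Finset G.V, S = (Finset.Ioo (-W) W ×ˢ Finset.Ioo (-W) W).image (fun t => G.π (G.ι x + t)) := ⟨_, rfl⟩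
    have hcard : (S.card : ℝ) ≤ (2 * (W : ℝ)) ^ 2 := by
      have h1 : S.card ≤ (Finset.Ioo (-W) W ×ˢ Finset.Ioo (-W) W).card := by rw [hS]; exact Finset.card_image_le
      rw [Finset.card_product, Int.card_Ioo] at h1
      have h2 : ((W - -W - 1).toNat : ℝ) ≤ 2 * W := by
        have : ((W - -W - 1).toNat : ℤ) ≤ 2 * W := by omega
        exact_mod_cast this
      calc (S.card : ℝ) ≤ (((W - -W - 1).toNat * (W - -W - 1).toNat : ℕ) : ℝ) := by exact_mod_cast h1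
        _ = ((W - -W - 1).toNat : ℝ) * ((W - -W - 1).toNat : ℝ) := by push_cast; ring
        _ ≤ (2 * W) * (2 * W) := mul_le_mul h2 h2 (by positivity) (by positivity)
        _ = _ := by ring
    calc ∑ y : G.V, (if P x y ∧ ¬ SepS (torusGrid G M hd) R x y then (cos1 G x - cos1 G y) ^ 2 * E x y else 0)
        ≤ ∑ y : G.V, (if y ∈ S then (2 * Real.pi * W / G.M) ^ 2 else 0) := by
          refine Finset.sum_le_sum fun y _ => ?_
          by_cases hc : P x y ∧ ¬ SepS (torusGrid G M hd) R x y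
          · rw [if_pos hc]
            have hns : (torusGrid G M hd).idist ((torusGrid G M hd).blk x) ((torusGrid G M hd).blk y) ≤ R := not_lt.1 hc.2
            obtain ⟨t1, ht1, e1⟩ := hlb_near1 G hG M hM hd R x.1 y.1 ((le_max_left _ _).trans hns)
            obtain ⟨t2, ht2, e2⟩ := hlb_near1 G hG M hM hd R x.2 y.2 ((le_max_right _ _).trans hns)
            rw [← hW] at ht1 ht2
            have ey : y = G.π (G.ι x + (t1, t2)) := Prod.ext e1.symm e2.symm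
            have hyS : y ∈ S := by
              rw [hS, Finset.mem_image]
              refine ⟨(t1, t2), ?_, ey.symm⟩
              rw [Finset.mem_product, Finset.mem_Ioo, Finset.mem_Ioo]
              exact ⟨abs_lt.1 ht1, abs_lt.1 ht2⟩
            rw [if_pos hyS]
            have h1 := hlb_cos_lip G hG x (t1, t2)
            rw [← ey] at h1
            have h2 : |cos1 G x - cos1 G y| ≤ 2 * Real.pi * W / G.M := by
              refine h1.trans ?_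
              have : |(t1 : ℝ)| ≤ W := by exact_mod_cast ht1.le
              gcongr
            have h3 : (cos1 G x - cos1 G y) ^ 2 ≤ (2 * Real.pi * W / G.M) ^ 2 := by
              rw [← sq_abs]
              exact pow_le_pow_left₀ (abs_nonneg _) h2 2
            calc (cos1 G x - cos1 G y) ^ 2 * E x y ≤ (cos1 G x - cos1 G y) ^ 2 * 1 :=
                  mul_le_mul_of_nonneg_left (hE x y) (sq_nonneg _)
              _ ≤ _ := by rw [mul_one]; exact h3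
          · rw [if_neg hc]
            split_ifs
            · positivity
            · exact le_rfl
      _ = (S.card : ℝ) * (2 * Real.pi * W / G.M) ^ 2 := by
          rw [← Finset.sum_filter, Finset.sum_const, nsmul_eq_mul]
          congr 3
          ext y
          simp
      _ ≤ _ := mul_le_mul_of_nonneg_right hcard (sq_nonneg _)
  calc _ ≤ ∑ x : G.V, (2 * (W : ℝ)) ^ 2 * (2 * Real.pi * W / G.M) ^ 2 := Finset.sum_le_sum fun x _ => key x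
    _ = _ := by
      rw [Finset.sum_const, Finset.card_univ, Fintype.card_prod, Fintype.card_fin, nsmul_eq_mul]
      push_cast
      field_simp
      ring

/-- `8 ≤ kV_h ≤ 2 π²` -/
theorem hlb_kVs (s : Sc) (h : ℕ) (hn : 3 ≤ (s.T h).M) : 8 ≤ kVs s h ∧ kVs s h ≤ 2 * Real.pi ^ 2 := by
  rw [kVs_eq s h hn]
  have hn' : (3 : ℝ) ≤ (s.T h).M := by exact_mod_cast hn
  obtain ⟨n, hne⟩ : ∃ n : ℝ, n = (s.T h).M := ⟨_, rfl⟩
  rw [← hne] at hn' ⊢
  have hn0 : 0 < n := by linarith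
  have hpi := Real.pi_pos
  have h1 : 2 / Real.pi * (Real.pi / n) ≤ Real.sin (Real.pi / n) :=
    Real.mul_le_sin (by positivity) (div_le_div_of_nonneg_left hpi.le (by norm_num) (by linarith))
  have h2 : Real.sin (Real.pi / n) ≤ Real.pi / n := Real.sin_le (by positivity)
  have e1 : 2 / Real.pi * (Real.pi / n) = 2 / n := by field_simp
  rw [e1] at h1
  have h3 : (2 / n) ^ 2 ≤ Real.sin (Real.pi / n) ^ 2 := pow_le_pow_left₀ (by positivity) h1 2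
  have h4 : Real.sin (Real.pi / n) ^ 2 ≤ (Real.pi / n) ^ 2 := pow_le_pow_left₀ (le_trans (by positivity) h1) h2 2
  constructor
  · calc (8 : ℝ) = 2 * n ^ 2 * (2 / n) ^ 2 := by field_simp; norm_num
      _ ≤ _ := mul_le_mul_of_nonneg_left h3 (by positivity)
  · calc 2 * n ^ 2 * Real.sin (Real.pi / n) ^ 2 ≤ 2 * n ^ 2 * (Real.pi / n) ^ 2 := mul_le_mul_of_nonneg_left h4 (by positivity)
      _ = _ := by field_simp

/-- `1/2 ≤ ℓ_j ≤ 3/2` for large `j` -/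
theorem hlb_ellK (ℓ : ℕ) (hℓ : 1 ≤ ℓ) : ∃ (D1 jmin : ℕ), ∀ s : Sc, s.ℓ = ℓ → D1 ≤ s.D0 → ∀ j : ℕ, jmin ≤ j →
    1 / 2 ≤ ellK s j ∧ ellK s j ≤ 3 / 2 := by
  obtain ⟨C, D1, hC⟩ := ellK_spec ℓ hℓ
  obtain ⟨jmin, hj⟩ := exists_nat_ge (4 * C ^ 2 + 1)
  refine ⟨D1, jmin, fun s hs hD j hjm => ?_⟩
  have h1 := (hC s hs hD j).2.1
  have hL2 : 2 ≤ s.L := by
    unfold Sc.L
    rw [hs]
    calc 2 = 2 ^ 1 := rfl
      _ ≤ 2 ^ ℓ := Nat.pow_le_pow_right (by norm_num) hℓ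
  have h2 : (j : ℝ) ≤ (s.L : ℝ) ^ j := by
    have : j ≤ s.L ^ j := (Nat.lt_pow_self hL2).le
    exact_mod_cast this
  have h3 : 4 * C ^ 2 + 1 ≤ (s.L : ℝ) ^ j := hj.trans (le_trans (by exact_mod_cast hjm) h2)
  have h4 : 2 * C ≤ Real.sqrt ((s.L : ℝ) ^ j) := by
    apply Real.le_sqrt_of_sq_le
    nlinarith
  have h5 : 0 < Real.sqrt ((s.L : ℝ) ^ j) := Real.sqrt_pos.2 (by nlinarith [sq_nonneg C])
  have h6 : C / Real.sqrt ((s.L : ℝ) ^ j) ≤ 1 / 2 := by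
    rw [div_le_iff₀ h5]
    linarith
  have h7 := abs_le.1 (h1.trans h6)
  constructor <;> linarith [h7.1, h7.2]

/-- `D ≥ 0` -/
theorem hlb_Dk_nonneg {G : Geom} (Γ : Matrix G.V G.V ℝ) (hΓ : Γ.PosSemidef) (x y : G.V) : 0 ≤ Dk Γ x y := by
  have h1 := hΓ.dotProduct_mulVec_nonneg (Pi.single x 1 - Pi.single y 1)
  have h2 : Γ y x = Γ x y := by
    have := hΓ.1.apply x y
    simpa using this
  have e : star (Pi.single x 1 - Pi.single y 1 : G.V → ℝ) ⬝ᵥ Γ.mulVec (Pi.single x 1 - Pi.single y 1)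
      = Γ x x + Γ y y - 2 * Γ x y := by
    rw [star_trivial, Matrix.mulVec_sub, sub_dotProduct, dotProduct_sub, dotProduct_sub]
    simp only [Matrix.mulVec_single, single_dotProduct, one_mul, MulOpposite.op_one, one_smul, Matrix.col_apply]
    rw [h2]
    ring
  rw [e] at h1
  unfold Dk
  linarith

/-- walking along the first axis -/
theorem hlb_walk {G : Geom} (Γ : Matrix G.V G.V ℝ) (κ : ℝ) (e : Fin 4)
    (hg : ∀ x y : ℤ × ℤ, |Γ (G.π (x + dir e)) (G.π y) - Γ (G.π x) (G.π y)| ≤ κ) (x y : ℤ × ℤ) (k : ℕ) :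
    |Γ (G.π (x + k • dir e)) (G.π y) - Γ (G.π x) (G.π y)| ≤ k * κ := by
  induction k with
  | zero => simp
  | succ k ih =>
    have h1 := hg (x + k • dir e) y
    have e1 : x + (k + 1) • dir e = x + k • dir e + dir e := by rw [succ_nsmul, add_assoc]
    rw [e1]
    have h2 := abs_add_le (Γ (G.π (x + k • dir e + dir e)) (G.π y) - Γ (G.π (x + k • dir e)) (G.π y))
      (Γ (G.π (x + k • dir e)) (G.π y) - Γ (G.π x) (G.π y))
    rw [sub_add_sub_cancel] at h2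
    push_cast
    linarith

/-- `D (x, y) ≤ K |x - y|_1 / u` -/
theorem hlb_Dk_le : ∃ K : ℝ, 0 ≤ K ∧ ∀ (G : Geom), G.bc = BC.per → ∀ u : ℕ, 1 ≤ u → u ≤ G.M → ∀ (x y : G.V) (r1 r2 : ℕ),
    G.ι y = G.ι x + ((r1 : ℤ), (r2 : ℤ)) → Dk (termCov G Fam.entry u) x y ≤ K * ((r1 : ℝ) + r2) / u := by
  obtain ⟨K, hK, hg⟩ := Ker.ker_sc_grad 1 1 64 0
  refine ⟨K, hK, fun G hG u hu huM x y r1 r2 hxy => ?_⟩
  have hper : Ker.per G = G.M := by unfold Ker.per; rw [hG]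
  have hT := termCov_spec G u hu
  have hg' := hg G Fam.entry Ker.ker_entry_adm (by simp [Fam.entry]) u hu (by rw [hper]; exact huM) _ hT
  have hd := Ker.ker_sc_diag G hG (termCov_mul G u hu) x y
  have w1 := hlb_walk (termCov G Fam.entry u) (K / u) 0 (hg' 0) (G.ι x) (G.ι y) r1
  have w2 := hlb_walk (termCov G Fam.entry u) (K / u) 2 (hg' 2) (G.ι x + r1 • dir 0) (G.ι y) r2
  have e1 : G.ι x + r1 • dir 0 + r2 • dir 2 = G.ι y := by
    rw [hxy, add_assoc]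
    congr 1
    simp [dir]
  rw [e1] at w2
  rw [Ker.ker_pi_iota] at w1 w2
  rw [Ker.ker_pi_iota] at w1
  unfold Dk
  rw [hd]
  have a1 := (abs_le.1 w1).2
  have a2 := (abs_le.1 w2).2
  have e2 : K * ((r1 : ℝ) + r2) / u = r1 * (K / u) + r2 * (K / u) := by ring
  rw [e2]
  linarith

/-- close sites are not separated -/
theorem hlb_close1 (G : Geom) (hG : G.bc = BC.per) (M : ℕ) (hM : 0 < M) (hd : M ∣ G.M) (R : ℕ) (a b : Fin G.M) (r : ℕ)
    (hab : (b : ℕ) = (a : ℕ) + r) (hr : r ≤ R * M) :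
    (torusGrid G M hd).idist1 ((torusGrid G M hd).blk1 a) ((torusGrid G M hd).blk1 b) ≤ R := by
  rw [hlb_idist1 _ hG]
  have hA : (((torusGrid G M hd).blk1 a : ℕ)) = (a : ℕ) / M := rfl
  have hB : (((torusGrid G M hd).blk1 b : ℕ)) = (b : ℕ) / M := rfl
  rw [hA, hB]
  refine (min_le_left _ _).trans ?_
  have h1 : (a : ℕ) / M ≤ (b : ℕ) / M := Nat.div_le_div_right (by omega)
  have h2 : (b : ℕ) / M < (a : ℕ) / M + R + 1 := by
    apply Nat.div_lt_of_lt_mul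
    have := Nat.div_add_mod (a : ℕ) M
    have := Nat.mod_lt (a : ℕ) hM
    calc (b : ℕ) = M * ((a : ℕ) / M) + (a : ℕ) % M + r := by omega
      _ < M * ((a : ℕ) / M) + M + R * M := by omega
      _ = M * ((a : ℕ) / M + R + 1) := by ring
  omega

/-- sites at the distance `[(R+1) m, (R+2) m)` are separated -/
theorem hlb_far1 (G : Geom) (hG : G.bc = BC.per) (m : ℕ) (hm : 0 < m) (hd : m ∣ G.M) (R : ℕ) (a b : Fin G.M) (r : ℕ)
    (hab : (b : ℕ) = (a : ℕ) + r) (hr : (R + 1) * m ≤ r) (hr' : r < (R + 2) * m) (hn : (2 * R + 3) * m ≤ G.M) :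
    R < (torusGrid G m hd).idist1 ((torusGrid G m hd).blk1 a) ((torusGrid G m hd).blk1 b) := by
  rw [hlb_idist1 _ hG]
  have hA : (((torusGrid G m hd).blk1 a : ℕ)) = (a : ℕ) / m := rfl
  have hB : (((torusGrid G m hd).blk1 b : ℕ)) = (b : ℕ) / m := rfl
  have hn' : 2 * R + 3 ≤ (torusGrid G m hd).n := by
    show 2 * R + 3 ≤ G.M / m
    exact (Nat.le_div_iff_mul_le hm).2 hn
  rw [hA, hB]
  have e1 := Nat.div_add_mod (a : ℕ) m
  have e2 := Nat.mod_lt (a : ℕ) hm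
  have h1 : (a : ℕ) / m + R + 1 ≤ (b : ℕ) / m := by
    rw [Nat.le_div_iff_mul_le hm]
    calc ((a : ℕ) / m + R + 1) * m = m * ((a : ℕ) / m) + (R + 1) * m := by ring
      _ ≤ (b : ℕ) := by omega
  have h2 : (b : ℕ) / m < (a : ℕ) / m + R + 3 := by
    apply Nat.div_lt_of_lt_mul
    calc (b : ℕ) = m * ((a : ℕ) / m) + (a : ℕ) % m + r := by omega
      _ < m * ((a : ℕ) / m) + m + (R + 2) * m := by omega
      _ = m * ((a : ℕ) / m + R + 3) := by ring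
  rw [lt_min_iff]
  constructor <;> omega

/-- `sin ≥ 1/2` on `[π/4, 3π/4]` -/
theorem hlb_sin_half (σ : ℝ) (h1 : Real.pi / 4 ≤ σ) (h2 : σ ≤ 3 * Real.pi / 4) : 1 / 2 ≤ Real.sin σ := by
  have hpi := Real.pi_pos
  have key : ∀ t : ℝ, Real.pi / 4 ≤ t → t ≤ Real.pi / 2 → 1 / 2 ≤ Real.sin t := by
    intro t ht1 ht2
    have h := Real.mul_le_sin (by linarith) ht2
    have h3 : 2 / Real.pi * (Real.pi / 4) ≤ 2 / Real.pi * t := mul_le_mul_of_nonneg_left ht1 (by positivity)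
    have e : 2 / Real.pi * (Real.pi / 4) = 1 / 2 := by field_simp; norm_num
    linarith
  rcases le_total σ (Real.pi / 2) with h | h
  · exact key σ h1 h
  · rw [← Real.sin_pi_sub]
    exact key _ (by linarith) (by linarith)

/-- the first cosine separates points of the second eighth of the torus -/
theorem hlb_cos_lower (n : ℝ) (hn : 0 < n) (a r : ℝ) (hr : 0 ≤ r) (h1 : n ≤ 8 * a) (h2 : 4 * (2 * a + r) ≤ 3 * n) :
    (2 * r / n) ^ 2 ≤ (Real.cos (2 * Real.pi * a / n) - Real.cos (2 * Real.pi * (a + r) / n)) ^ 2 := by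
  have hpi := Real.pi_pos
  rw [Real.cos_sub_cos]
  have e1 : (2 * Real.pi * a / n + 2 * Real.pi * (a + r) / n) / 2 = Real.pi * ((2 * a + r) / n) := by ring
  have e2 : (2 * Real.pi * a / n - 2 * Real.pi * (a + r) / n) / 2 = -(Real.pi * (r / n)) := by ring
  rw [e1, e2, Real.sin_neg]
  have q1 : 1 / 4 ≤ (2 * a + r) / n := by rw [le_div_iff₀ hn]; linarith
  have q2 : (2 * a + r) / n ≤ 3 / 4 := by rw [div_le_iff₀ hn]; linarith
  have q3 : r / n ≤ 1 / 2 := by rw [div_le_iff₀ hn]; linarith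
  have q4 : 0 ≤ r / n := by positivity
  have s1 := hlb_sin_half (Real.pi * ((2 * a + r) / n)) (by nlinarith) (by nlinarith)
  have s2 := Real.mul_le_sin (x := Real.pi * (r / n)) (by positivity) (by nlinarith)
  have e3 : 2 / Real.pi * (Real.pi * (r / n)) = 2 * (r / n) := by field_simp
  rw [e3] at s2
  have s3 : 2 * r / n ≤ -2 * Real.sin (Real.pi * ((2 * a + r) / n)) * -Real.sin (Real.pi * (r / n)) := by
    have : (1 / 2) * (2 * (r / n)) ≤ Real.sin (Real.pi * ((2 * a + r) / n)) * Real.sin (Real.pi * (r / n)) :=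
      mul_le_mul s1 s2 (by positivity) (by linarith)
    have e4 : 2 * r / n = 2 * ((1 / 2) * (2 * (r / n))) := by ring
    rw [e4]
    linarith
  exact pow_le_pow_left₀ (by positivity) s3 2

open Classical in
/-- the sum over the pairs separated at the scale `m`, not at the scale `M ≥ 2 m`, from below -/
theorem hlb_lower : ∃ K : ℝ, 0 ≤ K ∧ ∀ (G : Geom), G.bc = BC.per → ∀ (m M u : ℕ) (hd : m ∣ G.M) (hd' : M ∣ G.M) (R : ℕ), 0 < m → u = m →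
    2 ≤ R → 2 * m ≤ M → 4 * (R + 2) * m ≤ G.M →
    (m : ℝ) ^ 4 * (((R : ℝ) + 1) ^ 2 / 64 * Real.exp (-k0 * (K * ((R : ℝ) + 3))))
      ≤ ∑ x : G.V, ∑ y : G.V, (if SepS (torusGrid G m hd) R x y ∧ ¬ SepS (torusGrid G M hd') R x y
          then (cos1 G x - cos1 G y) ^ 2 * Real.exp (-k0 * Dk (termCov G Fam.entry u) x y) else 0) := by
  obtain ⟨K, hK, hD⟩ := hlb_Dk_le
  refine ⟨K, hK, fun G hG m M u hd hd' R hm hu hR hmM hn => ?_⟩
  subst hu
  have hk0 : 0 < k0 := by unfold k0; positivity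
  have hM : 0 < M := by omega
  obtain ⟨q, hq⟩ : ∃ q : ℕ, q = G.M / 8 := ⟨_, rfl⟩
  have hq1 : 8 * q ≤ G.M := by rw [hq]; exact Nat.mul_div_le _ _
  have hq2 : G.M < 8 * q + 8 := by rw [hq]; have := Nat.div_add_mod G.M 8; have := Nat.mod_lt G.M (by norm_num : 0 < 8); omega
  have hRm : (R + 2) * u = R * u + 2 * u := by ring
  have hRm1 : (R + 1) * u = R * u + u := by ring
  have hn' : 4 * (R * u) + 8 * u ≤ G.M := by
    calc 4 * (R * u) + 8 * u = 4 * (R + 2) * u := by ring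
      _ ≤ G.M := hn
  have hRu : 2 * u ≤ R * u := Nat.mul_le_mul_right u hR
  have hb1 : ∀ (i : Fin q), q + 1 + (i : ℕ) < G.M := fun i => by have := i.2; omega
  have hb2 : ∀ (i : Fin q) (r : Fin u), q + 1 + (i : ℕ) + ((R + 1) * u + (r : ℕ)) < G.M := fun i r => by
    have := i.2; have := r.2; omega
  have hb3 : ∀ (k : Fin q), (k : ℕ) < G.M := fun k => by have := k.2; omega
  have hb4 : ∀ (k : Fin q) (r : Fin u), (k : ℕ) + (r : ℕ) < G.M := fun k r => by have := k.2; have := r.2; omega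
  obtain ⟨φ, hφ⟩ : ∃ φ : (Fin q × Fin q) × (Fin u × Fin u) → G.V × G.V, φ = fun t =>
      (((⟨q + 1 + (t.1.1 : ℕ), hb1 t.1.1⟩ : Fin G.M), (⟨(t.1.2 : ℕ), hb3 t.1.2⟩ : Fin G.M)),
       ((⟨q + 1 + (t.1.1 : ℕ) + ((R + 1) * u + (t.2.1 : ℕ)), hb2 t.1.1 t.2.1⟩ : Fin G.M), (⟨(t.1.2 : ℕ) + (t.2.2 : ℕ), hb4 t.1.2 t.2.2⟩ : Fin G.M))) := ⟨_, rfl⟩
  have hinj : Function.Injective φ := by
    intro t t' h
    rw [hφ] at h
    simp only [Prod.mk.injEq, Fin.mk.injEq] at h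
    obtain ⟨⟨h1, h2⟩, h3, h4⟩ := h
    refine Prod.ext (Prod.ext (Fin.ext ?_) (Fin.ext ?_)) (Prod.ext (Fin.ext ?_) (Fin.ext ?_)) <;> omega
  obtain ⟨F, hF⟩ : ∃ F : G.V × G.V → ℝ, F = fun p => (if SepS (torusGrid G u hd) R p.1 p.2 ∧ ¬ SepS (torusGrid G M hd') R p.1 p.2
          then (cos1 G p.1 - cos1 G p.2) ^ 2 * Real.exp (-k0 * Dk (termCov G Fam.entry u) p.1 p.2) else 0) := ⟨_, rfl⟩
  have hF0 : ∀ p, 0 ≤ F p := fun p => by
    rw [hF]
    show 0 ≤ ite _ _ _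
    split_ifs
    · positivity
    · exact le_rfl
  have hnR : (0 : ℝ) < G.M := by exact_mod_cast G.hM
  have huR : (0 : ℝ) < u := by exact_mod_cast hm
  obtain ⟨c0, hc0⟩ : ∃ c0 : ℝ, c0 = (2 * (((R : ℝ) + 1) * u) / G.M) ^ 2 * Real.exp (-k0 * (K * ((R : ℝ) + 3))) := ⟨_, rfl⟩
  have hterm : ∀ t, c0 ≤ F (φ t) := by
    intro t
    obtain ⟨x, y, hxy⟩ : ∃ x y, φ t = (x, y) := ⟨_, _, rfl⟩
    have hx1 : (x.1 : ℕ) = q + 1 + (t.1.1 : ℕ) := by
      have := congrArg (fun p => ((p.1.1 : Fin G.M) : ℕ)) hxy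
      rw [hφ] at this
      exact this.symm
    have hx2 : (x.2 : ℕ) = (t.1.2 : ℕ) := by
      have := congrArg (fun p => ((p.1.2 : Fin G.M) : ℕ)) hxy
      rw [hφ] at this
      exact this.symm
    have hy1 : (y.1 : ℕ) = q + 1 + (t.1.1 : ℕ) + ((R + 1) * u + (t.2.1 : ℕ)) := by
      have := congrArg (fun p => ((p.2.1 : Fin G.M) : ℕ)) hxy
      rw [hφ] at this
      exact this.symm
    have hy2 : (y.2 : ℕ) = (t.1.2 : ℕ) + (t.2.2 : ℕ) := by
      have := congrArg (fun p => ((p.2.2 : Fin G.M) : ℕ)) hxy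
      rw [hφ] at this
      exact this.symm
    have ht1 := t.1.1.2
    have ht3 := t.2.1.2
    have ht4 := t.2.2.2
    obtain ⟨r1, hr1⟩ : ∃ r1 : ℕ, r1 = (R + 1) * u + (t.2.1 : ℕ) := ⟨_, rfl⟩
    obtain ⟨r2, hr2⟩ : ∃ r2 : ℕ, r2 = (t.2.2 : ℕ) := ⟨_, rfl⟩
    have e1 : (y.1 : ℕ) = (x.1 : ℕ) + r1 := by omega
    have e2 : (y.2 : ℕ) = (x.2 : ℕ) + r2 := by omega
    have hRM : R * u + 2 * u ≤ R * M := by
      calc R * u + 2 * u ≤ R * u + R * u := by omega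
        _ = R * (2 * u) := by ring
        _ ≤ R * M := Nat.mul_le_mul_left R hmM
    have hsep : SepS (torusGrid G u hd) R x y := by
      unfold SepS Grid.idist
      refine lt_of_lt_of_le ?_ (le_max_left _ _)
      exact hlb_far1 G hG u hm hd R x.1 y.1 r1 e1 (by omega) (by omega) (by
        calc (2 * R + 3) * u = 2 * (R * u) + 3 * u := by ring
          _ ≤ G.M := by omega)
    have hnsep : ¬ SepS (torusGrid G M hd') R x y := by
      unfold SepS Grid.idist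
      rw [not_lt]
      exact max_le (hlb_close1 G hG M hM hd' R x.1 y.1 r1 e1 (by omega)) (hlb_close1 G hG M hM hd' R x.2 y.2 r2 e2 (by omega))
    have hFv : F (φ t) = (cos1 G x - cos1 G y) ^ 2 * Real.exp (-k0 * Dk (termCov G Fam.entry u) x y) := by
      rw [hxy, hF]
      exact if_pos ⟨hsep, hnsep⟩
    rw [hFv, hc0]
    have hr1R : ((R : ℝ) + 1) * u ≤ r1 := by
      have : (R + 1) * u ≤ r1 := by omega
      exact_mod_cast this
    have hcos : (2 * (((R : ℝ) + 1) * u) / G.M) ^ 2 ≤ (cos1 G x - cos1 G y) ^ 2 := by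
      have h1 := hlb_cos_lower G.M hnR ((x.1 : ℕ) : ℝ) r1 (by positivity)
        (by have : G.M ≤ 8 * (x.1 : ℕ) := by omega
            exact_mod_cast this)
        (by have : 4 * (2 * (x.1 : ℕ) + r1) ≤ 3 * G.M := by omega
            exact_mod_cast this)
      have e3 : cos1 G y = Real.cos (2 * Real.pi * (((x.1 : ℕ) : ℝ) + r1) / G.M) := by
        unfold cos1
        rw [e1]
        push_cast
        rfl
      rw [e3]
      refine le_trans ?_ h1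
      apply pow_le_pow_left₀ (by positivity)
      gcongr
    have hDk : Dk (termCov G Fam.entry u) x y ≤ K * ((R : ℝ) + 3) := by
      have h1 := hD G hG u hm (by omega) x y r1 r2 (by
        unfold Geom.ι
        rw [e1, e2]
        push_cast
        rfl)
      refine h1.trans ?_
      rw [div_le_iff₀ huR]
      have : (r1 : ℝ) + r2 ≤ ((R : ℝ) + 3) * u := by
        have : r1 + r2 ≤ (R + 3) * u := by
          have : (R + 3) * u = R * u + 3 * u := by ring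
          omega
        exact_mod_cast this
      calc K * ((r1 : ℝ) + r2) ≤ K * (((R : ℝ) + 3) * u) := mul_le_mul_of_nonneg_left this hK
        _ = _ := by ring
    have hexp : Real.exp (-k0 * (K * ((R : ℝ) + 3))) ≤ Real.exp (-k0 * Dk (termCov G Fam.entry u) x y) := by
      apply Real.exp_le_exp.2
      have := mul_le_mul_of_nonneg_left hDk hk0.le
      linarith
    exact mul_le_mul hcos hexp (Real.exp_pos _).le (sq_nonneg _)
  have hsum : ∑ x : G.V, ∑ y : G.V, (if SepS (torusGrid G u hd) R x y ∧ ¬ SepS (torusGrid G M hd') R x y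
          then (cos1 G x - cos1 G y) ^ 2 * Real.exp (-k0 * Dk (termCov G Fam.entry u) x y) else 0) = ∑ p : G.V × G.V, F p := by
    conv_rhs => rw [Fintype.sum_prod_type]
    rw [hF]
  rw [hsum]
  have h1 : ∑ t, F (φ t) ≤ ∑ p : G.V × G.V, F p := by
    have := Finset.sum_map Finset.univ ⟨φ, hinj⟩ F
    simp only [Function.Embedding.coeFn_mk] at this
    rw [← this]
    exact Finset.sum_le_sum_of_subset_of_nonneg (Finset.subset_univ _) fun p _ _ => hF0 p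
  have h2 : ((q : ℝ) * q * (u * u)) * c0 ≤ ∑ t, F (φ t) := by
    have := Finset.card_nsmul_le_sum Finset.univ (fun t => F (φ t)) c0 (fun t _ => hterm t)
    rw [Finset.card_univ, Fintype.card_prod, Fintype.card_prod, Fintype.card_prod, Fintype.card_fin, Fintype.card_fin, nsmul_eq_mul] at this
    push_cast at this
    exact this
  refine le_trans ?_ (h2.trans h1)
  have hqR : (G.M : ℝ) / 16 ≤ q := by
    have : G.M ≤ 16 * q := by omega
    have : (G.M : ℝ) ≤ 16 * q := by exact_mod_cast this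
    linarith
  have hE := Real.exp_pos (-k0 * (K * ((R : ℝ) + 3)))
  rw [hc0]
  have hqq : ((G.M : ℝ) / 16) * ((G.M : ℝ) / 16) ≤ (q : ℝ) * q := mul_le_mul hqR hqR (by positivity) (by positivity)
  calc (u : ℝ) ^ 4 * (((R : ℝ) + 1) ^ 2 / 64 * Real.exp (-k0 * (K * ((R : ℝ) + 3))))
      = (((G.M : ℝ) / 16) * ((G.M : ℝ) / 16)) * ((u * u) * ((2 * (((R : ℝ) + 1) * u) / G.M) ^ 2 * Real.exp (-k0 * (K * ((R : ℝ) + 3))))) := by
        field_simp
        ring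
    _ ≤ ((q : ℝ) * q) * ((u * u) * ((2 * (((R : ℝ) + 1) * u) / G.M) ^ 2 * Real.exp (-k0 * (K * ((R : ℝ) + 3))))) :=
        mul_le_mul_of_nonneg_right hqq (by positivity)
    _ = _ := by ring

/-- the trivial bound of `Nsep` -/
theorem hlb_Nsep {G : Geom} (g : Grid G) (R : ℕ) (α : ℝ) (Γ : Matrix G.V G.V ℝ) (hΓ : Γ.PosSemidef) :
    0 ≤ NsepG g R α Γ (cos1 G) ∧ NsepG g R α Γ (cos1 G) ≤ ((g.m : ℝ) ^ 4)⁻¹ * (4 * (G.M : ℝ) ^ 4) := by
  classical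
  unfold NsepG
  constructor
  · refine mul_nonneg (by positivity) (Finset.sum_nonneg fun x _ => Finset.sum_nonneg fun y _ => ?_)
    split_ifs
    · positivity
    · exact le_rfl
  · refine mul_le_mul_of_nonneg_left ?_ (by positivity)
    have key : ∀ x y : G.V, (if SepS g R x y then (cos1 G x - cos1 G y) ^ 2 * Real.exp (-α ^ 2 * Dk Γ x y) else 0) ≤ 4 := by
      intro x y
      split_ifs
      · have h1 : (cos1 G x - cos1 G y) ^ 2 ≤ 4 := by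
          have a1 := Real.cos_le_one (2 * Real.pi * (x.1 : ℕ) / G.M)
          have a2 := Real.neg_one_le_cos (2 * Real.pi * (x.1 : ℕ) / G.M)
          have a3 := Real.cos_le_one (2 * Real.pi * (y.1 : ℕ) / G.M)
          have a4 := Real.neg_one_le_cos (2 * Real.pi * (y.1 : ℕ) / G.M)
          unfold cos1
          have : |Real.cos (2 * Real.pi * (x.1 : ℕ) / G.M) - Real.cos (2 * Real.pi * (y.1 : ℕ) / G.M)| ≤ 2 := by
            rw [abs_le]; constructor <;> linarith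
          calc _ = |Real.cos (2 * Real.pi * (x.1 : ℕ) / G.M) - Real.cos (2 * Real.pi * (y.1 : ℕ) / G.M)| ^ 2 := (sq_abs _).symm
            _ ≤ 2 ^ 2 := pow_le_pow_left₀ (abs_nonneg _) this 2
            _ = 4 := by norm_num
        have h2 : Real.exp (-α ^ 2 * Dk Γ x y) ≤ 1 := by
          rw [Real.exp_le_one_iff]
          have := mul_nonneg (sq_nonneg α) (hlb_Dk_nonneg Γ hΓ x y)
          linarith
        calc _ ≤ (4 : ℝ) * 1 := mul_le_mul h1 h2 (Real.exp_pos _).le (by norm_num)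
          _ = 4 := by norm_num
      · norm_num
    calc _ ≤ ∑ x : G.V, ∑ y : G.V, (4 : ℝ) := Finset.sum_le_sum fun x _ => Finset.sum_le_sum fun y _ => key x y
      _ = _ := by
        simp only [Finset.sum_const, Finset.card_univ, Fintype.card_prod, Fintype.card_fin, nsmul_eq_mul]
        push_cast
        ring

/-- **(E2)** -/
theorem Hl_bounds (ℓ : ℕ) (hℓ : 1 ≤ ℓ) (R : ℕ) (hR : 3 ≤ R) : ∃ D1 : ℕ, ∀ (D0 : ℕ) (hD : 0 < D0), D1 ≤ D0 → ∃ (c C : ℝ) (jmin : ℕ), 0 < c ∧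
    ∀ j h : ℕ, jmin ≤ j → (j < h → c ≤ Hl ⟨ℓ, D0, hD⟩ R j h ∧ Hl ⟨ℓ, D0, hD⟩ R j h ≤ C) ∧ 0 ≤ Tn ⟨ℓ, D0, hD⟩ R j j ∧ Tn ⟨ℓ, D0, hD⟩ R j j ≤ C := by
  classical
  obtain ⟨De, jmin, hE⟩ := hlb_ellK ℓ hℓ
  obtain ⟨K, hK, hLow⟩ := hlb_lower
  refine ⟨max De (4 * (R + 2)), fun D0 hD hD1 => ?_⟩
  obtain ⟨s, hs⟩ : ∃ s : Sc, s = ⟨ℓ, D0, hD⟩ := ⟨_, rfl⟩
  rw [← hs]
  have hsℓ : s.ℓ = ℓ := by rw [hs]
  have hsD : s.D0 = D0 := by rw [hs]
  have hk0 : 0 < k0 := by unfold k0; positivity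
  have hpi := Real.pi_pos
  have hL := s.L_pos
  have hL2 : 2 ≤ s.L := by
    unfold Sc.L
    rw [hsℓ]
    calc 2 = 2 ^ 1 := rfl
      _ ≤ 2 ^ ℓ := Nat.pow_le_pow_right (by norm_num) hℓ
  have hLR : (0 : ℝ) < s.L := by exact_mod_cast hL
  obtain ⟨c1, hc1⟩ : ∃ c1 : ℝ, c1 = ((R : ℝ) + 1) ^ 2 / 64 * Real.exp (-k0 * (K * ((R : ℝ) + 3))) := ⟨_, rfl⟩
  have hc1p : 0 < c1 := by rw [hc1]; positivity
  obtain ⟨C1, hC1⟩ : ∃ C1 : ℝ, C1 = 16 * Real.pi ^ 2 * (((R : ℝ) + 1) * s.L) ^ 4 := ⟨_, rfl⟩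
  have hC1p : 0 ≤ C1 := by rw [hC1]; positivity
  refine ⟨k0 / 4 * c1 / (2 * Real.pi ^ 2 * (9 / 4)), max (k0 / 4 * C1 / 2) (k0 / 4 * (4 * (D0 : ℝ) ^ 4) / 2), jmin, by positivity, fun j h hj => ?_⟩
  obtain ⟨he1, he2⟩ := hE s hsℓ (by rw [hsD]; exact (le_max_left _ _).trans hD1) j hj
  have hD4 : 4 * (R + 2) ≤ s.D0 := by rw [hsD]; exact (le_max_right _ _).trans hD1
  have hn3 : ∀ h, 3 ≤ (s.T h).M := fun h => by
    show 3 ≤ s.D0 * s.L ^ h
    calc 3 ≤ s.D0 * 1 := by omega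
      _ ≤ s.D0 * s.L ^ h := Nat.mul_le_mul_left _ (Nat.pow_pos hL)
  have hell1 : 1 / 4 ≤ ellK s j ^ 2 := by nlinarith
  have hell2 : ellK s j ^ 2 ≤ 9 / 4 := by nlinarith
  have hden : ∀ h, 2 ≤ kVs s h * ellK s j ^ 2 ∧ kVs s h * ellK s j ^ 2 ≤ 2 * Real.pi ^ 2 * (9 / 4) := fun h => by
    obtain ⟨k1, k2⟩ := hlb_kVs s h (hn3 h)
    constructor
    · calc (2 : ℝ) = 8 * (1 / 4) := by norm_num
        _ ≤ _ := mul_le_mul k1 hell1 (by norm_num) (by linarith)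
    · exact mul_le_mul k2 hell2 (by positivity) (by positivity)
  have hmR : (0 : ℝ) < (s.L : ℝ) ^ j := by positivity
  refine ⟨fun hjh => ?_, ?_, ?_⟩
  · obtain ⟨d1, d2⟩ := hden h
    have e1 : min j h = j := by omega
    have e2 : min (j + 1) h = j + 1 := by omega
    have c1e : ((s.L ^ min j h : ℕ) : ℝ) = (s.L : ℝ) ^ j := by rw [e1]; push_cast; rfl
    have c2e : ((s.L ^ min (j + 1) h : ℕ) : ℝ) = (s.L : ℝ) ^ j * s.L := by rw [e2]; push_cast; rw [pow_succ]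
    have hpsd : (Gk s h j).PosSemidef := (termCov_spec _ _ (Sc_pow_pos s j)).psd
    have hup := hlb_upper (s.T h) rfl (s.L ^ min (j + 1) h) (Nat.pow_pos hL) (s.dvd h (j + 1)) R
      (fun x y => SepS (s.lev h j) R x y) (fun x y => Real.exp (-k0 * Dk (Gk s h j) x y)) (fun x y => by
        rw [Real.exp_le_one_iff]
        have := mul_nonneg hk0.le (hlb_Dk_nonneg _ hpsd x y)
        linarith)
    have hlo := hLow (s.T h) rfl (s.L ^ min j h) (s.L ^ min (j + 1) h) (s.L ^ j) (s.dvd h j) (s.dvd h (j + 1)) R (Nat.pow_pos hL)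
      (by rw [e1]) (by omega) (by
        rw [e1, e2, pow_succ, mul_comm]
        exact Nat.mul_le_mul_left _ hL2) (by
        rw [e1]
        show 4 * (R + 2) * s.L ^ j ≤ s.D0 * s.L ^ h
        exact Nat.mul_le_mul hD4 (Nat.pow_le_pow_right hL hjh.le))
    rw [c2e] at hup
    rw [c1e, ← hc1] at hlo
    obtain ⟨Sg, hSg⟩ : ∃ Sg : ℝ, Sg = ∑ x : (s.T h).V, ∑ y : (s.T h).V,
      (if SepS (s.lev h j) R x y ∧ ¬ SepS (s.lev h (j + 1)) R x y then (cos1 _ x - cos1 _ y) ^ 2 * Real.exp (-k0 * Dk (Gk s h j) x y) else 0) := ⟨_, rfl⟩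
    have hHl : Hl s R j h = k0 / 4 * (((s.L : ℝ) ^ j) ^ 4)⁻¹ * Sg / (kVs s h * ellK s j ^ 2) := by
      rw [hSg]
      rfl
    have hup' : Sg ≤ ((s.L : ℝ) ^ j) ^ 4 * C1 := by
      rw [hSg, hC1]
      refine le_trans hup (le_of_eq ?_)
      ring
    have hlo' : ((s.L : ℝ) ^ j) ^ 4 * c1 ≤ Sg := by
      rw [hSg]
      exact hlo
    have hm4 : (0 : ℝ) < ((s.L : ℝ) ^ j) ^ 4 := by positivity
    have n1 : k0 / 4 * c1 ≤ k0 / 4 * (((s.L : ℝ) ^ j) ^ 4)⁻¹ * Sg := by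
      calc k0 / 4 * c1 = k0 / 4 * (((s.L : ℝ) ^ j) ^ 4)⁻¹ * (((s.L : ℝ) ^ j) ^ 4 * c1) := by field_simp
        _ ≤ _ := mul_le_mul_of_nonneg_left hlo' (by positivity)
    have n2 : k0 / 4 * (((s.L : ℝ) ^ j) ^ 4)⁻¹ * Sg ≤ k0 / 4 * C1 := by
      calc k0 / 4 * (((s.L : ℝ) ^ j) ^ 4)⁻¹ * Sg ≤ k0 / 4 * (((s.L : ℝ) ^ j) ^ 4)⁻¹ * (((s.L : ℝ) ^ j) ^ 4 * C1) :=
            mul_le_mul_of_nonneg_left hup' (by positivity)
        _ = _ := by field_simp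
    rw [hHl]
    constructor
    · exact div_le_div₀ (le_trans (by positivity) n1) n1 (by linarith) d2
    · exact (div_le_div₀ (by positivity) n2 (by norm_num) d1).trans (le_max_left _ _)
  · obtain ⟨d1, d2⟩ := hden j
    have hpsd : (Gk s j j).PosSemidef := (termCov_spec _ _ (Sc_pow_pos s j)).psd
    have := (hlb_Nsep (s.lev j j) R al8 (Gk s j j) hpsd).1
    unfold Tn
    apply div_nonneg (mul_nonneg (by positivity) this) (by linarith)
  · obtain ⟨d1, d2⟩ := hden j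
    have hpsd : (Gk s j j).PosSemidef := (termCov_spec _ _ (Sc_pow_pos s j)).psd
    obtain ⟨n0, n1⟩ := hlb_Nsep (s.lev j j) R al8 (Gk s j j) hpsd
    have em : (((s.lev j j).m : ℕ) : ℝ) = (s.L : ℝ) ^ j := by
      show ((s.L ^ min j j : ℕ) : ℝ) = _
      rw [min_self]
      push_cast
      rfl
    have eM : (((s.T j).M : ℕ) : ℝ) = (D0 : ℝ) * (s.L : ℝ) ^ j := by
      show ((s.D0 * s.L ^ j : ℕ) : ℝ) = _
      rw [hsD]
      push_cast
      rfl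
    rw [em, eM] at n1
    have n2 : NsepG (s.lev j j) R al8 (Gk s j j) (cos1 _) ≤ 4 * (D0 : ℝ) ^ 4 := by
      refine n1.trans (le_of_eq ?_)
      field_simp
    unfold Tn
    refine le_trans ?_ (le_max_right _ _)
    exact div_le_div₀ (by positivity) (mul_le_mul_of_nonneg_left n2 (by positivity)) (by norm_num) d1

/-- the map `x' ↦ ⌊x'/L⌋` from the torus `h + 1` to the torus `h` -/
def dwn (s : Sc) (h : ℕ) (x : (s.T (h + 1)).V) : (s.T h).V :=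
  (⟨(x.1 : ℕ) / s.L, by
      have h1 : (x.1 : ℕ) < s.D0 * s.L ^ (h + 1) := x.1.2
      show (x.1 : ℕ) / s.L < s.D0 * s.L ^ h
      apply Nat.div_lt_of_lt_mul
      calc (x.1 : ℕ) < s.D0 * s.L ^ (h + 1) := h1
        _ = s.L * (s.D0 * s.L ^ h) := by ring⟩,
   ⟨(x.2 : ℕ) / s.L, by
      have h1 : (x.2 : ℕ) < s.D0 * s.L ^ (h + 1) := x.2.2
      show (x.2 : ℕ) / s.L < s.D0 * s.L ^ h
      apply Nat.div_lt_of_lt_mul
      calc (x.2 : ℕ) < s.D0 * s.L ^ (h + 1) := h1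
        _ = s.L * (s.D0 * s.L ^ h) := by ring⟩)

/-- **THE kernel input of (E3): scale covariance of `D`** for the pairs (torus `N`, scale `u`), (torus `L N`, scale `L u`), ALL pairs of sites.
Route (finite Fourier sums only, `R285/Ker` layers T, S, Σ): `D (x,y) = N⁻² ∑_{k ≠ 0} μ_k (1 - cos (2π k·(x-y)/N))`, `μ_k = P_u (λ_k)/λ_k`; on the torus `L N` the modes `|k|_∞ < N/2` are compared TERMWISE:
 `|cos θ - cos θ'| ≤ 4π |k|_∞/N`;  `L² λ'_k = λ_k (1 + O(λ_k))`;  `|P_u (λ) - P_{Lu} (λ')| ≤ C λ (1 + u² λ)^{-10}` (symbol: `P_u (λ) = (sin (u w)/(u sin w))^{64}`, `sin² w = λ/128`);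
 `N⁻² ∑_k (1 + u² λ_k)^{-10} ≤ C u⁻²`, `N⁻² ∑_k P_u (λ_k) λ_k^{-1/2} ≤ C/u`;  the modes `|k|_∞ ≥ N/2` of the big torus have `P_{Lu} ≤ (c u²)^{-32}`. -/
theorem scale_cov (ℓ : ℕ) (hℓ : 1 ≤ ℓ) : ∃ (C : ℝ) (D1 : ℕ), ∀ s : Sc, s.ℓ = ℓ → D1 ≤ s.D0 → ∀ j h : ℕ, j ≤ h → ∀ x y : (s.T (h + 1)).V,
    |Dk (Gk s (h + 1) (j + 1)) x y - Dk (Gk s h j) (dwn s h x) (dwn s h y)| ≤ C / Real.sqrt ((s.L : ℝ) ^ j) := by
  obtain ⟨C, hC, hmain⟩ := Ker.ker_sc_main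
  refine ⟨C, 0, ?_⟩
  intro s _ _ j h hjh x y
  have hL := s.L_pos
  have hu : 1 ≤ s.L ^ j := Sc_pow_pos s j
  have huN : s.L ^ j ≤ (s.T h).M := by
    show s.L ^ j ≤ s.D0 * s.L ^ h
    calc s.L ^ j ≤ s.L ^ h := Nat.pow_le_pow_right hL hjh
      _ ≤ s.D0 * s.L ^ h := Nat.le_mul_of_pos_left _ s.hD
  have hN' : (s.T (h + 1)).M = 2 ^ s.ℓ * (s.T h).M := by
    show s.D0 * s.L ^ (h + 1) = 2 ^ s.ℓ * (s.D0 * s.L ^ h)
    rw [pow_succ]
    show s.D0 * (s.L ^ h * s.L) = s.L * (s.D0 * s.L ^ h)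
    ring
  have e1 := Ker.ker_sc_D (s.T (h + 1)) rfl (termCov_mul (s.T (h + 1)) _ (Sc_pow_pos s (j + 1))) x y
  have e2 := Ker.ker_sc_D (s.T h) rfl (termCov_mul (s.T h) _ hu) (dwn s h x) (dwn s h y)
  have eu : s.L ^ (j + 1) = 2 ^ s.ℓ * s.L ^ j := by
    rw [pow_succ, mul_comm]; rfl
  rw [eu] at e1
  have hb : ∀ a b : ℕ, |((a : ℤ) - (b : ℤ)) - 2 ^ s.ℓ * (((a / s.L : ℕ) : ℤ) - ((b / s.L : ℕ) : ℤ))| ≤ 2 ^ s.ℓ := by
    intro a b
    have ha := Nat.div_add_mod a s.L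
    have hb := Nat.div_add_mod b s.L
    have ha' := Nat.mod_lt a hL
    have hb' := Nat.mod_lt b hL
    have eL : ((2 : ℤ) ^ s.ℓ) = (s.L : ℤ) := by simp [Sc.L]
    rw [eL]
    have e : ((a : ℤ) - (b : ℤ)) - (s.L : ℤ) * (((a / s.L : ℕ) : ℤ) - ((b / s.L : ℕ) : ℤ))
        = ((a % s.L : ℕ) : ℤ) - ((b % s.L : ℕ) : ℤ) := by
      have ha2 : (a : ℤ) = (s.L : ℤ) * ((a / s.L : ℕ) : ℤ) + ((a % s.L : ℕ) : ℤ) := by exact_mod_cast ha.symm
      have hb2 : (b : ℤ) = (s.L : ℤ) * ((b / s.L : ℕ) : ℤ) + ((b % s.L : ℕ) : ℤ) := by exact_mod_cast hb.symm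
      linear_combination ha2 - hb2
    rw [e, abs_le]
    constructor <;> omega
  have hm := hmain s.ℓ (s.T h).M (s.T (h + 1)).M (s.L ^ j) hu huN hN'
    ((s.T h).ι (dwn s h x) - (s.T h).ι (dwn s h y)) ((s.T (h + 1)).ι x - (s.T (h + 1)).ι y)
    (hb x.1 y.1) (hb x.2 y.2)
  rw [← e1, ← e2, ← Complex.ofReal_sub, Complex.norm_real, Real.norm_eq_abs] at hm
  have hu1 : (1 : ℝ) ≤ (s.L : ℝ) ^ j := by exact_mod_cast hu
  have hsq : Real.sqrt ((s.L : ℝ) ^ j) ≤ (s.L : ℝ) ^ j := by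
    rw [Real.sqrt_le_left (by positivity)]
    nlinarith
  have hsq0 : 0 < Real.sqrt ((s.L : ℝ) ^ j) := Real.sqrt_pos.2 (by positivity)
  simp only [Dk, Gk]
  rw [eu]
  refine hm.trans ?_
  push_cast
  exact div_le_div_of_nonneg_left hC hsq0 hsq

/-- index distance on one axis of a torus -/
theorem l53_idist1_per {G : Geom} (g : Grid G) (hG : G.bc = BC.per) (a b : Fin g.n) :
    g.idist1 a b = min ((a : ℤ) - b).natAbs (g.n - ((a : ℤ) - b).natAbs) := by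
  unfold Grid.idist1
  rw [hG]

/-- the map `dwn` matches the blocks exactly -/
theorem dwn_sep (s : Sc) (R h j : ℕ) (hj : j ≤ h) (x y : (s.T (h + 1)).V) :
    SepS (s.lev (h + 1) (j + 1)) R x y ↔ SepS (s.lev h j) R (dwn s h x) (dwn s h y) := by
  have hL := s.L_pos
  have e1 : min (j + 1) (h + 1) = j + 1 := by omega
  have e2 : min j h = j := by omega
  have hn : (s.lev (h + 1) (j + 1)).n = (s.lev h j).n := by
    show s.D0 * s.L ^ (h + 1) / s.L ^ (min (j + 1) (h + 1)) = s.D0 * s.L ^ h / s.L ^ (min j h)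
    rw [e1, e2, pow_succ, pow_succ, ← mul_assoc, Nat.mul_div_mul_right _ _ hL]
  have hb : ∀ a : Fin (s.T (h + 1)).M, (((s.lev (h + 1) (j + 1)).blk1 a : ℕ)) = (a : ℕ) / s.L / s.L ^ j := fun a => by
    show (a : ℕ) / s.L ^ (min (j + 1) (h + 1)) = _
    rw [e1, pow_succ', Nat.div_div_eq_div_mul]
  have hb' : ∀ a : Fin (s.T h).M, (((s.lev h j).blk1 a : ℕ)) = (a : ℕ) / s.L ^ j := fun a => by
    show (a : ℕ) / s.L ^ (min j h) = _
    rw [e2]
  have key : (s.lev (h + 1) (j + 1)).idist ((s.lev (h + 1) (j + 1)).blk x) ((s.lev (h + 1) (j + 1)).blk y)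
      = (s.lev h j).idist ((s.lev h j).blk (dwn s h x)) ((s.lev h j).blk (dwn s h y)) := by
    unfold Grid.idist Grid.blk
    rw [l53_idist1_per _ rfl, l53_idist1_per _ rfl, l53_idist1_per _ rfl, l53_idist1_per _ rfl]
    simp only [hb, hb']
    rw [hn]
    rfl
  unfold SepS
  rw [key]

/-- the fibres of `dwn` -/
theorem dwn_sum (s : Sc) (h : ℕ) (f : (s.T (h + 1)).V → ℝ) :
    ∑ x, f x = ∑ x : (s.T h).V, ∑ x' ∈ Finset.univ.filter (fun x' => dwn s h x' = x), f x' := by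
  exact (Finset.sum_fiberwise _ _ _).symm

/-- the fibres of `i ↦ ⌊i/L⌋` -/
theorem l53_card_div (N L b : ℕ) (hL : 0 < L) (hb : b * L + L ≤ N) : (Finset.univ.filter fun i : Fin N => (i : ℕ) / L = b).card = L := by
  have : (Finset.univ.filter fun i : Fin N => (i : ℕ) / L = b)
      = (Finset.univ : Finset (Fin L)).map ⟨fun r : Fin L => (⟨b * L + (r : ℕ), by have := r.2; omega⟩ : Fin N), by
          intro r r' hr
          have := congrArg Fin.val hr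
          simp only at this
          exact Fin.ext (by omega)⟩ := by
    ext i
    simp only [Finset.mem_filter, Finset.mem_univ, true_and, Finset.mem_map]
    constructor
    · intro hi
      refine ⟨⟨(i : ℕ) % L, Nat.mod_lt _ hL⟩, Fin.ext ?_⟩
      show b * L + (i : ℕ) % L = i
      rw [← hi, mul_comm]; exact Nat.div_add_mod _ _
    · rintro ⟨r, rfl⟩
      show (b * L + r) / L = b
      rw [mul_comm, Nat.mul_add_div hL, Nat.div_eq_of_lt r.2, add_zero]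
  rw [this, Finset.card_map, Finset.card_univ, Fintype.card_fin]

theorem dwn_card (s : Sc) (h : ℕ) (x : (s.T h).V) : (Finset.univ.filter (fun x' => dwn s h x' = x)).card = s.L ^ 2 := by
  have hL := s.L_pos
  have hb : ∀ b : Fin (s.T h).M, (b : ℕ) * s.L + s.L ≤ (s.T (h + 1)).M := fun b => by
    have h1 : (b : ℕ) + 1 ≤ s.D0 * s.L ^ h := b.2
    calc (b : ℕ) * s.L + s.L = ((b : ℕ) + 1) * s.L := by ring
      _ ≤ s.D0 * s.L ^ h * s.L := Nat.mul_le_mul_right _ h1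
      _ = s.D0 * s.L ^ (h + 1) := by ring
  have e : (Finset.univ.filter (fun x' => dwn s h x' = x))
      = (Finset.univ.filter fun i : Fin (s.T (h + 1)).M => (i : ℕ) / s.L = x.1) ×ˢ
        (Finset.univ.filter fun i : Fin (s.T (h + 1)).M => (i : ℕ) / s.L = x.2) := by
    ext x'
    simp only [Finset.mem_filter, Finset.mem_univ, true_and, Finset.mem_product]
    constructor
    · intro hx
      exact ⟨congrArg (fun z : (s.T h).V => (z.1 : ℕ)) hx, congrArg (fun z : (s.T h).V => (z.2 : ℕ)) hx⟩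
    · intro hx
      exact Prod.ext (Fin.ext hx.1) (Fin.ext hx.2)
  rw [e, Finset.card_product, l53_card_div _ _ _ hL (hb x.1), l53_card_div _ _ _ hL (hb x.2), sq]

/-- sums of functions of `dwn` -/
theorem k53_dwn_sum1 (s : Sc) (h : ℕ) (f : (s.T h).V → ℝ) : ∑ x' : (s.T (h + 1)).V, f (dwn s h x') = (s.L : ℝ) ^ 2 * ∑ x, f x := by
  rw [dwn_sum s h (fun x' => f (dwn s h x')), Finset.mul_sum]
  refine Finset.sum_congr rfl fun x _ => ?_
  rw [Finset.sum_congr rfl (g := fun _ => f x) (fun x' hx' => by rw [(Finset.mem_filter.1 hx').2]), Finset.sum_const, dwn_card,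
    nsmul_eq_mul]
  push_cast
  ring

theorem k53_dwn_sum2 (s : Sc) (h : ℕ) (g : (s.T h).V → (s.T h).V → ℝ) :
    ∑ x' : (s.T (h + 1)).V, ∑ y' : (s.T (h + 1)).V, g (dwn s h x') (dwn s h y') = (s.L : ℝ) ^ 4 * ∑ x, ∑ y, g x y := by
  have h1 : ∀ x' : (s.T (h + 1)).V, ∑ y' : (s.T (h + 1)).V, g (dwn s h x') (dwn s h y') = (s.L : ℝ) ^ 2 * ∑ y, g (dwn s h x') y :=
    fun x' => k53_dwn_sum1 s h (fun y => g (dwn s h x') y)
  rw [Finset.sum_congr rfl fun x' _ => h1 x', ← Finset.mul_sum, k53_dwn_sum1 s h (fun x => ∑ y, g x y)]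
  ring

/-- the first cosine under `dwn` -/
theorem k53_cos_dwn (s : Sc) (h : ℕ) (x : (s.T (h + 1)).V) : |cos1 _ (dwn s h x) - cos1 _ x| ≤ 2 * Real.pi / ((s.T h).M : ℝ) := by
  have hL := s.L_pos
  have hLr : (0 : ℝ) < (s.L : ℝ) := by exact_mod_cast hL
  have hM0 : (0 : ℝ) < ((s.T h).M : ℝ) := by exact_mod_cast (s.T h).hM
  have hM' : (((s.T (h + 1)).M : ℕ) : ℝ) = (s.L : ℝ) * ((s.T h).M : ℝ) := by
    have : (s.T (h + 1)).M = s.L * (s.T h).M := by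
      show s.D0 * s.L ^ (h + 1) = s.L * (s.D0 * s.L ^ h)
      ring
    rw [this]
    push_cast
    ring
  unfold cos1
  refine (Real.abs_cos_sub_cos_le _ _).trans ?_
  show |2 * Real.pi * (((x.1 : ℕ) / s.L : ℕ) : ℝ) / ((s.T h).M : ℝ) - 2 * Real.pi * ((x.1 : ℕ) : ℝ) / ((s.T (h + 1)).M : ℝ)| ≤ _
  rw [hM']
  have h1 := Nat.div_add_mod (x.1 : ℕ) s.L
  have h2 := Nat.mod_lt (x.1 : ℕ) hL
  have h3 : ((x.1 : ℕ) : ℝ) = (s.L : ℝ) * (((x.1 : ℕ) / s.L : ℕ) : ℝ) + (((x.1 : ℕ) % s.L : ℕ) : ℝ) := by exact_mod_cast h1.symm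
  have h4 : (((x.1 : ℕ) % s.L : ℕ) : ℝ) ≤ (s.L : ℝ) := by exact_mod_cast h2.le
  have h5 : (0 : ℝ) ≤ (((x.1 : ℕ) % s.L : ℕ) : ℝ) := by positivity
  have e : 2 * Real.pi * (((x.1 : ℕ) / s.L : ℕ) : ℝ) / ((s.T h).M : ℝ) - 2 * Real.pi * ((x.1 : ℕ) : ℝ) / ((s.L : ℝ) * ((s.T h).M : ℝ))
      = -(2 * Real.pi / ((s.T h).M : ℝ) * ((((x.1 : ℕ) % s.L : ℕ) : ℝ) / (s.L : ℝ))) := by
    rw [h3]
    field_simp
    ring
  rw [e, abs_neg, abs_of_nonneg (by positivity)]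
  calc 2 * Real.pi / ((s.T h).M : ℝ) * ((((x.1 : ℕ) % s.L : ℕ) : ℝ) / (s.L : ℝ)) ≤ 2 * Real.pi / ((s.T h).M : ℝ) * 1 :=
        mul_le_mul_of_nonneg_left ((div_le_one hLr).2 h4) (by positivity)
    _ = _ := mul_one _

/-- comparison of the normalisations -/
theorem k53_kap (u u' l l' δ P c c' : ℝ) (h8 : 8 ≤ u) (h8' : 8 ≤ u') (hP : u' ≤ P) (hu : |u - u'| ≤ c * δ)
    (hl : 1 / 2 ≤ l) (hl2 : l ≤ 2) (hl' : 1 / 2 ≤ l') (hl2' : l' ≤ 2) (hll : |l - l'| ≤ c' * δ) :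
    0 ≤ (u * l ^ 2)⁻¹ ∧ (u * l ^ 2)⁻¹ ≤ 1 / 2 ∧ |(u * l ^ 2)⁻¹ - (u' * l' ^ 2)⁻¹| ≤ (c + P * c') * δ := by
  have a1 : 1 / 4 ≤ l ^ 2 := by nlinarith
  have a2 : 1 / 4 ≤ l' ^ 2 := by nlinarith
  have a3 : l ^ 2 ≤ 4 := by nlinarith
  have b1 : 2 ≤ u * l ^ 2 := by nlinarith
  have b2 : 2 ≤ u' * l' ^ 2 := by nlinarith
  have i1 : (u * l ^ 2)⁻¹ ≤ 1 / 2 := by
    rw [inv_le_comm₀ (by linarith) (by norm_num)]
    linarith
  have i2 : (u' * l' ^ 2)⁻¹ ≤ 1 / 2 := by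
    rw [inv_le_comm₀ (by linarith) (by norm_num)]
    linarith
  have p1 : 0 ≤ (u * l ^ 2)⁻¹ := inv_nonneg.2 (by linarith)
  have p2 : 0 ≤ (u' * l' ^ 2)⁻¹ := inv_nonneg.2 (by linarith)
  refine ⟨p1, i1, ?_⟩
  have e : (u * l ^ 2)⁻¹ - (u' * l' ^ 2)⁻¹ = (u' * l' ^ 2 - u * l ^ 2) * ((u * l ^ 2)⁻¹ * (u' * l' ^ 2)⁻¹) := by
    have : u * l ^ 2 ≠ 0 := by linarith
    have : u' * l' ^ 2 ≠ 0 := by linarith
    field_simp
  have e2 : u' * l' ^ 2 - u * l ^ 2 = -((u - u') * l ^ 2) - u' * ((l - l') * (l + l')) := by ring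
  have t1 : |(u - u') * l ^ 2| ≤ (c * δ) * 4 := by
    rw [abs_mul, abs_of_nonneg (sq_nonneg l)]
    exact mul_le_mul hu a3 (sq_nonneg l) ((abs_nonneg _).trans hu)
  have t2 : |u' * ((l - l') * (l + l'))| ≤ P * ((c' * δ) * 4) := by
    rw [abs_mul, abs_mul, abs_of_nonneg (by linarith : 0 ≤ u'), abs_of_nonneg (by linarith : 0 ≤ l + l')]
    have : 0 ≤ c' * δ := (abs_nonneg _).trans hll
    exact mul_le_mul hP (mul_le_mul hll (by linarith) (by linarith) this) (by positivity) (by linarith)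
  have t3 : |u' * l' ^ 2 - u * l ^ 2| ≤ (c * δ) * 4 + P * ((c' * δ) * 4) := by
    rw [e2]
    calc _ ≤ |-((u - u') * l ^ 2)| + |u' * ((l - l') * (l + l'))| := abs_sub _ _
      _ ≤ _ := by rw [abs_neg]; linarith
  rw [e, abs_mul, abs_of_nonneg (mul_nonneg p1 p2)]
  calc _ ≤ ((c * δ) * 4 + P * ((c' * δ) * 4)) * (1 / 2 * (1 / 2)) :=
        mul_le_mul t3 (mul_le_mul i1 i2 p2 (by norm_num)) (mul_nonneg p1 p2) ((abs_nonneg _).trans t3)
    _ = _ := by ring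

/-- **(E3)** diagonal scale covariance of the local sums -/
theorem Hl_scale (ℓ : ℕ) (hℓ : 1 ≤ ℓ) (R : ℕ) : ∃ D1 : ℕ, ∀ (D0 : ℕ) (hD : 0 < D0), D1 ≤ D0 → ∃ (C : ℝ) (jmin : ℕ),
    ∀ j h : ℕ, jmin ≤ j → j < h → |Hl ⟨ℓ, D0, hD⟩ R j h - Hl ⟨ℓ, D0, hD⟩ R (j + 1) (h + 1)| ≤ C / Real.sqrt (((2 : ℝ) ^ ℓ) ^ j) := by
  obtain ⟨Cl, D1l, jmin, hCl, hell⟩ := k53_ell_bd ℓ hℓ
  obtain ⟨Cs, D1s, hsc⟩ := scale_cov ℓ hℓ
  have hk0 : 0 < k0 := by unfold k0; positivity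
  have hpi := Real.pi_pos
  refine ⟨max (max D1l D1s) 3, fun D0 hD hD1 => ?_⟩
  obtain ⟨s, hs⟩ : ∃ s : Sc, s = ⟨ℓ, D0, hD⟩ := ⟨_, rfl⟩
  rw [← hs]
  have hsl : s.ℓ = ℓ := by rw [hs]
  have hsD : s.D0 = D0 := by rw [hs]
  have hLc : (s.L : ℝ) = (2 : ℝ) ^ ℓ := by unfold Sc.L; rw [hsl]; push_cast; rfl
  rw [← hLc]
  have hL := s.L_pos
  have hL1 : (1 : ℝ) ≤ (s.L : ℝ) := by exact_mod_cast hL
  have hL0 : (0 : ℝ) < (s.L : ℝ) := by linarith
  -- the constants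
  obtain ⟨c2, hc2⟩ : ∃ c2 : ℝ, c2 = 4 * Real.pi ^ 4 / 3 + 2 * Real.pi ^ 2 * (2 * Cl) := ⟨_, rfl⟩
  obtain ⟨Kc, hKc⟩ : ∃ Kc : ℝ, Kc = 4 * (1 / 2) + k0 * Cs * (1 / 2) + c2 := ⟨_, rfl⟩
  refine ⟨k0 / 4 * (2 * R + 1) ^ 2 * (2 * Real.pi * (R + 1)) ^ 2 * (s.L : ℝ) ^ 4 * Kc, jmin, fun j h hjm hj => ?_⟩
  obtain ⟨δ, hδ⟩ : ∃ δ : ℝ, δ = 1 / Real.sqrt ((s.L : ℝ) ^ j) := ⟨_, rfl⟩
  have hm1 : (1 : ℝ) ≤ (s.L : ℝ) ^ j := one_le_pow₀ hL1
  have hsq0 : 0 < Real.sqrt ((s.L : ℝ) ^ j) := Real.sqrt_pos.2 (by linarith)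
  have hsqle : Real.sqrt ((s.L : ℝ) ^ j) ≤ (s.L : ℝ) ^ j := by
    rw [Real.sqrt_le_left (by linarith)]
    nlinarith
  have hδ0 : 0 < δ := by rw [hδ]; positivity
  have hdiv : ∀ c : ℝ, c / Real.sqrt ((s.L : ℝ) ^ j) = c * δ := fun c => by rw [hδ]; ring
  rw [hdiv]
  -- `1/t ≤ δ` for `t ≥ L^j`
  have hinv : ∀ t : ℝ, (s.L : ℝ) ^ j ≤ t → 1 / t ≤ δ := fun t ht => by
    rw [hδ]
    exact one_div_le_one_div_of_le hsq0 (hsqle.trans ht)
  -- the tori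
  obtain ⟨n, hn⟩ : ∃ n : ℝ, n = ((s.T h).M : ℝ) := ⟨_, rfl⟩
  obtain ⟨n', hn'⟩ : ∃ n' : ℝ, n' = ((s.T (h + 1)).M : ℝ) := ⟨_, rfl⟩
  have hnn : n' = (s.L : ℝ) * n := by
    have : (s.T (h + 1)).M = s.L * (s.T h).M := by
      show s.D0 * s.L ^ (h + 1) = s.L * (s.D0 * s.L ^ h)
      ring
    rw [hn', hn, this]
    push_cast
    ring
  have hM3 : ∀ k, 3 ≤ (s.T k).M := fun k => by
    show 3 ≤ s.D0 * s.L ^ k
    have h1 : 3 ≤ s.D0 := by rw [hsD]; exact (le_max_right _ _).trans hD1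
    exact h1.trans (Nat.le_mul_of_pos_right _ (Nat.pow_pos hL))
  have hnm : (s.L : ℝ) ^ j ≤ n := by
    have : s.L ^ j ≤ (s.T h).M := by
      show s.L ^ j ≤ s.D0 * s.L ^ h
      calc s.L ^ j ≤ s.L ^ h := Nat.pow_le_pow_right hL hj.le
        _ ≤ s.D0 * s.L ^ h := Nat.le_mul_of_pos_left _ s.hD
    rw [hn]
    exact_mod_cast this
  have hn0 : 0 < n := by linarith
  have hn1 : 1 ≤ n := by linarith
  have hn0' : 0 < n' := by rw [hnn]; positivity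
  have hnn' : n ≤ n' := by rw [hnn]; nlinarith
  -- the normalisations
  have hD1l : D1l ≤ s.D0 := by rw [hsD]; exact ((le_max_left _ _).trans (le_max_left _ _)).trans hD1
  have hD1s : D1s ≤ s.D0 := by rw [hsD]; exact ((le_max_right _ _).trans (le_max_left _ _)).trans hD1
  obtain ⟨l1, l2⟩ := hell s hsl hD1l j
  obtain ⟨l1', l2'⟩ := hell s hsl hD1l (j + 1)
  obtain ⟨l3, l4⟩ := l2 hjm
  obtain ⟨l3', l4'⟩ := l2' (by omega)
  rw [← hLc, hdiv] at l1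
  rw [← hLc] at l1'
  have l1'' : |ellK s (j + 1) - 1| ≤ Cl * δ := by
    refine l1'.trans ?_
    rw [← hdiv]
    refine div_le_div_of_nonneg_left hCl hsq0 (Real.sqrt_le_sqrt ?_)
    rw [pow_succ]
    nlinarith
  have hll : |ellK s j - ellK s (j + 1)| ≤ (2 * Cl) * δ := by
    have : ellK s j - ellK s (j + 1) = (ellK s j - 1) - (ellK s (j + 1) - 1) := by ring
    rw [this]
    calc _ ≤ |ellK s j - 1| + |ellK s (j + 1) - 1| := abs_sub _ _
      _ ≤ _ := by linarith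
  obtain ⟨v1, v2, v3⟩ := k53_kVs_bd s h (hM3 h)
  obtain ⟨v1', v2', v3'⟩ := k53_kVs_bd s (h + 1) (hM3 (h + 1))
  rw [← hn] at v3
  rw [← hn'] at v3'
  have hsqn : ∀ t : ℝ, n ≤ t → 2 * Real.pi ^ 4 / (3 * t ^ 2) ≤ 2 * Real.pi ^ 4 / 3 * δ := fun t ht => by
    have h1 : 1 / t ^ 2 ≤ δ := hinv _ (by nlinarith)
    have e : 2 * Real.pi ^ 4 / (3 * t ^ 2) = 2 * Real.pi ^ 4 / 3 * (1 / t ^ 2) := by
      have : t ≠ 0 := by linarith
      field_simp
    rw [e]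
    exact mul_le_mul_of_nonneg_left h1 (by positivity)
  have hvv : |kVs s h - kVs s (h + 1)| ≤ (4 * Real.pi ^ 4 / 3) * δ := by
    have : kVs s h - kVs s (h + 1) = (kVs s h - 2 * Real.pi ^ 2) - (kVs s (h + 1) - 2 * Real.pi ^ 2) := by ring
    rw [this]
    calc _ ≤ |kVs s h - 2 * Real.pi ^ 2| + |kVs s (h + 1) - 2 * Real.pi ^ 2| := abs_sub _ _
      _ ≤ 2 * Real.pi ^ 4 / 3 * δ + 2 * Real.pi ^ 4 / 3 * δ := add_le_add (v3.trans (hsqn n le_rfl)) (v3'.trans (hsqn n' hnn'))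
      _ = _ := by ring
  obtain ⟨κ0, κ1, κκ⟩ := k53_kap (kVs s h) (kVs s (h + 1)) (ellK s j) (ellK s (j + 1)) δ (2 * Real.pi ^ 2) _ _ v1 v1' v2' hvv l3 l4 l3' l4' hll
  rw [← hc2] at κκ
  obtain ⟨κ, hκ⟩ : ∃ κ : ℝ, κ = (kVs s h * ellK s j ^ 2)⁻¹ := ⟨_, rfl⟩
  obtain ⟨κ', hκ'⟩ : ∃ κ' : ℝ, κ' = (kVs s (h + 1) * ellK s (j + 1) ^ 2)⁻¹ := ⟨_, rfl⟩
  rw [← hκ] at κ0 κ1 κκ
  rw [← hκ'] at κκ
  -- the bound of the cosines
  obtain ⟨B, hB⟩ : ∃ B : ℝ, B = 2 * Real.pi * (R + 1) * (s.L : ℝ) ^ (j + 2) / n' := ⟨_, rfl⟩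
  have hB0 : 0 ≤ B := by rw [hB]; positivity
  classical
  -- the termwise estimate
  have hterm : ∀ x y : (s.T (h + 1)).V, ¬ SepS (s.lev (h + 1) (j + 2)) R x y →
      |(cos1 _ (dwn s h x) - cos1 _ (dwn s h y)) ^ 2 * Real.exp (-k0 * Dk (Gk s h j) (dwn s h x) (dwn s h y)) * κ
        - (cos1 _ x - cos1 _ y) ^ 2 * Real.exp (-k0 * Dk (Gk s (h + 1) (j + 1)) x y) * κ'| ≤ B ^ 2 * δ * Kc := fun x y hxy => by
    rw [hKc]
    have hxy' : ¬ SepS (s.lev h (j + 1)) R (dwn s h x) (dwn s h y) := fun hc => hxy ((dwn_sep s R h (j + 1) hj x y).2 hc)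
    have d0 := k53_Dk_nonneg s h j (dwn s h x) (dwn s h y)
    have d0' := k53_Dk_nonneg s (h + 1) (j + 1) x y
    refine k53_term _ _ _ _ κ κ' B δ (1 / 2) (k0 * Cs) c2 hB0 hδ0.le ?_ ?_ ?_ (Real.exp_pos _).le ?_ (Real.exp_pos _).le ?_ ?_ κ0 κ1 κκ
    · refine (k53_cos_nsep s R h (j + 1) hj _ _ hxy').trans (le_of_eq ?_)
      rw [hB, ← hn, hnn]
      field_simp
      ring
    · refine (k53_cos_nsep s R (h + 1) (j + 2) (by omega) _ _ hxy).trans (le_of_eq ?_)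
      rw [hB, ← hn']
    · have e : cos1 _ (dwn s h x) - cos1 _ (dwn s h y) - (cos1 _ x - cos1 _ y)
          = (cos1 _ (dwn s h x) - cos1 _ x) - (cos1 _ (dwn s h y) - cos1 _ y) := by ring
      rw [e]
      have h1 := k53_cos_dwn s h x
      have h2 := k53_cos_dwn s h y
      rw [← hn] at h1 h2
      have h3 : 2 * Real.pi / n + 2 * Real.pi / n ≤ 2 * B * δ := by
        have e1 : 2 * B * δ = (2 * Real.pi / n + 2 * Real.pi / n) * (((R : ℝ) + 1) * (s.L : ℝ) * ((s.L : ℝ) ^ j * δ)) := by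
          rw [hB, hnn]
          field_simp
          ring
        rw [e1]
        have h4 : 1 ≤ (s.L : ℝ) ^ j * δ := by
          rw [hδ, mul_one_div, le_div_iff₀ hsq0]
          linarith
        have h5 : (1 : ℝ) ≤ (R : ℝ) + 1 := by
          have : (0 : ℝ) ≤ (R : ℝ) := by positivity
          linarith
        have h6 : 1 ≤ ((R : ℝ) + 1) * (s.L : ℝ) * ((s.L : ℝ) ^ j * δ) := by
          have := mul_le_mul (mul_le_mul h5 hL1 (by norm_num) (by linarith)) h4 (by norm_num) (by positivity)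
          simpa using this
        exact le_mul_of_one_le_right (by positivity) h6
      calc _ ≤ |cos1 _ (dwn s h x) - cos1 _ x| + |cos1 _ (dwn s h y) - cos1 _ y| := abs_sub _ _
        _ ≤ _ := by linarith
    · rw [neg_mul]
      exact Real.exp_le_one_iff.2 (neg_nonpos.2 (mul_nonneg hk0.le d0))
    · rw [neg_mul]
      exact Real.exp_le_one_iff.2 (neg_nonpos.2 (mul_nonneg hk0.le d0'))
    · have h1 := k53_exp_neg_lip (k0 * Dk (Gk s h j) (dwn s h x) (dwn s h y)) (k0 * Dk (Gk s (h + 1) (j + 1)) x y) (by positivity) (by positivity)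
      have h2 := hsc s hsl hD1s j h hj.le x y
      rw [hdiv] at h2
      rw [neg_mul, neg_mul]
      refine h1.trans ?_
      rw [← mul_sub, abs_mul, abs_of_pos hk0, abs_sub_comm, mul_assoc]
      exact mul_le_mul_of_nonneg_left h2 hk0.le
  have hKc0 : 0 ≤ B ^ 2 * δ * Kc := (abs_nonneg _).trans (hterm (org _) (org _) (by
    unfold SepS
    rw [Alg.idist_self]
    omega))
  -- the difference as one sum
  have key : Hl s R j h - Hl s R (j + 1) (h + 1) = k0 / 4 * (((s.L : ℝ) ^ (j + 1)) ^ 4)⁻¹ * ∑ x : (s.T (h + 1)).V, ∑ y : (s.T (h + 1)).V,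
      if SepS (s.lev (h + 1) (j + 1)) R x y ∧ ¬ SepS (s.lev (h + 1) (j + 1 + 1)) R x y then
        (cos1 _ (dwn s h x) - cos1 _ (dwn s h y)) ^ 2 * Real.exp (-k0 * Dk (Gk s h j) (dwn s h x) (dwn s h y)) * κ
        - (cos1 _ x - cos1 _ y) ^ 2 * Real.exp (-k0 * Dk (Gk s (h + 1) (j + 1)) x y) * κ' else 0 := by
    have h1 := k53_dwn_sum2 s h (fun x y => if SepS (s.lev h j) R x y ∧ ¬ SepS (s.lev h (j + 1)) R x y then
      (cos1 _ x - cos1 _ y) ^ 2 * Real.exp (-k0 * Dk (Gk s h j) x y) else 0)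
    have h2 := (eq_inv_mul_iff_mul_eq₀ (by positivity : (s.L : ℝ) ^ 4 ≠ 0)).2 h1.symm
    unfold Hl
    rw [h2, div_eq_mul_inv _ (kVs s h * ellK s j ^ 2), div_eq_mul_inv _ (kVs s (h + 1) * ellK s (j + 1) ^ 2), ← hκ, ← hκ']
    have e1 : k0 / 4 * (((s.L : ℝ) ^ j) ^ 4)⁻¹ * (((s.L : ℝ) ^ 4)⁻¹ * ∑ x' : (s.T (h + 1)).V, ∑ y' : (s.T (h + 1)).V,
        (if SepS (s.lev h j) R (dwn s h x') (dwn s h y') ∧ ¬ SepS (s.lev h (j + 1)) R (dwn s h x') (dwn s h y') then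
          (cos1 _ (dwn s h x') - cos1 _ (dwn s h y')) ^ 2 * Real.exp (-k0 * Dk (Gk s h j) (dwn s h x') (dwn s h y')) else 0)) * κ
        = k0 / 4 * (((s.L : ℝ) ^ (j + 1)) ^ 4)⁻¹ * ((∑ x' : (s.T (h + 1)).V, ∑ y' : (s.T (h + 1)).V,
        (if SepS (s.lev h j) R (dwn s h x') (dwn s h y') ∧ ¬ SepS (s.lev h (j + 1)) R (dwn s h x') (dwn s h y') then
          (cos1 _ (dwn s h x') - cos1 _ (dwn s h y')) ^ 2 * Real.exp (-k0 * Dk (Gk s h j) (dwn s h x') (dwn s h y')) else 0)) * κ) := by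
      rw [pow_succ (s.L : ℝ) j, mul_pow, mul_inv]
      ring
    rw [e1, mul_assoc (k0 / 4 * (((s.L : ℝ) ^ (j + 1)) ^ 4)⁻¹), ← mul_sub, Finset.sum_mul, Finset.sum_mul, ← Finset.sum_sub_distrib]
    congr 1
    refine Finset.sum_congr rfl fun x _ => ?_
    rw [Finset.sum_mul, Finset.sum_mul, ← Finset.sum_sub_distrib]
    refine Finset.sum_congr rfl fun y _ => ?_
    have i1 := dwn_sep s R h j hj.le x y
    have i2 := dwn_sep s R h (j + 1) hj x y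
    by_cases hP : SepS (s.lev (h + 1) (j + 1)) R x y ∧ ¬ SepS (s.lev (h + 1) (j + 1 + 1)) R x y
    · rw [if_pos hP, if_pos hP, if_pos ⟨i1.1 hP.1, fun hc => hP.2 (i2.2 hc)⟩]
    · rw [if_neg hP, if_neg hP, if_neg (fun hc => hP ⟨i1.2 hc.1, fun hc' => hc.2 (i2.1 hc')⟩)]
      ring
  rw [key, abs_mul, abs_of_nonneg (by positivity)]
  -- counting
  have hcount : |∑ x : (s.T (h + 1)).V, ∑ y : (s.T (h + 1)).V,
      if SepS (s.lev (h + 1) (j + 1)) R x y ∧ ¬ SepS (s.lev (h + 1) (j + 1 + 1)) R x y then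
        (cos1 _ (dwn s h x) - cos1 _ (dwn s h y)) ^ 2 * Real.exp (-k0 * Dk (Gk s h j) (dwn s h x) (dwn s h y)) * κ
        - (cos1 _ x - cos1 _ y) ^ 2 * Real.exp (-k0 * Dk (Gk s (h + 1) (j + 1)) x y) * κ' else 0|
      ≤ n' ^ 2 * (((2 * R + 1) ^ 2 * ((s.L : ℝ) ^ (j + 2)) ^ 2) * (B ^ 2 * δ * Kc)) := by
    refine (Finset.abs_sum_le_sum_abs _ _).trans ?_
    have hx : ∀ x : (s.T (h + 1)).V, |∑ y : (s.T (h + 1)).V,
      if SepS (s.lev (h + 1) (j + 1)) R x y ∧ ¬ SepS (s.lev (h + 1) (j + 1 + 1)) R x y then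
        (cos1 _ (dwn s h x) - cos1 _ (dwn s h y)) ^ 2 * Real.exp (-k0 * Dk (Gk s h j) (dwn s h x) (dwn s h y)) * κ
        - (cos1 _ x - cos1 _ y) ^ 2 * Real.exp (-k0 * Dk (Gk s (h + 1) (j + 1)) x y) * κ' else 0|
        ≤ ((2 * R + 1) ^ 2 * ((s.L : ℝ) ^ (j + 2)) ^ 2) * (B ^ 2 * δ * Kc) := fun x => by
      refine (Finset.abs_sum_le_sum_abs _ _).trans ?_
      have h1 : ∀ y : (s.T (h + 1)).V, |if SepS (s.lev (h + 1) (j + 1)) R x y ∧ ¬ SepS (s.lev (h + 1) (j + 1 + 1)) R x y then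
        (cos1 _ (dwn s h x) - cos1 _ (dwn s h y)) ^ 2 * Real.exp (-k0 * Dk (Gk s h j) (dwn s h x) (dwn s h y)) * κ
        - (cos1 _ x - cos1 _ y) ^ 2 * Real.exp (-k0 * Dk (Gk s (h + 1) (j + 1)) x y) * κ' else 0|
          ≤ if ¬ SepS (s.lev (h + 1) (j + 2)) R x y then B ^ 2 * δ * Kc else 0 := fun y => by
        by_cases hP : SepS (s.lev (h + 1) (j + 1)) R x y ∧ ¬ SepS (s.lev (h + 1) (j + 1 + 1)) R x y
        · rw [if_pos hP, if_pos hP.2]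
          exact hterm x y hP.2
        · rw [if_neg hP, abs_zero]
          by_cases hq : ¬ SepS (s.lev (h + 1) (j + 2)) R x y
          · rw [if_pos hq]
            exact hKc0
          · rw [if_neg hq]
      refine (Finset.sum_le_sum fun y _ => h1 y).trans ?_
      rw [← Finset.sum_filter, Finset.sum_const, nsmul_eq_mul]
      exact mul_le_mul_of_nonneg_right (k53_card_nsep s R (h + 1) (j + 2) (by omega) x) hKc0
    refine (Finset.sum_le_sum fun x _ => hx x).trans (le_of_eq ?_)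
    rw [Finset.sum_const, nsmul_eq_mul, Finset.card_univ, Fintype.card_prod, Fintype.card_fin, hn']
    push_cast
    ring
  refine (mul_le_mul_of_nonneg_left hcount (by positivity)).trans (le_of_eq ?_)
  rw [hB]
  field_simp
  ring

/-- gradient of the terminal covariances, uniformly in ALL parameters -/
theorem term_grad_unif : ∃ K : ℝ, 0 ≤ K ∧ ∀ (s : Sc) (j h : ℕ), j ≤ h → ∀ (e : Fin 4) (v x : (s.T h).V),
    |Gk s h j (Geom.π _ (Geom.ι _ v + dir e)) x - Gk s h j v x| ≤ K / (s.L : ℝ) ^ j := by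
  obtain ⟨K, hK, hgrad⟩ := Ker.ker_sc_grad 1 1 64 0
  refine ⟨K, hK, ?_⟩
  intro s j h hjh e v x
  have hu : 1 ≤ s.L ^ j := Sc_pow_pos s j
  have huN : s.L ^ j ≤ Ker.per (s.T h) := by
    show s.L ^ j ≤ s.D0 * s.L ^ h
    calc s.L ^ j ≤ s.L ^ h := Nat.pow_le_pow_right s.L_pos hjh
      _ ≤ s.D0 * s.L ^ h := Nat.le_mul_of_pos_left _ s.hD
  have h1 := hgrad (s.T h) Fam.entry Ker.ker_entry_adm (le_refl _) (s.L ^ j) hu huN _ (termCov_spec (s.T h) _ hu) e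
    ((s.T h).ι v) ((s.T h).ι x)
  rw [Ker.ker_pi_iota, Ker.ker_pi_iota] at h1
  push_cast at h1
  exact h1

/-- gradient of a terminal covariance in one variable: `|∇_e Γ (v, x)| ≤ C / u`.  (Shells: `ShellBounds.mixed` with `r = 1, r' = 0`, geometric sum; the last terminal piece by `∑_x Γ (v,x) = 0`, Cauchy-Schwarz and
`TermBounds.diag`; or directly `N⁻² ∑_k P_u (λ_k) λ_k^{-1/2} ≤ C/u`.) -/
theorem term_grad (ℓ : ℕ) (hℓ : 1 ≤ ℓ) : ∃ D1 : ℕ, ∀ (D0 : ℕ) (hD : 0 < D0), D1 ≤ D0 → ∃ C : ℝ, ∀ j h : ℕ, j ≤ h → ∀ (e : Fin 4) (v x : ((⟨ℓ, D0, hD⟩ : Sc).T h).V),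
    |Gk ⟨ℓ, D0, hD⟩ h j (Geom.π _ (Geom.ι _ v + dir e)) x - Gk ⟨ℓ, D0, hD⟩ h j v x| ≤ C / ((2 : ℝ) ^ ℓ) ^ j := by
  obtain ⟨K, -, hK⟩ := term_grad_unif
  refine ⟨0, fun D0 hD _ => ⟨K, ?_⟩⟩
  intro j h hjh e v x
  have h1 := hK ⟨ℓ, D0, hD⟩ j h hjh e v x
  have e1 : (((⟨ℓ, D0, hD⟩ : Sc).L : ℕ) : ℝ) = (2 : ℝ) ^ ℓ := by simp [Sc.L]
  rw [e1] at h1
  exact h1

/-- on a torus the diagonal of an operator with a multiplier is constant -/
theorem tzn_diag_inv {G : Geom} (hG : G.bc = BC.per) {Γ : Matrix G.V G.V ℝ} {m : ℝ → ℝ} (h : Ker.HasMul G Γ m) (v w : G.V) :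
    Γ v v = Γ w w := by
  rw [Ker.ker_diag_formula h v, Ker.ker_diag_formula h w]
  have h1 : ∀ (a : Fin G.M) (j : Fin (Ker.per G)), Ker.wt1 G a j = 1 := by
    intro a j
    obtain ⟨bc, M, hM⟩ := G
    cases hG
    simp [Ker.wt1]
  simp only [h1]

/-- `Γ A Γ` has a multiplier -/
theorem tzn_gag_mul {G : Geom} {u : ℕ} {Γ : Matrix G.V G.V ℝ} (hT : IsTerminal G Fam.entry u Γ) :
    Ker.HasMul G (Γ * lap G * Γ) (fun t => (Fam.entry.termP u).eval t * Ker.tm Fam.entry u t) := by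
  have hΓ := Ker.ker_terminal_mul Ker.ker_entry_adm u hT
  have h1 := Ker.ker_mul_lap hΓ
  have h2 := Ker.ker_mul_sub (Ker.ker_cov_mul G (Fam.entry.termP u)) (Ker.ker_cmat_mul G ((Fam.entry.termP u).eval 0))
  have h3 : lap G * Γ = cov G (Fam.entry.termP u) - Ker.cmat G ((Fam.entry.termP u).eval 0) :=
    Ker.ker_mul_ext h1 h2 (fun k => by
      unfold Ker.tm
      by_cases hk : Ker.lam (Ker.per G) k = 0
      · simp [hk]
      · simp only [if_neg hk]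
        field_simp
        ring)
  have h4 : Γ * Ker.cmat G ((Fam.entry.termP u).eval 0) = 0 := by
    ext v w
    have h := congrFun hT.const v
    have h' : ∑ z, Γ v z = 0 := by simpa [Matrix.mulVec, dotProduct] using h
    simp only [Matrix.mul_apply, Ker.cmat, Matrix.zero_apply]
    rw [← Finset.sum_mul, h', zero_mul]
  have hs := Ker.ker_mul_symm hΓ
  have hc := Ker.ker_mul_symm (Ker.ker_cov_mul G (Fam.entry.termP u))
  have h5 := Ker.ker_mul_cov hΓ (Fam.entry.termP u)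
  have h6 : Γ * cov G (Fam.entry.termP u) = cov G (Fam.entry.termP u) * Γ := by
    have h := Ker.ker_mul_symm h5
    rw [Matrix.transpose_mul, hs, hc] at h
    exact h
  rw [Matrix.mul_assoc, h3, Matrix.mul_sub, h4, sub_zero, h6]
  exact h5

/-- the block energies add up to the Dirichlet form -/
theorem tzn_sum_eB {G : Geom} (g : Grid G) (f : G.V → ℝ) : ∑ B : g.I, eB g B f = f ⬝ᵥ (lap G).mulVec f := by
  rw [Obs.ov_lap_form]
  unfold eB gE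
  rw [← Finset.mul_sum]
  congr 1
  rw [← Reg.reg_sites_sum g Finset.univ]
  have h : g.sites Finset.univ = Finset.univ := by
    ext v
    simp [Grid.sites]
  rw [h]
  refine Finset.sum_congr rfl fun v _ => Finset.sum_congr rfl fun e _ => ?_
  unfold dif Geom.lift Reg.regNb
  rw [Ker.ker_pi_iota]

/-- the variance of a difference -/
theorem tzn_psd {ι : Type} [Fintype ι] [DecidableEq ι] {Γ : Matrix ι ι ℝ} (hs : Γ.transpose = Γ) (hpsd : Γ.PosSemidef) (a b : ι) :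
    0 ≤ Γ a a + Γ b b - 2 * Γ a b := by
  have h := Reg.reg_qf_nonneg hpsd (Pi.single a 1 - Pi.single b 1)
  have e : Γ b a = Γ a b := by
    have := congrFun (congrFun hs a) b
    simpa [Matrix.transpose_apply] using this
  unfold Reg.regQf at h
  simp only [Matrix.mulVec_sub, sub_dotProduct, dotProduct_sub, Matrix.mulVec_single, single_dotProduct, one_mul,
    MulOpposite.op_one, one_smul, Matrix.col_apply] at h
  rw [e] at h
  linarith

/-- `f ⬝ A f = (Γ A Γ)(x,x)` for `f = Γ (·, x)` -/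
theorem tzn_form {G : Geom} (Γ : Matrix G.V G.V ℝ) (hs : Γ.transpose = Γ) (x : G.V) :
    (fun v => Γ v x) ⬝ᵥ (lap G).mulVec (fun v => Γ v x) = (Γ * lap G * Γ) x x := by
  have e : ∀ v, Γ v x = Γ x v := fun v => by
    have := congrFun (congrFun hs x) v
    simpa [Matrix.transpose_apply] using this
  rw [Matrix.mul_assoc, Matrix.mul_apply]
  unfold dotProduct
  refine Finset.sum_congr rfl fun v _ => ?_
  show Γ v x * (lap G).mulVec (fun v => Γ v x) v = Γ x v * (lap G * Γ) v x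
  rw [e v, Matrix.mul_apply]
  rfl

/-- first differences in both variables on the diagonal -/
theorem tzn_kdif {G : Geom} (Γ : Matrix G.V G.V ℝ) (hs : Γ.transpose = Γ) (e : Fin 4) (v : G.V) :
    kdif G ![e] ![e] Γ (G.ι v) (G.ι v)
      = Γ (G.π (G.ι v + dir e)) (G.π (G.ι v + dir e)) + Γ v v - 2 * Γ (G.π (G.ι v + dir e)) v := by
  have e1 : Γ v (G.π (G.ι v + dir e)) = Γ (G.π (G.ι v + dir e)) v := by
    have := congrFun (congrFun hs (G.π (G.ι v + dir e))) v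
    simpa [Matrix.transpose_apply] using this
  simp only [kdif, difs, dif, List.ofFn_succ, List.ofFn_zero, List.foldr_cons, List.foldr_nil, Matrix.cons_val_zero,
    Ker.ker_pi_iota]
  rw [e1]
  ring

/-- **(D), abstract**: the non-separated blocks cost `O(1)` -/
theorem tzn_abs {G : Geom} (g : Grid G) (hg : g.Ok) (R : ℕ) (α : ℝ) (Γ : Matrix G.V G.V ℝ) (hs : Γ.transpose = Γ) (hpsd : Γ.PosSemidef)
    (Q C1 C2 : ℝ) (hQ : ∀ x, (Γ * lap G * Γ) x x = Q)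
    (h1 : ∀ (e : Fin 4) (v x : G.V), |Γ (G.π (G.ι v + dir e)) x - Γ v x| ≤ C1 / g.m)
    (h2 : ∀ (e : Fin 4) (v : G.V), Γ (G.π (G.ι v + dir e)) (G.π (G.ι v + dir e)) + Γ v v - 2 * Γ (G.π (G.ι v + dir e)) v ≤ C2 / (g.m : ℝ) ^ 2) :
    0 < P1G g α Γ ∧ |P2G g R α Γ / P1G g α Γ + α ^ 2 / 2 * Q| ≤ (2 * (R : ℝ) + 1) ^ 2 * (4 * C2 + 4 * α ^ 2 * C1 ^ 2) := by
  have hm : (0 : ℝ) < g.m := by exact_mod_cast hg.pos
  have hP1 : 0 < P1G g α Γ := by
    unfold P1G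
    exact mul_pos (by positivity) (Finset.sum_pos (fun x _ => by positivity) ⟨org G, Finset.mem_univ _⟩)
  refine ⟨hP1, ?_⟩
  have h0 := tzn_psd hs hpsd
  have hC2 : 0 ≤ C2 := by
    have h3 := (h0 _ _).trans (h2 0 (org G))
    by_contra hc
    push_neg at hc
    have : C2 / (g.m : ℝ) ^ 2 < 0 := div_neg_of_neg_of_pos hc (by positivity)
    linarith
  have hcard : ∀ B : g.I, ((g.sites {B}).card : ℝ) ≤ 4 * (g.m : ℝ) ^ 2 := fun B => by
    exact_mod_cast Reg.reg_block_card_le g hg B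
  -- mean energies
  have hM0 : ∀ B, 0 ≤ meanE g Γ B := fun B => by
    unfold meanE
    exact mul_nonneg (by norm_num) (Finset.sum_nonneg fun v _ => Finset.sum_nonneg fun e _ => h0 _ _)
  have hM1 : ∀ B, meanE g Γ B ≤ 8 * C2 := fun B => by
    unfold meanE
    have h3 : ∑ v ∈ g.sites {B}, ∑ e : Fin 4, (Γ (G.π (G.ι v + dir e)) (G.π (G.ι v + dir e)) + Γ v v - 2 * Γ (G.π (G.ι v + dir e)) v)
        ≤ ∑ v ∈ g.sites {B}, ∑ e : Fin 4, C2 / (g.m : ℝ) ^ 2 := Finset.sum_le_sum fun v _ => Finset.sum_le_sum fun e _ => h2 e v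
    simp only [Finset.sum_const, Finset.card_univ, Fintype.card_fin, nsmul_eq_mul] at h3
    have h4 : ((g.sites {B}).card : ℝ) * (((4 : ℕ) : ℝ) * (C2 / (g.m : ℝ) ^ 2)) ≤ 4 * (g.m : ℝ) ^ 2 * (((4 : ℕ) : ℝ) * (C2 / (g.m : ℝ) ^ 2)) :=
      mul_le_mul_of_nonneg_right (hcard B) (by positivity)
    have h5 : 4 * (g.m : ℝ) ^ 2 * (((4 : ℕ) : ℝ) * (C2 / (g.m : ℝ) ^ 2)) = 16 * C2 := by
      push_cast
      field_simp
      ring
    linarith
  -- block energies of the columns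
  have hE0 : ∀ B x, 0 ≤ eB g B (fun v => Γ v x) := fun B x => by
    unfold eB gE
    exact mul_nonneg (by norm_num) (Finset.sum_nonneg fun v _ => Finset.sum_nonneg fun e _ => sq_nonneg _)
  have hE1 : ∀ B x, eB g B (fun v => Γ v x) ≤ 8 * C1 ^ 2 := fun B x => by
    unfold eB gE
    have h3 : ∑ v ∈ g.sites {B}, ∑ e : Fin 4, dif (dir e) (G.lift fun v => Γ v x) (G.ι v) ^ 2
        ≤ ∑ v ∈ g.sites {B}, ∑ e : Fin 4, (C1 / (g.m : ℝ)) ^ 2 := Finset.sum_le_sum fun v _ => Finset.sum_le_sum fun e _ => by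
      have h4 := h1 e v x
      have h5 : dif (dir e) (G.lift fun v => Γ v x) (G.ι v) = Γ (G.π (G.ι v + dir e)) x - Γ v x := by
        unfold dif Geom.lift
        rw [Ker.ker_pi_iota]
      rw [h5, ← sq_abs]
      exact pow_le_pow_left₀ (abs_nonneg _) h4 2
    simp only [Finset.sum_const, Finset.card_univ, Fintype.card_fin, nsmul_eq_mul] at h3
    have h4 : ((g.sites {B}).card : ℝ) * (((4 : ℕ) : ℝ) * (C1 / (g.m : ℝ)) ^ 2) ≤ 4 * (g.m : ℝ) ^ 2 * (((4 : ℕ) : ℝ) * (C1 / (g.m : ℝ)) ^ 2) :=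
      mul_le_mul_of_nonneg_right (hcard B) (by positivity)
    have h5 : 4 * (g.m : ℝ) ^ 2 * (((4 : ℕ) : ℝ) * (C1 / (g.m : ℝ)) ^ 2) = 16 * C1 ^ 2 := by
      push_cast
      field_simp
      ring
    linarith
  obtain ⟨K0, hK0⟩ : ∃ K0 : ℝ, K0 = 4 * C2 + 4 * α ^ 2 * C1 ^ 2 := ⟨_, rfl⟩
  have hK0' : 0 ≤ K0 := by rw [hK0]; positivity
  rw [← hK0]
  -- the error of one site
  obtain ⟨E, hE⟩ : ∃ E : G.V → ℝ, E = fun x => ∑ B : g.I, if R < g.idist B (g.blk x) then 0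
      else (-(1 / 2) * meanE g Γ B + α ^ 2 / 2 * eB g B (fun v => Γ v x)) := ⟨_, rfl⟩
  have hEb : ∀ x, |E x| ≤ (2 * (R : ℝ) + 1) ^ 2 * K0 := fun x => by
    rw [hE]
    refine (Finset.abs_sum_le_sum_abs _ _).trans ?_
    have h3 : ∀ B : g.I, |if R < g.idist B (g.blk x) then 0 else (-(1 / 2) * meanE g Γ B + α ^ 2 / 2 * eB g B (fun v => Γ v x))|
        ≤ if g.idist (g.blk x) B ≤ R then K0 else 0 := fun B => by
      rw [Reg.reg_idist_comm g (g.blk x) B]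
      by_cases hB : R < g.idist B (g.blk x)
      · rw [if_pos hB, if_neg (by omega)]
        simp
      · rw [if_neg hB, if_pos (by omega), abs_le, hK0]
        have a1 := hM0 B
        have a2 := hM1 B
        have a3 := hE0 B x
        have a4 := hE1 B x
        have a5 : 0 ≤ α ^ 2 / 2 := by positivity
        have a6 := mul_nonneg a5 a3
        have a7 := mul_le_mul_of_nonneg_left a4 a5
        have a8 : 0 ≤ α ^ 2 * C1 ^ 2 := by positivity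
        constructor <;> nlinarith
    refine (Finset.sum_le_sum fun B _ => h3 B).trans ?_
    rw [← Finset.sum_filter, Finset.sum_const, nsmul_eq_mul]
    refine mul_le_mul_of_nonneg_right ?_ hK0'
    have := Geo.geo_ball_card g (g.blk x) R
    exact_mod_cast this
  have hkey : ∀ x, (∑ B : g.I, if R < g.idist B (g.blk x) then (meanE g Γ B - α ^ 2 * eB g B (fun v => Γ v x)) / 2 else 0)
      = (1 / 2) * ∑ B : g.I, meanE g Γ B - α ^ 2 / 2 * Q + E x := fun x => by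
    rw [← hQ x, ← tzn_form Γ hs x, ← tzn_sum_eB g, hE, Finset.mul_sum, Finset.mul_sum, ← Finset.sum_sub_distrib, ← Finset.sum_add_distrib]
    refine Finset.sum_congr rfl fun B _ => ?_
    split_ifs <;> ring
  have hP2 : P2G g R α Γ = -(α ^ 2 / 2 * Q) * P1G g α Γ
      + ((g.m : ℝ) ^ 2)⁻¹ * ∑ x : G.V, Real.exp (-α ^ 2 * Γ x x / 2) / 2 * E x := by
    unfold P2G
    have h3 : (∑ x : G.V, Real.exp (-α ^ 2 * Γ x x / 2) / 2 *
        ∑ B : g.I, if R < g.idist B (g.blk x) then (meanE g Γ B - α ^ 2 * eB g B (fun v => Γ v x)) / 2 else 0)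
        = ((1 / 2) * ∑ B : g.I, meanE g Γ B - α ^ 2 / 2 * Q) * (∑ x : G.V, Real.exp (-α ^ 2 * Γ x x / 2) / 2)
          + ∑ x : G.V, Real.exp (-α ^ 2 * Γ x x / 2) / 2 * E x := by
      rw [Finset.mul_sum, ← Finset.sum_add_distrib]
      refine Finset.sum_congr rfl fun x _ => ?_
      rw [hkey x]
      ring
    rw [h3]
    unfold P1G
    ring
  have hnum : |((g.m : ℝ) ^ 2)⁻¹ * ∑ x : G.V, Real.exp (-α ^ 2 * Γ x x / 2) / 2 * E x|
      ≤ (2 * (R : ℝ) + 1) ^ 2 * K0 * P1G g α Γ := by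
    unfold P1G
    rw [abs_mul, abs_of_pos (by positivity : 0 < ((g.m : ℝ) ^ 2)⁻¹)]
    have h3 : |∑ x : G.V, Real.exp (-α ^ 2 * Γ x x / 2) / 2 * E x|
        ≤ (2 * (R : ℝ) + 1) ^ 2 * K0 * ∑ x : G.V, Real.exp (-α ^ 2 * Γ x x / 2) / 2 := by
      refine (Finset.abs_sum_le_sum_abs _ _).trans ?_
      rw [Finset.mul_sum]
      refine Finset.sum_le_sum fun x _ => ?_
      rw [abs_mul, abs_of_pos (by positivity : 0 < Real.exp (-α ^ 2 * Γ x x / 2) / 2), mul_comm]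
      exact mul_le_mul_of_nonneg_right (hEb x) (by positivity)
    calc ((g.m : ℝ) ^ 2)⁻¹ * |∑ x : G.V, Real.exp (-α ^ 2 * Γ x x / 2) / 2 * E x|
        ≤ ((g.m : ℝ) ^ 2)⁻¹ * ((2 * (R : ℝ) + 1) ^ 2 * K0 * ∑ x : G.V, Real.exp (-α ^ 2 * Γ x x / 2) / 2) :=
          mul_le_mul_of_nonneg_left h3 (by positivity)
      _ = _ := by ring
  have hfin : P2G g R α Γ / P1G g α Γ + α ^ 2 / 2 * Q
      = (((g.m : ℝ) ^ 2)⁻¹ * ∑ x : G.V, Real.exp (-α ^ 2 * Γ x x / 2) / 2 * E x) / P1G g α Γ := by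
    rw [hP2]
    field_simp
    ring
  rw [hfin, abs_div, abs_of_pos hP1, div_le_iff₀ hP1]
  exact hnum

/-- **(D)** the non-separated blocks cost `O(1)` -/
theorem tz_near (ℓ : ℕ) (hℓ : 1 ≤ ℓ) (R : ℕ) : ∃ D1 : ℕ, ∀ (D0 : ℕ) (hD : 0 < D0), D1 ≤ D0 → ∃ C : ℝ, ∀ j h : ℕ, j ≤ h →
    0 < P1G ((⟨ℓ, D0, hD⟩ : Sc).lev h j) al8 (Gk ⟨ℓ, D0, hD⟩ h j) ∧
    |P2G ((⟨ℓ, D0, hD⟩ : Sc).lev h j) R al8 (Gk ⟨ℓ, D0, hD⟩ h j) / P1G ((⟨ℓ, D0, hD⟩ : Sc).lev h j) al8 (Gk ⟨ℓ, D0, hD⟩ h j)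
      + k0 / 2 * (Gk ⟨ℓ, D0, hD⟩ h j * lap ((⟨ℓ, D0, hD⟩ : Sc).T h) * Gk ⟨ℓ, D0, hD⟩ h j) (org _) (org _)| ≤ C := by
  obtain ⟨D1, hgrad⟩ := term_grad ℓ hℓ
  obtain ⟨C2, hterm⟩ := B4.terminal_bounds 1 1 64 0
  refine ⟨max 2 D1, fun D0 hD hD1 => ?_⟩
  obtain ⟨C1, hC1⟩ := hgrad D0 hD (le_trans (le_max_right _ _) hD1)
  refine ⟨(2 * (R : ℝ) + 1) ^ 2 * (4 * C2 + 4 * k0 * C1 ^ 2), fun j h hj => ?_⟩
  have hD2 : 2 ≤ D0 := le_trans (le_max_left _ _) hD1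
  obtain ⟨s, hs⟩ : ∃ s : Sc, s = ⟨ℓ, D0, hD⟩ := ⟨_, rfl⟩
  have hC1' := hC1 j h hj
  rw [← hs] at hC1' ⊢
  have hL := s.L_pos
  have hT : IsTerminal (s.T h) Fam.entry (s.L ^ j) (Gk s h j) := termCov_spec _ _ (Nat.pow_pos hL)
  have hΓ := Ker.ker_terminal_mul Ker.ker_entry_adm _ hT
  have hsym := Ker.ker_mul_symm hΓ
  have hm : (s.lev h j).m = s.L ^ j := by
    show s.L ^ (min j h) = _
    rw [min_eq_left hj]
  have hLc : (s.L : ℝ) = (2 : ℝ) ^ ℓ := by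
    unfold Sc.L
    rw [hs]
    push_cast
    rfl
  have hmc : ((s.lev h j).m : ℝ) = ((2 : ℝ) ^ ℓ) ^ j := by
    rw [hm]
    push_cast
    rw [hLc]
  have hM : 2 * s.L ^ j ≤ (s.T h).M := by
    show 2 * s.L ^ j ≤ s.D0 * s.L ^ h
    have h1 : s.L ^ j ≤ s.L ^ h := Nat.pow_le_pow_right hL hj
    have h2 : 2 ≤ s.D0 := by rw [hs]; exact hD2
    exact Nat.mul_le_mul h2 h1
  have hTB := hterm (s.T h) Fam.entry B4.entry_adm (by norm_num [Fam.entry]) (s.L ^ j) (Nat.pow_pos hL) hM _ hT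
  have key := tzn_abs (s.lev h j) (s.lev_ok h j) R al8 (Gk s h j) hsym hT.psd _ C1 C2
    (fun x => tzn_diag_inv rfl (tzn_gag_mul hT) x (org _))
    (fun e v x => by rw [hmc]; exact hC1' e v x)
    (fun e v => by
      have h3 := hTB.diag 1 le_rfl (by norm_num) ![e] v
      rw [tzn_kdif _ hsym] at h3
      rw [hm, div_eq_mul_inv]
      exact h3)
  rw [al8_sq] at key
  exact key

/-! ## 6. Pure sequences -/

theorem hyers_ulam_mul (A : ℕ → ℝ) (C : ℝ) (h : ∀ m n, |A (m + n) - A m - A n| ≤ C) (n k : ℕ) :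
    |A ((k + 1) * n) - (k + 1 : ℝ) * A n| ≤ k * C := by
  induction k with
  | zero => simp
  | succ k ih =>
    have h1 := h ((k + 1) * n) n
    have e : (k + 1 + 1) * n = (k + 1) * n + n := by ring
    rw [e]
    have e2 : A ((k + 1) * n + n) - ((k + 1 : ℕ) + 1 : ℝ) * A n =
        (A ((k + 1) * n + n) - A ((k + 1) * n) - A n) + (A ((k + 1) * n) - (k + 1 : ℝ) * A n) := by
      push_cast
      ring
    rw [e2]
    refine (abs_add_le _ _).trans ?_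
    push_cast
    linarith

theorem hyers_ulam_pair (A : ℕ → ℝ) (C : ℝ) (h : ∀ m n, |A (m + n) - A m - A n| ≤ C) {m n : ℕ}
    (hm : 1 ≤ m) (hn : 1 ≤ n) : |A n / n - A m / m| ≤ C / n + C / m := by
  have hC : 0 ≤ C := (abs_nonneg _).trans (h 0 0)
  obtain ⟨m', rfl⟩ : ∃ m', m = m' + 1 := ⟨m - 1, by omega⟩
  obtain ⟨n', rfl⟩ : ∃ n', n = n' + 1 := ⟨n - 1, by omega⟩
  have h1 := hyers_ulam_mul A C h (n' + 1) m'
  have h2 := hyers_ulam_mul A C h (m' + 1) n'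
  rw [mul_comm (n' + 1) (m' + 1)] at h2
  have hm0 : (0 : ℝ) < (m' : ℝ) + 1 := by positivity
  have hn0 : (0 : ℝ) < (n' : ℝ) + 1 := by positivity
  have h3 : |((m' : ℝ) + 1) * A (n' + 1) - ((n' : ℝ) + 1) * A (m' + 1)| ≤ m' * C + n' * C := by
    have e : ((m' : ℝ) + 1) * A (n' + 1) - ((n' : ℝ) + 1) * A (m' + 1) =
        (A ((m' + 1) * (n' + 1)) - ((n' : ℝ) + 1) * A (m' + 1)) -
          (A ((m' + 1) * (n' + 1)) - ((m' : ℝ) + 1) * A (n' + 1)) := by ring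
    rw [e]
    refine (abs_sub _ _).trans ?_
    linarith
  have e4 : A (n' + 1) / ((n' + 1 : ℕ) : ℝ) - A (m' + 1) / ((m' + 1 : ℕ) : ℝ) =
      (((m' : ℝ) + 1) * A (n' + 1) - ((n' : ℝ) + 1) * A (m' + 1)) / (((n' : ℝ) + 1) * ((m' : ℝ) + 1)) := by
    push_cast
    field_simp
  rw [e4, abs_div, abs_of_pos (mul_pos hn0 hm0), div_le_iff₀ (mul_pos hn0 hm0)]
  refine h3.trans ?_
  have e5 : (C / ((n' + 1 : ℕ) : ℝ) + C / ((m' + 1 : ℕ) : ℝ)) * (((n' : ℝ) + 1) * ((m' : ℝ) + 1)) =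
      C * ((m' : ℝ) + 1) + C * ((n' : ℝ) + 1) := by
    push_cast
    field_simp
  rw [e5]
  nlinarith

/-- Hyers-Ulam on `ℕ` -/
theorem hyers_ulam (A : ℕ → ℝ) (C : ℝ) (h : ∀ m n, |A (m + n) - A m - A n| ≤ C) :
    ∀ n, |A n - Filter.liminf (fun k : ℕ => A k / k) atTop * n| ≤ C := by
  have hC : 0 ≤ C := (abs_nonneg _).trans (h 0 0)
  have hcau : CauchySeq fun k : ℕ => A k / k := by
    rw [Metric.cauchySeq_iff']
    intro ε hε
    obtain ⟨N, hN⟩ := exists_nat_gt (2 * C / ε)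
    refine ⟨N + 1, fun n hn => ?_⟩
    have hn1 : 1 ≤ n := by omega
    have h1 := hyers_ulam_pair A C h (m := N + 1) (n := n) (by omega) hn1
    rw [Real.dist_eq]
    refine lt_of_le_of_lt h1 ?_
    have hN0 : (0 : ℝ) < ((N + 1 : ℕ) : ℝ) := by positivity
    have hn0 : (0 : ℝ) < (n : ℝ) := by exact_mod_cast hn1
    have h2 : C / n ≤ C / ((N + 1 : ℕ) : ℝ) :=
      div_le_div_of_nonneg_left hC hN0 (by exact_mod_cast hn)
    have h3 : 2 * C / ((N + 1 : ℕ) : ℝ) < ε := by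
      rw [div_lt_iff₀ hN0]
      rw [div_lt_iff₀ hε] at hN
      push_cast
      nlinarith
    have e : C / ((N + 1 : ℕ) : ℝ) + C / ((N + 1 : ℕ) : ℝ) = 2 * C / ((N + 1 : ℕ) : ℝ) := by ring
    linarith
  obtain ⟨H, hH⟩ := cauchySeq_tendsto_of_complete hcau
  rw [hH.liminf_eq]
  intro n
  rcases Nat.eq_zero_or_pos n with rfl | hn
  · have := h 0 0
    simp only [add_zero, sub_self, zero_sub, abs_neg] at this
    simpa using this
  · have hn0 : (0 : ℝ) < (n : ℝ) := by exact_mod_cast hn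
    have h1 : Tendsto (fun m : ℕ => |A n / n - A m / m|) atTop (𝓝 |A n / n - H|) :=
      (tendsto_const_nhds.sub hH).abs
    have h2 : Tendsto (fun m : ℕ => C / n + C / (m : ℝ)) atTop (𝓝 (C / n + 0)) :=
      tendsto_const_nhds.add (tendsto_const_div_atTop_nhds_zero_nat C)
    have h3 : |A n / n - H| ≤ C / n + 0 := by
      refine le_of_tendsto_of_tendsto h1 h2 ?_
      filter_upwards [eventually_ge_atTop 1] with m hm
      exact hyers_ulam_pair A C h hm hn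
    rw [add_zero] at h3
    have e : A n - H * n = (A n / n - H) * n := by
      field_simp
    rw [e, abs_mul, abs_of_pos hn0]
    rwa [le_div_iff₀ hn0] at h3

/-- the limit profile `a_∞ (d) = lim_i Hl (i, i + d)` -/
def aInf (s : Sc) (R d : ℕ) : ℝ := limUnder atTop fun i : ℕ => Hl s R i (i + d)

/-- `Aq D = ∑_{1 ≤ d ≤ D} a_∞ (d)` -/
def Aq (s : Sc) (R D : ℕ) : ℝ := ∑ d ∈ Finset.range D, aInf s R (d + 1)

/-- **the constant `H`** -/
def Hq8 (s : Sc) (R : ℕ) : ℝ := Filter.liminf (fun k : ℕ => Aq s R k / k) atTop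

/-- a sequence with geometrically small increments beyond `n0` converges, with a rate -/
theorem l53_geo_lim {f : ℕ → ℝ} {C r : ℝ} {n0 : ℕ} (hr : r < 1) (h : ∀ i, n0 ≤ i → |f i - f (i + 1)| ≤ C * r ^ i) :
    ∃ a, Tendsto f atTop (𝓝 a) ∧ ∀ i, n0 ≤ i → |f i - a| ≤ C * r ^ i / (1 - r) := by
  have hu : ∀ n, dist (f (n + n0)) (f (n + 1 + n0)) ≤ (C * r ^ n0) * r ^ n := fun n => by
    have := h (n + n0) (by omega)
    rw [Real.dist_eq, show n + 1 + n0 = n + n0 + 1 by omega]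
    calc _ ≤ C * r ^ (n + n0) := this
      _ = _ := by rw [pow_add]; ring
  have hc := cauchySeq_of_le_geometric r (C * r ^ n0) hr (f := fun n => f (n + n0)) hu
  obtain ⟨a, ha⟩ := cauchySeq_tendsto_of_complete hc
  refine ⟨a, (tendsto_add_atTop_iff_nat n0).1 ha, fun i hi => ?_⟩
  have := dist_le_of_le_geometric_of_tendsto r (C * r ^ n0) hr (f := fun n => f (n + n0)) hu ha (i - n0)
  simp only [Nat.sub_add_cancel hi, Real.dist_eq] at this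
  calc _ ≤ _ := this
    _ = _ := by rw [mul_assoc, ← pow_add, Nat.add_sub_cancel' hi]

/-- (E1)-(E3) summed, abstract form -/
theorem l53_sum_abs (H T : ℕ → ℕ → ℝ) (c C1 C2 r : ℝ) (jm : ℕ) (hC2 : 0 ≤ C2) (hr0 : 0 ≤ r) (hr : r < 1)
    (hsucc : ∀ j h, j < h → T j h = H j h + T (j + 1) h)
    (hH : ∀ j h, jm ≤ j → j < h → c ≤ H j h ∧ H j h ≤ C1)
    (hT : ∀ j, jm ≤ j → 0 ≤ T j j ∧ T j j ≤ C1)
    (hs : ∀ j h, jm ≤ j → j < h → |H j h - H (j + 1) (h + 1)| ≤ C2 * r ^ j) :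
    (∀ d, 1 ≤ d → c ≤ limUnder atTop (fun i => H i (i + d)) ∧ limUnder atTop (fun i => H i (i + d)) ≤ C1) ∧
    ∀ j D, jm ≤ j → |T j (j + D) - ∑ d ∈ Finset.range D, limUnder atTop (fun i => H i (i + (d + 1)))| ≤ C1 + C2 / (1 - r) ^ 2 := by
  have h1r : 0 < 1 - r := by linarith
  have key : ∀ d, 1 ≤ d → Tendsto (fun i => H i (i + d)) atTop (𝓝 (limUnder atTop (fun i => H i (i + d)))) ∧
      ∀ i, jm ≤ i → |H i (i + d) - limUnder atTop (fun i => H i (i + d))| ≤ C2 * r ^ i / (1 - r) := by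
    intro d hd
    obtain ⟨a, ha, hb⟩ := l53_geo_lim (f := fun i => H i (i + d)) (C := C2) (r := r) (n0 := jm) hr (fun i hi => by
      have := hs i (i + d) hi (by omega)
      rwa [show i + d + 1 = i + 1 + d by omega] at this)
    rw [ha.limUnder_eq]
    exact ⟨ha, hb⟩
  refine ⟨fun d hd => ⟨?_, ?_⟩, ?_⟩
  · exact ge_of_tendsto (key d hd).1 (eventually_atTop.2 ⟨jm, fun i hi => (hH i (i + d) hi (by omega)).1⟩)
  · exact le_of_tendsto (key d hd).1 (eventually_atTop.2 ⟨jm, fun i hi => (hH i (i + d) hi (by omega)).2⟩)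
  · have main : ∀ D j, jm ≤ j →
        |T j (j + D) - ∑ d ∈ Finset.range D, limUnder atTop (fun i => H i (i + (d + 1)))| ≤ C1 + C2 * r ^ j / (1 - r) ^ 2 := by
      intro D
      induction D with
      | zero =>
        intro j hj
        have h1 := hT j hj
        have h2 : 0 ≤ C2 * r ^ j / (1 - r) ^ 2 := by positivity
        simp only [add_zero, Finset.range_zero, Finset.sum_empty, sub_zero]
        rw [abs_of_nonneg h1.1]
        linarith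
      | succ D ih =>
        intro j hj
        have h1 := ih (j + 1) (by omega)
        have h2 := (key (D + 1) (by omega)).2 j hj
        rw [Finset.sum_range_succ, hsucc j (j + (D + 1)) (by omega), show j + (D + 1) = j + 1 + D by omega]
        rw [show j + 1 + D = j + (D + 1) by omega] at h1 ⊢
        have e : C2 * r ^ j / (1 - r) + C2 * r ^ (j + 1) / (1 - r) ^ 2 = C2 * r ^ j / (1 - r) ^ 2 := by
          field_simp
          ring
        calc _ = |(H j (j + (D + 1)) - limUnder atTop (fun i => H i (i + (D + 1)))) +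
              (T (j + 1) (j + (D + 1)) - ∑ d ∈ Finset.range D, limUnder atTop (fun i => H i (i + (d + 1))))| := by
              congr 1; ring
          _ ≤ _ := abs_add_le _ _
          _ ≤ C2 * r ^ j / (1 - r) + (C1 + C2 * r ^ (j + 1) / (1 - r) ^ 2) := add_le_add h2 h1
          _ = _ := by rw [← e]; ring
    intro j D hj
    refine (main D j hj).trans ?_
    have : C2 * r ^ j ≤ C2 * 1 := mul_le_mul_of_nonneg_left (pow_le_one₀ hr0 hr.le) hC2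
    have h3 : C2 * r ^ j / (1 - r) ^ 2 ≤ C2 / (1 - r) ^ 2 := by
      apply div_le_div_of_nonneg_right _ (by positivity)
      linarith
    linarith

/-- `C / √(b^j) = C (1/√b)^j` -/
theorem l53_div_sqrt_pow (C b : ℝ) (hb : 0 ≤ b) (j : ℕ) : C / Real.sqrt (b ^ j) = C * ((Real.sqrt b)⁻¹) ^ j := by
  have : Real.sqrt (b ^ j) = Real.sqrt b ^ j := by
    induction j with
    | zero => simp
    | succ j ih => rw [pow_succ, Real.sqrt_mul (pow_nonneg hb j), ih, pow_succ]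
  rw [this, inv_pow, div_eq_mul_inv]

/-- (E1)-(E3) summed: `T (j, j + D) = Aq D + O(1)`, and `c D ≤ Aq D ≤ C D` -/
theorem Tn_Aq (ℓ : ℕ) (hℓ : 1 ≤ ℓ) (R : ℕ) (hR : pp < R) : ∃ D1 : ℕ, ∀ (D0 : ℕ) (hD : 0 < D0), D1 ≤ D0 → ∃ (c C : ℝ) (jmin : ℕ), 0 < c ∧
    (∀ j D : ℕ, jmin ≤ j → |Tn ⟨ℓ, D0, hD⟩ R j (j + D) - Aq ⟨ℓ, D0, hD⟩ R D| ≤ C) ∧ ∀ D : ℕ, c * D ≤ Aq ⟨ℓ, D0, hD⟩ R D ∧ Aq ⟨ℓ, D0, hD⟩ R D ≤ C * D := by
  obtain ⟨Da, ha⟩ := Tn_succ ℓ hℓ
  obtain ⟨Db, hb⟩ := Hl_bounds ℓ hℓ R (by unfold pp at hR; omega)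
  obtain ⟨Dc, hc⟩ := Hl_scale ℓ hℓ R
  refine ⟨max Da (max Db Dc), fun D0 hD hD1 => ?_⟩
  obtain ⟨c, C1, j1, hc0, hb⟩ := hb D0 hD (by omega)
  obtain ⟨C2, j2, hc⟩ := hc D0 hD (by omega)
  have h2 : (1 : ℝ) < Real.sqrt ((2 : ℝ) ^ ℓ) := by
    rw [Real.lt_sqrt (by norm_num)]
    calc (1 : ℝ) ^ 2 < 2 ^ 1 := by norm_num
      _ ≤ 2 ^ ℓ := pow_le_pow_right₀ (by norm_num) hℓ
  have hr0 : 0 ≤ (Real.sqrt ((2 : ℝ) ^ ℓ))⁻¹ := by positivity
  have hr1 : (Real.sqrt ((2 : ℝ) ^ ℓ))⁻¹ < 1 := inv_lt_one_of_one_lt₀ h2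
  obtain ⟨hA, hB⟩ := l53_sum_abs (fun j h => Hl ⟨ℓ, D0, hD⟩ R j h) (fun j h => Tn ⟨ℓ, D0, hD⟩ R j h) c C1 |C2|
    (Real.sqrt ((2 : ℝ) ^ ℓ))⁻¹ (max j1 j2) (abs_nonneg _) hr0 hr1
    (fun j h hj => ha ⟨ℓ, D0, hD⟩ rfl (by show Da ≤ D0; omega) R hR j h hj)
    (fun j h hj hjh => (hb j h (by omega)).1 hjh)
    (fun j hj => (hb j j (by omega)).2)
    (fun j h hj hjh => by
      refine (hc j h (by omega) hjh).trans ?_
      rw [l53_div_sqrt_pow _ _ (by positivity)]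
      exact mul_le_mul_of_nonneg_right (le_abs_self _) (by positivity))
  have hC1 : 0 ≤ C1 := (hb (max j1 j2) (max j1 j2) (by omega)).2.1.trans (hb (max j1 j2) (max j1 j2) (by omega)).2.2
  have hX : 0 ≤ |C2| / (1 - (Real.sqrt ((2 : ℝ) ^ ℓ))⁻¹) ^ 2 := by positivity
  refine ⟨c, C1 + |C2| / (1 - (Real.sqrt ((2 : ℝ) ^ ℓ))⁻¹) ^ 2, max j1 j2, hc0, fun j D hj => hB j D hj, fun D => ⟨?_, ?_⟩⟩
  · have : ∑ _d ∈ Finset.range D, c ≤ Aq ⟨ℓ, D0, hD⟩ R D := Finset.sum_le_sum fun d _ => (hA (d + 1) (by omega)).1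
    simpa [mul_comm] using this
  · have : Aq ⟨ℓ, D0, hD⟩ R D ≤ ∑ _d ∈ Finset.range D, C1 := Finset.sum_le_sum fun d _ => (hA (d + 1) (by omega)).2
    have h3 : Aq ⟨ℓ, D0, hD⟩ R D ≤ C1 * D := by simpa [mul_comm] using this
    have h4 : (0 : ℝ) ≤ D := Nat.cast_nonneg D
    nlinarith

theorem Hq8_pos (ℓ : ℕ) (hℓ : 1 ≤ ℓ) (R : ℕ) (hR : pp < R) : ∃ D1 : ℕ, ∀ (D0 : ℕ) (hD : 0 < D0), D1 ≤ D0 → 0 < Hq8 ⟨ℓ, D0, hD⟩ R := by
  obtain ⟨D1, h⟩ := Tn_Aq ℓ hℓ R hR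
  refine ⟨D1, fun D0 hD hD1 => ?_⟩
  obtain ⟨c, C, -, hc, -, h⟩ := h D0 hD hD1
  refine lt_of_lt_of_le hc ?_
  have hup : ∀ᶠ k : ℕ in atTop, Aq ⟨ℓ, D0, hD⟩ R k / k ≤ C := eventually_atTop.2 ⟨1, fun k hk => by
    have hk' : (0 : ℝ) < k := by exact_mod_cast hk
    rw [div_le_iff₀ hk']
    exact (h k).2⟩
  have hlo : ∀ᶠ k : ℕ in atTop, c ≤ Aq ⟨ℓ, D0, hD⟩ R k / k := eventually_atTop.2 ⟨1, fun k hk => by
    have hk' : (0 : ℝ) < k := by exact_mod_cast hk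
    rw [le_div_iff₀ hk']
    exact (h k).1⟩
  exact le_liminf_of_le (isBoundedUnder_of_eventually_le hup).isCoboundedUnder_ge hlo

/-- (E4): an exactly additive `S` within `O(1)` of `T` forces `S (j, j + D) = H D + O(1)`.  `S ≈ T` is only known for RETAINED stops `j + D ≥ hm`:
quasi-additivity of `Aq` from the starts `j ≥ max j0 hm`; then `j + D ≥ hm`: `S = T + O(1) = Aq D + O(1)`; `j + D < hm`: `S (j, j + D) = S (j, hm) - S (j + D, hm)`. -/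
theorem Tn_linear (ℓ : ℕ) (hℓ : 1 ≤ ℓ) (R : ℕ) (hR : pp < R) : ∃ D1 : ℕ, ∀ (D0 : ℕ) (hD : 0 < D0), D1 ≤ D0 → ∃ (jmin : ℕ) (C : ℝ → ℝ),
    ∀ (j0 hm : ℕ) (H : ℕ → ℝ) (C' : ℝ), jmin ≤ j0 → (∀ j D : ℕ, j0 ≤ j → hm ≤ j + D → |∑ i ∈ Finset.range D, H (j + i) - Tn ⟨ℓ, D0, hD⟩ R j (j + D)| ≤ C') →
      ∀ j D : ℕ, j0 ≤ j → |∑ i ∈ Finset.range D, H (j + i) - Hq8 ⟨ℓ, D0, hD⟩ R * D| ≤ C C' := by
  obtain ⟨D1, h⟩ := Tn_Aq ℓ hℓ R hR
  refine ⟨D1, fun D0 hD hD1 => ?_⟩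
  obtain ⟨c, C0, jmin, -, hT, -⟩ := h D0 hD hD1
  refine ⟨jmin, fun C' => 8 * (C' + C0), fun j0 hm H C' hj0 hH => ?_⟩
  have hS : ∀ j D : ℕ, j0 ≤ j → hm ≤ j + D → |∑ i ∈ Finset.range D, H (j + i) - Aq ⟨ℓ, D0, hD⟩ R D| ≤ C' + C0 := fun j D hj hjD => by
    have h1 := hH j D hj hjD
    have h2 := hT j D (by omega)
    calc _ = |(∑ i ∈ Finset.range D, H (j + i) - Tn ⟨ℓ, D0, hD⟩ R j (j + D)) + (Tn ⟨ℓ, D0, hD⟩ R j (j + D) - Aq ⟨ℓ, D0, hD⟩ R D)| := by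
          congr 1; ring
      _ ≤ _ := abs_add_le _ _
      _ ≤ _ := add_le_add h1 h2
  have hadd : ∀ j m n : ℕ, ∑ i ∈ Finset.range (m + n), H (j + i) = ∑ i ∈ Finset.range m, H (j + i) + ∑ i ∈ Finset.range n, H (j + m + i) := fun j m n => by
    rw [Finset.sum_range_add]
    simp only [add_assoc]
  have hq : ∀ m n : ℕ, |Aq ⟨ℓ, D0, hD⟩ R (m + n) - Aq ⟨ℓ, D0, hD⟩ R m - Aq ⟨ℓ, D0, hD⟩ R n| ≤ 3 * (C' + C0) := fun m n => by
    have h1 := abs_le.1 (hS (max j0 hm) (m + n) (le_max_left _ _) (by omega))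
    have h2 := abs_le.1 (hS (max j0 hm) m (le_max_left _ _) (by omega))
    have h3 := abs_le.1 (hS (max j0 hm + m) n (by omega) (by omega))
    rw [hadd] at h1
    rw [abs_le]
    constructor <;> linarith [h1.1, h1.2, h2.1, h2.2, h3.1, h3.2]
  have hu := hyers_ulam (fun k => Aq ⟨ℓ, D0, hD⟩ R k) (3 * (C' + C0)) hq
  have hbig : ∀ j D : ℕ, j0 ≤ j → hm ≤ j + D → |∑ i ∈ Finset.range D, H (j + i) - Hq8 ⟨ℓ, D0, hD⟩ R * D| ≤ 4 * (C' + C0) := fun j D hj hjD => by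
    have h1 := abs_le.1 (hS j D hj hjD)
    have h2 := abs_le.1 (hu D)
    rw [abs_le]
    unfold Hq8
    constructor <;> linarith [h1.1, h1.2, h2.1, h2.2]
  intro j D hj
  show _ ≤ 8 * (C' + C0)
  have hE : 0 ≤ C' + C0 := (abs_nonneg _).trans (hS (max j0 hm) 0 (le_max_left _ _) (by omega))
  by_cases hjD : hm ≤ j + D
  · exact (hbig j D hj hjD).trans (by linarith)
  · have h1 := abs_le.1 (hbig j (D + (hm - j - D)) hj (by omega))
    have h2 := abs_le.1 (hbig (j + D) (hm - j - D) (by omega) (by omega))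
    rw [hadd] at h1
    push_cast at h1
    rw [abs_le]
    constructor <;> linarith [h1.1, h1.2, h2.1, h2.2]

end

end Claimed.Agent.R285.B8
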