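import Claimed.Agent.R285.Read.B8b
import Claimed.Agent.R285.Reg.Gauss
import Claimed.Agent.R285.Alg.Comps

/-!
# ROW 285, L53 (C): the SHARED KIT of the gas calculus (`gas_zz`, `gas_tz` of `Map/Coef.lean`)          (owner helper155)

* (K1) `GTame Γ ω Z`: `Z (Fb + θ + ζ)` lies in every `L^p`, `p < ∞`, of (phase on `(0, ω]`) x (Gaussian), for every complex background `Fb`.  Closed under sums, products, scalars;
       contains linear forms, characters, `eBC`, `cBC`.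
* (K2) `Eter` is linear on tame functionals.
* (K3) the CHARGE LEMMA `c53g_Eter_charge` (no integrability needed).
* (K4) `c53g_ratio`: second order expansion of a quotient of two polynomials.
* (K5) the gas polynomial `gasPoly` and its coefficients of order `0, 1, 2`.
-/

set_option autoImplicit false

namespace Claimed.Agent.R285.B8

open scoped BigOperators ENNReal NNReal
open MeasureTheory ProbabilityTheory Polynomial Filter Topology
open Claimed.Agent.R285.RG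

noncomputable section

variable {G : Geom}

/-! ## (K1) tame functionals -/

/-- (phase on `(0, ω]`) x (Gaussian field) -/
def gasMu (Γ : Matrix G.V G.V ℝ) (ω : ℝ) : Measure (ℝ × (G.V → ℝ)) :=
  (volume.restrict (Set.Ioc 0 ω)).prod (gauss G Γ)

/-- a functional at background + phase + field -/
def gasEv (Z : Fn G) (Fb : G.V → ℂ) (x : ℝ × (G.V → ℝ)) : ℂ := Z fun v => Fb v + (x.1 : ℂ) + (x.2 v : ℂ)

/-- tame functionals -/
def GTame (Γ : Matrix G.V G.V ℝ) (ω : ℝ) (Z : Fn G) : Prop :=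
  ∀ (Fb : G.V → ℂ) (p : ℝ≥0), MemLp (gasEv Z Fb) p (gasMu Γ ω)

theorem c53g_eqns_cite : True := by
  have := @gasMu.eq_1; have := @gasEv.eq_1; have := @GTame.eq_1; trivial

theorem c53g_lp_mul {Ω : Type} [MeasurableSpace Ω] {μ : Measure Ω} {f g : Ω → ℂ}
    (hf : ∀ p : ℝ≥0, MemLp f p μ) (hg : ∀ p : ℝ≥0, MemLp g p μ) (p : ℝ≥0) : MemLp (fun x => f x * g x) p μ := by
  have hT : ENNReal.HolderTriple ((2 * p : ℝ≥0) : ℝ≥0∞) ((2 * p : ℝ≥0) : ℝ≥0∞) (p : ℝ≥0∞) := by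
    constructor
    rw [ENNReal.coe_mul, ENNReal.mul_inv (Or.inl (by simp)) (Or.inl (by simp)), ← add_mul]
    rw [show ((2 : ℝ≥0) : ℝ≥0∞) = 2 from rfl, ENNReal.inv_two_add_inv_two, one_mul]
  exact MemLp.mul' (hg (2 * p)) (hf (2 * p))

instance c53g_gauss_prob (Γ : Matrix G.V G.V ℝ) : IsProbabilityMeasure (gauss G Γ) := Reg.reg_gauss_prob Γ

instance c53g_mu_finite (Γ : Matrix G.V G.V ℝ) (ω : ℝ) : IsFiniteMeasure (gasMu Γ ω) := by
  unfold gasMu
  infer_instance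

section tame

variable {Γ : Matrix G.V G.V ℝ} {ω : ℝ}

theorem c53g_tame_const (c : ℂ) : GTame Γ ω (fun _ : G.V → ℂ => c) := fun _ _ => memLp_const c

theorem c53g_tame_add {Z Z' : Fn G} (h : GTame Γ ω Z) (h' : GTame Γ ω Z') : GTame Γ ω (fun z => Z z + Z' z) :=
  fun Fb p => (h Fb p).add (h' Fb p)

theorem c53g_tame_mul {Z Z' : Fn G} (h : GTame Γ ω Z) (h' : GTame Γ ω Z') : GTame Γ ω (fun z => Z z * Z' z) :=
  fun Fb p => c53g_lp_mul (h Fb) (h' Fb) p

theorem c53g_tame_smul (c : ℂ) {Z : Fn G} (h : GTame Γ ω Z) : GTame Γ ω (fun z => c * Z z) :=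
  c53g_tame_mul (c53g_tame_const c) h

theorem c53g_tame_sub {Z Z' : Fn G} (h : GTame Γ ω Z) (h' : GTame Γ ω Z') : GTame Γ ω (fun z => Z z - Z' z) :=
  fun Fb p => (h Fb p).sub (h' Fb p)

theorem c53g_tame_sum {ι : Type} (s : Finset ι) (Z : ι → Fn G) (h : ∀ i ∈ s, GTame Γ ω (Z i)) :
    GTame Γ ω (fun z => ∑ i ∈ s, Z i z) := by
  classical
  induction s using Finset.induction_on with
  | empty => simpa using c53g_tame_const (Γ := Γ) (ω := ω) 0
  | insert a s ha ih =>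
    simp only [Finset.sum_insert ha]
    exact c53g_tame_add (h a (Finset.mem_insert_self a s)) (ih fun i hi => h i (Finset.mem_insert_of_mem hi))

theorem c53g_tame_prod {ι : Type} (s : Finset ι) (Z : ι → Fn G) (h : ∀ i ∈ s, GTame Γ ω (Z i)) :
    GTame Γ ω (fun z => ∏ i ∈ s, Z i z) := by
  classical
  induction s using Finset.induction_on with
  | empty => simpa using c53g_tame_const (Γ := Γ) (ω := ω) 1
  | insert a s ha ih =>
    simp only [Finset.prod_insert ha]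
    exact c53g_tame_mul (h a (Finset.mem_insert_self a s)) (ih fun i hi => h i (Finset.mem_insert_of_mem hi))

theorem c53g_tame_pow {Z : Fn G} (h : GTame Γ ω Z) (k : ℕ) : GTame Γ ω (fun z => Z z ^ k) := by
  induction k with
  | zero => simpa using c53g_tame_const (Γ := Γ) (ω := ω) 1
  | succ k ih =>
    simp only [pow_succ]
    exact c53g_tame_mul ih h

/-- a coordinate of the Gaussian field has all moments -/
theorem c53g_coord_memLp (hΓ : Γ.PosSemidef) (v : G.V) (p : ℝ≥0) : MemLp (fun ζ : G.V → ℝ => ζ v) p (gauss G Γ) := by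
  have h1 := Reg.regg_lin_law hΓ (Pi.single v 1)
  have hm : Measurable (fun ζ : G.V → ℝ => (Pi.single v 1 : G.V → ℝ) ⬝ᵥ ζ) := by
    have hc : Continuous (fun ζ : G.V → ℝ => (Pi.single v 1 : G.V → ℝ) ⬝ᵥ ζ) := by fun_prop
    exact hc.measurable
  have h2 : MemLp id p ((Reg.regGauss Γ).map (fun ζ : G.V → ℝ => (Pi.single v 1 : G.V → ℝ) ⬝ᵥ ζ)) := by
    rw [h1]
    exact memLp_id_gaussianReal p
  have h3 := h2.comp_of_map hm.aemeasurable
  have e : (id ∘ fun ζ : G.V → ℝ => (Pi.single v 1 : G.V → ℝ) ⬝ᵥ ζ) = fun ζ : G.V → ℝ => ζ v := by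
    funext ζ
    simp
  rw [e] at h3
  exact h3

/-- coordinates -/
theorem c53g_tame_coord (hΓ : Γ.PosSemidef) (v : G.V) : GTame Γ ω (fun z => z v) := by
  intro Fb p
  have h1 : MemLp (fun x : ℝ × (G.V → ℝ) => (x.2 v : ℂ)) p (gasMu Γ ω) :=
    ((c53g_coord_memLp hΓ v p).ofReal).comp_snd _
  have h2 : MemLp (fun θ : ℝ => (θ : ℂ)) p (volume.restrict (Set.Ioc 0 ω)) := by
    refine MemLp.of_bound (by fun_prop) |ω| ?_
    filter_upwards [ae_restrict_mem measurableSet_Ioc] with θ hθ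
    rw [Complex.norm_real, Real.norm_eq_abs, abs_of_pos hθ.1]
    exact hθ.2.trans (le_abs_self ω)
  have h3 : MemLp (fun x : ℝ × (G.V → ℝ) => (x.1 : ℂ)) p (gasMu Γ ω) := h2.comp_fst _
  exact ((memLp_const (Fb v)).add h3).add h1

/-- linear forms -/
theorem c53g_tame_lin (hΓ : Γ.PosSemidef) (a : G.V → ℂ) : GTame Γ ω (fun z => ∑ v, a v * z v) :=
  c53g_tame_sum _ _ fun v _ => c53g_tame_smul (a v) (c53g_tame_coord hΓ v)

/-- characters (any real frequency vector) -/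
theorem c53g_tame_char (c : ℝ) (n : G.V → ℝ) : GTame Γ ω (fun z => Complex.exp (Complex.I * (c : ℂ) * ∑ v, (n v : ℂ) * z v)) := by
  intro Fb p
  refine MemLp.of_bound ?_ ‖Complex.exp (Complex.I * (c : ℂ) * ∑ v, (n v : ℂ) * Fb v)‖ (Filter.Eventually.of_forall fun x => ?_)
  · have hc : Continuous (gasEv (fun z => Complex.exp (Complex.I * (c : ℂ) * ∑ v, (n v : ℂ) * z v)) Fb) := by
      unfold gasEv
      fun_prop
    exact hc.aestronglyMeasurable
  · unfold gasEv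
    have e : Complex.I * (c : ℂ) * ∑ v, (n v : ℂ) * (Fb v + (x.1 : ℂ) + (x.2 v : ℂ))
        = Complex.I * (c : ℂ) * ∑ v, (n v : ℂ) * Fb v + ((c * ∑ v, n v * (x.1 + x.2 v) : ℝ) : ℂ) * Complex.I := by
      push_cast
      simp only [mul_add, Finset.sum_add_distrib]
      ring
    beta_reduce
    rw [e, Complex.exp_add, norm_mul, Complex.norm_exp_ofReal_mul_I, mul_one]

theorem c53g_tame_cos (α : ℝ) (x : G.V) : GTame Γ ω (fun z => Complex.cos (α * z x)) := by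
  have h1 := c53g_tame_char (Γ := Γ) (ω := ω) α (Pi.single x 1)
  have h2 := c53g_tame_char (Γ := Γ) (ω := ω) (-α) (Pi.single x 1)
  have h3 := c53g_tame_smul (1 / 2) (c53g_tame_add h1 h2)
  have e : (fun z : G.V → ℂ => Complex.cos (α * z x)) = fun z => (1 / 2 : ℂ) * (Complex.exp (Complex.I * (α : ℂ) * ∑ v, ((Pi.single x 1 : G.V → ℝ) v : ℂ) * z v)
      + Complex.exp (Complex.I * ((-α : ℝ) : ℂ) * ∑ v, ((Pi.single x 1 : G.V → ℝ) v : ℂ) * z v)) := by
    funext z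
    have e1 : ∑ v, ((Pi.single x 1 : G.V → ℝ) v : ℂ) * z v = z x := by
      rw [Finset.sum_eq_single x]
      · simp
      · intro b _ hb
        simp [hb]
      · intro h
        exact absurd (Finset.mem_univ x) h
    rw [e1, Complex.cos]
    push_cast
    have e2 : Complex.I * (α : ℂ) * z x = (α : ℂ) * z x * Complex.I := by ring
    have e3 : Complex.I * (-(α : ℂ)) * z x = -((α : ℂ) * z x) * Complex.I := by ring
    rw [e2, e3]
    ring
  rw [e]
  exact h3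

theorem c53g_tame_eBC (hΓ : Γ.PosSemidef) (g : Grid G) (B : g.I) : GTame Γ ω (eBC g B) := by
  unfold eBC
  refine c53g_tame_smul _ (c53g_tame_sum _ _ fun v _ => c53g_tame_sum _ _ fun e _ => c53g_tame_pow ?_ 2)
  exact c53g_tame_sub (c53g_tame_coord hΓ _) (c53g_tame_coord hΓ _)

theorem c53g_tame_cBC (g : Grid G) (α : ℝ) (B : g.I) : GTame Γ ω (cBC g α B) := by
  unfold cBC
  exact c53g_tame_smul _ (c53g_tame_sum _ _ fun x _ => c53g_tame_cos α x)

end tame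

/-! ## (K2) linearity of `Eter` -/

/-- the phase factor -/
theorem c53g_phase_lp (Γ : Matrix G.V G.V ℝ) (ω : ℝ) (q : ℤ) (p : ℝ≥0) :
    MemLp (fun x : ℝ × (G.V → ℝ) => Complex.exp (-(Complex.I * q * ((2 * Real.pi / ω : ℝ) : ℂ) * x.1))) p (gasMu Γ ω) := by
  refine MemLp.of_bound ?_ 1 (Filter.Eventually.of_forall fun x => ?_)
  · have hc : Continuous (fun x : ℝ × (G.V → ℝ) => Complex.exp (-(Complex.I * q * ((2 * Real.pi / ω : ℝ) : ℂ) * x.1))) := by
      fun_prop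
    exact hc.aestronglyMeasurable
  · have e : -(Complex.I * q * ((2 * Real.pi / ω : ℝ) : ℂ) * x.1) = ((-(q * (2 * Real.pi / ω) * x.1) : ℝ) : ℂ) * Complex.I := by
      push_cast
      ring
    rw [e, Complex.norm_exp_ofReal_mul_I]

theorem c53g_integrable (Γ : Matrix G.V G.V ℝ) (ω : ℝ) (q : ℤ) {Z : Fn G} (hZ : GTame Γ ω Z) (Fb : G.V → ℂ) :
    Integrable (fun x : ℝ × (G.V → ℝ) => Complex.exp (-(Complex.I * q * ((2 * Real.pi / ω : ℝ) : ℂ) * x.1)) * gasEv Z Fb x) (gasMu Γ ω) := by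
  have h := c53g_lp_mul (c53g_phase_lp Γ ω q) (hZ Fb) 1
  rw [ENNReal.coe_one, memLp_one_iff_integrable] at h
  exact h

/-- `Eter` as ONE integral -/
theorem c53g_Eter_eq (Γ : Matrix G.V G.V ℝ) (ω : ℝ) (hω : 0 < ω) (q : ℤ) {Z : Fn G} (hZ : GTame Γ ω Z) (Fb : G.V → ℂ) :
    Eter G Γ ω q Z Fb = ((1 / ω : ℝ) : ℂ) * ∫ x, Complex.exp (-(Complex.I * q * ((2 * Real.pi / ω : ℝ) : ℂ) * x.1)) * gasEv Z Fb x ∂(gasMu Γ ω) := by
  have h := c53g_integrable Γ ω q hZ Fb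
  unfold gasMu at h ⊢
  rw [integral_prod _ h]
  unfold Eter
  rw [intervalIntegral.integral_of_le hω.le]
  congr 1
  refine integral_congr_ae (Filter.Eventually.of_forall fun θ => ?_)
  exact (integral_const_mul (μ := gauss G Γ) (Complex.exp (-(Complex.I * q * ((2 * Real.pi / ω : ℝ) : ℂ) * θ)))
    (fun y => gasEv Z Fb (θ, y))).symm

theorem c53g_Eter_smul (Γ : Matrix G.V G.V ℝ) (ω : ℝ) (q : ℤ) (c : ℂ) (Z : Fn G) (Fb : G.V → ℂ) :
    Eter G Γ ω q (fun z => c * Z z) Fb = c * Eter G Γ ω q Z Fb := by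
  unfold Eter
  have e : ∀ θ : ℝ, Complex.exp (-(Complex.I * q * ((2 * Real.pi / ω : ℝ) : ℂ) * θ)) * conv Γ (fun z => c * Z z) (fun v => Fb v + (θ : ℂ))
      = c * (Complex.exp (-(Complex.I * q * ((2 * Real.pi / ω : ℝ) : ℂ) * θ)) * conv Γ Z (fun v => Fb v + (θ : ℂ))) := by
    intro θ
    have : conv Γ (fun z => c * Z z) (fun v => Fb v + (θ : ℂ)) = c * conv Γ Z (fun v => Fb v + (θ : ℂ)) := by
      unfold conv
      exact integral_const_mul c _
    rw [this]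
    ring
  simp only [e]
  rw [intervalIntegral.integral_const_mul]
  ring

theorem c53g_Eter_add (Γ : Matrix G.V G.V ℝ) (ω : ℝ) (hω : 0 < ω) (q : ℤ) {Z Z' : Fn G} (hZ : GTame Γ ω Z) (hZ' : GTame Γ ω Z') (Fb : G.V → ℂ) :
    Eter G Γ ω q (fun z => Z z + Z' z) Fb = Eter G Γ ω q Z Fb + Eter G Γ ω q Z' Fb := by
  rw [c53g_Eter_eq Γ ω hω q hZ, c53g_Eter_eq Γ ω hω q hZ', c53g_Eter_eq Γ ω hω q (c53g_tame_add hZ hZ'), ← mul_add,
    ← integral_add (c53g_integrable Γ ω q hZ Fb) (c53g_integrable Γ ω q hZ' Fb)]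
  congr 1
  refine integral_congr_ae (Filter.Eventually.of_forall fun x => ?_)
  beta_reduce
  rw [← mul_add]
  rfl

theorem c53g_Eter_zero (Γ : Matrix G.V G.V ℝ) (ω : ℝ) (q : ℤ) (Fb : G.V → ℂ) : Eter G Γ ω q (fun _ => 0) Fb = 0 := by
  have h := c53g_Eter_smul Γ ω q 0 (fun _ => 0) Fb
  simpa using h

theorem c53g_Eter_sum (Γ : Matrix G.V G.V ℝ) (ω : ℝ) (hω : 0 < ω) (q : ℤ) {ι : Type} (s : Finset ι) (Z : ι → Fn G)
    (hZ : ∀ i ∈ s, GTame Γ ω (Z i)) (Fb : G.V → ℂ) :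
    Eter G Γ ω q (fun z => ∑ i ∈ s, Z i z) Fb = ∑ i ∈ s, Eter G Γ ω q (Z i) Fb := by
  classical
  induction s using Finset.induction_on with
  | empty => simpa using c53g_Eter_zero Γ ω q Fb
  | insert a s ha ih =>
    simp only [Finset.sum_insert ha]
    rw [c53g_Eter_add Γ ω hω q (hZ a (Finset.mem_insert_self a s))
      (c53g_tame_sum s Z fun i hi => hZ i (Finset.mem_insert_of_mem hi)), ih fun i hi => hZ i (Finset.mem_insert_of_mem hi)]

/-! ## (K3) the charge lemma -/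

/-- orthogonality of the characters of the phase -/
theorem c53g_phase_int (ω : ℝ) (hω : 0 < ω) (q N : ℤ) :
    ((1 / ω : ℝ) : ℂ) * ∫ θ in (0 : ℝ)..ω, Complex.exp (-(Complex.I * q * ((2 * Real.pi / ω : ℝ) : ℂ) * θ))
        * Complex.exp (Complex.I * ((2 * Real.pi / ω : ℝ) : ℂ) * N * θ) = if N = q then 1 else 0 := by
  have hωc : (ω : ℂ) ≠ 0 := by exact_mod_cast hω.ne'
  have e : ∀ θ : ℝ, Complex.exp (-(Complex.I * q * ((2 * Real.pi / ω : ℝ) : ℂ) * θ)) * Complex.exp (Complex.I * ((2 * Real.pi / ω : ℝ) : ℂ) * N * θ)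
      = Complex.exp ((Complex.I * ((2 * Real.pi / ω : ℝ) : ℂ) * ((N : ℂ) - q)) * θ) := by
    intro θ
    rw [← Complex.exp_add]
    congr 1
    ring
  simp only [e]
  split_ifs with h
  · subst h
    simp only [sub_self, mul_zero, zero_mul, Complex.exp_zero, intervalIntegral.integral_const, sub_zero]
    rw [Complex.real_smul, mul_one, ← Complex.ofReal_mul, one_div, inv_mul_cancel₀ hω.ne', Complex.ofReal_one]
  · have hne : (N : ℂ) - q ≠ 0 := by
      rw [sub_ne_zero]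
      exact_mod_cast h
    have hc : Complex.I * ((2 * Real.pi / ω : ℝ) : ℂ) * ((N : ℂ) - q) ≠ 0 := by
      refine mul_ne_zero (mul_ne_zero Complex.I_ne_zero ?_) hne
      have : (2 * Real.pi / ω : ℝ) ≠ 0 := by positivity
      exact_mod_cast this
    rw [integral_exp_mul_complex hc]
    have e1 : Complex.I * ((2 * Real.pi / ω : ℝ) : ℂ) * ((N : ℂ) - q) * (ω : ℂ) = ((N - q : ℤ) : ℂ) * (2 * Real.pi * Complex.I) := by
      push_cast
      field_simp
    rw [e1, Complex.exp_int_mul_two_pi_mul_I]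
    simp

/-- a functional of charge `N`: only the projection `q = N` survives.  NO integrability hypothesis. -/
theorem c53g_Eter_charge (Γ : Matrix G.V G.V ℝ) (ω : ℝ) (hω : 0 < ω) (q N : ℤ) (Z : Fn G)
    (hZ : ∀ (z : G.V → ℂ) (θ : ℝ), Z (fun v => z v + (θ : ℂ)) = Complex.exp (Complex.I * ((2 * Real.pi / ω : ℝ) : ℂ) * N * θ) * Z z) (Fb : G.V → ℂ) :
    Eter G Γ ω q Z Fb = if N = q then conv Γ Z Fb else 0 := by
  have e : ∀ θ : ℝ, conv Γ Z (fun v => Fb v + (θ : ℂ)) = Complex.exp (Complex.I * ((2 * Real.pi / ω : ℝ) : ℂ) * N * θ) * conv Γ Z Fb := by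
    intro θ
    unfold conv
    rw [← integral_const_mul]
    refine integral_congr_ae (Filter.Eventually.of_forall fun ζ => ?_)
    beta_reduce
    rw [← hZ]
    congr 1
    funext v
    simp only [Pi.add_apply]
    ring
  unfold Eter
  simp only [e, ← mul_assoc]
  rw [intervalIntegral.integral_mul_const, ← mul_assoc, c53g_phase_int ω hω q N]
  split_ifs <;> simp

/-- the Gaussian characteristic function -/
theorem c53g_conv_char (Γ : Matrix G.V G.V ℝ) (hΓ : Γ.PosSemidef) (c : ℝ) (n : G.V → ℝ) (Fb : G.V → ℂ) :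
    conv Γ (fun z => Complex.exp (Complex.I * (c : ℂ) * ∑ v, (n v : ℂ) * z v)) Fb
      = Complex.exp (Complex.I * (c : ℂ) * ∑ v, (n v : ℂ) * Fb v) * (Real.exp (-c ^ 2 * (n ⬝ᵥ Γ.mulVec n) / 2) : ℝ) := by
  have hm : Measurable (fun ζ : G.V → ℝ => n ⬝ᵥ ζ) := by
    have hc : Continuous (fun ζ : G.V → ℝ => n ⬝ᵥ ζ) := by fun_prop
    exact hc.measurable
  have h1 := Reg.regg_lin_law hΓ n
  have h2 : ∫ ζ, Complex.exp ((c : ℂ) * ((n ⬝ᵥ ζ : ℝ) : ℂ) * Complex.I) ∂(gauss G Γ) = (Real.exp (-c ^ 2 * (n ⬝ᵥ Γ.mulVec n) / 2) : ℝ) := by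
    have h3 : ∫ y, Complex.exp ((c : ℂ) * (y : ℂ) * Complex.I) ∂((Reg.regGauss Γ).map (fun ζ : G.V → ℝ => n ⬝ᵥ ζ))
        = ∫ ζ, Complex.exp ((c : ℂ) * ((n ⬝ᵥ ζ : ℝ) : ℂ) * Complex.I) ∂(Reg.regGauss Γ) :=
      integral_map hm.aemeasurable (by fun_prop)
    have h4 : ∫ ζ, Complex.exp ((c : ℂ) * ((n ⬝ᵥ ζ : ℝ) : ℂ) * Complex.I) ∂(gauss G Γ)
        = ∫ ζ, Complex.exp ((c : ℂ) * ((n ⬝ᵥ ζ : ℝ) : ℂ) * Complex.I) ∂(Reg.regGauss Γ) := rfl
    rw [h4, ← h3, h1, ← charFun_apply_real, charFun_gaussianReal, Real.coe_toNNReal _ (Reg.reg_qf_nonneg hΓ n)]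
    unfold Reg.regQf
    push_cast
    congr 1
    ring
  unfold conv
  rw [← h2, ← integral_const_mul]
  refine integral_congr_ae (Filter.Eventually.of_forall fun ζ => ?_)
  beta_reduce
  rw [← Complex.exp_add]
  congr 1
  simp only [Pi.add_apply, toC, dotProduct, mul_add, Finset.sum_add_distrib]
  push_cast
  ring

/-! ## (K4) quotients of polynomials to second order -/

theorem c53g_ratio (A B : ℂ[X]) (hA : A.coeff 0 = 1) (hB : B.coeff 0 = 0) :
    ∃ Kc : ℝ, ∀ᶠ s : ℂ in 𝓝 0,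
      ‖B.eval s / A.eval s - (B.coeff 1 * s + (B.coeff 2 - A.coeff 1 * B.coeff 1) * s ^ 2)‖ ≤ Kc * ‖s‖ ^ 3 := by
  obtain ⟨P, hP⟩ : ∃ P : ℂ[X], P = B - (C (B.coeff 1) * (X * A) + C (B.coeff 2 - A.coeff 1 * B.coeff 1) * (X ^ 2 * A)) := ⟨_, rfl⟩
  have hdvd : X ^ 3 ∣ P := by
    rw [Polynomial.X_pow_dvd_iff]
    intro d hd
    rw [hP]
    rw [coeff_sub, coeff_add, coeff_C_mul, coeff_C_mul, coeff_X_pow_mul']
    interval_cases d
    · rw [coeff_X_mul_zero, hB]; simp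
    · rw [coeff_X_mul, hA]; simp
    · rw [coeff_X_mul, if_pos le_rfl, Nat.sub_self, hA]; ring
  obtain ⟨Q, hQ⟩ := hdvd
  have hev : ∀ s : ℂ, B.eval s - (B.coeff 1 * s + (B.coeff 2 - A.coeff 1 * B.coeff 1) * s ^ 2) * A.eval s = s ^ 3 * Q.eval s := by
    intro s
    have h1 : P.eval s = s ^ 3 * Q.eval s := by rw [hQ]; simp
    rw [← h1, hP]
    simp
    ring
  have hA0 : A.eval 0 = 1 := by rw [← hA, coeff_zero_eq_eval_zero]
  have h1 : ∀ᶠ s : ℂ in 𝓝 0, 1 / 2 < ‖A.eval s‖ := by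
    have hc : ContinuousAt (fun s : ℂ => ‖A.eval s‖) 0 := (A.continuous.norm).continuousAt
    have : (1 / 2 : ℝ) < ‖A.eval 0‖ := by rw [hA0]; norm_num
    exact hc.eventually (lt_mem_nhds this)
  have h2 : ∀ᶠ s : ℂ in 𝓝 0, ‖Q.eval s‖ < ‖Q.eval 0‖ + 1 := by
    have hc : ContinuousAt (fun s : ℂ => ‖Q.eval s‖) 0 := (Q.continuous.norm).continuousAt
    exact hc.eventually (gt_mem_nhds (by linarith))
  refine ⟨2 * (‖Q.eval 0‖ + 1), ?_⟩
  filter_upwards [h1, h2] with s hs1 hs2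
  have hne : A.eval s ≠ 0 := by
    intro h
    rw [h, norm_zero] at hs1
    linarith
  have e : B.eval s / A.eval s - (B.coeff 1 * s + (B.coeff 2 - A.coeff 1 * B.coeff 1) * s ^ 2) = s ^ 3 * Q.eval s / A.eval s := by
    rw [← hev s]
    field_simp
  rw [e, norm_div, norm_mul, norm_pow, div_le_iff₀ (by linarith)]
  have h3 : 0 ≤ ‖s‖ ^ 3 := by positivity
  have h4 : 0 ≤ ‖Q.eval 0‖ := norm_nonneg _
  calc ‖s‖ ^ 3 * ‖Q.eval s‖ ≤ ‖s‖ ^ 3 * (‖Q.eval 0‖ + 1) := by gcongr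
    _ = 2 * (‖Q.eval 0‖ + 1) * ‖s‖ ^ 3 * (1 / 2) := by ring
    _ ≤ 2 * (‖Q.eval 0‖ + 1) * ‖s‖ ^ 3 * ‖A.eval s‖ := by gcongr

/-! ## (K5) the gas polynomial -/

open Classical in
/-- sets of pairwise `R`-separated blocks (the index set of `ZA_single`) -/
def sepSets (g : Grid G) (R : ℕ) : Finset (Finset g.I) :=
  (Finset.univ : Finset (Finset g.I)).filter (fun V => ∀ B ∈ V, ∀ B' ∈ V, B ≠ B' → R < g.idist B B')

/-- one factor of the gas -/
def gasF (g : Grid G) (α : ℝ) (t z : ℂ) (B : g.I) : Fn G := fun ζ => t / 2 * eBC g B ζ + z * cBC g α B ζ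

/-- the gas polynomial in the common coupling `s`, `(t, z) = (s t₀, s z₀)` -/
def gasPoly (g : Grid G) (R : ℕ) (α : ℝ) (Γ : Matrix G.V G.V ℝ) (ω : ℝ) (t0 z0 : ℂ) (q : ℤ) (Fb : G.V → ℂ) : ℂ[X] :=
  ∑ V ∈ sepSets g R, C (Eter G Γ ω q (fun ζ => ∏ B ∈ V, gasF g α t0 z0 B ζ) Fb) * X ^ V.card

theorem c53g_eqns_cite2 : True := by
  have := @sepSets.eq_1; have := @gasF.eq_1; have := @gasPoly.eq_1; trivial

theorem c53g_tame_gasF {Γ : Matrix G.V G.V ℝ} {ω : ℝ} (hΓ : Γ.PosSemidef) (g : Grid G) (α : ℝ) (t z : ℂ) (B : g.I) :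
    GTame Γ ω (gasF g α t z B) :=
  c53g_tame_add (c53g_tame_smul _ (c53g_tame_eBC hΓ g B)) (c53g_tame_smul _ (c53g_tame_cBC g α B))

theorem c53g_mem_sepSets (g : Grid G) (R : ℕ) (V : Finset g.I) :
    V ∈ sepSets g R ↔ ∀ B ∈ V, ∀ B' ∈ V, B ≠ B' → R < g.idist B B' := by
  unfold sepSets
  simp

/-- the right side of `ZA_single` under `Eter` is a polynomial in `s` -/
theorem c53g_gas_eval (g : Grid G) (R : ℕ) (α : ℝ) (Γ : Matrix G.V G.V ℝ) (hΓ : Γ.PosSemidef) (ω : ℝ) (hω : 0 < ω) (t0 z0 s : ℂ) (q : ℤ) (Fb : G.V → ℂ) :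
    Eter G Γ ω q (fun ζ => ∑ V ∈ sepSets g R, ∏ B ∈ V, (s * t0 / 2 * eBC g B ζ + s * z0 * cBC g α B ζ)) Fb
      = (gasPoly g R α Γ ω t0 z0 q Fb).eval s := by
  have e : (fun ζ : G.V → ℂ => ∑ V ∈ sepSets g R, ∏ B ∈ V, (s * t0 / 2 * eBC g B ζ + s * z0 * cBC g α B ζ))
      = fun ζ => ∑ V ∈ sepSets g R, s ^ V.card * ∏ B ∈ V, gasF g α t0 z0 B ζ := by
    funext ζ
    refine Finset.sum_congr rfl fun V _ => ?_
    rw [← Finset.prod_const, ← Finset.prod_mul_distrib]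
    refine Finset.prod_congr rfl fun B _ => ?_
    unfold gasF
    ring
  rw [e, c53g_Eter_sum Γ ω hω q (sepSets g R) (fun V ζ => s ^ V.card * ∏ B ∈ V, gasF g α t0 z0 B ζ)
    (fun V _ => c53g_tame_smul _ (c53g_tame_prod _ _ fun B _ => c53g_tame_gasF hΓ g α t0 z0 B))]
  unfold gasPoly
  rw [eval_finsetSum]
  refine Finset.sum_congr rfl fun V _ => ?_
  rw [c53g_Eter_smul, eval_mul, eval_C, eval_pow, eval_X]
  ring

theorem c53g_gas_coeff (g : Grid G) (R : ℕ) (α : ℝ) (Γ : Matrix G.V G.V ℝ) (ω : ℝ) (t0 z0 : ℂ) (q : ℤ) (Fb : G.V → ℂ) (k : ℕ) :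
    (gasPoly g R α Γ ω t0 z0 q Fb).coeff k
      = ∑ V ∈ (sepSets g R).filter (fun V => V.card = k), Eter G Γ ω q (fun ζ => ∏ B ∈ V, gasF g α t0 z0 B ζ) Fb := by
  unfold gasPoly
  rw [finsetSum_coeff, Finset.sum_filter]
  refine Finset.sum_congr rfl fun V _ => ?_
  rw [coeff_C_mul_X_pow]
  by_cases h : V.card = k
  · rw [if_pos h, if_pos h.symm]
  · rw [if_neg h, if_neg fun h' => h h'.symm]

theorem c53g_Eter_one (Γ : Matrix G.V G.V ℝ) (ω : ℝ) (hω : 0 < ω) (q : ℤ) (Fb : G.V → ℂ) :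
    Eter G Γ ω q (fun _ => 1) Fb = if q = 0 then 1 else 0 := by
  rw [c53g_Eter_charge Γ ω hω q 0 (fun _ => 1) (fun z θ => by simp) Fb]
  have : conv Γ (fun _ : G.V → ℂ => (1 : ℂ)) Fb = 1 := by
    unfold conv
    simp
  rw [this]
  by_cases h : q = 0
  · rw [if_pos h, if_pos h.symm]
  · rw [if_neg h, if_neg fun h' => h h'.symm]

theorem c53g_gas_coeff0 (g : Grid G) (R : ℕ) (α : ℝ) (Γ : Matrix G.V G.V ℝ) (ω : ℝ) (hω : 0 < ω) (t0 z0 : ℂ) (q : ℤ) (Fb : G.V → ℂ) :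
    (gasPoly g R α Γ ω t0 z0 q Fb).coeff 0 = if q = 0 then 1 else 0 := by
  rw [c53g_gas_coeff]
  have e : (sepSets g R).filter (fun V => V.card = 0) = {∅} := by
    ext V
    rw [Finset.mem_filter, c53g_mem_sepSets, Finset.card_eq_zero, Finset.mem_singleton]
    constructor
    · exact fun h => h.2
    · rintro rfl
      simp
  rw [e, Finset.sum_singleton]
  simp only [Finset.prod_empty]
  exact c53g_Eter_one Γ ω hω q Fb

theorem c53g_gas_coeff1 (g : Grid G) (R : ℕ) (α : ℝ) (Γ : Matrix G.V G.V ℝ) (ω : ℝ) (t0 z0 : ℂ) (q : ℤ) (Fb : G.V → ℂ) :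
    (gasPoly g R α Γ ω t0 z0 q Fb).coeff 1 = ∑ B : g.I, Eter G Γ ω q (gasF g α t0 z0 B) Fb := by
  classical
  rw [c53g_gas_coeff]
  have e : (sepSets g R).filter (fun V => V.card = 1) = Finset.univ.image (fun B : g.I => ({B} : Finset g.I)) := by
    ext V
    rw [Finset.mem_filter, c53g_mem_sepSets, Finset.card_eq_one, Finset.mem_image]
    constructor
    · rintro ⟨-, B, rfl⟩
      exact ⟨B, Finset.mem_univ _, rfl⟩
    · rintro ⟨B, -, rfl⟩
      refine ⟨?_, B, rfl⟩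
      intro a ha b hb hab
      rw [Finset.mem_singleton] at ha hb
      exact absurd (ha.trans hb.symm) hab
  rw [e, Finset.sum_image (fun a _ b _ h => Finset.singleton_inj.1 h)]
  refine Finset.sum_congr rfl fun B _ => ?_
  simp only [Finset.prod_singleton]

theorem c53g_gas_coeff2 (g : Grid G) (R : ℕ) (α : ℝ) (Γ : Matrix G.V G.V ℝ) (ω : ℝ) (t0 z0 : ℂ) (q : ℤ) (Fb : G.V → ℂ) :
    (gasPoly g R α Γ ω t0 z0 q Fb).coeff 2
      = (1 / 2) * ∑ B : g.I, ∑ B' : g.I, if R < g.idist B B' then Eter G Γ ω q (fun ζ => gasF g α t0 z0 B ζ * gasF g α t0 z0 B' ζ) Fb else 0 := by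
  classical
  rw [c53g_gas_coeff]
  obtain ⟨a, ha⟩ : ∃ a : Finset g.I → ℂ, a = fun V => Eter G Γ ω q (fun ζ => ∏ B ∈ V, gasF g α t0 z0 B ζ) Fb := ⟨_, rfl⟩
  have hne : ∀ B B' : g.I, R < g.idist B B' → B ≠ B' := by
    rintro B B' h rfl
    rw [Alg.idist_self] at h
    omega
  have e1 : ∑ B : g.I, ∑ B' : g.I, (if R < g.idist B B' then Eter G Γ ω q (fun ζ => gasF g α t0 z0 B ζ * gasF g α t0 z0 B' ζ) Fb else 0)
      = ∑ p ∈ (Finset.univ : Finset (g.I × g.I)).filter (fun p => R < g.idist p.1 p.2), a {p.1, p.2} := by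
    rw [Finset.sum_filter]
    refine Eq.trans ?_ (Fintype.sum_prod_type (fun p : g.I × g.I => if R < g.idist p.1 p.2 then a {p.1, p.2} else 0)).symm
    refine Finset.sum_congr rfl fun B _ => ?_
    refine Finset.sum_congr rfl fun B' _ => ?_
    by_cases h : R < g.idist B B'
    · rw [if_pos h, if_pos h, ha]
      simp only [Finset.prod_pair (hne B B' h)]
    · rw [if_neg h, if_neg h]
  have hmaps : ∀ p ∈ (Finset.univ : Finset (g.I × g.I)).filter (fun p => R < g.idist p.1 p.2),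
      ({p.1, p.2} : Finset g.I) ∈ (sepSets g R).filter (fun V => V.card = 2) := by
    intro p hp
    rw [Finset.mem_filter] at hp
    rw [Finset.mem_filter, c53g_mem_sepSets]
    refine ⟨?_, Finset.card_pair (hne _ _ hp.2)⟩
    intro B hB B' hB' hBB
    rw [Finset.mem_insert, Finset.mem_singleton] at hB hB'
    rcases hB with rfl | rfl <;> rcases hB' with rfl | rfl
    · exact absurd rfl hBB
    · exact hp.2
    · rw [Alg.idist_comm]; exact hp.2
    · exact absurd rfl hBB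
  rw [e1, ← Finset.sum_fiberwise_of_maps_to (f := fun p : g.I × g.I => a {p.1, p.2}) hmaps, Finset.mul_sum]
  refine Finset.sum_congr rfl fun V hV => ?_
  rw [Finset.mem_filter, c53g_mem_sepSets, Finset.card_eq_two] at hV
  obtain ⟨hsep, x, y, hxy, rfl⟩ := hV
  have e2 : ((Finset.univ : Finset (g.I × g.I)).filter (fun p => R < g.idist p.1 p.2)).filter (fun p => ({p.1, p.2} : Finset g.I) = {x, y})
      = {(x, y), (y, x)} := by
    ext ⟨u, w⟩
    simp only [Finset.mem_filter, Finset.mem_univ, true_and, Finset.mem_insert, Finset.mem_singleton, Prod.mk.injEq]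
    constructor
    · rintro ⟨-, h⟩
      have hu : u ∈ ({x, y} : Finset g.I) := h ▸ Finset.mem_insert_self u {w}
      have hx : x ∈ ({u, w} : Finset g.I) := h ▸ Finset.mem_insert_self x {y}
      have hy : y ∈ ({u, w} : Finset g.I) := h ▸ Finset.mem_insert_of_mem (Finset.mem_singleton_self y)
      rw [Finset.mem_insert, Finset.mem_singleton] at hu hx hy
      rcases hu with rfl | rfl
      · left
        refine ⟨rfl, ?_⟩
        rcases hy with h1 | h1
        · exact absurd h1.symm hxy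
        · exact h1.symm
      · right
        refine ⟨rfl, ?_⟩
        rcases hx with h1 | h1
        · exact absurd h1 hxy
        · exact h1.symm
    · rintro (⟨rfl, rfl⟩ | ⟨rfl, rfl⟩)
      · exact ⟨hsep u (by simp) w (by simp) hxy, rfl⟩
      · exact ⟨hsep u (by simp) w (by simp) hxy.symm, Finset.pair_comm u w⟩
  rw [e2, Finset.sum_pair (by
    intro h
    exact hxy (Prod.mk.inj h).1)]
  simp only [Finset.pair_comm y x]
  rw [ha]
  ring

/-- sums over blocks and their sites -/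
theorem c53g_sum_sites (g : Grid G) {M : Type} [AddCommMonoid M] (f : g.I → G.V → M) :
    ∑ B : g.I, ∑ x ∈ g.sites {B}, f B x = ∑ x : G.V, f (g.blk x) x := by
  classical
  unfold Grid.sites
  simp only [Finset.sum_filter, Finset.mem_singleton]
  rw [Finset.sum_comm]
  refine Finset.sum_congr rfl fun x _ => ?_
  rw [Finset.sum_ite_eq]
  simp

end

end Claimed.Agent.R285.B8
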