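import Claimed.Agent.R285.Map.Coef
import Claimed.Agent.R285.Map.GasZZ

/-!
# ROW 285, post BP-F5-L53 (owner helper177): (C) GAS CALCULUS, the exports `gas_tz`, `gas_even`  (`gas_zz`: PROVED in `Map/Coef.lean`, helper155)

Moved here from `Map/Coef.lean` (18:10Z) so that the kit of helper155/139/25 (`Map/GasKit.lean`, `Map/GasZZ.lean`) AND the Gaussian lemmas of `Map/Coef.lean` (`Eter_char_quad`, `ZA_single`) are both available.
Small file: work HERE, in place.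

`gas_tz`: with `A = gasPoly 1 1 (q = 0)`, `B = gasPoly 1 1 (q = 1)` at the background `0` (`c53g_gas_eval`, `ZA_single`), `c53g_ratio` gives `B/A = B₁ s + (B₂ - B₁ A₁) s² + O(s³)`;
  `B₁ = ∑_B (½ E₁ e_B + E₁ c_B) = P1`  (`c53t_Eter_e`, `c53t_Eter_c`),  `A₁ = ½ ∑_B meanE B`,
  `B₂ = ½ ∑_{sep} E₁ ((e_B/2 + c_B)(e_B'/2 + c_B')) = ½ ∑_{sep} E₁ (e_B c_B')`  (`c53t_Eter_ee`, `c53t_Eter_cc`, symmetry of `idist`), `c53t_Eter_ec`, `c53g_sum_sites`.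
-/

set_option autoImplicit false

namespace Claimed.Agent.R285.B8

open scoped BigOperators ENNReal NNReal
open MeasureTheory ProbabilityTheory Polynomial Filter Topology
open Claimed.Agent.R285.RG

noncomputable section

variable {G : Geom}

/-! ### helpers of `gas_tz` (L53-C5, helper25; prefix `c5t_`) -/

section c5t

/-- the difference vector of the bond `(v, e)` -/
def c5tA (v : G.V) (e : Fin 4) : G.V → ℝ := fun w => (if w = G.π (G.ι v + dir e) then 1 else 0) - (if w = v then 1 else 0)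

theorem c5t_eqns_cite : True := by
  have := @c5tA.eq_1; trivial

theorem c5t_A_sum (v : G.V) (e : Fin 4) : ∑ w, c5tA v e w = 0 := by
  unfold c5tA
  rw [Finset.sum_sub_distrib]
  simp

theorem c5t_A_dot (v : G.V) (e : Fin 4) (φ : G.V → ℝ) : c5tA v e ⬝ᵥ φ = dif (dir e) (G.lift φ) (G.ι v) := by
  unfold c5tA dotProduct dif Geom.lift
  rw [Reg.reg_pi_iota]
  simp only [sub_mul, ite_mul, one_mul, zero_mul, Finset.sum_sub_distrib, Finset.sum_ite_eq', Finset.mem_univ, if_true]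

theorem c5t_A_lin (v : G.V) (e : Fin 4) (z : G.V → ℂ) : ∑ w, (c5tA v e w : ℂ) * z w = dif (dir e) (G.lift z) (G.ι v) := by
  unfold c5tA dif Geom.lift
  rw [Reg.reg_pi_iota]
  have key : ∀ p : G.V, ∑ x, (((if x = p then 1 else 0 : ℝ)) : ℂ) * z x = z p := by
    intro p
    rw [Finset.sum_eq_single p]
    · simp
    · intro b _ hb
      simp [hb]
    · simp
  simp only [Complex.ofReal_sub, sub_mul, Finset.sum_sub_distrib]
  rw [key, key]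

theorem c5t_A_quad (Γ : Matrix G.V G.V ℝ) (hΓ : Γ.PosSemidef) (v : G.V) (e : Fin 4) :
    c5tA v e ⬝ᵥ Γ.mulVec (c5tA v e)
      = Γ (G.π (G.ι v + dir e)) (G.π (G.ι v + dir e)) + Γ v v - 2 * Γ (G.π (G.ι v + dir e)) v := by
  have h1 : ∀ w, Γ.mulVec (c5tA v e) w = Γ w (G.π (G.ι v + dir e)) - Γ w v := by
    intro w
    have := c5t_A_dot v e (fun u => Γ w u)
    rw [dotProduct_comm] at this
    unfold Matrix.mulVec
    rw [this]
    unfold dif Geom.lift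
    rw [Reg.reg_pi_iota]
  rw [c5t_A_dot]
  unfold dif Geom.lift
  rw [Reg.reg_pi_iota, h1, h1]
  have hs : Γ v (G.π (G.ι v + dir e)) = Γ (G.π (G.ι v + dir e)) v := by
    have := hΓ.1.apply v (G.π (G.ι v + dir e))
    simpa using this.symm
  rw [hs]
  ring

/-- characters with integer charges are tame -/
theorem c5t_tame_ch (Γ : Matrix G.V G.V ℝ) (ω : ℝ) (n : G.V → ℤ) :
    GTame Γ ω (fun z => Complex.exp (Complex.I * ((2 * Real.pi / ω : ℝ) : ℂ) * ∑ v, (n v : ℂ) * z v)) := by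
  have h := c53g_tame_char (Γ := Γ) (ω := ω) (2 * Real.pi / ω) (fun v => (n v : ℝ))
  simpa using h

/-- **`e_B` times a character** -/
theorem c5t_eBC_char (g : Grid G) (B : g.I) (Γ : Matrix G.V G.V ℝ) (hΓ : Γ.PosSemidef) (ω : ℝ) (hω : 0 < ω) (q : ℤ) (n : G.V → ℤ) :
    Eter G Γ ω q (fun z => eBC g B z * Complex.exp (Complex.I * ((2 * Real.pi / ω : ℝ) : ℂ) * ∑ v, (n v : ℂ) * z v)) 0
      = if ∑ v, n v = q then
          (((meanE g Γ B - (2 * Real.pi / ω) ^ 2 * eB g B (Γ.mulVec fun v => (n v : ℝ)))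
            * Real.exp (-(2 * Real.pi / ω) ^ 2 * ((fun v => (n v : ℝ)) ⬝ᵥ Γ.mulVec fun v => (n v : ℝ)) / 2) : ℝ) : ℂ)
        else 0 := by
  have e1 : (fun z : G.V → ℂ => eBC g B z * Complex.exp (Complex.I * ((2 * Real.pi / ω : ℝ) : ℂ) * ∑ v, (n v : ℂ) * z v))
      = fun z => (1 / 2 : ℂ) * ∑ v ∈ g.sites {B}, ∑ e : Fin 4, (∑ w, (c5tA v e w : ℂ) * z w) * (∑ w, (c5tA v e w : ℂ) * z w)
          * Complex.exp (Complex.I * ((2 * Real.pi / ω : ℝ) : ℂ) * ∑ v, (n v : ℂ) * z v) := by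
    funext z
    unfold eBC
    rw [mul_assoc, Finset.sum_mul]
    congr 1
    refine Finset.sum_congr rfl fun v _ => ?_
    rw [Finset.sum_mul]
    refine Finset.sum_congr rfl fun e _ => ?_
    rw [c5t_A_lin, sq]
  have ht : ∀ (v : G.V) (e : Fin 4), GTame Γ ω (fun z : G.V → ℂ => (∑ w, (c5tA v e w : ℂ) * z w) * (∑ w, (c5tA v e w : ℂ) * z w)
      * Complex.exp (Complex.I * ((2 * Real.pi / ω : ℝ) : ℂ) * ∑ v, (n v : ℂ) * z v)) := fun v e =>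
    c53g_tame_mul (c53g_tame_mul (c53g_tame_lin hΓ _) (c53g_tame_lin hΓ _)) (c5t_tame_ch Γ ω n)
  rw [e1, c53g_Eter_smul, c53g_Eter_sum Γ ω hω q _ _ (fun v _ => c53g_tame_sum _ _ fun e _ => ht v e)]
  have e2 : ∀ v ∈ g.sites {B}, Eter G Γ ω q (fun z : G.V → ℂ => ∑ e : Fin 4, (∑ w, (c5tA v e w : ℂ) * z w) * (∑ w, (c5tA v e w : ℂ) * z w)
      * Complex.exp (Complex.I * ((2 * Real.pi / ω : ℝ) : ℂ) * ∑ v, (n v : ℂ) * z v)) 0
      = ∑ e : Fin 4, Eter G Γ ω q (fun z : G.V → ℂ => (∑ w, (c5tA v e w : ℂ) * z w) * (∑ w, (c5tA v e w : ℂ) * z w)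
      * Complex.exp (Complex.I * ((2 * Real.pi / ω : ℝ) : ℂ) * ∑ v, (n v : ℂ) * z v)) 0 := fun v _ =>
    c53g_Eter_sum Γ ω hω q _ _ (fun e _ => ht v e) 0
  rw [Finset.sum_congr rfl e2]
  simp only [Eter_char_quad Γ hΓ ω hω q n _ _ (c5t_A_sum _ _) (c5t_A_sum _ _)]
  by_cases h : ∑ v, n v = q
  · simp only [if_pos h]
    have hr : (1 / 2 : ℝ) * ∑ v ∈ g.sites {B}, ∑ e : Fin 4,
        ((c5tA v e ⬝ᵥ Γ.mulVec (c5tA v e) - (2 * Real.pi / ω) ^ 2 * (c5tA v e ⬝ᵥ Γ.mulVec fun v => (n v : ℝ)) * (c5tA v e ⬝ᵥ Γ.mulVec fun v => (n v : ℝ)))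
            * Real.exp (-(2 * Real.pi / ω) ^ 2 * ((fun v => (n v : ℝ)) ⬝ᵥ Γ.mulVec fun v => (n v : ℝ)) / 2))
        = (meanE g Γ B - (2 * Real.pi / ω) ^ 2 * eB g B (Γ.mulVec fun v => (n v : ℝ)))
            * Real.exp (-(2 * Real.pi / ω) ^ 2 * ((fun v => (n v : ℝ)) ⬝ᵥ Γ.mulVec fun v => (n v : ℝ)) / 2) := by
      simp only [c5t_A_quad Γ hΓ, c5t_A_dot]
      unfold meanE eB gE
      simp only [← Finset.sum_mul]
      rw [← mul_assoc]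
      congr 1
      rw [mul_left_comm, ← mul_sub]
      congr 1
      rw [Finset.mul_sum, ← Finset.sum_sub_distrib]
      refine Finset.sum_congr rfl fun v _ => ?_
      rw [Finset.mul_sum, ← Finset.sum_sub_distrib]
      refine Finset.sum_congr rfl fun e _ => ?_
      ring
    rw [← hr]
    push_cast
    rfl
  · simp only [if_neg h, Finset.sum_const_zero, mul_zero]

/-- the character with the integer charges `n` -/
def c5tCh (ω : ℝ) (n : G.V → ℤ) : Fn G := fun z => Complex.exp (Complex.I * ((2 * Real.pi / ω : ℝ) : ℂ) * ∑ v, (n v : ℂ) * z v)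

theorem c5t_eqns_cite2 : True := by
  have := @c5tCh.eq_1; trivial

theorem c5t_tame_Ch (Γ : Matrix G.V G.V ℝ) (ω : ℝ) (n : G.V → ℤ) : GTame Γ ω (c5tCh ω n) := c5t_tame_ch Γ ω n

theorem c5t_Ch_mul (ω : ℝ) (n n' : G.V → ℤ) (z : G.V → ℂ) : c5tCh ω n z * c5tCh ω n' z = c5tCh ω (n + n') z := by
  unfold c5tCh
  rw [← Complex.exp_add, ← mul_add, ← Finset.sum_add_distrib]
  congr 2
  refine Finset.sum_congr rfl fun v _ => ?_
  rw [Pi.add_apply]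
  push_cast
  ring

theorem c5t_Ch_zero (ω : ℝ) (z : G.V → ℂ) : c5tCh ω (0 : G.V → ℤ) z = 1 := by
  unfold c5tCh
  simp

theorem c5t_single_lin (x : G.V) (c : ℤ) (z : G.V → ℂ) : ∑ v, (((Pi.single x c : G.V → ℤ) v : ℤ) : ℂ) * z v = (c : ℂ) * z x := by
  rw [Finset.sum_eq_single x]
  · simp
  · intro b _ hb
    simp [hb]
  · simp

theorem c5t_cos (ω : ℝ) (x : G.V) (z : G.V → ℂ) :
    Complex.cos (((2 * Real.pi / ω : ℝ) : ℂ) * z x) = (c5tCh ω (Pi.single x 1) z + c5tCh ω (Pi.single x (-1)) z) / 2 := by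
  unfold c5tCh
  rw [c5t_single_lin, c5t_single_lin, Complex.cos]
  congr 2
  · congr 1
    push_cast
    ring
  · congr 1
    push_cast
    ring

theorem c5t_Eter_Ch (Γ : Matrix G.V G.V ℝ) (hΓ : Γ.PosSemidef) (ω : ℝ) (hω : 0 < ω) (q : ℤ) (n : G.V → ℤ) :
    Eter G Γ ω q (c5tCh ω n) 0
      = if ∑ v, n v = q then
          ((Real.exp (-(2 * Real.pi / ω) ^ 2 * ((fun v => (n v : ℝ)) ⬝ᵥ Γ.mulVec fun v => (n v : ℝ)) / 2) : ℝ) : ℂ)
        else 0 := by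
  have h := Eter_char Γ hΓ ω hω q n 0
  unfold c5tCh
  rw [h]
  simp

/-- **a tame functional times `c_B`** -/
theorem c5t_mul_cBC (g : Grid G) (B : g.I) (Γ : Matrix G.V G.V ℝ) (ω : ℝ) (hω : 0 < ω) (q : ℤ) (F : Fn G) (hF : GTame Γ ω F) :
    Eter G Γ ω q (fun z => F z * cBC g (2 * Real.pi / ω) B z) 0
      = ((((g.m : ℝ) ^ 2)⁻¹ : ℝ) : ℂ) * ∑ x ∈ g.sites {B},
          (Eter G Γ ω q (fun z => F z * c5tCh ω (Pi.single x 1) z) 0 + Eter G Γ ω q (fun z => F z * c5tCh ω (Pi.single x (-1)) z) 0) / 2 := by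
  have e1 : (fun z : G.V → ℂ => F z * cBC g (2 * Real.pi / ω) B z)
      = fun z => ((((g.m : ℝ) ^ 2)⁻¹ : ℝ) : ℂ) * ∑ x ∈ g.sites {B},
          (1 / 2 : ℂ) * (F z * c5tCh ω (Pi.single x 1) z + F z * c5tCh ω (Pi.single x (-1)) z) := by
    funext z
    unfold cBC
    rw [mul_left_comm, Finset.mul_sum]
    congr 1
    refine Finset.sum_congr rfl fun x _ => ?_
    rw [c5t_cos]
    ring
  have ht : ∀ n : G.V → ℤ, GTame Γ ω (fun z => F z * c5tCh ω n z) := fun n => c53g_tame_mul hF (c5t_tame_Ch Γ ω n)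
  rw [e1, c53g_Eter_smul, c53g_Eter_sum Γ ω hω q _ _ (fun x _ => c53g_tame_smul _ (c53g_tame_add (ht _) (ht _)))]
  congr 1
  refine Finset.sum_congr rfl fun x _ => ?_
  rw [c53g_Eter_smul, c53g_Eter_add Γ ω hω q (ht _) (ht _)]
  ring

theorem c5t_single_sum (x : G.V) (c : ℤ) : ∑ v, (Pi.single x c : G.V → ℤ) v = c := by
  simp

theorem c5t_single_cast (x : G.V) (c : ℤ) : (fun v => (((Pi.single x c : G.V → ℤ) v : ℤ) : ℝ)) = Pi.single x (c : ℝ) := by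
  funext v
  by_cases h : v = x
  · subst h
    simp
  · simp [h]

theorem c5t_mulVec_single (Γ : Matrix G.V G.V ℝ) (x : G.V) : Γ.mulVec (Pi.single x (1 : ℝ)) = fun v => Γ v x := by
  funext v
  unfold Matrix.mulVec dotProduct
  rw [Finset.sum_eq_single x]
  · simp
  · intro b _ hb
    simp [hb]
  · simp

theorem c5t_quad_single (Γ : Matrix G.V G.V ℝ) (x : G.V) : (Pi.single x (1 : ℝ) : G.V → ℝ) ⬝ᵥ Γ.mulVec (Pi.single x (1 : ℝ)) = Γ x x := by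
  rw [c5t_mulVec_single]
  unfold dotProduct
  rw [Finset.sum_eq_single x]
  · simp
  · intro b _ hb
    simp [hb]
  · simp

/-- `E_q e_B` -/
theorem c5t_E_e (g : Grid G) (B : g.I) (Γ : Matrix G.V G.V ℝ) (hΓ : Γ.PosSemidef) (ω : ℝ) (hω : 0 < ω) (q : ℤ) :
    Eter G Γ ω q (eBC g B) 0 = if 0 = q then ((meanE g Γ B : ℝ) : ℂ) else 0 := by
  have h := c5t_eBC_char g B Γ hΓ ω hω q 0
  have e1 : (fun z : G.V → ℂ => eBC g B z * Complex.exp (Complex.I * ((2 * Real.pi / ω : ℝ) : ℂ) * ∑ v, (((0 : G.V → ℤ) v : ℤ) : ℂ) * z v)) = eBC g B := by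
    funext z
    simp
  rw [e1] at h
  rw [h]
  have e2 : (fun v : G.V => (((0 : G.V → ℤ) v : ℤ) : ℝ)) = 0 := by
    funext v
    simp
  have e3 : eB g B (0 : G.V → ℝ) = 0 := by
    unfold eB gE dif Geom.lift
    simp
  rw [e2, Matrix.mulVec_zero, e3]
  simp

/-- `E_q (F ch_{c δ_x})` for `F = 1` -/
theorem c5t_E_c (g : Grid G) (B : g.I) (Γ : Matrix G.V G.V ℝ) (ω : ℝ) (hω : 0 < ω) (q : ℤ) :
    Eter G Γ ω q (cBC g (2 * Real.pi / ω) B) 0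
      = ((((g.m : ℝ) ^ 2)⁻¹ : ℝ) : ℂ) * ∑ x ∈ g.sites {B},
          (Eter G Γ ω q (c5tCh ω (Pi.single x 1)) 0 + Eter G Γ ω q (c5tCh ω (Pi.single x (-1))) 0) / 2 := by
  have h := c5t_mul_cBC g B Γ ω hω q (fun _ => 1) (c53g_tame_const 1)
  simpa only [one_mul] using h

theorem c5t_E_c1 (g : Grid G) (B : g.I) (Γ : Matrix G.V G.V ℝ) (hΓ : Γ.PosSemidef) (ω : ℝ) (hω : 0 < ω) :
    Eter G Γ ω 1 (cBC g (2 * Real.pi / ω) B) 0
      = (((((g.m : ℝ) ^ 2)⁻¹ * ∑ x ∈ g.sites {B}, Real.exp (-(2 * Real.pi / ω) ^ 2 * Γ x x / 2) / 2 : ℝ)) : ℂ) := by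
  rw [c5t_E_c g B Γ ω hω]
  push_cast
  congr 1
  refine Finset.sum_congr rfl fun x _ => ?_
  rw [c5t_Eter_Ch Γ hΓ ω hω, c5t_Eter_Ch Γ hΓ ω hω, c5t_single_sum, c5t_single_sum, if_pos rfl, if_neg (by norm_num),
    c5t_single_cast, Int.cast_one, c5t_quad_single, add_zero]
  push_cast
  rfl

theorem c5t_E_c0 (g : Grid G) (B : g.I) (Γ : Matrix G.V G.V ℝ) (hΓ : Γ.PosSemidef) (ω : ℝ) (hω : 0 < ω) :
    Eter G Γ ω 0 (cBC g (2 * Real.pi / ω) B) 0 = 0 := by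
  rw [c5t_E_c g B Γ ω hω]
  rw [Finset.sum_eq_zero, mul_zero]
  intro x _
  rw [c5t_Eter_Ch Γ hΓ ω hω, c5t_Eter_Ch Γ hΓ ω hω, c5t_single_sum, c5t_single_sum, if_neg (by norm_num), if_neg (by norm_num)]
  simp

/-- `E_1 (e_B c_{B'})` -/
theorem c5t_E_ec (g : Grid G) (B B' : g.I) (Γ : Matrix G.V G.V ℝ) (hΓ : Γ.PosSemidef) (ω : ℝ) (hω : 0 < ω) :
    Eter G Γ ω 1 (fun z => eBC g B z * cBC g (2 * Real.pi / ω) B' z) 0
      = (((((g.m : ℝ) ^ 2)⁻¹ * ∑ x ∈ g.sites {B'},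
          (meanE g Γ B - (2 * Real.pi / ω) ^ 2 * eB g B (fun v => Γ v x)) * Real.exp (-(2 * Real.pi / ω) ^ 2 * Γ x x / 2) / 2 : ℝ)) : ℂ) := by
  rw [c5t_mul_cBC g B' Γ ω hω 1 _ (c53g_tame_eBC hΓ g B)]
  push_cast
  congr 1
  refine Finset.sum_congr rfl fun x _ => ?_
  have h1 := c5t_eBC_char g B Γ hΓ ω hω 1 (Pi.single x 1)
  have h2 := c5t_eBC_char g B Γ hΓ ω hω 1 (Pi.single x (-1))
  rw [c5t_single_sum, if_pos rfl, c5t_single_cast, Int.cast_one, c5t_quad_single, c5t_mulVec_single] at h1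
  rw [c5t_single_sum, if_neg (by norm_num)] at h2
  unfold c5tCh
  rw [h1, h2, add_zero]
  push_cast
  rfl

theorem c5t_eBC_shift (g : Grid G) (B : g.I) (z : G.V → ℂ) (θ : ℂ) : eBC g B (fun v => z v + θ) = eBC g B z := by
  unfold eBC dif Geom.lift
  simp

/-- `E_1 (e_B e_{B'}) = 0` -/
theorem c5t_E_ee (g : Grid G) (B B' : g.I) (Γ : Matrix G.V G.V ℝ) (ω : ℝ) (hω : 0 < ω) :
    Eter G Γ ω 1 (fun z => eBC g B z * eBC g B' z) 0 = 0 := by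
  rw [c53g_Eter_charge Γ ω hω 1 0 (fun z => eBC g B z * eBC g B' z) (fun z θ => by
    rw [c5t_eBC_shift, c5t_eBC_shift]
    simp) 0, if_neg (by norm_num)]

theorem c5t_E_cCh (g : Grid G) (B : g.I) (Γ : Matrix G.V G.V ℝ) (hΓ : Γ.PosSemidef) (ω : ℝ) (hω : 0 < ω) (n : G.V → ℤ)
    (hn : ∑ v, n v = 1 ∨ ∑ v, n v = -1) :
    Eter G Γ ω 1 (fun z => cBC g (2 * Real.pi / ω) B z * c5tCh ω n z) 0 = 0 := by
  have e1 : (fun z : G.V → ℂ => cBC g (2 * Real.pi / ω) B z * c5tCh ω n z) = fun z => c5tCh ω n z * cBC g (2 * Real.pi / ω) B z := by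
    funext z
    rw [mul_comm]
  rw [e1, c5t_mul_cBC g B Γ ω hω 1 _ (c5t_tame_Ch Γ ω n), Finset.sum_eq_zero, mul_zero]
  intro x _
  simp only [c5t_Ch_mul]
  have e2 : ∀ m : G.V → ℤ, (fun z => c5tCh ω m z) = c5tCh ω m := fun _ => rfl
  rw [e2, e2, c5t_Eter_Ch Γ hΓ ω hω, c5t_Eter_Ch Γ hΓ ω hω]
  simp only [Pi.add_apply, Finset.sum_add_distrib, c5t_single_sum]
  rw [if_neg (by omega), if_neg (by omega)]
  simp

/-- `E_1 (c_B c_{B'}) = 0` -/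
theorem c5t_E_cc (g : Grid G) (B B' : g.I) (Γ : Matrix G.V G.V ℝ) (hΓ : Γ.PosSemidef) (ω : ℝ) (hω : 0 < ω) :
    Eter G Γ ω 1 (fun z => cBC g (2 * Real.pi / ω) B z * cBC g (2 * Real.pi / ω) B' z) 0 = 0 := by
  rw [c5t_mul_cBC g B' Γ ω hω 1 _ (c53g_tame_cBC g _ B), Finset.sum_eq_zero, mul_zero]
  intro x _
  rw [c5t_E_cCh g B Γ hΓ ω hω _ (Or.inl (c5t_single_sum x 1)), c5t_E_cCh g B Γ hΓ ω hω _ (Or.inr (c5t_single_sum x (-1)))]
  simp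

theorem c5t_E_gasF (g : Grid G) (B : g.I) (Γ : Matrix G.V G.V ℝ) (hΓ : Γ.PosSemidef) (ω : ℝ) (hω : 0 < ω) (q : ℤ) :
    Eter G Γ ω q (gasF g (2 * Real.pi / ω) 1 1 B) 0 = 1 / 2 * Eter G Γ ω q (eBC g B) 0 + Eter G Γ ω q (cBC g (2 * Real.pi / ω) B) 0 := by
  unfold gasF
  rw [c53g_Eter_add Γ ω hω q (c53g_tame_smul _ (c53g_tame_eBC hΓ g B)) (c53g_tame_smul _ (c53g_tame_cBC g _ B)),
    c53g_Eter_smul, c53g_Eter_smul, one_mul]

theorem c5t_coeff1_one (g : Grid G) (R : ℕ) (Γ : Matrix G.V G.V ℝ) (hΓ : Γ.PosSemidef) (ω : ℝ) (hω : 0 < ω) :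
    (gasPoly g R (2 * Real.pi / ω) Γ ω 1 1 1 0).coeff 1 = ((P1G g (2 * Real.pi / ω) Γ : ℝ) : ℂ) := by
  rw [c53g_gas_coeff1]
  have e : ∀ B : g.I, Eter G Γ ω 1 (gasF g (2 * Real.pi / ω) 1 1 B) 0
      = (((((g.m : ℝ) ^ 2)⁻¹ * ∑ x ∈ g.sites {B}, Real.exp (-(2 * Real.pi / ω) ^ 2 * Γ x x / 2) / 2 : ℝ)) : ℂ) := by
    intro B
    rw [c5t_E_gasF g _ Γ hΓ ω hω, c5t_E_e g _ Γ hΓ ω hω, c5t_E_c1 g _ Γ hΓ ω hω, if_neg (by norm_num), mul_zero, zero_add]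
  rw [Finset.sum_congr rfl fun B _ => e B, ← Complex.ofReal_sum, ← Finset.mul_sum,
    c53g_sum_sites g (fun _ x => Real.exp (-(2 * Real.pi / ω) ^ 2 * Γ x x / 2) / 2)]
  rfl

theorem c5t_coeff1_zero (g : Grid G) (R : ℕ) (Γ : Matrix G.V G.V ℝ) (hΓ : Γ.PosSemidef) (ω : ℝ) (hω : 0 < ω) :
    (gasPoly g R (2 * Real.pi / ω) Γ ω 1 1 0 0).coeff 1 = (((1 / 2) * ∑ B : g.I, meanE g Γ B : ℝ) : ℂ) := by
  rw [c53g_gas_coeff1]
  have e : ∀ B : g.I, Eter G Γ ω 0 (gasF g (2 * Real.pi / ω) 1 1 B) 0 = (((1 / 2) * meanE g Γ B : ℝ) : ℂ) := by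
    intro B
    rw [c5t_E_gasF g _ Γ hΓ ω hω, c5t_E_e g _ Γ hΓ ω hω, c5t_E_c0 g _ Γ hΓ ω hω, if_pos rfl, add_zero]
    push_cast
    rfl
  rw [Finset.sum_congr rfl fun B _ => e B, ← Complex.ofReal_sum, ← Finset.mul_sum]

/-- the mixed expectation `E_1 (e_B c_{B'})` as a real number -/
def c5tE (g : Grid G) (Γ : Matrix G.V G.V ℝ) (ω : ℝ) (B B' : g.I) : ℝ :=
  ((g.m : ℝ) ^ 2)⁻¹ * ∑ x ∈ g.sites {B'},
    (meanE g Γ B - (2 * Real.pi / ω) ^ 2 * eB g B (fun v => Γ v x)) * Real.exp (-(2 * Real.pi / ω) ^ 2 * Γ x x / 2) / 2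

theorem c5t_eqns_cite3 : True := by
  have := @c5tE.eq_1; trivial

theorem c5t_E_pair (g : Grid G) (B B' : g.I) (Γ : Matrix G.V G.V ℝ) (hΓ : Γ.PosSemidef) (ω : ℝ) (hω : 0 < ω) :
    Eter G Γ ω 1 (fun ζ => gasF g (2 * Real.pi / ω) 1 1 B ζ * gasF g (2 * Real.pi / ω) 1 1 B' ζ) 0
      = ((1 / 2 * c5tE g Γ ω B B' + 1 / 2 * c5tE g Γ ω B' B : ℝ) : ℂ) := by
  have e1 : (fun ζ : G.V → ℂ => gasF g (2 * Real.pi / ω) 1 1 B ζ * gasF g (2 * Real.pi / ω) 1 1 B' ζ)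
      = fun ζ => (1 / 4 : ℂ) * (eBC g B ζ * eBC g B' ζ) + ((1 / 2 : ℂ) * (eBC g B ζ * cBC g (2 * Real.pi / ω) B' ζ)
          + ((1 / 2 : ℂ) * (eBC g B' ζ * cBC g (2 * Real.pi / ω) B ζ) + cBC g (2 * Real.pi / ω) B ζ * cBC g (2 * Real.pi / ω) B' ζ)) := by
    funext ζ
    unfold gasF
    ring
  have te : ∀ B : g.I, GTame Γ ω (eBC g B) := fun B => c53g_tame_eBC hΓ g B
  have tc : ∀ B : g.I, GTame Γ ω (cBC g (2 * Real.pi / ω) B) := fun B => c53g_tame_cBC g _ B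
  rw [e1, c53g_Eter_add Γ ω hω 1 (c53g_tame_smul _ (c53g_tame_mul (te B) (te B')))
      (c53g_tame_add (c53g_tame_smul _ (c53g_tame_mul (te B) (tc B')))
        (c53g_tame_add (c53g_tame_smul _ (c53g_tame_mul (te B') (tc B))) (c53g_tame_mul (tc B) (tc B')))),
    c53g_Eter_add Γ ω hω 1 (c53g_tame_smul _ (c53g_tame_mul (te B) (tc B')))
        (c53g_tame_add (c53g_tame_smul _ (c53g_tame_mul (te B') (tc B))) (c53g_tame_mul (tc B) (tc B'))),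
    c53g_Eter_add Γ ω hω 1 (c53g_tame_smul _ (c53g_tame_mul (te B') (tc B))) (c53g_tame_mul (tc B) (tc B')),
    c53g_Eter_smul, c53g_Eter_smul, c53g_Eter_smul, c5t_E_ee g B B' Γ ω hω, c5t_E_cc g B B' Γ hΓ ω hω,
    c5t_E_ec g B B' Γ hΓ ω hω, c5t_E_ec g B' B Γ hΓ ω hω]
  unfold c5tE
  push_cast
  ring

/-- symmetrisation -/
theorem c5t_symm (g : Grid G) (R : ℕ) (E : g.I → g.I → ℝ) :
    ∑ B : g.I, ∑ B' : g.I, (if R < g.idist B B' then 1 / 2 * E B B' + 1 / 2 * E B' B else 0)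
      = ∑ B : g.I, ∑ B' : g.I, if R < g.idist B B' then E B B' else 0 := by
  have h1 : ∀ B B' : g.I, (if R < g.idist B B' then 1 / 2 * E B B' + 1 / 2 * E B' B else 0)
      = 1 / 2 * (if R < g.idist B B' then E B B' else 0) + 1 / 2 * (if R < g.idist B' B then E B' B else 0) := by
    intro B B'
    rw [Alg.idist_comm g B' B]
    split_ifs
    · rfl
    · simp
  simp only [h1, Finset.sum_add_distrib]
  rw [Finset.sum_comm (f := fun B B' => 1 / 2 * (if R < g.idist B' B then E B' B else 0))]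
  simp only [← Finset.mul_sum]
  ring

theorem c5t_coeff2_one (g : Grid G) (R : ℕ) (Γ : Matrix G.V G.V ℝ) (hΓ : Γ.PosSemidef) (ω : ℝ) (hω : 0 < ω) :
    (gasPoly g R (2 * Real.pi / ω) Γ ω 1 1 1 0).coeff 2
      = ((((g.m : ℝ) ^ 2)⁻¹ * (∑ x : G.V, Real.exp (-(2 * Real.pi / ω) ^ 2 * Γ x x / 2) / 2 *
          ∑ B : g.I, if R < g.idist B (g.blk x) then (meanE g Γ B - (2 * Real.pi / ω) ^ 2 * eB g B (fun v => Γ v x)) / 2 else 0) : ℝ) : ℂ) := by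
  rw [c53g_gas_coeff2]
  simp only [c5t_E_pair g _ _ Γ hΓ ω hω]
  have e1 : ∀ B B' : g.I, (if R < g.idist B B' then ((1 / 2 * c5tE g Γ ω B B' + 1 / 2 * c5tE g Γ ω B' B : ℝ) : ℂ) else 0)
      = ((if R < g.idist B B' then 1 / 2 * c5tE g Γ ω B B' + 1 / 2 * c5tE g Γ ω B' B else 0 : ℝ) : ℂ) := by
    intro B B'
    split_ifs
    · rfl
    · simp
  simp only [e1, ← Complex.ofReal_sum]
  rw [c5t_symm g R (c5tE g Γ ω)]
  have e2 : (1 / 2 : ℂ) = ((1 / 2 : ℝ) : ℂ) := by push_cast; rfl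
  rw [e2, ← Complex.ofReal_mul]
  congr 1
  rw [Finset.sum_comm]
  unfold c5tE
  have e3 : ∀ B' B : g.I, (if R < g.idist B B' then ((g.m : ℝ) ^ 2)⁻¹ * ∑ x ∈ g.sites {B'},
        (meanE g Γ B - (2 * Real.pi / ω) ^ 2 * eB g B (fun v => Γ v x)) * Real.exp (-(2 * Real.pi / ω) ^ 2 * Γ x x / 2) / 2 else 0)
      = ∑ x ∈ g.sites {B'}, if R < g.idist B B' then ((g.m : ℝ) ^ 2)⁻¹ *
        ((meanE g Γ B - (2 * Real.pi / ω) ^ 2 * eB g B (fun v => Γ v x)) * Real.exp (-(2 * Real.pi / ω) ^ 2 * Γ x x / 2) / 2) else 0 := by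
    intro B' B
    split_ifs
    · rw [Finset.mul_sum]
    · simp
  simp only [e3]
  have e4 : ∀ B' : g.I, ∑ B : g.I, ∑ x ∈ g.sites {B'}, (if R < g.idist B B' then ((g.m : ℝ) ^ 2)⁻¹ *
        ((meanE g Γ B - (2 * Real.pi / ω) ^ 2 * eB g B (fun v => Γ v x)) * Real.exp (-(2 * Real.pi / ω) ^ 2 * Γ x x / 2) / 2) else 0)
      = ∑ x ∈ g.sites {B'}, ∑ B : g.I, (if R < g.idist B B' then ((g.m : ℝ) ^ 2)⁻¹ *
        ((meanE g Γ B - (2 * Real.pi / ω) ^ 2 * eB g B (fun v => Γ v x)) * Real.exp (-(2 * Real.pi / ω) ^ 2 * Γ x x / 2) / 2) else 0) :=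
    fun B' => Finset.sum_comm
  simp only [e4]
  rw [c53g_sum_sites g (fun B' x => ∑ B : g.I, (if R < g.idist B B' then ((g.m : ℝ) ^ 2)⁻¹ *
        ((meanE g Γ B - (2 * Real.pi / ω) ^ 2 * eB g B (fun v => Γ v x)) * Real.exp (-(2 * Real.pi / ω) ^ 2 * Γ x x / 2) / 2) else 0)),
    Finset.mul_sum, Finset.mul_sum]
  refine Finset.sum_congr rfl fun x _ => ?_
  rw [Finset.mul_sum, Finset.mul_sum, Finset.mul_sum]
  refine Finset.sum_congr rfl fun B _ => ?_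
  split_ifs
  · ring
  · simp

theorem c5t_eval (g : Grid G) (R : ℕ) (Γ : Matrix G.V G.V ℝ) (hΓ : Γ.PosSemidef) (ω : ℝ) (hω : 0 < ω) (s : ℂ) (q : ℤ) :
    Eter G Γ ω q (ZA g R (single g (2 * Real.pi / ω) s s)) 0 = (gasPoly g R (2 * Real.pi / ω) Γ ω 1 1 q 0).eval s := by
  rw [← c53g_gas_eval g R (2 * Real.pi / ω) Γ hΓ ω hω 1 1 s q 0]
  congr 1
  funext ζ
  rw [ZA_single]
  unfold sepSets
  simp only [mul_one]

end c5t

/-- the coefficient vector of the lattice derivative `∇_e z (v)` -/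
def dvec (G : Geom) (v : G.V) (e : Fin 4) : G.V → ℝ := fun u => (if u = G.π (G.ι v + dir e) then 1 else 0) - (if u = v then 1 else 0)

theorem c53t_eqns_cite : True := by
  have := @dvec.eq_1; trivial

/-- LEAF `L53-T0` -/
theorem c53t_dvec_sum (v : G.V) (e : Fin 4) : ∑ u, dvec G v e u = 0 := by
  exact c5t_A_sum v e

/-- LEAF `L53-T0` -/
theorem c53t_dif (z : G.V → ℂ) (v : G.V) (e : Fin 4) : dif (dir e) (G.lift z) (G.ι v) = ∑ u, (dvec G v e u : ℂ) * z u := by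
  exact (c5t_A_lin v e z).symm

/-- LEAF `L53-T0` (real fields) -/
theorem c53t_difR (φ : G.V → ℝ) (v : G.V) (e : Fin 4) : dif (dir e) (G.lift φ) (G.ι v) = dvec G v e ⬝ᵥ φ := by
  exact (c5t_A_dot v e φ).symm

/-- LEAF `L53-T1`: `Eter_char_quad` with `n = 0` -/
theorem c53t_Eter_e (g : Grid G) (Γ : Matrix G.V G.V ℝ) (hΓ : Γ.PosSemidef) (ω : ℝ) (hω : 0 < ω) (q : ℤ) (B : g.I) :
    Eter G Γ ω q (eBC g B) 0 = if q = 0 then (meanE g Γ B : ℂ) else 0 := by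
  rw [c5t_E_e g B Γ hΓ ω hω q]
  by_cases h : q = 0
  · rw [if_pos h, if_pos h.symm]
  · rw [if_neg h, if_neg fun h' => h h'.symm]

/-- LEAF `L53-T2`: `c53z_cos_eq`, `c53z_Eter_two` -/
theorem c53t_Eter_c (g : Grid G) (Γ : Matrix G.V G.V ℝ) (hΓ : Γ.PosSemidef) (ω : ℝ) (hω : 0 < ω) (B : g.I) :
    Eter G Γ ω 0 (cBC g (2 * Real.pi / ω) B) 0 = 0 ∧
    Eter G Γ ω 1 (cBC g (2 * Real.pi / ω) B) 0
      = ((((g.m : ℝ) ^ 2)⁻¹ * ∑ x ∈ g.sites {B}, Real.exp (-(2 * Real.pi / ω) ^ 2 * Γ x x / 2) / 2 : ℝ) : ℂ) := by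
  exact ⟨c5t_E_c0 g B Γ hΓ ω hω, c5t_E_c1 g B Γ hΓ ω hω⟩

/-- LEAF `L53-T3`: `e_B e_B'` is invariant under constant shifts (`c53g_Eter_charge` with `N = 0`) -/
theorem c53t_Eter_ee (g : Grid G) (Γ : Matrix G.V G.V ℝ) (ω : ℝ) (hω : 0 < ω) (B B' : g.I) :
    Eter G Γ ω 1 (fun ζ => eBC g B ζ * eBC g B' ζ) 0 = 0 := by
  exact c5t_E_ee g B B' Γ ω hω

/-- LEAF `L53-T3`: charges `0, ± 2` only (`c53z_coscos_eq`, `c53z_Eter_two`) -/
theorem c53t_Eter_cc (g : Grid G) (Γ : Matrix G.V G.V ℝ) (hΓ : Γ.PosSemidef) (ω : ℝ) (hω : 0 < ω) (B B' : g.I) :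
    Eter G Γ ω 1 (fun ζ => cBC g (2 * Real.pi / ω) B ζ * cBC g (2 * Real.pi / ω) B' ζ) 0 = 0 := by
  exact c5t_E_cc g B B' Γ hΓ ω hω

/-- LEAF `L53-T4`: `Eter_char_quad` with `n = ± δ_x` -/
theorem c53t_Eter_ec (g : Grid G) (Γ : Matrix G.V G.V ℝ) (hΓ : Γ.PosSemidef) (ω : ℝ) (hω : 0 < ω) (B B' : g.I) :
    Eter G Γ ω 1 (fun ζ => eBC g B ζ * cBC g (2 * Real.pi / ω) B' ζ) 0
      = ((((g.m : ℝ) ^ 2)⁻¹ * ∑ x ∈ g.sites {B'}, Real.exp (-(2 * Real.pi / ω) ^ 2 * Γ x x / 2) / 2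
          * (meanE g Γ B - (2 * Real.pi / ω) ^ 2 * eB g B (fun v => Γ v x)) : ℝ) : ℂ) := by
  rw [c5t_E_ec g B B' Γ hΓ ω hω]
  congr 2
  refine Finset.sum_congr rfl fun x _ => ?_
  ring

/-- **(C), `tz`** -/
theorem gas_tz {G : Geom} (g : Grid G) (hg : g.Ok) (R : ℕ) (ω : ℝ) (hω : 0 < ω) (Γ : Matrix G.V G.V ℝ) (hΓ : Γ.PosSemidef) :
    ∃ Kc : ℝ, ∀ᶠ s : ℂ in 𝓝 0,
      ‖Eter G Γ ω 1 (ZA g R (single g (Step.alpha ω) s s)) 0 / Eter G Γ ω 0 (ZA g R (single g (Step.alpha ω) s s)) 0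
          - ((P1G g (Step.alpha ω) Γ : ℝ) * s + (P2G g R (Step.alpha ω) Γ : ℝ) * s ^ 2)‖ ≤ Kc * ‖s‖ ^ 3 := by
  have hα : Step.alpha ω = 2 * Real.pi / ω := rfl
  rw [hα]
  obtain ⟨Kc, hK⟩ := c53g_ratio (gasPoly g R (2 * Real.pi / ω) Γ ω 1 1 0 0) (gasPoly g R (2 * Real.pi / ω) Γ ω 1 1 1 0)
    (by rw [c53g_gas_coeff0 g R _ Γ ω hω, if_pos rfl]) (by rw [c53g_gas_coeff0 g R _ Γ ω hω, if_neg (by norm_num)])
  refine ⟨Kc, hK.mono fun s hs => ?_⟩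
  rw [c5t_eval g R Γ hΓ ω hω, c5t_eval g R Γ hΓ ω hω]
  rw [c5t_coeff1_one g R Γ hΓ ω hω, c5t_coeff1_zero g R Γ hΓ ω hω, c5t_coeff2_one g R Γ hΓ ω hω] at hs
  have e : ((P2G g R (2 * Real.pi / ω) Γ : ℝ) : ℂ)
      = ((((g.m : ℝ) ^ 2)⁻¹ * (∑ x : G.V, Real.exp (-(2 * Real.pi / ω) ^ 2 * Γ x x / 2) / 2 *
          ∑ B : g.I, if R < g.idist B (g.blk x) then (meanE g Γ B - (2 * Real.pi / ω) ^ 2 * eB g B (fun v => Γ v x)) / 2 else 0) : ℝ) : ℂ)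
        - (((1 / 2) * ∑ B : g.I, meanE g Γ B : ℝ) : ℂ) * ((P1G g (2 * Real.pi / ω) Γ : ℝ) : ℂ) := by
    rw [← Complex.ofReal_mul, ← Complex.ofReal_sub]
    congr 1
    unfold P2G
    rw [mul_comm (P1G g (2 * Real.pi / ω) Γ)]
  rw [e]
  exact hs

/-- the gas functional is even -/
theorem c53e_Z_neg {G : Geom} (g : Grid G) (R : ℕ) (α : ℝ) (t z : ℂ) (ζ : G.V → ℂ) :
    ZA g R (single g α t z) (-ζ) = ZA g R (single g α t z) ζ := by
  rw [ZA_single, ZA_single]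
  refine Finset.sum_congr rfl fun V _ => Finset.prod_congr rfl fun B _ => ?_
  rw [w_eBC_neg, w_cBC_neg]

/-- the gas functional is `ω`-periodic in the common phase -/
theorem c53e_Z_per {G : Geom} (g : Grid G) (R : ℕ) (ω : ℝ) (hω : 0 < ω) (t z : ℂ) (ζ : G.V → ℂ) :
    ZA g R (single g (Step.alpha ω) t z) (fun v => ζ v + (ω : ℂ)) = ZA g R (single g (Step.alpha ω) t z) ζ := by
  rw [ZA_single, ZA_single]
  refine Finset.sum_congr rfl fun V _ => Finset.prod_congr rfl fun B _ => ?_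
  rw [w_eBC_const]
  have h1 := w_cBC_half g ω hω B (fun v => ζ v + ((ω / 2 : ℝ) : ℂ))
  have h2 := w_cBC_half g ω hω B ζ
  have e : (fun v => ζ v + (ω : ℂ)) = fun v => (ζ v + ((ω / 2 : ℝ) : ℂ)) + ((ω / 2 : ℝ) : ℂ) := by
    funext v
    push_cast
    ring
  rw [e, h1, h2, neg_neg]

/-- **(C), the two fundamental charges agree** (LEAF `L53-C6`).  `Z = ZA (single t z)` is even and `ω`-periodic (`ZA_single`; `e_B^0`, `c_B^α` are), the Gaussian measure is symmetric (`Reg.reg_gauss_neg`): `H θ = conv Γ Z θ` is even and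
`ω`-periodic; `θ ↦ -θ` (`intervalIntegral.integral_comp_neg`) and `Function.Periodic.intervalIntegral_add_eq`.  No integrability is needed. -/
theorem gas_even {G : Geom} (g : Grid G) (R : ℕ) (ω : ℝ) (hω : 0 < ω) (Γ : Matrix G.V G.V ℝ) (hΓ : Γ.PosSemidef) (t z : ℂ) :
    Eter G Γ ω (-1) (ZA g R (single g (Step.alpha ω) t z)) 0 = Eter G Γ ω 1 (ZA g R (single g (Step.alpha ω) t z)) 0 := by
  obtain ⟨H, hH⟩ : ∃ H : ℝ → ℂ, H = fun θ : ℝ => conv Γ (ZA g R (single g (Step.alpha ω) t z)) (fun v => (0 : G.V → ℂ) v + (θ : ℂ)) := ⟨_, rfl⟩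
  have hneg : ∀ θ, H (-θ) = H θ := by
    intro θ
    rw [hH]
    simp only [conv]
    have hm : (gauss G Γ).map (MeasurableEquiv.neg (G.V → ℝ)) = gauss G Γ := Reg.reg_gauss_neg hΓ
    conv_rhs => rw [← hm]
    rw [integral_map_equiv]
    refine integral_congr_ae (Eventually.of_forall fun ζ => ?_)
    simp only
    rw [← c53e_Z_neg]
    refine congrArg _ ?_
    funext v
    simp [toC]
    ring
  have hper : ∀ θ : ℝ, H (θ + ω) = H θ := by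
    intro θ
    rw [hH]
    simp only [conv]
    refine integral_congr_ae (Eventually.of_forall fun ζ => ?_)
    simp only
    rw [← c53e_Z_per g R ω hω t z ((fun v => (0 : G.V → ℂ) v + (θ : ℂ)) + toC ζ)]
    refine congrArg _ ?_
    funext v
    simp only [Pi.add_apply]
    push_cast
    ring
  have hF : Function.Periodic (fun θ : ℝ => Complex.exp (-(Complex.I * ((1 : ℤ) : ℂ) * ((2 * Real.pi / ω : ℝ) : ℂ) * θ)) * H θ) ω := by
    intro θ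
    simp only
    rw [hper θ]
    congr 1
    have hω' : (ω : ℂ) ≠ 0 := by exact_mod_cast hω.ne'
    have e : -(Complex.I * ((1 : ℤ) : ℂ) * ((2 * Real.pi / ω : ℝ) : ℂ) * ((θ + ω : ℝ) : ℂ))
        = -(Complex.I * ((1 : ℤ) : ℂ) * ((2 * Real.pi / ω : ℝ) : ℂ) * θ) - 2 * Real.pi * Complex.I := by
      push_cast
      field_simp
      ring
    rw [e, Complex.exp_sub, Complex.exp_two_pi_mul_I, div_one]
  unfold Eter
  congr 1
  calc ∫ θ in (0 : ℝ)..ω, Complex.exp (-(Complex.I * ((-1 : ℤ) : ℂ) * ((2 * Real.pi / ω : ℝ) : ℂ) * θ))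
          * conv Γ (ZA g R (single g (Step.alpha ω) t z)) (fun v => (0 : G.V → ℂ) v + (θ : ℂ))
      = ∫ θ in (0 : ℝ)..ω, (fun θ' : ℝ => Complex.exp (-(Complex.I * ((1 : ℤ) : ℂ) * ((2 * Real.pi / ω : ℝ) : ℂ) * θ')) * H θ') (-θ) := by
        refine intervalIntegral.integral_congr fun θ _ => ?_
        simp only [hneg]
        rw [hH]
        congr 2
        push_cast
        ring
    _ = ∫ θ in (-ω)..(-0), Complex.exp (-(Complex.I * ((1 : ℤ) : ℂ) * ((2 * Real.pi / ω : ℝ) : ℂ) * θ)) * H θ :=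
        intervalIntegral.integral_comp_neg (fun θ' : ℝ => Complex.exp (-(Complex.I * ((1 : ℤ) : ℂ) * ((2 * Real.pi / ω : ℝ) : ℂ) * θ')) * H θ')
    _ = ∫ θ in (-ω)..(-ω + ω), Complex.exp (-(Complex.I * ((1 : ℤ) : ℂ) * ((2 * Real.pi / ω : ℝ) : ℂ) * θ)) * H θ := by
        rw [neg_zero, neg_add_cancel]
    _ = ∫ θ in (0 : ℝ)..(0 + ω), Complex.exp (-(Complex.I * ((1 : ℤ) : ℂ) * ((2 * Real.pi / ω : ℝ) : ℂ) * θ)) * H θ :=
        hF.intervalIntegral_add_eq _ _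
    _ = _ := by
        rw [zero_add, hH]

end

end Claimed.Agent.R285.B8
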