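import Claimed.Agent.R285.Map.PackA

/-!
# ROW 285, post BP-MAP-PACK, file B: the operators, one step on the plane and on the tori      (architect helper114)

PLAN OF THE WHOLE PACKAGE: header of `R285/Map/PackC.lean`.  PAPER-FREE: the only inputs are the contracts `B8.WeakOK` (fields `proj`, `contr`, `quad`, `adm`, `conj`, `cst`, `exact`, `parity`, `hol`),
`B8.weak_copy`, `B8.weak_cut` and file A.

* s.3 `PackIn` = the hypotheses on a tower (all steps `WeakOK` with the same constants, all pairs of steps `StepCopy`); the CANONICAL operators `Pack.ops`: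
  `σ`, `σT` = half-period translations, `cj` = conjugation, and `Pt, Pz, Cc` := the blocks of the FRÉCHET DERIVATIVE of `Φ_j` at `0` (`dPt`, `dPz`, `dCc`; no linearity of `Step.Pt`, `Step.Pz`, `Step.Clin` is needed).
* s.4 one step on one torus in real numbers (`pk_weak_real`).
* s.5 the plane step: `pk_plane_step`, `pk_Phi_line`, `pk_Phi_an`, `pk_Phi_par`, `pk_Phi_real`.
* s.6 the torus step: `pk_torus_step`, `pk_Psi_an`, `pk_Psi_par`, `pk_exact`; copying: `pk_copy`.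

LEAVES (subtasks `L-PK-B*`), one per block `/-! ### LEAF .. -/`.
-/

set_option autoImplicit false

namespace Claimed.Agent.R285.Pack

open scoped BigOperators ENNReal NNReal
open Claimed.Agent.R285.RG Claimed.Agent.R285.B8

noncomputable section

/-! ## 3. Hypotheses, operators -/

/-- **the hypotheses of the packaging** on a tower of tori; `θ, C, ε0` = the constants of `WeakOK`.
GENERIC IN `K.cosOn` (helper75, for [C] s5): for `cosOn = false` (no cosine coordinate, `weak_step_gapped`) all statements are restricted to states with `z = 0` (hypotheses `hz`); `WeakOK.quad` is the only field which needs it. -/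
structure PackIn (K : Cfg) (𝓡 : Reg K.s) (j0 : ℕ) (θ C ε0 : ℝ≥0) : Prop where
  hA : 0 < K.p.A
  /-- (`weak_copy`, `weak_cut` need `0 < ω`, `0 < h₀`, `1 ≤ A`, `pp + 4 ≤ c0`: helper21 18:00Z) -/
  hω : 0 < K.p.ω
  hh : 0 < K.p.h0
  hA1 : 1 ≤ K.p.A
  cpp : pp + 4 ≤ K.c0
  geo : K.c.Ok
  c0 : 2 * (K.c.ρ + 4) ≤ K.c0
  /-- wrapping around a torus cannot connect an unwrapped polymer -/
  cR : K.c.R ≤ K.c0
  hℓ : K.c.R * K.c.n0 ≤ 2 ^ K.s.ℓ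
  hD : 2 * K.c0 + 4 ≤ K.s.D0 - 1
  hε : 0 < ε0
  tower : K.TowerOK 𝓡 j0
  weak : ∀ h j, j0 ≤ j → ∀ hj : j < h, WeakOK K.c K.p (𝓡.gs h) (K.step 𝓡 h j hj) K.cosOn θ C ε0
  scopy : ∀ h h' j, j0 ≤ j → ∀ (hj : j < h) (hj' : j < h'), StepCopy (K.step 𝓡 h j hj) (K.step 𝓡 h' j hj')
  /-- the multiplier is the same on all tori -/
  lamc : ∀ h j, j0 ≤ j → ∀ hj : j < h, (K.step 𝓡 h j hj).lam K.p.ω = K.lam 𝓡 j

variable (K : Cfg) (𝓡 : Reg K.s)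

open Classical in
/-- the half-period translation of plane remainders -/
def sig (j : ℕ) : K.Pl 𝓡 j →L[ℂ] K.Pl 𝓡 j :=
  if h : ∃ T : K.Pl 𝓡 j →L[ℂ] K.Pl 𝓡 j, ∀ a i, K.plAct 𝓡 (T a) i = halfShift K.p.ω (K.plAct 𝓡 a i) then h.choose else 0

open Classical in
/-- the half-period translation of torus remainders -/
def sigT (j h : ℕ) : K.To 𝓡 j h →L[ℂ] K.To 𝓡 j h :=
  if hx : ∃ T : K.To 𝓡 j h →L[ℂ] K.To 𝓡 j h, ∀ a, K.toAct 𝓡 (T a) = halfShift K.p.ω (K.toAct 𝓡 a) then hx.choose else 0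

/-- complex conjugation of plane remainders -/
def cjg (j : ℕ) (a : K.Pl 𝓡 j) : K.Pl 𝓡 j := K.plMk 𝓡 j fun i => conjAct (K.plAct 𝓡 a i)

/-- **the canonical operators** -/
def ops : K.Ops 𝓡 where
  Pt := fun j => dPt (K.Phi 𝓡 j)
  Pz := fun j => dPz (K.Phi 𝓡 j)
  Cc := fun j => dCc (K.Phi 𝓡 j)
  σ := sig K 𝓡
  cj := cjg K 𝓡
  σT := sigT K 𝓡

/-! ### LEAF B3-S: `σ`, `σT`
PLAN.  Existence of `T`: `T a := plMk j (fun i => halfShift ω (plAct a i))`; `pk_plMk_spec` applies by `pk_plAct_spec`, `pk_cls_halfShift`, `pk_copy_halfShift`, `pk_actNorm_halfShift_le` (wrapped polymers: `halfShift ω K X = 0` if `K X = 0`);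
both sides are normalised, so `EqOn` is `=` (`pk_eq_of_eqOn`); additivity and homogeneity by `pk_pl_ext`, `pk_plAct_add/smul`, `pk_halfShift_add/smul`; `LinearMap.mkContinuous _ 1`. -/

theorem pk_B3S_hs_zero {G : Geom} {g : Grid G} (ω : ℝ) (A : Act g) (X : Finset g.I) (h : A X = 0) : halfShift ω A X = 0 := by
  funext z
  show A X _ = 0
  rw [h]
  rfl

/-- the candidate for `σ` -/
theorem pk_B3S_mk (hA : 0 < K.p.A) (j : ℕ) (a : K.Pl 𝓡 j) :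
    (∀ i, K.plAct 𝓡 (K.plMk 𝓡 j fun i => halfShift K.p.ω (K.plAct 𝓡 a i)) i = halfShift K.p.ω (K.plAct 𝓡 a i)) ∧
      ‖K.plMk 𝓡 j fun i => halfShift K.p.ω (K.plAct 𝓡 a i)‖ ≤ ‖a‖ := by
  obtain ⟨s1, s2, s3, -, s5⟩ := pk_plAct_spec K 𝓡 hA a
  obtain ⟨e, n⟩ := pk_plMk_spec K 𝓡 hA j (fun i => halfShift K.p.ω (K.plAct 𝓡 a i))
    (fun i => pk_cls_halfShift (s1 i))
    (fun i X hX => pk_B3S_hs_zero K.p.ω _ X (s2 i X hX))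
    (fun i i' => pk_copy_halfShift K.p.ω (s3 i i')) ‖a‖ (norm_nonneg _)
    (fun i => (pk_actNorm_halfShift_le K.p _ _ K.p.ω _).trans (s5 i))
  exact ⟨fun i => pk_eq_of_eqOn (e i) (pk_plAct_nrm K 𝓡 _ i) (pk_nrm_halfShift K.p.ω (pk_plAct_nrm K 𝓡 a i)), n⟩

theorem pk_B3S_ex (hA : 0 < K.p.A) (j : ℕ) :
    ∃ T : K.Pl 𝓡 j →L[ℂ] K.Pl 𝓡 j, ∀ a i, K.plAct 𝓡 (T a) i = halfShift K.p.ω (K.plAct 𝓡 a i) := by
  refine ⟨LinearMap.mkContinuous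
    { toFun := fun a => K.plMk 𝓡 j fun i => halfShift K.p.ω (K.plAct 𝓡 a i)
      map_add' := fun a b => ?_
      map_smul' := fun c a => ?_ } 1 (fun a => ?_), fun a i => ?_⟩
  · refine pk_pl_ext K 𝓡 hA _ _ fun i => ?_
    rw [(pk_B3S_mk K 𝓡 hA j (a + b)).1 i, pk_plAct_add, pk_plAct_add, (pk_B3S_mk K 𝓡 hA j a).1 i,
      (pk_B3S_mk K 𝓡 hA j b).1 i, pk_halfShift_add]
    exact pk_eqOn_refl _ _
  · refine pk_pl_ext K 𝓡 hA _ _ fun i => ?_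
    rw [RingHom.id_apply, (pk_B3S_mk K 𝓡 hA j (c • a)).1 i, pk_plAct_smul, pk_plAct_smul,
      (pk_B3S_mk K 𝓡 hA j a).1 i, pk_halfShift_smul]
    exact pk_eqOn_refl _ _
  · rw [one_mul]
    exact (pk_B3S_mk K 𝓡 hA j a).2
  · exact (pk_B3S_mk K 𝓡 hA j a).1 i

theorem pk_sig_act (hA : 0 < K.p.A) (j : ℕ) (a : K.Pl 𝓡 j) (i : 𝓡.Ix j) :
    K.plAct 𝓡 (sig K 𝓡 j a) i = halfShift K.p.ω (K.plAct 𝓡 a i) := by
  have h := pk_B3S_ex K 𝓡 hA j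
  unfold sig
  rw [dif_pos h]
  exact h.choose_spec a i

theorem pk_sig_inv (hA : 0 < K.p.A) (j : ℕ) (a : K.Pl 𝓡 j) : sig K 𝓡 j (sig K 𝓡 j a) = a := by
  refine pk_pl_ext K 𝓡 hA _ _ fun i => ?_
  rw [pk_sig_act K 𝓡 hA, pk_sig_act K 𝓡 hA]
  exact pk_halfShift_halfShift ((pk_plAct_spec K 𝓡 hA a).1 i).ok

theorem pk_sig_bd (hA : 0 < K.p.A) (j : ℕ) (a : K.Pl 𝓡 j) : ‖sig K 𝓡 j a‖ ≤ ‖a‖ := by
  refine (pk_pl_norm_le K 𝓡 hA _ ‖a‖ (norm_nonneg _)).2 fun i => ?_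
  rw [pk_sig_act K 𝓡 hA]
  exact (pk_actNorm_halfShift_le K.p _ _ K.p.ω _).trans ((pk_plAct_spec K 𝓡 hA a).2.2.2.2 i)

/-- the candidate for `σT` -/
theorem pk_B3S_mkT (hA : 0 < K.p.A) (j h : ℕ) (a : K.To 𝓡 j h) :
    K.toAct 𝓡 (K.toMk 𝓡 j h (halfShift K.p.ω (K.toAct 𝓡 a))) = halfShift K.p.ω (K.toAct 𝓡 a) ∧
      ‖K.toMk 𝓡 j h (halfShift K.p.ω (K.toAct 𝓡 a))‖ ≤ ‖a‖ := by
  obtain ⟨s1, -, s3⟩ := pk_toAct_spec K 𝓡 hA a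
  obtain ⟨e, n⟩ := pk_toMk_spec K 𝓡 hA j h (halfShift K.p.ω (K.toAct 𝓡 a)) (pk_cls_halfShift s1) ‖a‖ (norm_nonneg _)
    ((pk_actNorm_halfShift_le K.p _ _ K.p.ω _).trans s3.le)
  exact ⟨pk_eq_of_eqOn e (pk_toAct_nrm K 𝓡 _) (pk_nrm_halfShift K.p.ω (pk_toAct_nrm K 𝓡 a)), n⟩

theorem pk_B3S_exT (hA : 0 < K.p.A) (j h : ℕ) :
    ∃ T : K.To 𝓡 j h →L[ℂ] K.To 𝓡 j h, ∀ a, K.toAct 𝓡 (T a) = halfShift K.p.ω (K.toAct 𝓡 a) := by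
  refine ⟨LinearMap.mkContinuous
    { toFun := fun a => K.toMk 𝓡 j h (halfShift K.p.ω (K.toAct 𝓡 a))
      map_add' := fun a b => ?_
      map_smul' := fun c a => ?_ } 1 (fun a => ?_), fun a => ?_⟩
  · refine pk_to_ext K 𝓡 hA _ _ ?_
    rw [(pk_B3S_mkT K 𝓡 hA j h (a + b)).1, pk_toAct_add, pk_toAct_add, (pk_B3S_mkT K 𝓡 hA j h a).1,
      (pk_B3S_mkT K 𝓡 hA j h b).1, pk_halfShift_add]
    exact pk_eqOn_refl _ _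
  · refine pk_to_ext K 𝓡 hA _ _ ?_
    rw [RingHom.id_apply, (pk_B3S_mkT K 𝓡 hA j h (c • a)).1, pk_toAct_smul, pk_toAct_smul,
      (pk_B3S_mkT K 𝓡 hA j h a).1, pk_halfShift_smul]
    exact pk_eqOn_refl _ _
  · rw [one_mul]
    exact (pk_B3S_mkT K 𝓡 hA j h a).2
  · exact (pk_B3S_mkT K 𝓡 hA j h a).1

theorem pk_sigT_act (hA : 0 < K.p.A) (j h : ℕ) (a : K.To 𝓡 j h) : K.toAct 𝓡 (sigT K 𝓡 j h a) = halfShift K.p.ω (K.toAct 𝓡 a) := by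
  have hx := pk_B3S_exT K 𝓡 hA j h
  unfold sigT
  rw [dif_pos hx]
  exact hx.choose_spec a

theorem pk_sigT_inv (hA : 0 < K.p.A) (j h : ℕ) (a : K.To 𝓡 j h) : sigT K 𝓡 j h (sigT K 𝓡 j h a) = a := by
  refine pk_to_ext K 𝓡 hA _ _ ?_
  rw [pk_sigT_act K 𝓡 hA, pk_sigT_act K 𝓡 hA]
  exact pk_halfShift_halfShift (pk_toAct_spec K 𝓡 hA a).1.ok

theorem pk_B3S_leT (hA : 0 < K.p.A) (j h : ℕ) (a : K.To 𝓡 j h) : ‖sigT K 𝓡 j h a‖ ≤ ‖a‖ := by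
  have h1 := (pk_toAct_spec K 𝓡 hA (sigT K 𝓡 j h a)).2.2
  have h2 := (pk_toAct_spec K 𝓡 hA a).2.2
  rw [pk_sigT_act K 𝓡 hA] at h1
  have h3 := pk_actNorm_halfShift_le K.p (K.s.lev h j) (𝓡.V h j) K.p.ω (K.toAct 𝓡 a)
  rw [h1, h2] at h3
  exact (ENNReal.ofReal_le_ofReal_iff (norm_nonneg _)).1 h3

theorem pk_sigT_iso (hA : 0 < K.p.A) (j h : ℕ) (a : K.To 𝓡 j h) : ‖sigT K 𝓡 j h a‖ = ‖a‖ := by
  refine le_antisymm (pk_B3S_leT K 𝓡 hA j h a) ?_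
  have := pk_B3S_leT K 𝓡 hA j h (sigT K 𝓡 j h a)
  rwa [pk_sigT_inv K 𝓡 hA] at this

/-! ### LEAF B3-C: `cj` (same plan with `pk_cls_conjAct`, `pk_copy_conjAct`, `pk_actNorm_conjAct_le`, `pk_conjAct_*`) -/

theorem pk_B3C_zero {G : Geom} {g : Grid G} (A : Act g) (X : Finset g.I) (h : A X = 0) : conjAct A X = 0 := by
  funext z
  show starRingEnd ℂ (A X _) = 0
  rw [h]
  exact map_zero _

/-- the candidate for `cj` -/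
theorem pk_B3C_mk (hA : 0 < K.p.A) (j : ℕ) (a : K.Pl 𝓡 j) :
    (∀ i, K.plAct 𝓡 (cjg K 𝓡 j a) i = conjAct (K.plAct 𝓡 a i)) ∧ ‖cjg K 𝓡 j a‖ ≤ ‖a‖ := by
  obtain ⟨s1, s2, s3, -, s5⟩ := pk_plAct_spec K 𝓡 hA a
  obtain ⟨e, n⟩ := pk_plMk_spec K 𝓡 hA j (fun i => conjAct (K.plAct 𝓡 a i))
    (fun i => pk_cls_conjAct (s1 i))
    (fun i X hX => pk_B3C_zero _ X (s2 i X hX))
    (fun i i' => pk_copy_conjAct (s3 i i')) ‖a‖ (norm_nonneg _)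
    (fun i => (pk_actNorm_conjAct_le K.p _ _ _).trans (s5 i))
  exact ⟨fun i => pk_eq_of_eqOn (e i) (pk_plAct_nrm K 𝓡 _ i) (pk_nrm_conjAct (pk_plAct_nrm K 𝓡 a i)), n⟩

theorem pk_cjg_act (hA : 0 < K.p.A) (j : ℕ) (a : K.Pl 𝓡 j) (i : 𝓡.Ix j) :
    K.plAct 𝓡 (cjg K 𝓡 j a) i = conjAct (K.plAct 𝓡 a i) :=
  (pk_B3C_mk K 𝓡 hA j a).1 i

theorem pk_cjg_add (hA : 0 < K.p.A) (j : ℕ) (a b : K.Pl 𝓡 j) : cjg K 𝓡 j (a + b) = cjg K 𝓡 j a + cjg K 𝓡 j b := by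
  refine pk_pl_ext K 𝓡 hA _ _ fun i => ?_
  rw [pk_cjg_act K 𝓡 hA, pk_plAct_add, pk_plAct_add, pk_cjg_act K 𝓡 hA, pk_cjg_act K 𝓡 hA, pk_conjAct_add]
  exact pk_eqOn_refl _ _

theorem pk_cjg_smul (hA : 0 < K.p.A) (j : ℕ) (c : ℂ) (a : K.Pl 𝓡 j) : cjg K 𝓡 j (c • a) = starRingEnd ℂ c • cjg K 𝓡 j a := by
  refine pk_pl_ext K 𝓡 hA _ _ fun i => ?_
  rw [pk_cjg_act K 𝓡 hA, pk_plAct_smul, pk_plAct_smul, pk_cjg_act K 𝓡 hA, pk_conjAct_smul]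
  exact pk_eqOn_refl _ _

theorem pk_cjg_inv (hA : 0 < K.p.A) (j : ℕ) (a : K.Pl 𝓡 j) : cjg K 𝓡 j (cjg K 𝓡 j a) = a := by
  refine pk_pl_ext K 𝓡 hA _ _ fun i => ?_
  rw [pk_cjg_act K 𝓡 hA, pk_cjg_act K 𝓡 hA, pk_conjAct_conjAct]
  exact pk_eqOn_refl _ _

theorem pk_cjg_bd (hA : 0 < K.p.A) (j : ℕ) (a : K.Pl 𝓡 j) : ‖cjg K 𝓡 j a‖ ≤ ‖a‖ :=
  (pk_B3C_mk K 𝓡 hA j a).2

/-! ## 4. One step on one torus, in real numbers -/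

/-! ### LEAF B4 -/

section one

variable {G : Geom} {D0 ℓ : ℕ} {c : Geo} {p : Par} {gs : Grid G} {S : Step G D0 ℓ} {cosOn : Bool} {θ C ε0 : ℝ≥0}

theorem pk_size3_le (g : Grid G) (V : Extra g) (t z : ℂ) (R : Act g) (n : ℝ) (ht : ‖t‖ ≤ n) (hz : ‖z‖ ≤ n)
    (hR : actNorm p g V R ≤ ENNReal.ofReal n) : size3 p g V (t, z, R) ≤ ENNReal.ofReal (3 * n) := by
  have hn : 0 ≤ n := (norm_nonneg t).trans ht
  have e : ENNReal.ofReal (3 * n) = ENNReal.ofReal n + ENNReal.ofReal n + ENNReal.ofReal n := by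
    rw [← ENNReal.ofReal_add hn hn, ← ENNReal.ofReal_add (add_nonneg hn hn) hn]
    congr 1
    ring
  rw [e]
  unfold size3
  refine add_le_add (add_le_add ?_ ?_) hR
  · rw [← enorm_eq_nnnorm, ← ofReal_norm]
    exact ENNReal.ofReal_le_ofReal ht
  · rw [← enorm_eq_nnnorm, ← ofReal_norm]
    exact ENNReal.ofReal_le_ofReal hz

/-- (`adm`; `Φ.2.2 = (Φ.2.2 - Clin R) + Clin R`, `pk_actNorm_add_le`, `quad`, `contr`; `Φ.1 - t = Pt R`, `Φ.2.1 - λ z = Pz R` by definition of `Step.tz`, `proj`; for `cosOn = false`: `Φ.2.1 = 0 = λ z`) -/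
theorem pk_weak_real (W : WeakOK c p gs S cosOn θ C ε0) (hA : 0 < p.A) (t z : ℂ) (hz0 : cosOn = false → z = 0) (R : Act S.P.g) (hR : Adm p c gs R)
    (n r : ℝ) (ht : ‖t‖ ≤ n) (hz : ‖z‖ ≤ n) (hr0 : 0 ≤ r) (hr : r ≤ n) (hRn : actNorm p S.P.g S.Vf R ≤ ENNReal.ofReal r) (hn : 3 * n ≤ ε0) :
    size3 p S.P.g S.Vf (t, z, R) ≤ ε0 ∧
    Adm p c gs (S.Phi c p.ω cosOn (t, z, R)).2.2 ∧
    actNorm p S.P.g' S.Vc (S.Phi c p.ω cosOn (t, z, R)).2.2 ≤ ENNReal.ofReal (θ * r + C * (3 * n) ^ 2) ∧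
    ‖(S.Phi c p.ω cosOn (t, z, R)).1 - t‖ ≤ C * r ∧ ‖(S.Phi c p.ω cosOn (t, z, R)).2.1 - (S.lam p.ω : ℂ) * z‖ ≤ C * r := by
  have hn0 : 0 ≤ n := hr0.trans hr
  have hs3 : size3 p S.P.g S.Vf (t, z, R) ≤ ENNReal.ofReal (3 * n) :=
    pk_size3_le S.P.g S.Vf t z R n ht hz (hRn.trans (ENNReal.ofReal_le_ofReal hr))
  have hs : size3 p S.P.g S.Vf (t, z, R) ≤ ε0 := by
    refine hs3.trans ?_
    rw [← ENNReal.ofReal_coe_nnreal]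
    exact ENNReal.ofReal_le_ofReal hn
  have hCr : (C : ℝ≥0∞) * actNorm p S.P.g S.Vf R ≤ ENNReal.ofReal (C * r) := by
    rw [ENNReal.ofReal_mul C.coe_nonneg, ENNReal.ofReal_coe_nnreal]
    exact mul_le_mul_right hRn _
  have hpr := (W.proj R hR).trans hCr
  have hPt : ‖S.Pt c p.ω R‖ ≤ C * r := by
    have h1 : (‖S.Pt c p.ω R‖₊ : ℝ≥0∞) ≤ ENNReal.ofReal (C * r) := le_self_add.trans hpr
    rw [← enorm_eq_nnnorm, ← ofReal_norm] at h1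
    exact (ENNReal.ofReal_le_ofReal_iff (mul_nonneg C.coe_nonneg hr0)).1 h1
  have hPz : ‖S.Pz c p.ω R‖ ≤ C * r := by
    have h1 : (‖S.Pz c p.ω R‖₊ : ℝ≥0∞) ≤ ENNReal.ofReal (C * r) := le_add_self.trans hpr
    rw [← enorm_eq_nnnorm, ← ofReal_norm] at h1
    exact (ENNReal.ofReal_le_ofReal_iff (mul_nonneg C.coe_nonneg hr0)).1 h1
  refine ⟨hs, W.adm _ hR hs, ?_, ?_, ?_⟩
  · have e : (S.Phi c p.ω cosOn (t, z, R)).2.2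
        = ((S.Phi c p.ω cosOn (t, z, R)).2.2 - S.Clin c p.ω cosOn R) + S.Clin c p.ω cosOn R := (sub_add_cancel _ _).symm
    rw [e]
    refine (pk_actNorm_add_le p _ _ hA _ _).trans ?_
    have h1 := W.quad (t, z, R) hR hz0 hs
    have h2 := W.contr R hR
    have h3 : (C : ℝ≥0∞) * size3 p S.P.g S.Vf (t, z, R) ^ 2 ≤ ENNReal.ofReal (C * (3 * n) ^ 2) := by
      rw [ENNReal.ofReal_mul C.coe_nonneg, ENNReal.ofReal_coe_nnreal, ENNReal.ofReal_pow (by positivity)]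
      exact mul_le_mul_right (pow_le_pow_left₀ zero_le hs3 2) _
    have h4 : (θ : ℝ≥0∞) * actNorm p S.P.g S.Vf R ≤ ENNReal.ofReal (θ * r) := by
      rw [ENNReal.ofReal_mul θ.coe_nonneg, ENNReal.ofReal_coe_nnreal]
      exact mul_le_mul_right hRn _
    rw [add_comm (↑θ * r), ENNReal.ofReal_add (mul_nonneg C.coe_nonneg (by positivity)) (mul_nonneg θ.coe_nonneg hr0)]
    exact add_le_add (h1.trans h3) (h2.trans h4)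
  · have e : (S.Phi c p.ω cosOn (t, z, R)).1 - t = S.Pt c p.ω R := by
      show t + S.Pt c p.ω R - t = _
      ring
    rw [e]
    exact hPt
  · cases cosOn with
    | true =>
      have e : (S.Phi c p.ω true (t, z, R)).2.1 - (S.lam p.ω : ℂ) * z = S.Pz c p.ω R := by
        show (S.lam p.ω : ℂ) * z + S.Pz c p.ω R - (S.lam p.ω : ℂ) * z = _
        ring
      rw [e]
      exact hPz
    | false =>
      have e : (S.Phi c p.ω false (t, z, R)).2.1 - (S.lam p.ω : ℂ) * z = 0 := by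
        rw [hz0 rfl]
        show (0 : ℂ) - (S.lam p.ω : ℂ) * 0 = 0
        ring
      rw [e, norm_zero]
      exact mul_nonneg C.coe_nonneg hr0

/-- `ZA` only sees the values of the activity in the strips (`tnorm_mono`: the strip of the whole grid lies in all strips) -/
theorem pk_ZA_congr {h0 : ℝ≥0} (g : Grid G) (R : ℕ) (K1 K2 : Act g) (e : EqOn h0 K1 K2) (z : G.V → ℂ) (hz : z ∈ strip h0 g Finset.univ) :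
    ZA g R K1 z = ZA g R K2 z := by
  unfold ZA
  rw [Finset.sum_apply, Finset.sum_apply]
  refine Finset.sum_congr rfl fun W _ => ?_
  rw [Finset.prod_apply, Finset.prod_apply]
  refine Finset.prod_congr rfl fun X _ => ?_
  exact e X z ((Hol.tnorm_mono g X Finset.univ (Finset.subset_univ X) _).trans_lt hz)

end one

/-! ## 5. The plane step -/

variable {K 𝓡}
variable {j0 : ℕ} {θ C ε0 : ℝ≥0}

/-- the weak map on the torus `i`, applied to the component `i` of the plane state `x` -/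
def PhiI (K : Cfg) (𝓡 : Reg K.s) (j : ℕ) (x : ℂ × ℂ × K.Pl 𝓡 j) (i : 𝓡.Ix j) : ℂ × ℂ × Act (K.s.lev i.1 (j + 1)) :=
  K.PhiT 𝓡 i.1 j i.2.1 (x.1, x.2.1, K.plAct 𝓡 x.2.2 i)

theorem pk_Phi_eq (j : ℕ) (x : ℂ × ℂ × K.Pl 𝓡 j) :
    K.Phi 𝓡 j x = ((PhiI K 𝓡 j x (𝓡.bot j)).1, (PhiI K 𝓡 j x (𝓡.bot j)).2.1,
      K.plMk 𝓡 (j + 1) fun i => cutW K.c0 (PhiI K 𝓡 j x (𝓡.dn i)).2.2) := rfl

/-! ### LEAF B5-S
PLAN.  `R_i := plAct x.2.2 i` is `Adm`, of norm `≤ ‖x.2.2‖`, and the `R_i` are copies of each other (`pk_plAct_spec`).  `pk_weak_real` on every torus (`n = ‖x‖`, `r = ‖x.2.2‖`).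
`weak_copy` (`H.tower.step`, `H.scopy`) : the scalars do not depend on `i` (multiplier: `H.lamc`), and the `(PhiI x i).2.2` are copies of each other.  The family `i ↦ cutW c0 (PhiI x i).2.2`, `i > j + 1`, satisfies the hypotheses of `pk_plMk_spec`:
`pk_cls_cutW` (`(K.s.T h).bc = per` by `rfl`, `3 ≤ D₀ ≤ M`), `pk_cutW_of_not`, `pk_copy_cutW`, `pk_actNorm_cutW_le`. -/

theorem pk_B5S_norms {A : Type*} [NormedAddCommGroup A] (x : ℂ × ℂ × A) : ‖x.1‖ ≤ ‖x‖ ∧ ‖x.2.1‖ ≤ ‖x‖ ∧ ‖x.2.2‖ ≤ ‖x‖ :=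
  ⟨norm_fst_le x, (norm_fst_le x.2).trans (norm_snd_le x), (norm_snd_le x.2).trans (norm_snd_le x)⟩

/-- `pk_weak_real` on the torus `i` -/
theorem pk_B5S_one (H : PackIn K 𝓡 j0 θ C ε0) (j : ℕ) (hj : j0 ≤ j) (x : ℂ × ℂ × K.Pl 𝓡 j) (hz : K.cosOn = false → x.2.1 = 0) (hx : 3 * ‖x‖ ≤ ε0)
    (i : 𝓡.Ix j) :
    size3 K.p (K.s.lev i.1 j) (𝓡.V i.1 j) (x.1, x.2.1, K.plAct 𝓡 x.2.2 i) ≤ ε0 ∧
    Adm K.p K.c (𝓡.gs i.1) (PhiI K 𝓡 j x i).2.2 ∧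
    actNorm K.p (K.s.lev i.1 (j + 1)) (𝓡.V i.1 (j + 1)) (PhiI K 𝓡 j x i).2.2 ≤ ENNReal.ofReal (θ * ‖x.2.2‖ + C * (3 * ‖x‖) ^ 2) ∧
    ‖(PhiI K 𝓡 j x i).1 - x.1‖ ≤ C * ‖x.2.2‖ ∧ ‖(PhiI K 𝓡 j x i).2.1 - (K.lam 𝓡 j : ℂ) * x.2.1‖ ≤ C * ‖x.2.2‖ := by
  obtain ⟨s1, -, -, -, s5⟩ := pk_plAct_spec K 𝓡 H.hA x.2.2
  obtain ⟨n1, n2, n3⟩ := pk_B5S_norms x
  have h := pk_weak_real (H.weak i.1 j hj i.2.1) H.hA x.1 x.2.1 hz (K.plAct 𝓡 x.2.2 i) (s1 i) ‖x‖ ‖x.2.2‖ n1 n2 (norm_nonneg _) n3 (s5 i) hx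
  rw [H.lamc i.1 j hj i.2.1] at h
  exact h

/-- `weak_copy` for two retained tori -/
theorem pk_B5S_copy (H : PackIn K 𝓡 j0 θ C ε0) (j : ℕ) (hj : j0 ≤ j) (x : ℂ × ℂ × K.Pl 𝓡 j) (i i' : 𝓡.Ix j) :
    (PhiI K 𝓡 j x i).1 = (PhiI K 𝓡 j x i').1 ∧ (PhiI K 𝓡 j x i).2.1 = (PhiI K 𝓡 j x i').2.1 ∧
    Copy K.p.h0 K.c0 (K.s.lev i.1 (j + 1)) (K.s.lev i'.1 (j + 1)) (PhiI K 𝓡 j x i).2.2 (PhiI K 𝓡 j x i').2.2 := by
  obtain ⟨s1, -, s3, -, s5⟩ := pk_plAct_spec K 𝓡 H.hA x.2.2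
  have hf : ∀ i, actNorm K.p (K.s.lev i.1 j) (𝓡.V i.1 j) (K.plAct 𝓡 x.2.2 i) ≠ ⊤ := fun i =>
    ne_top_of_le_ne_top ENNReal.ofReal_ne_top (s5 i)
  obtain ⟨c1, c2, c3, -⟩ := weak_copy K.c H.geo K.c0 H.cR H.cpp K.p H.hω H.hh H.hA1 H.hℓ H.hD (𝓡.gs i.1) (𝓡.gs i'.1) (K.step 𝓡 i.1 j i.2.1) (K.step 𝓡 i'.1 j i'.2.1)
    (H.tower.step i.1 j hj i.2.1) (H.tower.step i'.1 j hj i'.2.1) (H.scopy i.1 i'.1 j hj i.2.1 i'.2.1) K.cosOn x.1 x.2.1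
    (K.plAct 𝓡 x.2.2 i) (K.plAct 𝓡 x.2.2 i') (s1 i) (s1 i') (hf i) (hf i') (s3 i i')
  exact ⟨c1, c2, c3⟩

theorem pk_plane_step (H : PackIn K 𝓡 j0 θ C ε0) (j : ℕ) (hj : j0 ≤ j) (x : ℂ × ℂ × K.Pl 𝓡 j) (hz : K.cosOn = false → x.2.1 = 0) (hx : 3 * ‖x‖ ≤ ε0) :
    (∀ i, size3 K.p (K.s.lev i.1 j) (𝓡.V i.1 j) (x.1, x.2.1, K.plAct 𝓡 x.2.2 i) ≤ ε0) ∧
    (∀ i, (PhiI K 𝓡 j x i).1 = (K.Phi 𝓡 j x).1 ∧ (PhiI K 𝓡 j x i).2.1 = (K.Phi 𝓡 j x).2.1) ∧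
    (∀ i : 𝓡.Ix (j + 1), EqOn K.p.h0 (K.plAct 𝓡 (K.Phi 𝓡 j x).2.2 i) (cutW K.c0 (PhiI K 𝓡 j x (𝓡.dn i)).2.2)) ∧
    ‖(K.Phi 𝓡 j x).2.2‖ ≤ θ * ‖x.2.2‖ + C * (3 * ‖x‖) ^ 2 ∧
    ‖(K.Phi 𝓡 j x).1 - x.1‖ ≤ C * ‖x.2.2‖ ∧ ‖(K.Phi 𝓡 j x).2.1 - (K.lam 𝓡 j : ℂ) * x.2.1‖ ≤ C * ‖x.2.2‖ := by
  have h1 := pk_B5S_one H j hj x hz hx
  have hc := pk_B5S_copy H j hj x
  have hM : ∀ h, 3 ≤ (K.s.T h).M := fun h => by
    show 3 ≤ K.s.D0 * K.s.L ^ h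
    have h1 : 1 ≤ K.s.L ^ h := Nat.one_le_pow _ _ K.s.L_pos
    have h2 := H.hD
    calc 3 ≤ K.s.D0 * 1 := by omega
      _ ≤ _ := Nat.mul_le_mul_left _ h1
  have hm : ∀ i i' : 𝓡.Ix (j + 1), (K.s.lev i.1 (j + 1)).m = (K.s.lev i'.1 (j + 1)).m := fun i i' => by
    show K.s.L ^ min (j + 1) i.1 = K.s.L ^ min (j + 1) i'.1
    rw [min_eq_left i.2.1.le, min_eq_left i'.2.1.le]
  obtain ⟨e, n⟩ := pk_plMk_spec K 𝓡 H.hA (j + 1) (fun i => cutW K.c0 (PhiI K 𝓡 j x (𝓡.dn i)).2.2)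
    (fun i => pk_cls_cutW rfl (hM i.1) K.c0 (h1 (𝓡.dn i)).2.1)
    (fun i X hX => pk_cutW_of_not K.c0 _ X hX)
    (fun i i' => pk_copy_cutW (hm i i') (hc (𝓡.dn i) (𝓡.dn i')).2.2)
    (θ * ‖x.2.2‖ + C * (3 * ‖x‖) ^ 2) (by positivity)
    (fun i => (pk_actNorm_cutW_le K.p _ _ K.c0 _).trans (h1 (𝓡.dn i)).2.2.1)
  exact ⟨fun i => (h1 i).1, fun i => ⟨(hc i (𝓡.bot j)).1, (hc i (𝓡.bot j)).2.1⟩, e, n, (h1 (𝓡.bot j)).2.2.2.1, (h1 (𝓡.bot j)).2.2.2.2⟩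

/-! ### LEAF B5-H
PLAN of `pk_Phi_line`.  `U := {s | x + s • v ∈ ball 0 ρ}` is open.  Curve on the torus `i`: `(x.1 + s v.1, x.2.1 + s v.2.1, plAct x.2.2 i + s • plAct v.2.2 i)` (`pk_plAct_add/smul`): hypotheses of `WeakOK.hol` by `pk_plane_step` (first item) and
`pk_plAct_spec`.  Scalars: `hol` on the torus `𝓡.bot j`.  Remainder: `differentiableOn_codRestrict` (`bulkSp_isClosed`) + `lp_differentiableOn` with `E = ℂ`: the coordinate `⟨i, (X, φ, f)⟩` is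
`ev (plAct (Φ ..).2.2 i) (X, φ, f) = ev (cutW c0 (PhiI ..).2.2) (X, φ, f)` (`pk_plAct_spec`, `sp_ev_congr`, `pk_plane_step`) `=` a constant times `(PhiI ..).2.2 X (toC φ + f)` or `0` (`sp_ev_pos`, `sp_ev_neg`, `cutW`): `hol` on the torus `i`;
bound: `pk_plane_step`.  `pk_Phi_an` = `pk_gateaux` + `pk_Phi_line` + the bounds of `pk_plane_step`. -/

/-- the curve on the torus `i` -/
theorem pk_B5H_curve (j : ℕ) (x v : ℂ × ℂ × K.Pl 𝓡 j) (s : ℂ) (i : 𝓡.Ix j) :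
    PhiI K 𝓡 j (x + s • v) i = (K.step 𝓡 i.1 j i.2.1).Phi K.c K.p.ω K.cosOn
      ((x.1, x.2.1, K.plAct 𝓡 x.2.2 i) + s • (v.1, v.2.1, K.plAct 𝓡 v.2.2 i)) := by
  show K.PhiT 𝓡 i.1 j i.2.1 ((x + s • v).1, (x + s • v).2.1, K.plAct 𝓡 (x + s • v).2.2 i) = _
  have h : K.plAct 𝓡 (x + s • v).2.2 i = K.plAct 𝓡 x.2.2 i + s • K.plAct 𝓡 v.2.2 i := by
    show K.plAct 𝓡 (x.2.2 + s • v.2.2) i = _
    rw [pk_plAct_add, pk_plAct_smul]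
  rw [h]
  rfl

theorem pk_B5H_size (hA : 0 < K.p.A) (j : ℕ) (x : ℂ × ℂ × K.Pl 𝓡 j) (i : 𝓡.Ix j) :
    size3 K.p (K.s.lev i.1 j) (𝓡.V i.1 j) (x.1, x.2.1, K.plAct 𝓡 x.2.2 i) ≤ ENNReal.ofReal (3 * ‖x‖) := by
  obtain ⟨n1, n2, n3⟩ := pk_B5S_norms x
  exact pk_size3_le _ _ _ _ _ ‖x‖ n1 n2 (((pk_plAct_spec K 𝓡 hA x.2.2).2.2.2.2 i).trans (ENNReal.ofReal_le_ofReal n3))

/-- `WeakOK.hol` on the torus `i`, at the base point -/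
theorem pk_B5H_at (H : PackIn K 𝓡 j0 θ C ε0) (j : ℕ) (hj : j0 ≤ j) (x v : ℂ × ℂ × K.Pl 𝓡 j) (hx : 3 * ‖x‖ < ε0) (i : 𝓡.Ix j) :
    DifferentiableAt ℂ (fun s : ℂ => (PhiI K 𝓡 j (x + s • v) i).1) 0 ∧ DifferentiableAt ℂ (fun s : ℂ => (PhiI K 𝓡 j (x + s • v) i).2.1) 0 ∧
    ∀ Y, ∀ z ∈ strip K.p.h0 (K.s.lev i.1 (j + 1)) Y, DifferentiableAt ℂ (fun s : ℂ => (PhiI K 𝓡 j (x + s • v) i).2.2 Y z) 0 := by
  simp only [pk_B5H_curve]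
  refine (H.weak i.1 j hj i.2.1).hol (x.1, x.2.1, K.plAct 𝓡 x.2.2 i) (v.1, v.2.1, K.plAct 𝓡 v.2.2 i)
    ((pk_plAct_spec K 𝓡 H.hA x.2.2).1 i) ((pk_plAct_spec K 𝓡 H.hA v.2.2).1 i) ?_ ?_
  · refine lt_of_le_of_lt (pk_B5H_size H.hA j x i) ?_
    rw [← ENNReal.ofReal_coe_nnreal]
    exact (ENNReal.ofReal_lt_ofReal_iff (lt_of_le_of_lt (by positivity) hx)).2 hx
  · exact ne_top_of_le_ne_top ENNReal.ofReal_ne_top (pk_B5H_size H.hA j v i)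

theorem pk_B5H_open {E : Type*} [NormedAddCommGroup E] [NormedSpace ℂ E] (x v : E) (ρ : ℝ) :
    IsOpen {s : ℂ | x + s • v ∈ Metric.ball (0 : E) ρ} :=
  Metric.isOpen_ball.preimage (by fun_prop)

/-- change of the base point on a complex line -/
theorem pk_B5H_shift {E F : Type*} [NormedAddCommGroup E] [NormedSpace ℂ E] [NormedAddCommGroup F] [NormedSpace ℂ F] (f : E → F) (x v : E) (s0 : ℂ)
    (h : DifferentiableAt ℂ (fun s : ℂ => f ((x + s0 • v) + s • v)) 0) : DifferentiableAt ℂ (fun s : ℂ => f (x + s • v)) s0 := by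
  have h1 : DifferentiableAt ℂ (fun s : ℂ => s - s0) s0 := by fun_prop
  have h3 : DifferentiableAt ℂ ((fun s : ℂ => f ((x + s0 • v) + s • v)) ∘ (fun s : ℂ => s - s0)) s0 :=
    DifferentiableAt.comp s0 (by simpa using h) h1
  refine h3.congr_of_eventuallyEq (Filter.Eventually.of_forall fun s => ?_)
  show f (x + s • v) = f ((x + s0 • v) + (s - s0) • v)
  congr 1
  rw [sub_smul]
  abel

theorem pk_Phi_line (H : PackIn K 𝓡 j0 θ C ε0) (j : ℕ) (hj : j0 ≤ j) (ρ : ℝ) (hρ : 3 * ρ ≤ ε0) (x v : ℂ × ℂ × K.Pl 𝓡 j)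
    (hz : K.cosOn = false → x.2.1 = 0 ∧ v.2.1 = 0) :
    DifferentiableOn ℂ (fun s : ℂ => K.Phi 𝓡 j (x + s • v)) {s | x + s • v ∈ Metric.ball (0 : ℂ × ℂ × K.Pl 𝓡 j) ρ} := by
  set U : Set ℂ := {s | x + s • v ∈ Metric.ball (0 : ℂ × ℂ × K.Pl 𝓡 j) ρ} with hUdef
  have hU : IsOpen U := pk_B5H_open x v ρ
  have hlt : ∀ s ∈ U, 3 * ‖x + s • v‖ < ε0 := fun s hs => by
    have h1 : ‖x + s • v‖ < ρ := mem_ball_zero_iff.1 hs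
    linarith
  have hzs : ∀ s : ℂ, K.cosOn = false → (x + s • v).2.1 = 0 := fun s h => by
    show x.2.1 + s • v.2.1 = 0
    rw [(hz h).1, (hz h).2, smul_zero, add_zero]
  have hat : ∀ s0 ∈ U, ∀ i : 𝓡.Ix j,
      DifferentiableAt ℂ (fun s : ℂ => (PhiI K 𝓡 j (x + s • v) i).1) s0 ∧ DifferentiableAt ℂ (fun s : ℂ => (PhiI K 𝓡 j (x + s • v) i).2.1) s0 ∧
      ∀ Y, ∀ z ∈ strip K.p.h0 (K.s.lev i.1 (j + 1)) Y, DifferentiableAt ℂ (fun s : ℂ => (PhiI K 𝓡 j (x + s • v) i).2.2 Y z) s0 := fun s0 hs0 i => by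
    obtain ⟨d1, d2, d3⟩ := pk_B5H_at H j hj (x + s0 • v) v (hlt s0 hs0) i
    exact ⟨pk_B5H_shift (fun y => (PhiI K 𝓡 j y i).1) x v s0 d1, pk_B5H_shift (fun y => (PhiI K 𝓡 j y i).2.1) x v s0 d2,
      fun Y z hz => pk_B5H_shift (fun y => (PhiI K 𝓡 j y i).2.2 Y z) x v s0 (d3 Y z hz)⟩
  have hd1 : DifferentiableOn ℂ (fun s : ℂ => (K.Phi 𝓡 j (x + s • v)).1) U := fun s hs => (hat s hs (𝓡.bot j)).1.differentiableWithinAt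
  have hd2 : DifferentiableOn ℂ (fun s : ℂ => (K.Phi 𝓡 j (x + s • v)).2.1) U := fun s hs => (hat s hs (𝓡.bot j)).2.1.differentiableWithinAt
  have hd3 : DifferentiableOn ℂ (fun s : ℂ => (K.Phi 𝓡 j (x + s • v)).2.2) U := by
    refine differentiableOn_codRestrict _ (bulkSp_isClosed K.p H.hA K.c.col K.c.R K.c0 (K.fam 𝓡 (j + 1))) U hU _ ?_
    refine lp_differentiableOn U hU _ ?_ ?_
    · have key : ∀ (i : 𝓡.Ix (j + 1)) (X : Finset (K.s.lev i.1 (j + 1)).I) (φ : (K.s.T i.1).V → ℝ) (f : (K.s.T i.1).V → ℂ),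
          DifferentiableOn ℂ (fun s : ℂ => (K.Phi 𝓡 j (x + s • v)).2.2.1 ⟨i, (X, φ, f)⟩) U := by
        intro i X φ f
        have hev : ∀ s ∈ U, (K.Phi 𝓡 j (x + s • v)).2.2.1 ⟨i, (X, φ, f)⟩
            = ev K.p (K.s.lev i.1 (j + 1)) (𝓡.V i.1 (j + 1)) (cutW K.c0 (PhiI K 𝓡 j (x + s • v) (𝓡.dn i)).2.2) (X, φ, f) := fun s hs => by
          rw [(pk_plAct_spec K 𝓡 H.hA (K.Phi 𝓡 j (x + s • v)).2.2).2.2.2.1 i (X, φ, f)]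
          exact sp_ev_congr _ _ _ _ _ ((pk_plane_step H j hj (x + s • v) (hzs s) (hlt s hs).le).2.2.1 i) _
        refine DifferentiableOn.congr (f := fun s : ℂ => ev K.p (K.s.lev i.1 (j + 1)) (𝓡.V i.1 (j + 1))
          (cutW K.c0 (PhiI K 𝓡 j (x + s • v) (𝓡.dn i)).2.2) (X, φ, f)) ?_ hev
        by_cases hf : tnorm (K.s.lev i.1 (j + 1)) X f < K.p.h0
        · refine DifferentiableOn.congr ?_ (fun s _ => sp_ev_pos _ _ _ _ _ _ _ hf)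
          by_cases hX : (K.s.lev i.1 (j + 1)).Unwr K.c0 X
          · have hc : ∀ s : ℂ, cutW K.c0 (PhiI K 𝓡 j (x + s • v) (𝓡.dn i)).2.2 X (toC φ + f)
                = (PhiI K 𝓡 j (x + s • v) (𝓡.dn i)).2.2 X (toC φ + f) := fun s => congrFun (if_pos hX) _
            refine DifferentiableOn.congr ?_ (fun s _ => congrArg (fun w => (spW K.p (K.s.lev i.1 (j + 1)) (𝓡.V i.1 (j + 1)) X φ : ℂ) * w) (hc s))
            exact fun s hs => (((hat s hs (𝓡.dn i)).2.2 X _ (sp_mem_strip_add hf φ)).const_mul _).differentiableWithinAt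
          · have hc : ∀ s : ℂ, cutW K.c0 (PhiI K 𝓡 j (x + s • v) (𝓡.dn i)).2.2 X (toC φ + f) = 0 := fun s =>
              congrFun (pk_cutW_of_not K.c0 _ X hX) _
            refine DifferentiableOn.congr ?_ (fun s _ => congrArg (fun w => (spW K.p (K.s.lev i.1 (j + 1)) (𝓡.V i.1 (j + 1)) X φ : ℂ) * w) (hc s))
            exact differentiableOn_const _
        · refine DifferentiableOn.congr ?_ (fun s _ => sp_ev_neg _ _ _ _ _ _ _ hf)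
          exact differentiableOn_const _
      rintro ⟨i, X, φ, f⟩
      exact key i X φ f
    · intro s hs
      obtain ⟨ε, hε, hb⟩ := Metric.isOpen_iff.1 hU s hs
      refine ⟨ε, hε, θ * ρ + C * (3 * ρ) ^ 2, fun y hy => ?_⟩
      have hyU := hb hy
      have h1 : ‖x + y • v‖ < ρ := mem_ball_zero_iff.1 hyU
      have h2 := (pk_plane_step H j hj (x + y • v) (hzs y) (hlt y hyU).le).2.2.2.1
      have h3 := (pk_B5S_norms (x + y • v)).2.2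
      refine h2.trans ?_
      have h4 : (0 : ℝ) ≤ θ := θ.2
      have h5 : (0 : ℝ) ≤ C := C.2
      have h6 : (3 * ‖x + y • v‖) ^ 2 ≤ (3 * ρ) ^ 2 := pow_le_pow_left₀ (by positivity) (by linarith) 2
      exact add_le_add (mul_le_mul_of_nonneg_left (by linarith) h4) (mul_le_mul_of_nonneg_left h6 h5)
  exact hd1.prodMk (hd2.prodMk hd3)

theorem pk_Phi_an (H : PackIn K 𝓡 j0 θ C ε0) (hcos : K.cosOn = true) (j : ℕ) (hj : j0 ≤ j) (ρ : ℝ) (hρ : 3 * ρ ≤ ε0) :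
    DifferentiableOn ℂ (K.Phi 𝓡 j) (Metric.ball 0 ρ) := by
  refine pk_gateaux _ Metric.isOpen_ball _ (fun x _ v => pk_Phi_line H j hj ρ hρ x v fun h => ?_) fun x hx => ?_
  · rw [hcos] at h
    exact Bool.noConfusion h
  · obtain ⟨ε, hε, hb⟩ := Metric.isOpen_iff.1 Metric.isOpen_ball x hx
    refine ⟨ε, hε, max (ρ + C * ρ) (max (‖(K.lam 𝓡 j : ℂ)‖ * ρ + C * ρ) (θ * ρ + C * (3 * ρ) ^ 2)), fun y hy => ?_⟩
    have h1 : ‖y‖ < ρ := by simpa using hb hy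
    obtain ⟨n1, n2, n3⟩ := pk_B5S_norms y
    obtain ⟨-, -, -, b1, b2, b3⟩ := pk_plane_step H j hj y (fun h => by rw [hcos] at h; exact Bool.noConfusion h) (by linarith)
    have h4 : (0 : ℝ) ≤ θ := θ.2
    have h5 : (0 : ℝ) ≤ C := C.2
    have h6 : (3 * ‖y‖) ^ 2 ≤ (3 * ρ) ^ 2 := pow_le_pow_left₀ (by positivity) (by linarith) 2
    have h7 : (C : ℝ) * ‖y.2.2‖ ≤ C * ρ := mul_le_mul_of_nonneg_left (by linarith) h5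
    rw [← Prod.mk.eta (p := K.Phi 𝓡 j y), ← Prod.mk.eta (p := (K.Phi 𝓡 j y).2), Prod.norm_mk, Prod.norm_mk]
    refine max_le_max ?_ (max_le_max ?_ ?_)
    · have := norm_le_norm_add_norm_sub' (K.Phi 𝓡 j y).1 y.1
      linarith
    · have := norm_le_norm_add_norm_sub' (K.Phi 𝓡 j y).2.1 ((K.lam 𝓡 j : ℂ) * y.2.1)
      have h8 : ‖(K.lam 𝓡 j : ℂ) * y.2.1‖ ≤ ‖(K.lam 𝓡 j : ℂ)‖ * ρ := by
        rw [norm_mul]
        exact mul_le_mul_of_nonneg_left (by linarith) (norm_nonneg _)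
      linarith
    · exact b1.trans (add_le_add (mul_le_mul_of_nonneg_left (by linarith) h4) (mul_le_mul_of_nonneg_left h6 h5))

/-! ### LEAF B5-P
PLAN.  `plAct (σ a) i = halfShift ω (plAct a i)` (`pk_sig_act`), so `PhiI (x.1, -x.2.1, σ x.2.2) i` is the left side of `WeakOK.parity`.  Scalars: immediate.  Remainders: `pk_pl_ext`; in the strips
`plAct (Φ (S x)).2.2 i = cutW (PhiI (S x) i).2.2 = cutW (halfShift (PhiI x i).2.2) = halfShift (cutW (PhiI x i).2.2) = halfShift (plAct (Φ x).2.2 i) = plAct (σ (Φ x).2.2) i`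
(`pk_plane_step` twice, `‖S x‖ ≤ ‖x‖` by `pk_sig_bd`; `pk_eqOn_cutW`, `pk_cutW_halfShift`, `pk_eqOn_halfShift`).  Same for the conjugation with `WeakOK.conj`. -/

theorem pk_B5P_norm_le {A : Type*} [NormedAddCommGroup A] (x : ℂ × ℂ × A) (t z : ℂ) (a : A) (ht : ‖t‖ ≤ ‖x.1‖) (hz : ‖z‖ ≤ ‖x.2.1‖)
    (ha : ‖a‖ ≤ ‖x.2.2‖) : ‖((t, z, a) : ℂ × ℂ × A)‖ ≤ ‖x‖ := by
  obtain ⟨n1, n2, n3⟩ := pk_B5S_norms x
  rw [Prod.norm_mk, Prod.norm_mk]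
  exact max_le (ht.trans n1) (max_le (hz.trans n2) (ha.trans n3))

theorem pk_Phi_par (H : PackIn K 𝓡 j0 θ C ε0) (j : ℕ) (hj : j0 ≤ j) (x : ℂ × ℂ × K.Pl 𝓡 j) (hz : K.cosOn = false → x.2.1 = 0) (hx : 3 * ‖x‖ ≤ ε0) :
    K.Phi 𝓡 j (x.1, -x.2.1, sig K 𝓡 j x.2.2) = ((K.Phi 𝓡 j x).1, -(K.Phi 𝓡 j x).2.1, sig K 𝓡 (j + 1) (K.Phi 𝓡 j x).2.2) := by
  set y : ℂ × ℂ × K.Pl 𝓡 j := (x.1, -x.2.1, sig K 𝓡 j x.2.2) with hy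
  have hyn : ‖y‖ ≤ ‖x‖ := pk_B5P_norm_le x _ _ _ le_rfl (by rw [norm_neg]) (pk_sig_bd K 𝓡 H.hA j x.2.2)
  have hzy : K.cosOn = false → y.2.1 = 0 := fun h => by
    show -x.2.1 = 0
    rw [hz h, neg_zero]
  have hxy : 3 * ‖y‖ ≤ ε0 := le_trans (by linarith) hx
  obtain ⟨-, a2, a3, -⟩ := pk_plane_step H j hj x hz hx
  obtain ⟨-, b2, b3, -⟩ := pk_plane_step H j hj y hzy hxy
  obtain ⟨s1, -, -, -, s5⟩ := pk_plAct_spec K 𝓡 H.hA x.2.2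
  have par : ∀ i : 𝓡.Ix j, (PhiI K 𝓡 j y i).1 = (PhiI K 𝓡 j x i).1 ∧ (PhiI K 𝓡 j y i).2.1 = -(PhiI K 𝓡 j x i).2.1 ∧
      EqOn K.p.h0 (PhiI K 𝓡 j y i).2.2 (halfShift K.p.ω (PhiI K 𝓡 j x i).2.2) := fun i => by
    have h := (H.weak i.1 j hj i.2.1).parity (x.1, x.2.1, K.plAct 𝓡 x.2.2 i) (s1 i) (ne_top_of_le_ne_top ENNReal.ofReal_ne_top (s5 i))
    have e : PhiI K 𝓡 j y i = (K.step 𝓡 i.1 j i.2.1).Phi K.c K.p.ω K.cosOn (x.1, -x.2.1, halfShift K.p.ω (K.plAct 𝓡 x.2.2 i)) := by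
      show K.PhiT 𝓡 i.1 j i.2.1 (x.1, -x.2.1, K.plAct 𝓡 (sig K 𝓡 j x.2.2) i) = _
      rw [pk_sig_act K 𝓡 H.hA]
      rfl
    rw [e]
    exact h
  refine Prod.ext ?_ (Prod.ext ?_ ?_)
  · show (K.Phi 𝓡 j y).1 = (K.Phi 𝓡 j x).1
    rw [← (b2 (𝓡.bot j)).1, ← (a2 (𝓡.bot j)).1]
    exact (par _).1
  · show (K.Phi 𝓡 j y).2.1 = -(K.Phi 𝓡 j x).2.1
    rw [← (b2 (𝓡.bot j)).2, ← (a2 (𝓡.bot j)).2]
    exact (par _).2.1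
  · show (K.Phi 𝓡 j y).2.2 = sig K 𝓡 (j + 1) (K.Phi 𝓡 j x).2.2
    refine pk_pl_ext K 𝓡 H.hA _ _ fun i => ?_
    rw [pk_sig_act K 𝓡 H.hA]
    refine pk_eqOn_trans (b3 i) ?_
    refine pk_eqOn_trans (pk_eqOn_cutW K.c0 (par (𝓡.dn i)).2.2) ?_
    have e := pk_cutW_halfShift K.c0 K.p.ω (PhiI K 𝓡 j x (𝓡.dn i)).2.2
    refine pk_eqOn_trans (fun X z _ => congrFun (congrFun e X) z) ?_
    exact pk_eqOn_halfShift K.p.ω (pk_eqOn_symm (a3 i))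

theorem pk_Phi_real (H : PackIn K 𝓡 j0 θ C ε0) (j : ℕ) (hj : j0 ≤ j) (x : ℂ × ℂ × K.Pl 𝓡 j) (hz : K.cosOn = false → x.2.1 = 0) (hx : 3 * ‖x‖ ≤ ε0) :
    K.Phi 𝓡 j (starRingEnd ℂ x.1, starRingEnd ℂ x.2.1, cjg K 𝓡 j x.2.2)
      = (starRingEnd ℂ (K.Phi 𝓡 j x).1, starRingEnd ℂ (K.Phi 𝓡 j x).2.1, cjg K 𝓡 (j + 1) (K.Phi 𝓡 j x).2.2) := by
  set y : ℂ × ℂ × K.Pl 𝓡 j := (starRingEnd ℂ x.1, starRingEnd ℂ x.2.1, cjg K 𝓡 j x.2.2) with hy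
  have hyn : ‖y‖ ≤ ‖x‖ := pk_B5P_norm_le x _ _ _ (by rw [RCLike.norm_conj]) (by rw [RCLike.norm_conj]) (pk_cjg_bd K 𝓡 H.hA j x.2.2)
  have hzy : K.cosOn = false → y.2.1 = 0 := fun h => by
    show starRingEnd ℂ x.2.1 = 0
    rw [hz h, map_zero]
  have hxy : 3 * ‖y‖ ≤ ε0 := le_trans (by linarith) hx
  obtain ⟨a1, a2, a3, -⟩ := pk_plane_step H j hj x hz hx
  obtain ⟨-, b2, b3, -⟩ := pk_plane_step H j hj y hzy hxy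
  obtain ⟨s1, -, -, -, -⟩ := pk_plAct_spec K 𝓡 H.hA x.2.2
  have par : ∀ i : 𝓡.Ix j, (PhiI K 𝓡 j y i).1 = starRingEnd ℂ (PhiI K 𝓡 j x i).1 ∧ (PhiI K 𝓡 j y i).2.1 = starRingEnd ℂ (PhiI K 𝓡 j x i).2.1 ∧
      EqOn K.p.h0 (PhiI K 𝓡 j y i).2.2 (conjAct (PhiI K 𝓡 j x i).2.2) := fun i => by
    have h := (H.weak i.1 j hj i.2.1).conj (x.1, x.2.1, K.plAct 𝓡 x.2.2 i) (s1 i) (a1 i)
    have e : PhiI K 𝓡 j y i = (K.step 𝓡 i.1 j i.2.1).Phi K.c K.p.ω K.cosOn (starRingEnd ℂ x.1, starRingEnd ℂ x.2.1, conjAct (K.plAct 𝓡 x.2.2 i)) := by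
      show K.PhiT 𝓡 i.1 j i.2.1 (starRingEnd ℂ x.1, starRingEnd ℂ x.2.1, K.plAct 𝓡 (cjg K 𝓡 j x.2.2) i) = _
      rw [pk_cjg_act K 𝓡 H.hA]
      rfl
    rw [e]
    exact h
  refine Prod.ext ?_ (Prod.ext ?_ ?_)
  · show (K.Phi 𝓡 j y).1 = starRingEnd ℂ (K.Phi 𝓡 j x).1
    rw [← (b2 (𝓡.bot j)).1, ← (a2 (𝓡.bot j)).1]
    exact (par _).1
  · show (K.Phi 𝓡 j y).2.1 = starRingEnd ℂ (K.Phi 𝓡 j x).2.1
    rw [← (b2 (𝓡.bot j)).2, ← (a2 (𝓡.bot j)).2]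
    exact (par _).2.1
  · show (K.Phi 𝓡 j y).2.2 = cjg K 𝓡 (j + 1) (K.Phi 𝓡 j x).2.2
    refine pk_pl_ext K 𝓡 H.hA _ _ fun i => ?_
    rw [pk_cjg_act K 𝓡 H.hA]
    refine pk_eqOn_trans (b3 i) ?_
    refine pk_eqOn_trans (pk_eqOn_cutW K.c0 (par (𝓡.dn i)).2.2) ?_
    have e := pk_cutW_conjAct K.c0 (PhiI K 𝓡 j x (𝓡.dn i)).2.2
    refine pk_eqOn_trans (fun X z _ => congrFun (congrFun e X) z) ?_
    exact pk_eqOn_conjAct (pk_eqOn_symm (a3 i))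

/-! ## 6. The torus step, copying -/

/-! ### LEAF B6-S (`pk_toAct_spec`, `pk_weak_real`, `pk_toMk_spec`; `Psi` unfolds by `dif_pos hj`) -/

theorem pk_torus_step (H : PackIn K 𝓡 j0 θ C ε0) (j h : ℕ) (hj0 : j0 ≤ j) (hj : j < h) (X : (ℂ × ℂ) × K.To 𝓡 j h) (hz : K.cosOn = false → X.1.2 = 0) (hX : 3 * ‖X‖ ≤ ε0) :
    size3 K.p (K.s.lev h j) (𝓡.V h j) (X.1.1, X.1.2, K.toAct 𝓡 X.2) ≤ ε0 ∧
    EqOn K.p.h0 (K.toAct 𝓡 (K.Psi 𝓡 j h X)) (K.PhiT 𝓡 h j hj (X.1.1, X.1.2, K.toAct 𝓡 X.2)).2.2 ∧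
    ‖K.Psi 𝓡 j h X‖ ≤ θ * ‖X.2‖ + C * (3 * ‖X‖) ^ 2 := by
  obtain ⟨s1, -, s3⟩ := pk_toAct_spec K 𝓡 H.hA X.2
  have h1 : ‖X.1.1‖ ≤ ‖X‖ := (norm_fst_le X.1).trans (norm_fst_le X)
  have h2 : ‖X.1.2‖ ≤ ‖X‖ := (norm_snd_le X.1).trans (norm_fst_le X)
  have h3 : ‖X.2‖ ≤ ‖X‖ := norm_snd_le X
  obtain ⟨w1, w2, w3, -, -⟩ := pk_weak_real (H.weak h j hj0 hj) H.hA X.1.1 X.1.2 hz (K.toAct 𝓡 X.2) s1 ‖X‖ ‖X.2‖ h1 h2
    (norm_nonneg _) h3 s3.le hX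
  have hC : 0 ≤ (θ : ℝ) * ‖X.2‖ + C * (3 * ‖X‖) ^ 2 := by positivity
  obtain ⟨e, n⟩ := pk_toMk_spec K 𝓡 H.hA (j + 1) h (K.PhiT 𝓡 h j hj (X.1.1, X.1.2, K.toAct 𝓡 X.2)).2.2 w2 _ hC w3
  have hP : K.Psi 𝓡 j h X = K.toMk 𝓡 (j + 1) h (K.PhiT 𝓡 h j hj (X.1.1, X.1.2, K.toAct 𝓡 X.2)).2.2 := by
    unfold Cfg.Psi
    rw [dif_pos hj]
  rw [hP]
  exact ⟨w1, e, n⟩

theorem pk_B6S_ne (a : ℂ) (h : ‖a‖ ≤ 1 / 2) : 1 + a ≠ 0 := by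
  intro h0
  rw [eq_neg_of_add_eq_zero_right h0, norm_neg, norm_one] at h
  norm_num at h

theorem pk_B6S_eqOn_Kof {G : Geom} {h0 : ℝ≥0} (g : Grid G) (α : ℝ) (t z : ℂ) {R R' : Act g} (e : EqOn h0 R R') :
    EqOn h0 (Kof g α (t, z, R)) (Kof g α (t, z, R')) := by
  intro X w hw
  show single g α t z X w + R X w = single g α t z X w + R' X w
  rw [e X w hw]

/-- **the exact identity of one step** in the Banach coordinates (`WeakOK.exact`, `WeakOK.cst` : `‖a_b‖ ≤ 1/2`, `pk_ZA_congr`, `pk_torus_step`) -/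
theorem pk_exact (H : PackIn K 𝓡 j0 θ C ε0) (j h : ℕ) (hj0 : j0 ≤ j) (hj : j < h) (X : (ℂ × ℂ) × K.To 𝓡 j h) (hz : K.cosOn = false → X.1.2 = 0) (hX : 3 * ‖X‖ ≤ ε0) :
    ∃ cst : ℂ, cst ≠ 0 ∧ ∀ z ∈ strip K.p.h0 (K.s.lev h (j + 1)) Finset.univ,
      conv (K.step 𝓡 h j hj).Γ (ZA (K.s.lev h j) K.c.R (Kof (K.s.lev h j) (Step.alpha K.p.ω) (X.1.1, X.1.2, K.toAct 𝓡 X.2))) z
        = cst * ZA (K.s.lev h (j + 1)) K.c.R (Kof (K.s.lev h (j + 1)) (Step.alpha K.p.ω)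
            ((K.PhiT 𝓡 h j hj (X.1.1, X.1.2, K.toAct 𝓡 X.2)).1, (K.PhiT 𝓡 h j hj (X.1.1, X.1.2, K.toAct 𝓡 X.2)).2.1, K.toAct 𝓡 (K.Psi 𝓡 j h X))) z := by
  obtain ⟨s1, -, -⟩ := pk_toAct_spec K 𝓡 H.hA X.2
  obtain ⟨w1, e, -⟩ := pk_torus_step H j h hj0 hj X hz hX
  have W := H.weak h j hj0 hj
  refine ⟨∏ b, (1 + ((K.step 𝓡 h j hj).desig K.c K.p.ω K.cosOn (X.1.1, X.1.2, K.toAct 𝓡 X.2)).a b), ?_, fun z hz' => ?_⟩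
  · exact Finset.prod_ne_zero_iff.2 fun b _ => pk_B6S_ne _ (W.cst _ s1 w1 b).2
  · refine (W.exact _ s1 w1 z hz').trans ?_
    congr 1
    exact pk_ZA_congr _ _ _ _ (pk_B6S_eqOn_Kof _ _ _ _ (pk_eqOn_symm e)) z hz'

/-! ### LEAF B6-H (as B5-H, one torus; `actSp_isClosed`) -/

theorem pk_B6H_open {E : Type*} [NormedAddCommGroup E] [NormedSpace ℂ E] (X v : E) (ρ : ℝ) :
    IsOpen {s : ℂ | X + s • v ∈ Metric.ball (0 : E) ρ} :=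
  Metric.isOpen_ball.preimage (by fun_prop : Continuous fun s : ℂ => X + s • v)

/-- `WeakOK.hol` at an arbitrary point of a complex line -/
theorem pk_B6H_hol_at {G : Geom} {D0 ℓ : ℕ} {c : Geo} {p : Par} {gs : Grid G} {S : Step G D0 ℓ} {cosOn : Bool} {θ C ε0 : ℝ≥0}
    (W : WeakOK c p gs S cosOn θ C ε0) (x y : ℂ × ℂ × Act S.P.g) (s₀ : ℂ) (hx : Adm p c gs (x + s₀ • y).2.2) (hy : Adm p c gs y.2.2)
    (hlt : size3 p S.P.g S.Vf (x + s₀ • y) < ε0) (hfin : size3 p S.P.g S.Vf y ≠ ⊤) (Y : Finset S.P.g'.I) (z : G.V → ℂ)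
    (hz : z ∈ strip p.h0 S.P.g' Y) :
    DifferentiableAt ℂ (fun s : ℂ => (S.Phi c p.ω cosOn (x + s • y)).2.2 Y z) s₀ := by
  have h1 := (W.hol (x + s₀ • y) y hx hy hlt hfin).2.2 Y z hz
  have h2 : DifferentiableAt ℂ (fun s : ℂ => s - s₀) s₀ := differentiableAt_id.sub_const s₀
  have h1' : DifferentiableAt ℂ (fun s : ℂ => (S.Phi c p.ω cosOn (x + s₀ • y + s • y)).2.2 Y z) ((fun s : ℂ => s - s₀) s₀) := by
    show DifferentiableAt ℂ _ (s₀ - s₀)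
    rw [sub_self]
    exact h1
  have h3 := DifferentiableAt.comp (g := fun s : ℂ => (S.Phi c p.ω cosOn (x + s₀ • y + s • y)).2.2 Y z)
    (f := fun s : ℂ => s - s₀) s₀ h1' h2
  refine h3.congr_of_eventuallyEq (Filter.Eventually.of_forall fun s => ?_)
  show (S.Phi c p.ω cosOn (x + s • y)).2.2 Y z = (S.Phi c p.ω cosOn (x + s₀ • y + (s - s₀) • y)).2.2 Y z
  have e : x + s₀ • y + (s - s₀) • y = x + s • y := by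
    rw [add_assoc, ← add_smul, add_sub_cancel]
  rw [e]

/-- the state of the torus `h` as a triple of activities -/
theorem pk_B6H_size (H : PackIn K 𝓡 j0 θ C ε0) (j h : ℕ) (Y : (ℂ × ℂ) × K.To 𝓡 j h) :
    size3 K.p (K.s.lev h j) (𝓡.V h j) (Y.1.1, Y.1.2, K.toAct 𝓡 Y.2) ≤ ENNReal.ofReal (3 * ‖Y‖) :=
  pk_size3_le (K.s.lev h j) (𝓡.V h j) Y.1.1 Y.1.2 (K.toAct 𝓡 Y.2) ‖Y‖ ((norm_fst_le Y.1).trans (norm_fst_le Y))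
    ((norm_snd_le Y.1).trans (norm_fst_le Y))
    ((pk_toAct_spec K 𝓡 H.hA Y.2).2.2.le.trans (ENNReal.ofReal_le_ofReal (norm_snd_le Y)))

theorem pk_B6H_bound (H : PackIn K 𝓡 j0 θ C ε0) (j h : ℕ) (hj0 : j0 ≤ j) (hj : j < h) (ρ : ℝ) (hρ : 3 * ρ ≤ ε0)
    (Y : (ℂ × ℂ) × K.To 𝓡 j h) (hz : K.cosOn = false → Y.1.2 = 0) (hY : Y ∈ Metric.ball (0 : (ℂ × ℂ) × K.To 𝓡 j h) ρ) :
    ‖K.Psi 𝓡 j h Y‖ ≤ θ * ρ + C * (3 * ρ) ^ 2 := by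
  have hY' : ‖Y‖ < ρ := mem_ball_zero_iff.1 hY
  have h1 := (pk_torus_step H j h hj0 hj Y hz (by linarith)).2.2
  refine h1.trans ?_
  have h2 : ‖Y.2‖ ≤ ρ := (norm_snd_le Y).trans hY'.le
  have h3 : (3 * ‖Y‖) ^ 2 ≤ (3 * ρ) ^ 2 := pow_le_pow_left₀ (by positivity) (by linarith) 2
  exact add_le_add (mul_le_mul_of_nonneg_left h2 θ.2) (mul_le_mul_of_nonneg_left h3 C.2)

/-- the triple of a point of a line is the point of the line of triples -/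
theorem pk_B6H_triple (j h : ℕ) (X v : (ℂ × ℂ) × K.To 𝓡 j h) (s : ℂ) :
    (((X + s • v).1.1, (X + s • v).1.2, K.toAct 𝓡 (X + s • v).2) : ℂ × ℂ × Act (K.s.lev h j))
      = (X.1.1, X.1.2, K.toAct 𝓡 X.2) + s • (v.1.1, v.1.2, K.toAct 𝓡 v.2) := by
  refine Prod.ext rfl (Prod.ext rfl ?_)
  show K.toAct 𝓡 (X.2 + s • v.2) = K.toAct 𝓡 X.2 + s • K.toAct 𝓡 v.2
  rw [pk_toAct_add, pk_toAct_smul]

theorem pk_B6H_coord (H : PackIn K 𝓡 j0 θ C ε0) (j h : ℕ) (hj0 : j0 ≤ j) (hj : j < h) (ρ : ℝ) (hρ : 3 * ρ ≤ ε0) (X v : (ℂ × ℂ) × K.To 𝓡 j h)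
    (Y : Finset (K.s.lev h (j + 1)).I) (z : (K.s.T h).V → ℂ) (hz : z ∈ strip K.p.h0 (K.s.lev h (j + 1)) Y) (s₀ : ℂ)
    (hs : X + s₀ • v ∈ Metric.ball (0 : (ℂ × ℂ) × K.To 𝓡 j h) ρ) :
    DifferentiableAt ℂ (fun s : ℂ => (K.PhiT 𝓡 h j hj ((X + s • v).1.1, (X + s • v).1.2, K.toAct 𝓡 (X + s • v).2)).2.2 Y z) s₀ := by
  have hs' : ‖X + s₀ • v‖ < ρ := mem_ball_zero_iff.1 hs
  have hlt : size3 K.p (K.s.lev h j) (𝓡.V h j) ((X + s₀ • v).1.1, (X + s₀ • v).1.2, K.toAct 𝓡 (X + s₀ • v).2) < ε0 := by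
    refine (pk_B6H_size H j h _).trans_lt ?_
    rw [ENNReal.ofReal_lt_coe_iff (by positivity)]
    linarith
  have hfin : size3 K.p (K.s.lev h j) (𝓡.V h j) (v.1.1, v.1.2, K.toAct 𝓡 v.2) ≠ ⊤ :=
    ne_top_of_le_ne_top ENNReal.ofReal_ne_top (pk_B6H_size H j h v)
  have hadm := (pk_toAct_spec K 𝓡 H.hA (X + s₀ • v).2).1
  rw [pk_B6H_triple] at hlt
  have hadm' : Adm K.p K.c (𝓡.gs h) (((X.1.1, X.1.2, K.toAct 𝓡 X.2) + s₀ • (v.1.1, v.1.2, K.toAct 𝓡 v.2) : ℂ × ℂ × Act (K.s.lev h j))).2.2 := by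
    rw [← pk_B6H_triple]
    exact hadm
  have h1 := pk_B6H_hol_at (H.weak h j hj0 hj) (X.1.1, X.1.2, K.toAct 𝓡 X.2) (v.1.1, v.1.2, K.toAct 𝓡 v.2) s₀ hadm'
    (pk_toAct_spec K 𝓡 H.hA v.2).1 hlt hfin Y z hz
  refine h1.congr_of_eventuallyEq (Filter.Eventually.of_forall fun s => ?_)
  show (K.PhiT 𝓡 h j hj ((X + s • v).1.1, (X + s • v).1.2, K.toAct 𝓡 (X + s • v).2)).2.2 Y z = _
  rw [pk_B6H_triple]
  rfl

theorem pk_Psi_line (H : PackIn K 𝓡 j0 θ C ε0) (j h : ℕ) (hj0 : j0 ≤ j) (hj : j < h) (ρ : ℝ) (hρ : 3 * ρ ≤ ε0) (X v : (ℂ × ℂ) × K.To 𝓡 j h)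
    (hz : K.cosOn = false → X.1.2 = 0 ∧ v.1.2 = 0) :
    DifferentiableOn ℂ (fun s : ℂ => K.Psi 𝓡 j h (X + s • v)) {s | X + s • v ∈ Metric.ball (0 : (ℂ × ℂ) × K.To 𝓡 j h) ρ} := by
  have hU := pk_B6H_open X v ρ
  have hzs : ∀ s : ℂ, K.cosOn = false → (X + s • v).1.2 = 0 := by
    intro s hc
    show X.1.2 + s * v.1.2 = 0
    rw [(hz hc).1, (hz hc).2, mul_zero, add_zero]
  refine sp_differentiableOn_codRestrict _ (actSp_isClosed K.p H.hA K.c.col K.c.R (K.s.lev h (j + 1)) (𝓡.gs h) (𝓡.V h (j + 1))) _ hU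
    (fun s : ℂ => K.Psi 𝓡 j h (X + s • v)) ?_
  refine sp_lp_differentiableOn _ hU (fun s : ℂ => (K.Psi 𝓡 j h (X + s • v)).1) (fun i => ?_) fun s hs => ?_
  · obtain ⟨Y, φ, f⟩ := i
    have hev : ∀ s ∈ {s : ℂ | X + s • v ∈ Metric.ball (0 : (ℂ × ℂ) × K.To 𝓡 j h) ρ},
        (K.Psi 𝓡 j h (X + s • v)).1 (Y, φ, f) = ev K.p (K.s.lev h (j + 1)) (𝓡.V h (j + 1))
          (K.PhiT 𝓡 h j hj ((X + s • v).1.1, (X + s • v).1.2, K.toAct 𝓡 (X + s • v).2)).2.2 (Y, φ, f) := by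
      intro s hs
      have hs' : ‖X + s • v‖ < ρ := mem_ball_zero_iff.1 hs
      rw [(pk_toAct_spec K 𝓡 H.hA (K.Psi 𝓡 j h (X + s • v))).2.1 (Y, φ, f)]
      exact sp_ev_congr _ _ _ _ _ (pk_torus_step H j h hj0 hj (X + s • v) (hzs s) (by linarith)).2.1 _
    by_cases hf : tnorm (K.s.lev h (j + 1)) Y f < K.p.h0
    · refine DifferentiableOn.congr (f := fun s : ℂ => (spW K.p (K.s.lev h (j + 1)) (𝓡.V h (j + 1)) Y φ : ℂ) *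
        (K.PhiT 𝓡 h j hj ((X + s • v).1.1, (X + s • v).1.2, K.toAct 𝓡 (X + s • v).2)).2.2 Y (toC φ + f)) ?_ ?_
      · intro s hs
        exact ((pk_B6H_coord H j h hj0 hj ρ hρ X v Y _ (sp_mem_strip_add hf φ) s hs).const_mul _).differentiableWithinAt
      · intro s hs
        show (K.Psi 𝓡 j h (X + s • v)).1 (Y, φ, f) = _
        rw [hev s hs, sp_ev_pos _ _ _ _ _ _ _ hf]
    · refine DifferentiableOn.congr (f := fun _ : ℂ => (0 : ℂ)) (differentiableOn_const _) ?_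
      intro s hs
      show (K.Psi 𝓡 j h (X + s • v)).1 (Y, φ, f) = _
      rw [hev s hs, sp_ev_neg _ _ _ _ _ _ _ hf]
  · obtain ⟨ε, hε, hb⟩ := Metric.isOpen_iff.1 hU s hs
    exact ⟨ε, hε, θ * ρ + C * (3 * ρ) ^ 2, fun y hy => pk_B6H_bound H j h hj0 hj ρ hρ _ (hzs y) (hb hy)⟩

theorem pk_Psi_an (H : PackIn K 𝓡 j0 θ C ε0) (hcos : K.cosOn = true) (j h : ℕ) (hj0 : j0 ≤ j) (hj : j < h) (ρ : ℝ) (hρ : 3 * ρ ≤ ε0) :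
    DifferentiableOn ℂ (K.Psi 𝓡 j h) (Metric.ball 0 ρ) := by
  have hno : ∀ P : Prop, K.cosOn = false → P := fun P hc => by
    rw [hcos] at hc
    exact Bool.noConfusion hc
  refine pk_gateaux _ Metric.isOpen_ball _ (fun x _ v => pk_Psi_line H j h hj0 hj ρ hρ x v (hno _)) fun x hx => ?_
  obtain ⟨ε, hε, hb⟩ := Metric.isOpen_iff.1 Metric.isOpen_ball x hx
  exact ⟨ε, hε, θ * ρ + C * (3 * ρ) ^ 2, fun y hy => pk_B6H_bound H j h hj0 hj ρ hρ _ (hno _) (hb hy)⟩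

/-! ### LEAF B6-P (as B5-P, one torus, `pk_to_ext`) -/

theorem pk_Psi_par (H : PackIn K 𝓡 j0 θ C ε0) (j h : ℕ) (hj0 : j0 ≤ j) (hj : j < h) (X : (ℂ × ℂ) × K.To 𝓡 j h) (hz : K.cosOn = false → X.1.2 = 0) (hX : 3 * ‖X‖ ≤ ε0) :
    K.Psi 𝓡 j h ((X.1.1, -X.1.2), sigT K 𝓡 j h X.2) = sigT K 𝓡 (j + 1) h (K.Psi 𝓡 j h X) := by
  have hA := H.hA
  have hn : ‖(((X.1.1, -X.1.2), sigT K 𝓡 j h X.2) : (ℂ × ℂ) × K.To 𝓡 j h)‖ = ‖X‖ := by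
    rw [Prod.norm_def, Prod.norm_def, Prod.norm_def X, Prod.norm_def X.1]
    show max (max ‖X.1.1‖ ‖-X.1.2‖) ‖sigT K 𝓡 j h X.2‖ = _
    rw [norm_neg, pk_sigT_iso K 𝓡 hA]
  have hz' : K.cosOn = false → (((X.1.1, -X.1.2), sigT K 𝓡 j h X.2) : (ℂ × ℂ) × K.To 𝓡 j h).1.2 = 0 := by
    intro hc
    show -X.1.2 = 0
    rw [hz hc, neg_zero]
  have t1 := (pk_torus_step H j h hj0 hj ((X.1.1, -X.1.2), sigT K 𝓡 j h X.2) hz' (by rw [hn]; exact hX)).2.1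
  have t2 := (pk_torus_step H j h hj0 hj X hz hX).2.1
  obtain ⟨a1, -, a3⟩ := pk_toAct_spec K 𝓡 hA X.2
  have p1 := ((H.weak h j hj0 hj).parity (X.1.1, X.1.2, K.toAct 𝓡 X.2) a1 (by
    show actNorm K.p (K.s.lev h j) (𝓡.V h j) (K.toAct 𝓡 X.2) ≠ ⊤
    rw [a3]
    exact ENNReal.ofReal_ne_top)).2.2
  refine pk_to_ext K 𝓡 hA _ _ ?_
  rw [pk_sigT_act K 𝓡 hA]
  have t1' : EqOn K.p.h0 (K.toAct 𝓡 (K.Psi 𝓡 j h ((X.1.1, -X.1.2), sigT K 𝓡 j h X.2)))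
      (K.PhiT 𝓡 h j hj (X.1.1, -X.1.2, halfShift K.p.ω (K.toAct 𝓡 X.2))).2.2 := by
    have e := pk_sigT_act K 𝓡 hA j h X.2
    rw [← e]
    exact t1
  exact pk_eqOn_trans t1' (pk_eqOn_trans p1 (pk_eqOn_symm (pk_eqOn_halfShift K.p.ω t2)))

/-! ### LEAF B6-C
PLAN.  `cutW c0 (toAct a)` and `plAct x.2.2 ⟨h, hj⟩` are normalised, so they are EQUAL (`pk_eq_of_eqOn`, `pk_nrm_cutW`, `pk_toAct_nrm`, `pk_plAct_nrm`).  `weak_cut` with `Rm = toAct a`: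
scalars of `(t, z, toAct a)` = scalars of `(t, z, cutW (toAct a))` = scalars of `PhiI x ⟨h, hj⟩` = scalars of `Φ x` (`pk_plane_step`).  Third item: `pk_torus_step`.  Fourth item: in the strips
`cutW (toAct (Ψ ..)) = cutW (PhiT (t,z,toAct a)).2.2 = cutW (PhiT (t,z,cutW (toAct a))).2.2 = cutW (PhiI x ⟨h,_⟩).2.2 = plAct (Φ x).2.2 ⟨h, hj'⟩`. -/

/-- **copying**: a torus remainder which is a copy of the plane remainder has the plane scalars, and stays a copy (= `B8.Sys8.copy`) -/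
theorem pk_copy (H : PackIn K 𝓡 j0 θ C ε0) (j h : ℕ) (hj0 : j0 ≤ j) (hj : j < h) (hm : 𝓡.hmin ≤ h) (x : ℂ × ℂ × K.Pl 𝓡 j) (a : K.To 𝓡 j h)
    (hz : K.cosOn = false → x.2.1 = 0) (hx : 3 * ‖x‖ ≤ ε0) (ha : 3 * ‖a‖ ≤ ε0) (e : EqOn K.p.h0 (cutW K.c0 (K.toAct 𝓡 a)) (K.plAct 𝓡 x.2.2 ⟨h, hj, hm⟩)) :
    (K.PhiT 𝓡 h j hj (x.1, x.2.1, K.toAct 𝓡 a)).1 = (K.Phi 𝓡 j x).1 ∧ (K.PhiT 𝓡 h j hj (x.1, x.2.1, K.toAct 𝓡 a)).2.1 = (K.Phi 𝓡 j x).2.1 ∧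
    EqOn K.p.h0 (K.toAct 𝓡 (K.Psi 𝓡 j h ((x.1, x.2.1), a))) (K.PhiT 𝓡 h j hj (x.1, x.2.1, K.toAct 𝓡 a)).2.2 ∧
    ∀ hj' : j + 1 < h, EqOn K.p.h0 (cutW K.c0 (K.toAct 𝓡 (K.Psi 𝓡 j h ((x.1, x.2.1), a)))) (K.plAct 𝓡 (K.Phi 𝓡 j x).2.2 ⟨h, hj', hm⟩) := by
  have hA := H.hA
  have E : cutW K.c0 (K.toAct 𝓡 a) = K.plAct 𝓡 x.2.2 ⟨h, hj, hm⟩ :=
    pk_eq_of_eqOn e (pk_nrm_cutW K.c0 (pk_toAct_nrm K 𝓡 a)) (pk_plAct_nrm K 𝓡 x.2.2 _)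
  obtain ⟨a1, -, a3⟩ := pk_toAct_spec K 𝓡 hA a
  obtain ⟨w1, w2, w3⟩ := weak_cut K.c H.geo K.c0 H.cR H.cpp K.p H.hω H.hh H.hA1 H.hℓ H.hD (𝓡.gs h) (K.step 𝓡 h j hj) (H.tower.step h j hj0 hj) K.cosOn
    x.1 x.2.1 (K.toAct 𝓡 a) a1 (by
      show actNorm K.p (K.s.lev h j) (𝓡.V h j) (K.toAct 𝓡 a) ≠ ⊤
      rw [a3]
      exact ENNReal.ofReal_ne_top)
  obtain ⟨-, q2, q3, -⟩ := pk_plane_step H j hj0 x hz hx
  have hn : 3 * ‖(((x.1, x.2.1), a) : (ℂ × ℂ) × K.To 𝓡 j h)‖ ≤ ε0 := by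
    have h1 : ‖(((x.1, x.2.1), a) : (ℂ × ℂ) × K.To 𝓡 j h)‖ ≤ max ‖x‖ ‖a‖ := by
      rw [Prod.norm_def, Prod.norm_def]
      exact max_le (max_le ((norm_fst_le x).trans (le_max_left _ _))
        (((norm_fst_le x.2).trans (norm_snd_le x)).trans (le_max_left _ _))) (le_max_right _ _)
    rcases le_total ‖x‖ ‖a‖ with h2 | h2
    · rw [max_eq_right h2] at h1
      linarith
    · rw [max_eq_left h2] at h1
      linarith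
  have t3 := (pk_torus_step H j h hj0 hj ((x.1, x.2.1), a) hz hn).2.1
  have w1' : (PhiI K 𝓡 j x ⟨h, hj, hm⟩).1 = (K.PhiT 𝓡 h j hj (x.1, x.2.1, K.toAct 𝓡 a)).1 := by
    show (K.PhiT 𝓡 h j hj (x.1, x.2.1, K.plAct 𝓡 x.2.2 ⟨h, hj, hm⟩)).1 = _
    rw [← E]
    exact w1
  have w2' : (PhiI K 𝓡 j x ⟨h, hj, hm⟩).2.1 = (K.PhiT 𝓡 h j hj (x.1, x.2.1, K.toAct 𝓡 a)).2.1 := by
    show (K.PhiT 𝓡 h j hj (x.1, x.2.1, K.plAct 𝓡 x.2.2 ⟨h, hj, hm⟩)).2.1 = _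
    rw [← E]
    exact w2
  have w3' : EqOn K.p.h0 (cutW K.c0 (PhiI K 𝓡 j x ⟨h, hj, hm⟩).2.2) (cutW K.c0 (K.PhiT 𝓡 h j hj (x.1, x.2.1, K.toAct 𝓡 a)).2.2) := by
    show EqOn K.p.h0 (cutW K.c0 (K.PhiT 𝓡 h j hj (x.1, x.2.1, K.plAct 𝓡 x.2.2 ⟨h, hj, hm⟩)).2.2) _
    rw [← E]
    exact w3
  refine ⟨w1'.symm.trans (q2 _).1, w2'.symm.trans (q2 _).2, t3, fun hj' => ?_⟩
  exact pk_eqOn_trans (pk_eqOn_cutW K.c0 t3) (pk_eqOn_trans (pk_eqOn_symm w3') (pk_eqOn_symm (q3 ⟨h, hj', hm⟩)))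

end

end Claimed.Agent.R285.Pack
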