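import Claimed.Agent.R285.Map.PackB

/-!
# ROW 285, post BP-MAP-PACK (#13351), leaves C7-B, C7-C, C7-D: the exponential activities `Rexp`      (prover helper15)
class (`pk7_Rexp_cls`), norm (`pk7_Rexp_norm`), copies (`pk7_Rexp_copy`); linked from `Map/PackC.lean`.
-/

set_option autoImplicit false

namespace Claimed.Agent.R285.Pack

open scoped BigOperators ENNReal NNReal
open Claimed.Agent.R285.RG Claimed.Agent.R285.B8

noncomputable section

section rexp

variable {G : Geom}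

/-! ## C7-B: the class -/

/-- the properties of a family of singleton functions which make the activities built from it admissible -/
structure PkFam (ω : ℝ) (g : Grid G) (Wf : g.I → Fn G) : Prop where
  diff : ∀ B, Differentiable ℂ (Wf B)
  loc : ∀ B z z', (∀ v, (∃ w ∈ g.sites {B}, G.dist w v ≤ 1) → z v = z' v) → Wf B z = Wf B z'
  per : ∀ B z, Wf B (fun v => z v + (ω : ℂ)) = Wf B z
  even : ∀ B z, Wf B (-z) = Wf B z
  sym : ∀ (s : GridSym g) B z, Wf (s.τ B) (fun w => z (s.σ.symm w)) = Wf B z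

theorem pkc_dist_nb (v : G.V) (e : Fin 4) : G.dist v (G.π (G.ι v + dir e)) ≤ 1 := by
  refine (Reg.regl_dist_le G v _).trans ?_
  fin_cases e <;> simp [dir]

theorem pkc_eBC_eq (g : Grid G) (B : g.I) (z : G.V → ℂ) :
    eBC g B z = (1 / 2) * ∑ v ∈ g.sites {B}, ∑ e : Fin 4, (z (G.π (G.ι v + dir e)) - z v) ^ 2 := by
  unfold eBC dif Geom.lift
  simp only [Reg.reg_pi_iota]

theorem pkc_fam_base (ω : ℝ) (hω : 0 < ω) (hG : G.bc = BC.per) (g : Grid G) (t z : ℂ) :
    PkFam ω g (fun B => (t / 2) • eBC g B + z • cBC g (Step.alpha ω) B) where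
  diff := fun B => by
    have h1 : Differentiable ℂ (eBC g B) := by
      have : eBC g B = fun z => (1 / 2) * ∑ v ∈ g.sites {B}, ∑ e : Fin 4, (z (G.π (G.ι v + dir e)) - z v) ^ 2 :=
        funext (pkc_eBC_eq g B)
      rw [this]; fun_prop
    have h2 : Differentiable ℂ (cBC g (Step.alpha ω) B) := by unfold cBC; fun_prop
    exact (h1.const_smul _).add (h2.const_smul _)
  loc := fun B ζ ζ' h => by
    have h1 : eBC g B ζ = eBC g B ζ' := by
      rw [pkc_eBC_eq, pkc_eBC_eq]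
      congr 1
      refine Finset.sum_congr rfl fun v hv => Finset.sum_congr rfl fun e _ => ?_
      rw [h _ ⟨v, hv, pkc_dist_nb v e⟩, h v ⟨v, hv, by rw [Reg.reg_dist_self]; omega⟩]
    have h2 : cBC g (Step.alpha ω) B ζ = cBC g (Step.alpha ω) B ζ' := by
      unfold cBC
      congr 1
      refine Finset.sum_congr rfl fun v hv => ?_
      rw [h v ⟨v, hv, by rw [Reg.reg_dist_self]; omega⟩]
    simp only [Pi.add_apply, Pi.smul_apply, h1, h2]
  per := fun B ζ => by
    have h1 : eBC g B (fun v => ζ v + (ω : ℂ)) = eBC g B ζ := by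
      rw [pkc_eBC_eq, pkc_eBC_eq]
      congr 1
      refine Finset.sum_congr rfl fun v _ => Finset.sum_congr rfl fun e _ => ?_
      ring
    have h2 : cBC g (Step.alpha ω) B (fun v => ζ v + (ω : ℂ)) = cBC g (Step.alpha ω) B ζ := by
      unfold cBC
      congr 1
      refine Finset.sum_congr rfl fun v _ => ?_
      have e : ((Step.alpha ω : ℝ) : ℂ) * (ζ v + (ω : ℂ)) = (Step.alpha ω : ℝ) * ζ v + 2 * Real.pi := by
        unfold Step.alpha
        have : (ω : ℂ) ≠ 0 := by exact_mod_cast hω.ne'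
        push_cast
        field_simp
      rw [e, Complex.cos_add_two_pi]
    simp only [Pi.add_apply, Pi.smul_apply, h1, h2]
  even := fun B ζ => by
    have h1 : eBC g B (-ζ) = eBC g B ζ := by
      rw [pkc_eBC_eq, pkc_eBC_eq]
      congr 1
      refine Finset.sum_congr rfl fun v _ => Finset.sum_congr rfl fun e _ => ?_
      simp only [Pi.neg_apply]
      ring
    have h2 : cBC g (Step.alpha ω) B (-ζ) = cBC g (Step.alpha ω) B ζ := by
      unfold cBC
      congr 1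
      refine Finset.sum_congr rfl fun v _ => ?_
      simp only [Pi.neg_apply, mul_neg, Complex.cos_neg]
    simp only [Pi.add_apply, Pi.smul_apply, h1, h2]
  sym := fun s B ζ => by
    simp only [Pi.add_apply, Pi.smul_apply, sym_eBC hG, sym_cBC]

theorem PkFam.comp {ω : ℝ} {g : Grid G} {Wf : g.I → Fn G} (h : PkFam ω g Wf) (F : ℂ → ℂ) (hF : Differentiable ℂ F) :
    PkFam ω g (fun B ζ => F (Wf B ζ)) where
  diff := fun B => hF.comp (h.diff B)
  loc := fun B ζ ζ' hz => by simp only [h.loc B ζ ζ' hz]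
  per := fun B ζ => by simp only [h.per B ζ]
  even := fun B ζ => by simp only [h.even B ζ]
  sym := fun s B ζ => by simp only [h.sym s B ζ]

theorem pkc_diff_prod {ι E : Type} [NormedAddCommGroup E] [NormedSpace ℂ E] (X : Finset ι) (f : ι → E → ℂ)
    (h : ∀ i, Differentiable ℂ (f i)) : Differentiable ℂ fun x => ∏ i ∈ X, f i x := by
  classical
  induction X using Finset.induction_on with
  | empty => simp
  | insert a s ha ih =>
    simp only [Finset.prod_insert ha]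
    exact (h a).mul ih

theorem pkc_conn_single (g : Grid G) (R : ℕ) (B : g.I) : g.Conn R {B} := by
  refine ⟨Finset.singleton_nonempty B, fun a ha b hb => ?_⟩
  rw [Finset.mem_singleton] at ha hb
  rw [ha, hb]

open Classical in
theorem PkFam.cls_prod {g : Grid G} {Wf : g.I → Fn G} (p : Par) (h : PkFam p.ω g Wf) (col R : ℕ) (hcol : 1 ≤ col)
    (hG : G.bc = BC.per) (hM : 3 ≤ G.M) (gs : Grid G) (hg : g.Ok) :
    Act.Cls p col R gs (fun X ζ => if g.Conn R X then ∏ B ∈ X, Wf B ζ else 0 : Act g) where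
  ok :=
    { fn := fun X =>
        { hol := by
            by_cases hX : g.Conn R X
            · simp only [hX, if_true]
              exact (pkc_diff_prod X Wf h.diff).differentiableOn
            · simp only [hX, if_false]
              exact differentiableOn_const _
          loc := fun ζ _ ζ' _ hz => by
            by_cases hX : g.Conn R X
            · simp only [hX, if_true]
              refine Finset.prod_congr rfl fun B hB => h.loc B ζ ζ' fun v ⟨w, hw, hd⟩ => hz v ⟨w, ?_, hd.trans hcol⟩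
              exact Hol.sites_mono g (Finset.singleton_subset_iff.2 hB) hw
            · simp only [hX, if_false]
          per := fun ζ _ => by
            by_cases hX : g.Conn R X
            · simp only [hX, if_true, h.per]
            · simp only [hX, if_false] }
      poly := fun X hX => by
        funext ζ
        simp only [hX, if_false]
        rfl }
  even := fun X ζ _ => by simp only [h.even]
  sym := fun s _ X ζ _ _ => by
    show (if g.Conn R (X.map s.τ.toEmbedding) then ∏ B ∈ X.map s.τ.toEmbedding, Wf B (fun w => ζ (s.σ.symm w)) else 0)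
      = if g.Conn R X then ∏ B ∈ X, Wf B ζ else 0
    rw [Finset.prod_map]
    by_cases hX : g.Conn R X
    · rw [if_pos hX, if_pos ((sym_conn hG hM hg s R X).2 hX)]
      exact Finset.prod_congr rfl fun B _ => h.sym s B ζ
    · rw [if_neg hX, if_neg (fun h' => hX ((sym_conn hG hM hg s R X).1 h'))]

theorem PkFam.cls_single {g : Grid G} {Wf : g.I → Fn G} (p : Par) (h : PkFam p.ω g Wf) (col R : ℕ) (hcol : 1 ≤ col)
    (gs : Grid G) :
    Act.Cls p col R gs (fun X => ∑ B : g.I, if X = {B} then Wf B else 0 : Act g) where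
  ok :=
    { fn := fun X =>
        { hol := by
            have : Differentiable ℂ (∑ B : g.I, if X = {B} then Wf B else 0 : Fn G) := by
              refine Differentiable.sum fun B _ => ?_
              split_ifs
              · exact h.diff B
              · exact differentiable_const _
            exact this.differentiableOn
          loc := fun ζ _ ζ' _ hz => by
            simp only [Finset.sum_apply]
            refine Finset.sum_congr rfl fun B _ => ?_
            split_ifs with hX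
            · refine h.loc B ζ ζ' fun v ⟨w, hw, hd⟩ => hz v ⟨w, ?_, hd.trans hcol⟩
              rw [hX]; exact hw
            · rfl
          per := fun ζ _ => by
            simp only [Finset.sum_apply]
            refine Finset.sum_congr rfl fun B _ => ?_
            split_ifs
            · exact h.per B ζ
            · rfl }
      poly := fun X hX => by
        refine Finset.sum_eq_zero fun B _ => ?_
        rw [if_neg]
        rintro rfl
        exact hX (pkc_conn_single g R B) }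
  even := fun X ζ _ => by
    simp only [Finset.sum_apply]
    refine Finset.sum_congr rfl fun B _ => ?_
    split_ifs
    · exact h.even B ζ
    · rfl
  sym := fun s _ X ζ _ _ => by
    simp only [Finset.sum_apply]
    rw [← Equiv.sum_comp s.τ (fun B' => (if X.map s.τ.toEmbedding = {B'} then Wf B' else 0 : Fn G) (fun v => ζ (s.σ.symm v)))]
    refine Finset.sum_congr rfl fun B _ => ?_
    have e : X.map s.τ.toEmbedding = {s.τ B} ↔ X = {B} := by
      have e1 : ({s.τ B} : Finset g.I) = ({B} : Finset g.I).map s.τ.toEmbedding := (Finset.map_singleton s.τ.toEmbedding B).symm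
      rw [e1]
      exact Finset.map_inj
    by_cases hX : X = {B}
    · rw [if_pos (e.2 hX), if_pos hX]
      exact h.sym s B ζ
    · rw [if_neg (fun h' => hX (e.1 h')), if_neg hX]
      rfl

theorem pk7_Rexp_cls (p : Par) (hω : 0 < p.ω) (col R : ℕ) (hcol : 1 ≤ col) (hG : G.bc = BC.per) (hM : 3 ≤ G.M) (g gs : Grid G) (hg : g.Ok) (t z : ℂ) :
    (Cfg.Rexp g R (Step.alpha p.ω) t z).Cls p col R gs := by
  have hb := pkc_fam_base p.ω hω hG g t z
  have h1 := (hb.comp (fun w => Complex.exp w - 1) (by fun_prop)).cls_prod p col R hcol hG hM gs hg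
  have h2 := (hb.cls_single p col R hcol gs).sp_smul (-1)
  have h3 := h1.sp_add h2
  rw [neg_one_smul, ← sub_eq_add_neg] at h3
  exact h3

/-! ## C7-C: the norm -/

/-- criterion for a bound of the activity norm -/
theorem pkc_actNorm_le (p : Par) (g : Grid G) (V : Extra g) (K : Act g) (C : ℝ) (hA : 0 < p.A)
    (h : ∀ (X : Finset g.I) (φ : G.V → ℝ) (f : G.V → ℂ), tnorm g X f < p.h0 →
      p.A ^ X.card * ‖K X (toC φ + f)‖ ≤ C * Wt g p.δ p.κ V X φ) : actNorm p g V K ≤ ENNReal.ofReal C := by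
  unfold actNorm
  refine iSup_le fun X => ?_
  have hAn : 0 < p.A ^ X.card := pow_pos hA _
  have h1 : fnSize p g V X (K X) ≤ ENNReal.ofReal (C / p.A ^ X.card) := by
    rw [Hol.fnSize_le_iff]
    intro φ f hf
    have hW := Hol.Wt_pos g p.δ p.κ V X φ
    by_cases hC : 0 ≤ C
    · rw [← ENNReal.ofReal_mul (by positivity)]
      apply Hol.coe_nnnorm_le_ofReal
      have := h X φ f hf
      rw [div_mul_eq_mul_div, le_div_iff₀ hAn]
      linarith
    · exfalso
      have := h X φ f hf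
      have h2 : 0 ≤ p.A ^ X.card * ‖K X (toC φ + f)‖ := by positivity
      have h3 : C * Wt g p.δ p.κ V X φ < 0 := mul_neg_of_neg_of_pos (not_le.1 hC) hW
      linarith
  calc ENNReal.ofReal (p.A ^ X.card) * fnSize p g V X (K X)
      ≤ ENNReal.ofReal (p.A ^ X.card) * ENNReal.ofReal (C / p.A ^ X.card) := by gcongr
    _ = ENNReal.ofReal C := by
        rw [← ENNReal.ofReal_mul hAn.le]
        congr 1
        field_simp

theorem pkc_lin_le_exp {κ : ℝ} (hκ : 0 < κ) (y : ℝ) : y ≤ 2 / κ * Real.exp (κ * y / 2) := by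
  have h := Real.add_one_le_exp (κ * y / 2)
  have h2 : κ * y / 2 ≤ Real.exp (κ * y / 2) := by linarith
  rw [div_mul_eq_mul_div, le_div_iff₀ hκ]
  linarith

theorem pkc_sq_le_exp {κ : ℝ} (hκ : 0 < κ) {y : ℝ} (hy : 0 ≤ y) : y ^ 2 ≤ 8 / κ ^ 2 * Real.exp (κ * y / 2) := by
  have h := Real.quadratic_le_exp_of_nonneg (x := κ * y / 2) (by positivity)
  have h2 : (κ * y / 2) ^ 2 / 2 ≤ Real.exp (κ * y / 2) := by
    have : 0 ≤ κ * y / 2 := by positivity
    linarith
  rw [div_mul_eq_mul_div, le_div_iff₀ (by positivity)]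
  nlinarith

/-- the two block bounds -/
theorem pkc_block {κ s E q : ℝ} (hκ : 0 < κ) (hs0 : 0 ≤ s) (hs : s ≤ κ / 2) (hE : 0 ≤ E) (hq : 0 ≤ q) {w : ℂ} (hw : ‖w‖ ≤ s * (E + q)) :
    ‖Complex.exp w - 1‖ ≤ s * (2 / κ * Real.exp (κ * q)) * Real.exp (κ * E) ∧
    ‖Complex.exp w - 1 - w‖ ≤ s ^ 2 * (8 / κ ^ 2 * Real.exp (κ * q)) * Real.exp (κ * E) := by
  set y := E + q with hy
  have hy0 : 0 ≤ y := by positivity
  have h1 : Real.exp ‖w‖ ≤ Real.exp (κ * y / 2) := by
    apply Real.exp_le_exp.2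
    refine hw.trans ?_
    have : s * y ≤ κ / 2 * y := by gcongr
    linarith
  have hsplit : Real.exp (κ * y / 2) * Real.exp (κ * y / 2) = Real.exp (κ * q) * Real.exp (κ * E) := by
    rw [← Real.exp_add, ← Real.exp_add]; congr 1; rw [hy]; ring
  constructor
  · have h2 := Complex.norm_exp_sub_sum_le_norm_mul_exp w 1
    simp only [Finset.range_one, Finset.sum_singleton, pow_zero, Nat.factorial_zero, Nat.cast_one, div_one, pow_one] at h2
    calc ‖Complex.exp w - 1‖ ≤ ‖w‖ * Real.exp ‖w‖ := h2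
      _ ≤ (s * y) * Real.exp (κ * y / 2) := by gcongr
      _ ≤ (s * (2 / κ * Real.exp (κ * y / 2))) * Real.exp (κ * y / 2) := by
          gcongr; exact pkc_lin_le_exp hκ y
      _ = s * (2 / κ) * (Real.exp (κ * y / 2) * Real.exp (κ * y / 2)) := by ring
      _ = _ := by rw [hsplit]; ring
  · have h2 := Complex.norm_exp_sub_sum_le_norm_mul_exp w 2
    have e : ∑ m ∈ Finset.range 2, w ^ m / (m.factorial : ℂ) = 1 + w := by
      simp [Finset.sum_range_succ]
    rw [e] at h2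
    have e2 : Complex.exp w - 1 - w = Complex.exp w - (1 + w) := by ring
    rw [e2]
    calc ‖Complex.exp w - (1 + w)‖ ≤ ‖w‖ ^ 2 * Real.exp ‖w‖ := h2
      _ ≤ (s * y) ^ 2 * Real.exp (κ * y / 2) := by gcongr
      _ = s ^ 2 * y ^ 2 * Real.exp (κ * y / 2) := by ring
      _ ≤ s ^ 2 * (8 / κ ^ 2 * Real.exp (κ * y / 2)) * Real.exp (κ * y / 2) := by
          gcongr; exact pkc_sq_le_exp hκ hy0
      _ = s ^ 2 * (8 / κ ^ 2) * (Real.exp (κ * y / 2) * Real.exp (κ * y / 2)) := by ring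
      _ = _ := by rw [hsplit]; ring

theorem pkc_norm_cBC_le (α : ℝ) (g : Grid G) (hg : g.Ok) (B : g.I) (φ : G.V → ℝ) (f : G.V → ℂ) {h0 : ℝ≥0} (hf : tnorm g {B} f < h0) :
    ‖cBC g α B (toC φ + f)‖ ≤ 4 * Real.exp (|α| * h0) := by
  have hm : (0 : ℝ) < g.m := by exact_mod_cast hg.pos
  have h1 : ∀ x ∈ g.sites {B}, ‖Complex.cos (α * (toC φ + f) x)‖ ≤ Real.exp (|α| * h0) := by
    intro x hx
    refine (Hol.norm_cos_le _).trans (Real.exp_le_exp.2 ?_)
    have h2 : ((α : ℂ) * (toC φ + f) x).im = α * (f x).im := by simp [toC]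
    rw [h2, abs_mul]
    gcongr
    have h3 : ‖f x‖₊ ≤ tnorm g {B} f := (Hol.tnorm_spec g {B} f x (Hol.sites_subset_Dm g _ hx)).1
    have h4 : ‖f x‖ ≤ h0 := by exact_mod_cast h3.trans hf.le
    exact (Complex.abs_im_le_norm _).trans h4
  unfold cBC
  rw [norm_mul, Complex.norm_real, Real.norm_of_nonneg (by positivity)]
  have h6 : ‖∑ x ∈ g.sites {B}, Complex.cos (α * (toC φ + f) x)‖ ≤ (4 * (g.m : ℝ) ^ 2) * Real.exp (|α| * h0) := by
    refine (norm_sum_le_of_le _ h1).trans ?_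
    rw [Finset.sum_const, nsmul_eq_mul]
    gcongr
    exact_mod_cast Hol.card_sites_singleton_le g hg B
  calc ((g.m : ℝ) ^ 2)⁻¹ * ‖∑ x ∈ g.sites {B}, Complex.cos (α * (toC φ + f) x)‖
      ≤ ((g.m : ℝ) ^ 2)⁻¹ * ((4 * (g.m : ℝ) ^ 2) * Real.exp (|α| * h0)) := by gcongr
    _ = 4 * Real.exp (|α| * h0) := by field_simp

theorem pkc_exp_sum_le_Wt (g : Grid G) {δ κ : ℝ} (hδ : 0 ≤ δ) (hκ : 0 ≤ κ) (V : Extra g) (X : Finset g.I) (φ : G.V → ℝ) :
    Real.exp (κ * ∑ B ∈ X, gE G (g.sites {B}) φ) ≤ Wt g δ κ V X φ := by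
  refine le_trans (Real.exp_le_exp.2 ?_) (Hol.exp_le_Wt g δ κ V X φ)
  gcongr
  have h1 : ∑ B ∈ X, gE G (g.sites {B}) φ = gE G (g.sites X) φ := by
    unfold gE
    rw [Reg.reg_sites_sum, Finset.mul_sum]
  rw [h1]
  exact (Hol.gE_mono (Hol.sites_subset_Dm g X) φ).trans (Hol.gE_le_U g hδ X φ)

theorem pkc_single_apply (g : Grid G) (α : ℝ) (t z : ℂ) (B : g.I) :
    single g α t z {B} = (t / 2) • eBC g B + z • cBC g α B := by
  unfold single
  rw [Finset.sum_eq_single B]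
  · simp
  · intro b _ hb
    rw [if_neg]
    intro h
    exact hb (Finset.singleton_injective h).symm
  · simp

theorem pkc_single_zero (g : Grid G) (α : ℝ) (t z : ℂ) (X : Finset g.I) (h : ∀ B, X ≠ {B}) :
    single g α t z X = 0 := by
  unfold single
  exact Finset.sum_eq_zero (fun B _ => if_neg (h B))

theorem pk7_Rexp_norm (δ κ : ℝ) (h0 : ℝ≥0) (A αm : ℝ) (hδ : 0 < δ) (hκ : 0 < κ) (hA : 0 < A) : ∃ (Ce d1 : ℝ), 0 ≤ Ce ∧ 0 < d1 ∧
    ∀ p : Par, p.δ = δ → p.κ = κ → p.h0 = h0 → p.A = A → |Step.alpha p.ω| ≤ αm →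
    ∀ (G : Geom) (g : Grid G), g.Ok → ∀ (V : Extra g) (R : ℕ) (t z : ℂ), ‖t‖ ≤ d1 → ‖z‖ ≤ d1 →
      actNorm p g V (Cfg.Rexp g R (Step.alpha p.ω) t z) ≤ ENNReal.ofReal (Ce * (‖t‖ + ‖z‖) ^ 2) := by
  obtain ⟨q, hq⟩ : ∃ q : ℝ, q = 8 * (h0 : ℝ) ^ 2 + 4 * Real.exp (αm * h0) := ⟨_, rfl⟩
  obtain ⟨C2, hC2⟩ : ∃ C2 : ℝ, C2 = 2 / κ * Real.exp (κ * q) := ⟨_, rfl⟩
  obtain ⟨C1, hC1⟩ : ∃ C1 : ℝ, C1 = 8 / κ ^ 2 * Real.exp (κ * q) := ⟨_, rfl⟩
  have hq0 : 0 ≤ q := by rw [hq]; positivity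
  have hC2p : 0 < C2 := by rw [hC2]; positivity
  have hC1p : 0 < C1 := by rw [hC1]; positivity
  refine ⟨A * C1 + (A * C2) ^ 2, min (κ / 4) (1 / (2 * (A * C2))), by positivity, lt_min (by positivity) (by positivity), ?_⟩
  intro p hpδ hpκ hph hpA hα G g hg V R t z ht hz
  obtain ⟨s, hs⟩ : ∃ s : ℝ, s = ‖t‖ + ‖z‖ := ⟨_, rfl⟩
  rw [← hs]
  have hs0 : 0 ≤ s := by rw [hs]; positivity
  have hs1 : s ≤ κ / 2 := by
    have h1 := ht.trans (min_le_left _ _)
    have h2 := hz.trans (min_le_left _ _)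
    linarith
  have hs2 : A * C2 * s ≤ 1 := by
    have h1 := ht.trans (min_le_right _ _)
    have h2 := hz.trans (min_le_right _ _)
    have h3 : 1 / (2 * (A * C2)) + 1 / (2 * (A * C2)) = 1 / (A * C2) := by field_simp; ring
    have h4 : s ≤ 1 / (A * C2) := by linarith
    rw [le_div_iff₀ (by positivity)] at h4
    linarith
  apply pkc_actNorm_le p g V _ _ (hpA ▸ hA)
  intro X φ f hf
  rw [hpA, hpδ, hpκ]
  rw [hph] at hf
  obtain ⟨α, hαd⟩ : ∃ α : ℝ, α = Step.alpha p.ω := ⟨_, rfl⟩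
  rw [← hαd] at hα ⊢
  obtain ⟨E, hEd⟩ : ∃ E : g.I → ℝ, E = fun B => gE G (g.sites {B}) φ := ⟨_, rfl⟩
  obtain ⟨w, hwd⟩ : ∃ w : g.I → ℂ, w = fun B => t / 2 * eBC g B (toC φ + f) + z * cBC g α B (toC φ + f) := ⟨_, rfl⟩
  have hE : ∀ B, 0 ≤ E B := fun B => by rw [hEd]; exact Hol.gE_nonneg _ φ
  have hw : ∀ B ∈ X, ‖w B‖ ≤ s * (E B + q) := by
    intro B hB
    have hfB : tnorm g {B} f < h0 :=
      lt_of_le_of_lt (Hol.tnorm_mono g {B} X (Finset.singleton_subset_iff.2 hB) f) hf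
    have h1 := Hol.norm_eBC_le g hg B φ f hfB
    have h2 := pkc_norm_cBC_le α g hg B φ f hfB
    have h3 : Real.exp (|α| * h0) ≤ Real.exp (αm * h0) := Real.exp_le_exp.2 (by gcongr)
    have h4 : ‖cBC g α B (toC φ + f)‖ ≤ 4 * Real.exp (αm * h0) := h2.trans (by linarith)
    have h5 : ‖eBC g B (toC φ + f)‖ ≤ 2 * E B + 16 * (h0 : ℝ) ^ 2 := by rw [hEd]; exact h1
    have hEB := hE B
    calc ‖w B‖ ≤ ‖t‖ / 2 * ‖eBC g B (toC φ + f)‖ + ‖z‖ * ‖cBC g α B (toC φ + f)‖ := by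
          rw [hwd]
          refine (norm_add_le _ _).trans ?_
          rw [norm_mul, norm_mul, norm_div]
          simp
      _ ≤ ‖t‖ / 2 * (2 * E B + 16 * (h0 : ℝ) ^ 2) + ‖z‖ * (4 * Real.exp (αm * h0)) := by gcongr
      _ ≤ s * (E B + q) := by
          rw [hs, hq]
          have e1 := mul_nonneg (norm_nonneg t) (Real.exp_pos (αm * h0)).le
          have e2 := mul_nonneg (norm_nonneg z) hEB
          have e3 := mul_nonneg (norm_nonneg z) (sq_nonneg (h0 : ℝ))
          nlinarith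
  have hWt : Real.exp (κ * ∑ B ∈ X, E B) ≤ Wt g δ κ V X φ := by
    rw [hEd]; exact pkc_exp_sum_le_Wt g hδ.le hκ.le V X φ
  have hWp : 0 < Wt g δ κ V X φ := Hol.Wt_pos g δ κ V X φ
  by_cases hc : g.Conn R X
  · by_cases h1 : ∃ B, X = {B}
    · obtain ⟨B, rfl⟩ := h1
      have e : Cfg.Rexp g R α t z {B} (toC φ + f) = Complex.exp (w B) - 1 - w B := by
        unfold Cfg.Rexp Cfg.Kexp
        rw [Pi.sub_apply, Pi.sub_apply, if_pos hc, pkc_single_apply, hwd]
        simp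
      rw [e]
      have hb := (pkc_block hκ hs0 hs1 (hE B) hq0 (hw B (Finset.mem_singleton_self B))).2
      rw [← hC1] at hb
      rw [Finset.sum_singleton] at hWt
      rw [Finset.card_singleton, pow_one]
      calc A * ‖Complex.exp (w B) - 1 - w B‖ ≤ A * (s ^ 2 * C1 * Real.exp (κ * E B)) := by gcongr
        _ ≤ A * (s ^ 2 * C1 * Wt g δ κ V {B} φ) := by gcongr
        _ = (A * C1) * s ^ 2 * Wt g δ κ V {B} φ := by ring
        _ ≤ (A * C1 + (A * C2) ^ 2) * s ^ 2 * Wt g δ κ V {B} φ := by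
            gcongr
            have : 0 ≤ (A * C2) ^ 2 := by positivity
            linarith
    · push Not at h1
      have e : Cfg.Rexp g R α t z X (toC φ + f) = ∏ B ∈ X, (Complex.exp (w B) - 1) := by
        unfold Cfg.Rexp Cfg.Kexp
        rw [Pi.sub_apply, Pi.sub_apply, if_pos hc, pkc_single_zero g α t z X h1, hwd]
        simp
      have hcard : 2 ≤ X.card := by
        by_contra hlt
        have h2 : X.card = 1 := by
          have := Finset.card_pos.2 hc.1
          omega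
        obtain ⟨B, hB⟩ := Finset.card_eq_one.1 h2
        exact h1 B hB
      rw [e, norm_prod]
      calc A ^ X.card * ∏ B ∈ X, ‖Complex.exp (w B) - 1‖
          ≤ A ^ X.card * ∏ B ∈ X, (s * C2 * Real.exp (κ * E B)) := by
            gcongr with B hB
            have hb := (pkc_block hκ hs0 hs1 (hE B) hq0 (hw B hB)).1
            rw [← hC2] at hb
            exact hb
        _ = (A * C2 * s) ^ X.card * Real.exp (κ * ∑ B ∈ X, E B) := by
            rw [Finset.prod_mul_distrib, Finset.prod_const, ← Real.exp_sum, Finset.mul_sum, mul_pow, mul_pow, mul_pow]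
            ring
        _ ≤ (A * C2 * s) ^ 2 * Wt g δ κ V X φ :=
            mul_le_mul (pow_le_pow_of_le_one (by positivity) hs2 hcard) hWt (Real.exp_pos _).le (by positivity)
        _ = (A * C2) ^ 2 * s ^ 2 * Wt g δ κ V X φ := by ring
        _ ≤ (A * C1 + (A * C2) ^ 2) * s ^ 2 * Wt g δ κ V X φ := by
            gcongr
            have : 0 ≤ A * C1 := by positivity
            linarith
  · have h1 : ∀ B, X ≠ {B} := by
      intro B hB
      exact hc (hB ▸ pkc_conn_single g R B)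
    have e : Cfg.Rexp g R α t z X (toC φ + f) = 0 := by
      unfold Cfg.Rexp Cfg.Kexp
      rw [Pi.sub_apply, Pi.sub_apply, if_neg hc, pkc_single_zero g α t z X h1]
      simp
    rw [e, norm_zero, mul_zero]
    positivity

/-! ## C7-D: copies -/

theorem pkc_n_pos (g : Grid G) : 0 < g.n := (g.blk1 ⟨0, G.hM⟩).pos

theorem pkc_emod_ediv (x : ℤ) {m : ℤ} (n : ℤ) (hm : 0 < m) : x % (m * n) / m = x / m % n := by
  rw [Int.emod_def x (m * n), Int.emod_def (x / m) n, ← Int.ediv_ediv_of_nonneg hm.le]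
  have e : x - m * n * (x / m / n) = x + m * (-(n * (x / m / n))) := by ring
  rw [e, Int.add_mul_ediv_left _ _ hm.ne']
  ring

/-- the block of a folded point -/
theorem pkc_blk1_fold (hG : G.bc = BC.per) (g : Grid G) (hg : g.Ok) (x : ℤ) :
    (((g.blk1 (G.fold x) : Fin g.n) : ℕ) : ℤ) = (x / (g.m : ℤ)) % (g.n : ℤ) := by
  have h1 := Reg.regl_fold_per G hG x
  have h2 := syml_blk1 hG hg (G.fold x)
  have hM := syml_M hG hg
  have hm : (0 : ℤ) < g.m := by exact_mod_cast hg.pos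
  rw [h2, Int.natCast_div, h1, hM]
  push_cast
  rw [mul_comm (g.n : ℤ) (g.m : ℤ)]
  exact pkc_emod_ediv _ _ hm

theorem pkc_dvd_cases {n t : ℤ} (hn : 0 < n) (h : n ∣ t) (h1 : -(2 * n) < t) (h2 : t < 2 * n) : t = -n ∨ t = 0 ∨ t = n := by
  obtain ⟨k, rfl⟩ := h
  have hk1 : -2 < k := by nlinarith
  have hk2 : k < 2 := by nlinarith
  have : k = -1 ∨ k = 0 ∨ k = 1 := by omega
  rcases this with rfl | rfl | rfl
  · left; ring
  · right; left; ring
  · right; right; ring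

/-- periodic index distance of reduced indices -/
theorem pkc_arith_idist {n : ℕ} {c0 R : ℕ} (hc0 : 1 ≤ c0) (hR : R ≤ c0) (u v : ℤ) (a b : ℕ)
    (ha : (a : ℤ) = u % n) (hb : (b : ℤ) = v % n) (hd : (u - v).natAbs + 2 * c0 ≤ n) :
    (min ((a : ℤ) - b).natAbs (n - ((a : ℤ) - b).natAbs) ≤ R ↔ (u - v).natAbs ≤ R) ∧ (a = b ↔ u = v) := by
  have hn : (0 : ℤ) < n := by omega
  have a0 := Int.emod_nonneg u hn.ne'
  have a1 := Int.emod_lt_of_pos u hn
  have b0 := Int.emod_nonneg v hn.ne'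
  have b1 := Int.emod_lt_of_pos v hn
  have hdv : (n : ℤ) ∣ ((a : ℤ) - b) - (u - v) := by
    rw [ha, hb, Int.emod_def, Int.emod_def]
    exact ⟨v / n - u / n, by ring⟩
  have hc := pkc_dvd_cases hn hdv (by omega) (by omega)
  constructor
  · rcases hc with h | h | h <;> omega
  · rcases hc with h | h | h <;> omega

theorem pkc_arith_div {m n c0 D : ℕ} (hm : 0 < m) (x y : ℤ) (hxy : (x - y).natAbs ≤ D) (hD : D + 2 * c0 * m < n * m) :
    (x / (m : ℤ) - y / (m : ℤ)).natAbs + 2 * c0 ≤ n := by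
  have hm' : (0 : ℤ) < m := by exact_mod_cast hm
  have x1 := Int.emod_add_mul_ediv x m
  have x2 := Int.emod_nonneg x hm'.ne'
  have x3 := Int.emod_lt_of_pos x hm'
  have y1 := Int.emod_add_mul_ediv y m
  have y2 := Int.emod_nonneg y hm'.ne'
  have y3 := Int.emod_lt_of_pos y hm'
  have hD' : (D : ℤ) + 2 * c0 * m < n * m := by exact_mod_cast hD
  have hxy1 : x - y ≤ D := by omega
  have hxy2 : y - x ≤ D := by omega
  have k1 : (x / (m : ℤ) - y / (m : ℤ) + 2 * c0) < n + 1 := by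
    apply lt_of_mul_lt_mul_right _ hm'.le
    nlinarith
  have k2 : (y / (m : ℤ) - x / (m : ℤ) + 2 * c0) < n + 1 := by
    apply lt_of_mul_lt_mul_right _ hm'.le
    nlinarith
  omega

/-- the plane block of a plane point -/
def pkb (m : ℕ) (x : ℤ × ℤ) : ℤ × ℤ := (x.1 / (m : ℤ), x.2 / (m : ℤ))

/-- the torus block of a plane block -/
def pki (g : Grid G) (u : ℤ × ℤ) : g.I := g.blk (G.π (u.1 * g.m, u.2 * g.m))

theorem pkc_pki_coe (hG : G.bc = BC.per) (g : Grid G) (hg : g.Ok) (u : ℤ × ℤ) :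
    ((((pki g u).1 : Fin g.n) : ℕ) : ℤ) = u.1 % (g.n : ℤ) ∧ ((((pki g u).2 : Fin g.n) : ℕ) : ℤ) = u.2 % (g.n : ℤ) := by
  have hm : (0 : ℤ) < g.m := by exact_mod_cast hg.pos
  constructor
  · have h := pkc_blk1_fold hG g hg (u.1 * g.m)
    rw [Int.mul_ediv_cancel _ hm.ne'] at h
    exact h
  · have h := pkc_blk1_fold hG g hg (u.2 * g.m)
    rw [Int.mul_ediv_cancel _ hm.ne'] at h
    exact h

theorem pkc_blk_pi (hG : G.bc = BC.per) (g : Grid G) (hg : g.Ok) (x : ℤ × ℤ) : g.blk (G.π x) = pki g (pkb g.m x) := by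
  obtain ⟨h1, h2⟩ := pkc_pki_coe hG g hg (pkb g.m x)
  have k1 := pkc_blk1_fold hG g hg x.1
  have k2 := pkc_blk1_fold hG g hg x.2
  refine Prod.ext (Fin.ext ?_) (Fin.ext ?_)
  · have : (((g.blk (G.π x)).1 : ℕ) : ℤ) = (((pki g (pkb g.m x)).1 : ℕ) : ℤ) := by rw [h1]; exact k1
    exact_mod_cast this
  · have : (((g.blk (G.π x)).2 : ℕ) : ℤ) = (((pki g (pkb g.m x)).2 : ℕ) : ℤ) := by rw [h2]; exact k2
    exact_mod_cast this

theorem pkc_idist_iff (hG : G.bc = BC.per) (g : Grid G) (hg : g.Ok) {c0 R : ℕ} (hc0 : 1 ≤ c0) (hR : R ≤ c0) (u v : ℤ × ℤ)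
    (h1 : (u.1 - v.1).natAbs + 2 * c0 ≤ g.n) (h2 : (u.2 - v.2).natAbs + 2 * c0 ≤ g.n) :
    (g.idist (pki g u) (pki g v) ≤ R ↔ max (u.1 - v.1).natAbs (u.2 - v.2).natAbs ≤ R) ∧ (pki g u = pki g v ↔ u = v) := by
  obtain ⟨a1, a2⟩ := pkc_pki_coe hG g hg u
  obtain ⟨b1, b2⟩ := pkc_pki_coe hG g hg v
  obtain ⟨k1, e1⟩ := pkc_arith_idist hc0 hR u.1 v.1 _ _ a1 b1 h1
  obtain ⟨k2, e2⟩ := pkc_arith_idist hc0 hR u.2 v.2 _ _ a2 b2 h2
  constructor
  · unfold Grid.idist
    rw [Geo.geo_idist1_per g hG, Geo.geo_idist1_per g hG, max_le_iff, max_le_iff, k1, k2]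
  · rw [Prod.ext_iff, Prod.ext_iff, Fin.ext_iff, Fin.ext_iff, e1, e2]

/-- plane polymers -/
def pkConn (R : ℕ) (T : Finset (ℤ × ℤ)) : Prop :=
  T.Nonempty ∧ ∀ a ∈ T, ∀ b ∈ T,
    Relation.ReflTransGen (fun u v => u ∈ T ∧ v ∈ T ∧ max (u.1 - v.1).natAbs (u.2 - v.2).natAbs ≤ R) a b

theorem pkc_conn_iff (hG : G.bc = BC.per) (g : Grid G) (hg : g.Ok) {c0 R : ℕ} (hc0 : 1 ≤ c0) (hR : R ≤ c0) (T : Finset (ℤ × ℤ))
    (hT : ∀ u ∈ T, ∀ v ∈ T, (u.1 - v.1).natAbs + 2 * c0 ≤ g.n ∧ (u.2 - v.2).natAbs + 2 * c0 ≤ g.n) :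
    g.Conn R (T.image (pki g)) ↔ pkConn R T := by
  constructor
  · rintro ⟨hne, h⟩
    refine ⟨Finset.image_nonempty.1 hne, fun a ha b hb => ?_⟩
    have h1 := h _ (Finset.mem_image_of_mem _ ha) _ (Finset.mem_image_of_mem _ hb)
    have key : ∀ b', Relation.ReflTransGen (fun u v => u ∈ T.image (pki g) ∧ v ∈ T.image (pki g) ∧ g.idist u v ≤ R) (pki g a) b' →
        ∀ b ∈ T, pki g b = b' →
        Relation.ReflTransGen (fun u v => u ∈ T ∧ v ∈ T ∧ max (u.1 - v.1).natAbs (u.2 - v.2).natAbs ≤ R) a b := by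
      intro b' hb'
      induction hb' with
      | refl =>
          intro b hb e
          have := ((pkc_idist_iff hG g hg hc0 hR b a (hT b hb a ha).1 (hT b hb a ha).2).2).1 e
          rw [this]
      | tail _ hbc ih =>
          intro c hc e
          obtain ⟨hb1, _, hd⟩ := hbc
          obtain ⟨w, hw, rfl⟩ := Finset.mem_image.1 hb1
          subst e
          exact (ih w hw rfl).tail ⟨hw, hc, ((pkc_idist_iff hG g hg hc0 hR w c (hT w hw c hc).1 (hT w hw c hc).2).1).1 hd⟩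
    exact key _ h1 b hb rfl
  · rintro ⟨hne, h⟩
    refine ⟨hne.image _, fun a ha b hb => ?_⟩
    obtain ⟨u, hu, rfl⟩ := Finset.mem_image.1 ha
    obtain ⟨v, hv, rfl⟩ := Finset.mem_image.1 hb
    exact Relation.ReflTransGen.lift (pki g) (fun x y hxy => ⟨Finset.mem_image_of_mem _ hxy.1, Finset.mem_image_of_mem _ hxy.2.1,
      ((pkc_idist_iff hG g hg hc0 hR x y (hT x hxy.1 y hxy.2.1).1 (hT x hxy.1 y hxy.2.1).2).1).2 hxy.2.2⟩) u v (h u hu v hv)

theorem pkc_fold_inj (hG : G.bc = BC.per) (g : Grid G) (hg : g.Ok) (u : ℤ) :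
    Set.InjOn (fun k : ℕ => G.fold (u * g.m + k)) (Finset.range g.m : Set ℕ) := by
  intro k hk k' hk' e
  simp only [Finset.coe_range, Set.mem_Iio] at hk hk'
  simp only at e
  rw [syml_fold_eq hG] at e
  have hM := syml_M hG hg
  have hn := pkc_n_pos g
  have hmM : g.m ≤ G.M := by rw [hM]; exact Nat.le_mul_of_pos_left _ hn
  have e2 : (u * g.m + k) - (u * g.m + k') = (k : ℤ) - k' := by ring
  rw [e2] at e
  have := Int.eq_zero_of_abs_lt_dvd e (by rw [abs_lt]; constructor <;> omega)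
  omega

theorem pkc_fiber (hG : G.bc = BC.per) (g : Grid G) (hg : g.Ok) (u : ℤ) :
    (Finset.univ.filter fun i : Fin G.M => g.blk1 i = g.blk1 (G.fold (u * g.m)))
      = (Finset.range g.m).image (fun k : ℕ => G.fold (u * g.m + k)) := by
  have hm : (0 : ℤ) < g.m := by exact_mod_cast hg.pos
  symm
  apply Finset.eq_of_subset_of_card_le
  · intro i hi
    obtain ⟨k, hk, rfl⟩ := Finset.mem_image.1 hi
    simp only [Finset.mem_filter, Finset.mem_univ, true_and]
    apply Fin.ext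
    have h1 := pkc_blk1_fold hG g hg (u * g.m + k)
    have h2 := pkc_blk1_fold hG g hg (u * g.m)
    have e : (u * g.m + k) / (g.m : ℤ) = u := by
      rw [Int.mul_add_ediv_right _ _ hm.ne', Int.ediv_eq_zero_of_lt (by positivity) (by exact_mod_cast Finset.mem_range.1 hk), add_zero]
    rw [e] at h1
    rw [Int.mul_ediv_cancel _ hm.ne'] at h2
    omega
  · rw [hg.full _ (Or.inl hG), Finset.card_image_of_injOn (pkc_fold_inj hG g hg u), Finset.card_range]

theorem pkc_sum_sites (hG : G.bc = BC.per) (g : Grid G) (hg : g.Ok) {β : Type} [AddCommMonoid β] (u : ℤ × ℤ) (F : G.V → β) :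
    ∑ v ∈ g.sites {pki g u}, F v
      = ∑ i ∈ Finset.range g.m, ∑ k ∈ Finset.range g.m, F (G.π (u.1 * g.m + i, u.2 * g.m + k)) := by
  have e : g.sites {pki g u} = (Finset.univ.filter fun i : Fin G.M => g.blk1 i = g.blk1 (G.fold (u.1 * g.m))) ×ˢ
      (Finset.univ.filter fun i : Fin G.M => g.blk1 i = g.blk1 (G.fold (u.2 * g.m))) := by
    ext v
    simp [Grid.sites, pki, Grid.blk, Prod.ext_iff, Geom.π]
  rw [e, Finset.sum_product, pkc_fiber hG g hg, pkc_fiber hG g hg, Finset.sum_image (pkc_fold_inj hG g hg u.1)]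
  refine Finset.sum_congr rfl fun i _ => ?_
  rw [Finset.sum_image (pkc_fold_inj hG g hg u.2)]
  rfl

/-- the singleton function in plane coordinates -/
def pkW (m : ℕ) (α : ℝ) (t z : ℂ) (Z : ℤ × ℤ → ℂ) (u : ℤ × ℤ) : ℂ :=
  t / 2 * ((1 / 2) * ∑ i ∈ Finset.range m, ∑ k ∈ Finset.range m, ∑ e : Fin 4,
      (Z ((u.1 * m + i, u.2 * m + k) + dir e) - Z (u.1 * m + i, u.2 * m + k)) ^ 2)
  + z * ((((m : ℝ) ^ 2)⁻¹ : ℝ) * ∑ i ∈ Finset.range m, ∑ k ∈ Finset.range m, Complex.cos (α * Z (u.1 * m + i, u.2 * m + k)))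

theorem pkc_W_eq (hG : G.bc = BC.per) (g : Grid G) (hg : g.Ok) (α : ℝ) (t z : ℂ) (ζ : G.V → ℂ) (u : ℤ × ℤ) :
    t / 2 * eBC g (pki g u) ζ + z * cBC g α (pki g u) ζ = pkW g.m α t z (G.lift ζ) u := by
  unfold pkW
  rw [pkc_eBC_eq, pkc_sum_sites hG g hg]
  unfold cBC
  rw [pkc_sum_sites hG g hg]
  simp only [syml_pi_add hG, Geom.lift]

open Classical in
theorem pkc_Rexp_plane (hG : G.bc = BC.per) (g : Grid G) (hg : g.Ok) {c0 R : ℕ} (hc0 : 1 ≤ c0) (hR : R ≤ c0) (α : ℝ) (t z : ℂ)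
    (T : Finset (ℤ × ℤ))
    (hT : ∀ u ∈ T, ∀ v ∈ T, (u.1 - v.1).natAbs + 2 * c0 ≤ g.n ∧ (u.2 - v.2).natAbs + 2 * c0 ≤ g.n) (ζ : G.V → ℂ) :
    Cfg.Rexp g R α t z (T.image (pki g)) ζ =
      (if pkConn R T then ∏ u ∈ T, (Complex.exp (pkW g.m α t z (G.lift ζ) u) - 1) else 0)
       - (if T.card = 1 then ∑ u ∈ T, pkW g.m α t z (G.lift ζ) u else 0) := by
  have hinj : Set.InjOn (pki g) T := fun u hu v hv e =>
    ((pkc_idist_iff hG g hg hc0 hR u v (hT u hu v hv).1 (hT u hu v hv).2).2).1 e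
  unfold Cfg.Rexp
  rw [Pi.sub_apply, Pi.sub_apply]
  congr 1
  · unfold Cfg.Kexp
    by_cases hc : pkConn R T
    · rw [if_pos hc, if_pos ((pkc_conn_iff hG g hg hc0 hR T hT).2 hc), Finset.prod_image hinj]
      simp only [pkc_W_eq hG g hg]
    · rw [if_neg hc, if_neg (fun h => hc ((pkc_conn_iff hG g hg hc0 hR T hT).1 h))]
  · split_ifs with h1
    · obtain ⟨u, rfl⟩ := Finset.card_eq_one.1 h1
      rw [Finset.image_singleton, pkc_single_apply, Finset.sum_singleton, ← pkc_W_eq hG g hg]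
      simp
    · rw [pkc_single_zero]
      · rfl
      · intro B hB
        apply h1
        rw [← Finset.card_image_of_injOn hinj, hB, Finset.card_singleton]

theorem pkc_W_congr (m : ℕ) (hm : 0 < m) (α : ℝ) (t z : ℂ) (Z Z' : ℤ × ℤ → ℂ) (y : ℤ × ℤ)
    (h : ∀ x : ℤ × ℤ, max (x.1 - y.1).natAbs (x.2 - y.2).natAbs ≤ m → Z x = Z' x) :
    pkW m α t z Z (pkb m y) = pkW m α t z Z' (pkb m y) := by
  have hm' : (0 : ℤ) < m := by exact_mod_cast hm
  have key : ∀ i ∈ Finset.range m, ∀ k ∈ Finset.range m, ∀ d : ℤ × ℤ, d.1.natAbs ≤ 1 → d.2.natAbs ≤ 1 →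
      Z (((pkb m y).1 * m + i, (pkb m y).2 * m + k) + d) = Z' (((pkb m y).1 * m + i, (pkb m y).2 * m + k) + d) := by
    intro i hi k hk d hd1 hd2
    apply h
    rw [Finset.mem_range] at hi hk
    have x1 := Int.ediv_mul_add_emod y.1 m
    have x2 := Int.emod_nonneg y.1 hm'.ne'
    have x3 := Int.emod_lt_of_pos y.1 hm'
    have y1 := Int.ediv_mul_add_emod y.2 m
    have y2 := Int.emod_nonneg y.2 hm'.ne'
    have y3 := Int.emod_lt_of_pos y.2 hm'
    simp only [pkb, Prod.fst_add, Prod.snd_add]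
    rw [max_le_iff]
    constructor <;> omega
  have key0 : ∀ i ∈ Finset.range m, ∀ k ∈ Finset.range m,
      Z ((pkb m y).1 * m + i, (pkb m y).2 * m + k) = Z' ((pkb m y).1 * m + i, (pkb m y).2 * m + k) := by
    intro i hi k hk
    have := key i hi k hk 0 (by simp) (by simp)
    rwa [add_zero] at this
  unfold pkW
  congr 2
  · congr 1
    refine Finset.sum_congr rfl fun i hi => Finset.sum_congr rfl fun k hk => Finset.sum_congr rfl fun e _ => ?_
    rw [key0 i hi k hk, key i hi k hk (dir e) (by fin_cases e <;> simp [dir]) (by fin_cases e <;> simp [dir])]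
  · congr 1
    refine Finset.sum_congr rfl fun i hi => Finset.sum_congr rfl fun k hk => ?_
    rw [key0 i hi k hk]

theorem pkc_le_pdiam (S : Finset (ℤ × ℤ)) (x : ℤ × ℤ) (hx : x ∈ S) (y : ℤ × ℤ) (hy : y ∈ S) :
    max (x.1 - y.1).natAbs (x.2 - y.2).natAbs ≤ pdiam S := by
  unfold pdiam
  exact le_trans (Finset.le_sup (f := fun y : ℤ × ℤ => max (x.1 - y.1).natAbs (x.2 - y.2).natAbs) hy)
    (Finset.le_sup (f := fun x : ℤ × ℤ => S.sup fun y : ℤ × ℤ => max (x.1 - y.1).natAbs (x.2 - y.2).natAbs) hx)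

theorem pkc_copy {G G' : Geom} (hG : G.bc = BC.per) (hG' : G'.bc = BC.per) (g : Grid G) (g' : Grid G') (hg : g.Ok) (hg' : g'.Ok)
    (hm : g'.m = g.m) (c0 R : ℕ) (hc0 : 1 ≤ c0) (hR : R ≤ c0) (h0 : ℝ≥0) (α : ℝ) (t z : ℂ) :
    Copy h0 c0 g g' (Cfg.Rexp g R α t z) (Cfg.Rexp g' R α t z) := by
  intro S hS hS' ζ _ ζ' _ hζ
  have e1 : g.foldS S = (S.image (pkb g.m)).image (pki g) := by
    unfold Grid.foldS
    rw [Finset.image_image]
    exact Finset.image_congr (fun x _ => pkc_blk_pi hG g hg x)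
  have e2 : g'.foldS S = (S.image (pkb g.m)).image (pki g') := by
    unfold Grid.foldS
    rw [Finset.image_image]
    refine Finset.image_congr (fun x _ => ?_)
    rw [← hm]
    exact pkc_blk_pi hG' g' hg' x
  have hT : ∀ u ∈ S.image (pkb g.m), ∀ v ∈ S.image (pkb g.m),
      (u.1 - v.1).natAbs + 2 * c0 ≤ g.n ∧ (u.2 - v.2).natAbs + 2 * c0 ≤ g.n := by
    intro u hu v hv
    obtain ⟨x, hx, rfl⟩ := Finset.mem_image.1 hu
    obtain ⟨y, hy, rfl⟩ := Finset.mem_image.1 hv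
    have hd := pkc_le_pdiam S x hx y hy
    rw [syml_M hG hg] at hS
    exact ⟨pkc_arith_div hg.pos x.1 y.1 (le_trans (le_max_left _ _) hd) hS,
      pkc_arith_div hg.pos x.2 y.2 (le_trans (le_max_right _ _) hd) hS⟩
  have hT' : ∀ u ∈ S.image (pkb g.m), ∀ v ∈ S.image (pkb g.m),
      (u.1 - v.1).natAbs + 2 * c0 ≤ g'.n ∧ (u.2 - v.2).natAbs + 2 * c0 ≤ g'.n := by
    intro u hu v hv
    obtain ⟨x, hx, rfl⟩ := Finset.mem_image.1 hu
    obtain ⟨y, hy, rfl⟩ := Finset.mem_image.1 hv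
    have hd := pkc_le_pdiam S x hx y hy
    rw [syml_M hG' hg', hm] at hS'
    exact ⟨pkc_arith_div hg.pos x.1 y.1 (le_trans (le_max_left _ _) hd) hS',
      pkc_arith_div hg.pos x.2 y.2 (le_trans (le_max_right _ _) hd) hS'⟩
  have hW : ∀ u ∈ S.image (pkb g.m), pkW g.m α t z (G.lift ζ) u = pkW g.m α t z (G'.lift ζ') u := by
    intro u hu
    obtain ⟨y, hy, rfl⟩ := Finset.mem_image.1 hu
    apply pkc_W_congr g.m hg.pos
    intro x hx
    exact hζ x ⟨y, hy, hx.trans (Nat.le_mul_of_pos_left _ hc0)⟩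
  rw [e1, e2, pkc_Rexp_plane hG g hg hc0 hR α t z _ hT, pkc_Rexp_plane hG' g' hg' hc0 hR α t z _ hT', hm]
  rw [Finset.prod_congr rfl (fun u hu => by rw [hW u hu]), Finset.sum_congr rfl hW]

theorem pk7_Rexp_copy (s : Sc) (c0 R : ℕ) (hc0 : 1 ≤ c0) (hR : R ≤ c0) (h0 : ℝ≥0) (α : ℝ) (t z : ℂ) (j h h' : ℕ) (hj : j ≤ h) (hj' : j ≤ h') :
    Copy h0 c0 (s.lev h j) (s.lev h' j) (Cfg.Rexp (s.lev h j) R α t z) (Cfg.Rexp (s.lev h' j) R α t z) := by
  apply pkc_copy rfl rfl _ _ (s.lev_ok h j) (s.lev_ok h' j) _ c0 R hc0 hR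
  show s.L ^ (min j h') = s.L ^ (min j h)
  rw [min_eq_left hj, min_eq_left hj']

end rexp

end

end Claimed.Agent.R285.Pack
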