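import Claimed.Agent.R285.Read.B8b
import Claimed.Agent.R285.Ker.Deg
import Claimed.Agent.R285.Map.TorSym

/-!
# ROW 285, post BP-MAP-PACK (#13351), leaves C9-S, C9-L (helper290): copies of the steps, the multipliers.   0 sorry.
`Map/PackC.lean` cites `pk9_stepCopy`, `pk9_lam_const`, `pk9_lam_bd` (same statements as `pk_stepCopy`, `pk_lam_const`, `pk_lam_bd`).
Uses the contracts `B8.cov_unwrap`, `B8.entry_diag`; `Ker.ker_shellP_natDegree`, `Tow.tw_cells` (proved).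
-/

set_option autoImplicit false

namespace Claimed.Agent.R285.Pack

open scoped BigOperators ENNReal NNReal
open Claimed.Agent.R285.RG Claimed.Agent.R285.B8

noncomputable section

theorem pk9_deg (m S : ℕ) (h : m ≤ S) : (Fam.entry.shellP m S).natDegree ≤ pp * S := by
  have := Ker.ker_shellP_natDegree Fam.entry 0 (by simp [Fam.entry]) m S h
  simpa using this

theorem pk9_stepCopy (K : Cfg) (𝓡 : Reg K.s) (hF : K.F = Fam.entry) (h h' j : ℕ) (hj : j < h) (hj' : j < h') :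
    StepCopy (K.step 𝓡 h j hj) (K.step 𝓡 h' j hj') := by
  have e1 : K.s.L ^ min j h = K.s.L ^ j := by rw [min_eq_left hj.le]
  have e1' : K.s.L ^ min j h' = K.s.L ^ j := by rw [min_eq_left hj'.le]
  have e2 : K.s.L ^ min (j + 1) h = K.s.L ^ (j + 1) := by rw [min_eq_left hj]
  have e2' : K.s.L ^ min (j + 1) h' = K.s.L ^ (j + 1) := by rw [min_eq_left hj']
  refine ⟨?_, fun x y hxy => ?_, fun x y => ⟨fun hh => ⟨?_, ?_⟩, fun hh => ⟨?_, ?_⟩⟩⟩
  · show K.s.L ^ min j h = K.s.L ^ min j h'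
    rw [e1, e1']
  · show shell (K.s.T h) K.F (K.s.L ^ j) (K.s.L ^ (j + 1)) _ _ = shell (K.s.T h') K.F (K.s.L ^ j) (K.s.L ^ (j + 1)) _ _
    have hxy' : max (x.1 - y.1).natAbs (x.2 - y.2).natAbs + K.s.L ^ min (j + 1) h * (pp + 1) < min (K.s.T h).M (K.s.T h').M := hxy
    rw [e2] at hxy'
    have hd := pk9_deg (K.s.L ^ j) (K.s.L ^ (j + 1)) (Nat.pow_le_pow_right K.s.L_pos (Nat.le_succ j))
    have hd' : pp * K.s.L ^ (j + 1) ≤ K.s.L ^ (j + 1) * (pp + 1) := by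
      rw [Nat.mul_comm]; exact Nat.mul_le_mul_left _ (Nat.le_succ _)
    rw [hF]
    exact cov_unwrap _ _ rfl rfl _ x y (lt_of_le_of_lt (by omega) (lt_of_lt_of_le hxy' (min_le_left _ _)))
      (lt_of_le_of_lt (by omega) (lt_of_lt_of_le hxy' (min_le_right _ _)))
  · exact Tow.tw_cells rfl _ (K.s.dvd h j) (Nat.pow_pos K.s.L_pos) x y hh.1 hh.2
  · have hh' : x.1 / ((K.s.L ^ min j h : ℕ) : ℤ) = y.1 / ((K.s.L ^ min j h : ℕ) : ℤ) ∧
        x.2 / ((K.s.L ^ min j h : ℕ) : ℤ) = y.2 / ((K.s.L ^ min j h : ℕ) : ℤ) := hh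
    rw [e1, ← e1'] at hh'
    exact Tow.tw_cells rfl _ (K.s.dvd h' j) (Nat.pow_pos K.s.L_pos) x y hh'.1 hh'.2
  · exact Tow.tw_cells rfl _ (K.s.dvd h (j + 1)) (Nat.pow_pos K.s.L_pos) x y hh.1 hh.2
  · have hh' : x.1 / ((K.s.L ^ min (j + 1) h : ℕ) : ℤ) = y.1 / ((K.s.L ^ min (j + 1) h : ℕ) : ℤ) ∧
        x.2 / ((K.s.L ^ min (j + 1) h : ℕ) : ℤ) = y.2 / ((K.s.L ^ min (j + 1) h : ℕ) : ℤ) := hh
    rw [e2, ← e2'] at hh'
    exact Tow.tw_cells rfl _ (K.s.dvd h' (j + 1)) (Nat.pow_pos K.s.L_pos) x y hh'.1 hh'.2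

theorem pk9_org (G : Geom) (hG : G.bc = BC.per) : G.π 0 = org G := by
  apply Prod.ext
  · apply Fin.ext
    have := Tow.tw_fold_val hG 0
    simp only [Int.zero_emod] at this
    show ((G.fold 0 : Fin G.M) : ℕ) = 0
    exact_mod_cast this
  · apply Fin.ext
    have := Tow.tw_fold_val hG 0
    simp only [Int.zero_emod] at this
    show ((G.fold 0 : Fin G.M) : ℕ) = 0
    exact_mod_cast this

/-- the multiplier is the same on all tori -/
theorem pk9_lam_const (K : Cfg) (𝓡 : Reg K.s) (hF : K.F = Fam.entry) (hD : pp + 1 < K.s.D0) (h j : ℕ) (hj : j < h) :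
    (K.step 𝓡 h j hj).lam K.p.ω = K.lam 𝓡 j := by
  have key : ∀ h' : ℕ, j < h' → pp * K.s.L ^ (j + 1) < (K.s.T h').M := by
    intro h' hj'
    show pp * K.s.L ^ (j + 1) < K.s.D0 * K.s.L ^ h'
    have h1 : K.s.L ^ (j + 1) ≤ K.s.L ^ h' := Nat.pow_le_pow_right K.s.L_pos hj'
    have h2 : 0 < K.s.L ^ h' := Nat.pow_pos K.s.L_pos
    calc pp * K.s.L ^ (j + 1) ≤ pp * K.s.L ^ h' := Nat.mul_le_mul_left _ h1
      _ < K.s.D0 * K.s.L ^ h' := Nat.mul_lt_mul_of_pos_right (by omega) h2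
  have hd := pk9_deg (K.s.L ^ j) (K.s.L ^ (j + 1)) (Nat.pow_le_pow_right K.s.L_pos (Nat.le_succ j))
  have e : shell (K.s.T h) K.F (K.s.L ^ j) (K.s.L ^ (j + 1)) (org _) (org _)
      = shell (K.s.T (j + 1)) K.F (K.s.L ^ j) (K.s.L ^ (j + 1)) (org _) (org _) := by
    rw [hF, ← pk9_org _ rfl, ← pk9_org _ rfl]
    exact cov_unwrap _ _ rfl rfl _ 0 0 (by simpa using lt_of_le_of_lt hd (key h hj))
      (by simpa using lt_of_le_of_lt hd (key (j + 1) (Nat.lt_succ_self j)))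
  show ((2 : ℝ) ^ K.s.ℓ) ^ 2 * Real.exp (-(Step.alpha K.p.ω) ^ 2 * shell (K.s.T h) K.F (K.s.L ^ j) (K.s.L ^ (j + 1)) (org _) (org _) / 2)
    = ((2 : ℝ) ^ K.s.ℓ) ^ 2 * Real.exp (-(Step.alpha K.p.ω) ^ 2 * shell (K.s.T (j + 1)) K.F (K.s.L ^ j) (K.s.L ^ (j + 1)) (org _) (org _) / 2)
  rw [e]

theorem pk9_exp_sub_one (x : ℝ) : |Real.exp x - 1| ≤ |x| * Real.exp |x| := by
  rcases le_total 0 x with hx | hx
  · have h1 : 1 ≤ Real.exp x := Real.one_le_exp hx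
    rw [abs_of_nonneg hx, abs_of_nonneg (by linarith)]
    have h2 := Real.add_one_le_exp (-x)
    have h3 : Real.exp x * (-x + 1) ≤ Real.exp x * Real.exp (-x) := mul_le_mul_of_nonneg_left h2 (Real.exp_pos x).le
    rw [← Real.exp_add, add_neg_cancel, Real.exp_zero] at h3
    linarith
  · have h1 : Real.exp x ≤ 1 := Real.exp_le_one_iff.2 hx
    rw [abs_of_nonpos hx, abs_of_nonpos (by linarith)]
    have h2 := Real.add_one_le_exp x
    have h3 : 1 ≤ Real.exp (-x) := Real.one_le_exp (by linarith)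
    nlinarith

theorem pk9_alpha_sq : Step.alpha ω8 ^ 2 = 8 * Real.pi := by
  have hk : (0 : ℝ) < k0 := by unfold k0; positivity
  have hs : 0 < Real.sqrt k0 := Real.sqrt_pos.2 hk
  have e : Step.alpha ω8 = Real.sqrt k0 := by
    unfold Step.alpha ω8
    have := Real.pi_pos
    field_simp
  rw [e, Real.sq_sqrt hk.le]
  rfl

theorem pk9_lam_bd (ℓ : ℕ) (hℓ : 1 ≤ ℓ) : ∃ (Cl : ℝ) (D1 : ℕ), 0 ≤ Cl ∧ ∀ (K : Cfg) (𝓡 : Reg K.s), K.s.ℓ = ℓ → K.F = Fam.entry → K.p.ω = ω8 → D1 < K.s.D0 →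
    ∀ (h j : ℕ) (hj : j < h), |(K.step 𝓡 h j hj).lam K.p.ω - 1| ≤ Cl * Real.exp (-(ℓ * Real.log 2 / 2) * j) := by
  obtain ⟨C, D1, H⟩ := entry_diag ℓ hℓ
  have hpi := Real.pi_pos
  refine ⟨4 * Real.pi * |C| * Real.exp (4 * Real.pi * |C|), D1, by positivity, fun K 𝓡 hl hF hω hD h j hj => ?_⟩
  have hLpos : 0 < K.s.L ^ j := Nat.pow_pos K.s.L_pos
  have hL : K.s.L = 2 ^ ℓ := by unfold Sc.L; rw [hl]
  have eS : K.s.L ^ (j + 1) = 2 ^ ℓ * K.s.L ^ j := by rw [pow_succ, mul_comm, hL]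
  have hclear : D1 * (2 ^ ℓ * K.s.L ^ j) < (K.s.T h).M := by
    rw [← eS]
    show D1 * K.s.L ^ (j + 1) < K.s.D0 * K.s.L ^ h
    have h1 : K.s.L ^ (j + 1) ≤ K.s.L ^ h := Nat.pow_le_pow_right K.s.L_pos hj
    have h2 : 0 < K.s.L ^ h := Nat.pow_pos K.s.L_pos
    calc D1 * K.s.L ^ (j + 1) ≤ D1 * K.s.L ^ h := Nat.mul_le_mul_left _ h1
      _ < K.s.D0 * K.s.L ^ h := Nat.mul_lt_mul_of_pos_right hD h2
  have hΓ := H (K.s.T h) rfl (K.s.L ^ j) hLpos hclear (org _)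
  rw [← eS] at hΓ
  set Γ00 : ℝ := shell (K.s.T h) Fam.entry (K.s.L ^ j) (K.s.L ^ (j + 1)) (org _) (org _) with hΓ00
  set δ : ℝ := Γ00 - ℓ * Real.log 2 / (2 * Real.pi) with hδ
  -- the square root of the scale
  have hu : Real.sqrt ((K.s.L ^ j : ℕ) : ℝ) = Real.exp ((ℓ * Real.log 2 / 2) * j) := by
    have e1 : ((K.s.L ^ j : ℕ) : ℝ) = Real.exp ((ℓ * Real.log 2) * j) := by
      rw [hL]
      push_cast
      rw [mul_comm _ (j : ℝ), Real.exp_nat_mul, Real.exp_nat_mul, Real.exp_log (by norm_num)]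
    rw [e1, ← Real.exp_half]
    congr 1
    ring
  have hinv : 1 / Real.sqrt ((K.s.L ^ j : ℕ) : ℝ) = Real.exp (-(ℓ * Real.log 2 / 2) * j) := by
    rw [hu, one_div, ← Real.exp_neg]
    congr 1
    ring
  have hle1 : Real.exp (-(ℓ * Real.log 2 / 2) * j) ≤ 1 := by
    rw [Real.exp_le_one_iff]
    have : 0 ≤ (ℓ * Real.log 2 / 2) * j := by
      have := Real.log_nonneg (by norm_num : (1 : ℝ) ≤ 2)
      positivity
    linarith
  have hδb : |δ| ≤ |C| * Real.exp (-(ℓ * Real.log 2 / 2) * j) := by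
    refine hΓ.trans ?_
    rw [← hinv, div_eq_mul_one_div]
    exact mul_le_mul_of_nonneg_right (le_abs_self C) (by positivity)
  have hlam : (K.step 𝓡 h j hj).lam K.p.ω = Real.exp (-(4 * Real.pi) * δ) := by
    show ((2 : ℝ) ^ K.s.ℓ) ^ 2 * Real.exp (-(Step.alpha K.p.ω) ^ 2 * shell (K.s.T h) K.F (K.s.L ^ j) (K.s.L ^ (j + 1)) (org _) (org _) / 2) = _
    rw [hF, hω, pk9_alpha_sq, hl, ← hΓ00]
    have e2 : ((2 : ℝ) ^ ℓ) ^ 2 = Real.exp (2 * (ℓ * Real.log 2)) := by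
      have : (2 : ℝ) * (ℓ * Real.log 2) = ((2 : ℕ) : ℝ) * (ℓ * Real.log 2) := by norm_num
      rw [this, Real.exp_nat_mul, Real.exp_nat_mul, Real.exp_log (by norm_num)]
    rw [e2, ← Real.exp_add]
    congr 1
    rw [hδ]
    field_simp
    ring
  rw [hlam]
  refine (pk9_exp_sub_one _).trans ?_
  have hx : |-(4 * Real.pi) * δ| = 4 * Real.pi * |δ| := by
    rw [abs_mul, abs_neg, abs_of_pos (by positivity)]
  rw [hx]
  have h1 : 4 * Real.pi * |δ| ≤ 4 * Real.pi * |C| * Real.exp (-(ℓ * Real.log 2 / 2) * j) := by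
    rw [mul_assoc (4 * Real.pi)]
    exact mul_le_mul_of_nonneg_left hδb (by positivity)
  have h2 : 4 * Real.pi * |δ| ≤ 4 * Real.pi * |C| := by
    refine h1.trans ?_
    exact mul_le_of_le_one_right (by positivity) hle1
  calc 4 * Real.pi * |δ| * Real.exp (4 * Real.pi * |δ|)
      ≤ (4 * Real.pi * |C| * Real.exp (-(ℓ * Real.log 2 / 2) * j)) * Real.exp (4 * Real.pi * |C|) :=
        mul_le_mul h1 (Real.exp_le_exp.2 h2) (Real.exp_pos _).le (by positivity)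
    _ = 4 * Real.pi * |C| * Real.exp (4 * Real.pi * |C|) * Real.exp (-(ℓ * Real.log 2 / 2) * j) := by ring

end

end Claimed.Agent.R285.Pack
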