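import Claimed.Agent.R285.Map.PackB
import Claimed.Agent.R285.Map.PackC9
import Claimed.Agent.R285.Map.PackC7

/-!
# ROW 285, post BP-MAP-PACK (#13351), file C: exponential entries, multipliers, **THE EXPORT `Pack.map_system`**      (architect helper114)

## What the package does
From the ONE-STEP, ONE-TORUS contracts of [B] P8.3 (`B8.weak_step : WeakOK`, `B8.weak_copy`, `B8.weak_cut`, `B8.entry_diag`, `B8.cov_unwrap`; owner helper202) and the Banach spaces `Base/Spaces.lean`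
to the MAP fields of `Asm.RawMapOK` / `B8.Sys8`:  `B10.RawOK`, `Ψ_an`, `Ψ_bd`, `Ψ_par`, `σT_inv`, `σT_iso`, the fields `e_*`, `eT_*` of `B10.PureOK`, `copy`, the exact identity of one step (`exact`, for READOUT).
NOT here: read-outs `rV, rP, rM`, `PureOK.resp` (READOUT, helper16), block sums of the quadratic coefficients (BP-F5-L53, helper177), the proof of `weak_step` (helper202).

## Decisions
1. **The linear part is the Fréchet derivative at `0`** (`Pack.ops`: `Pt = dPt Φ_j`, ..).  `pk_triangular` turns the three bounds `|t₊ - t|, |z₊ - λ z| ≤ C ‖R‖`, `‖R₊‖ ≤ θ ‖R‖ + C ‖x‖²` + holomorphy into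
   `RawOK.quad`, `Pt_bd`, `Pz_bd`, `Cc_bd`.  Exact linearity of `Step.Pt`, `Step.Pz`, `Step.Clin` in the activity (integrability questions!) is never used; the clauses `Pt`, `Pz`, `Cc` of `B8.OpsOK` are dropped.
2. **Holomorphy** = holomorphy on complex lines (`WeakOK.hol`; `plAct` is linear) + local boundedness (`pk_gateaux`).
3. **Normalised activities**: `plAct`, `toAct` vanish outside the strips, so `EqOn` between them is `=`; the operators are characterised by EQUALITIES (`pk_sig_act`, `pk_cjg_act`, `pk_sigT_act`).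
4. **The operators are canonical** (`Pack.ops K 𝓡`, a definition): READOUT, COEF, ENTRY refer to the same `K.raw 𝓡 hA j0 (Pack.ops K 𝓡)`, `K.tor 𝓡 (Pack.ops K 𝓡)`.
5. **Constants are FLEXIBLE**: `map_system` gives thresholds `(Cm, ρm, cm, dm)`; `MapSys` holds for EVERY `κr : RawC` with `κr.θ = θ`, `Cm ≤ κr.C`, `κr.ρ ≤ ρm`, `κr.c ≤ cm`, every `d1 ≤ dm`, and `j0 ≥ jmin (κr)`.
   So the assembly with READOUT / COEF takes the max / min of the thresholds.  (PLEASE state your exports in the same form.)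
6. NEW HYPOTHESIS `c.R ≤ c0`: if `2 c0 ≤ R` a polymer which is unwrapped with padding `c0` can be `R`-connected through the torus but not in a larger torus, and `Copy` fails (for `Rexp`, and for `Kprime`).
7. `D₁` is chosen AFTER `ℓ` (`entry_diag ℓ` gives its `D₁` after `ℓ`).

## Files
`Map/Sym.lean` (lattice symmetries), `Map/PackA.lean` (abstract lemmas, activities, dictionary), `Map/PackB.lean` (operators, plane step, torus step, copying), this file.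
The glue `pk_mapSys`, `map_system` is at the end of this file.
-/

set_option autoImplicit false

namespace Claimed.Agent.R285.Pack

open scoped BigOperators ENNReal NNReal
open Claimed.Agent.R285.RG Claimed.Agent.R285.B8

noncomputable section

/-! ## 7. The exponential activities `Rexp` -/

section rexp

variable {G : Geom}

/-! ### LEAF C7-A: identities -/

theorem pk7a_eBC_shift (g : Grid G) (B : g.I) (c : ℂ) (ζ : G.V → ℂ) : eBC g B (fun v => ζ v + c) = eBC g B ζ := by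
  unfold eBC
  congr 1
  refine Finset.sum_congr rfl fun v _ => Finset.sum_congr rfl fun e _ => ?_
  congr 1
  simp only [dif, Geom.lift]
  ring

theorem pk7a_cBC_shift (ω : ℝ) (hω : 0 < ω) (g : Grid G) (B : g.I) (ζ : G.V → ℂ) :
    cBC g (Step.alpha ω) B (fun v => ζ v + ((ω / 2 : ℝ) : ℂ)) = - cBC g (Step.alpha ω) B ζ := by
  unfold cBC
  rw [← mul_neg, ← Finset.sum_neg_distrib]
  congr 1
  refine Finset.sum_congr rfl fun x _ => ?_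
  have e : ((Step.alpha ω : ℝ) : ℂ) * (ζ x + ((ω / 2 : ℝ) : ℂ)) = (Step.alpha ω : ℝ) * ζ x + Real.pi := by
    have : ((Step.alpha ω : ℝ) : ℂ) * ((ω / 2 : ℝ) : ℂ) = Real.pi := by
      rw [← Complex.ofReal_mul]
      congr 1
      unfold Step.alpha
      field_simp
    rw [mul_add, this]
  rw [e, Complex.cos_add_pi]

theorem pk7a_eBC_conj (g : Grid G) (B : g.I) (ζ : G.V → ℂ) :
    starRingEnd ℂ (eBC g B fun v => starRingEnd ℂ (ζ v)) = eBC g B ζ := by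
  unfold eBC
  simp only [map_mul, map_sum, map_pow, dif, Geom.lift, map_sub, Complex.conj_conj, map_div₀, map_one, map_ofNat]

theorem pk7a_cBC_conj (g : Grid G) (α : ℝ) (B : g.I) (ζ : G.V → ℂ) :
    starRingEnd ℂ (cBC g α B fun v => starRingEnd ℂ (ζ v)) = cBC g α B ζ := by
  unfold cBC
  simp only [map_mul, map_sum, Complex.conj_ofReal, ← Complex.cos_conj, Complex.conj_conj]

theorem pk7a_eBC_diff (g : Grid G) (B : g.I) : Differentiable ℂ (eBC g B) := by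
  unfold eBC
  refine Differentiable.const_mul (Differentiable.fun_sum fun v _ => Differentiable.fun_sum fun e _ => ?_) _
  refine Differentiable.pow ?_ 2
  simp only [dif, Geom.lift]
  exact (differentiable_apply _).sub (differentiable_apply _)

theorem pk7a_diff_prod {ι : Type} (u : Finset ι) (f : ι → ℂ × ℂ → ℂ) (h : ∀ i ∈ u, Differentiable ℂ (f i)) :
    Differentiable ℂ fun w => ∏ i ∈ u, f i w := by
  classical
  induction u using Finset.induction_on with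
  | empty => simp
  | insert a s ha ih =>
    simp only [Finset.prod_insert ha]
    exact (h a (Finset.mem_insert_self _ _)).mul (ih fun i hi => h i (Finset.mem_insert_of_mem hi))

/-- (`e_B^0` is blind to constants, `c_B^α (ζ + ω/2) = - c_B^α (ζ)` as `α ω / 2 = π`) -/
theorem pk_Rexp_halfShift (ω : ℝ) (hω : 0 < ω) (g : Grid G) (R : ℕ) (t z : ℂ) :
    halfShift ω (Cfg.Rexp g R (Step.alpha ω) t z) = Cfg.Rexp g R (Step.alpha ω) t (-z) := by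
  funext X ζ
  simp only [halfShift, Cfg.Rexp, Cfg.Kexp, single, Pi.sub_apply, Finset.sum_apply]
  congr 1
  · split_ifs
    · refine Finset.prod_congr rfl fun B _ => ?_
      rw [pk7a_eBC_shift, pk7a_cBC_shift ω hω]
      ring_nf
    · rfl
  · refine Finset.sum_congr rfl fun B _ => ?_
    split_ifs
    · simp only [Pi.add_apply, Pi.smul_apply, smul_eq_mul]
      rw [pk7a_eBC_shift, pk7a_cBC_shift ω hω]
      ring
    · rfl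

theorem pk_Rexp_conj (g : Grid G) (R : ℕ) (α : ℝ) (t z : ℂ) :
    conjAct (Cfg.Rexp g R α t z) = Cfg.Rexp g R α (starRingEnd ℂ t) (starRingEnd ℂ z) := by
  funext X ζ
  simp only [conjAct, Cfg.Rexp, Cfg.Kexp, single, Pi.sub_apply, Finset.sum_apply, map_sub]
  congr 1
  · split_ifs
    · rw [map_prod]
      refine Finset.prod_congr rfl fun B _ => ?_
      rw [map_sub, map_one, ← Complex.exp_conj, map_add, map_mul, map_mul, pk7a_eBC_conj, pk7a_cBC_conj, map_div₀, map_ofNat]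
    · exact map_zero _
  · rw [map_sum]
    refine Finset.sum_congr rfl fun B _ => ?_
    split_ifs
    · simp only [Pi.add_apply, Pi.smul_apply, smul_eq_mul]
      rw [map_add, map_mul, map_mul, pk7a_eBC_conj, pk7a_cBC_conj, map_div₀, map_ofNat]
    · exact map_zero _

theorem pk_Rexp_diff (g : Grid G) (R : ℕ) (α : ℝ) (X : Finset g.I) (ζ : G.V → ℂ) :
    Differentiable ℂ fun w : ℂ × ℂ => Cfg.Rexp g R α w.1 w.2 X ζ := by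
  simp only [Cfg.Rexp, Cfg.Kexp, single, Pi.sub_apply, Finset.sum_apply]
  refine Differentiable.sub ?_ (Differentiable.fun_sum fun B _ => ?_)
  · split_ifs
    · refine pk7a_diff_prod X _ fun B _ => ?_
      fun_prop
    · exact differentiable_const _
  · split_ifs
    · simp only [Pi.add_apply, Pi.smul_apply, smul_eq_mul]
      fun_prop
    · exact differentiable_const _

/-! ### LEAF C7-B: the class
(`hol`: finite sums and products of entire functions; `loc`: `e_B^0`, `c_B^α` see the sites of `B` and their neighbours, `Geom.dist v (π (ι v + dir e)) ≤ 1`; `per`: `α ω = 2π`; `poly`: singletons are polymers;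
`Even`: `e_B^0`, `c_B^α` are even; `Sym`: `sym_conn`, `sym_eBC`, `sym_cBC`, `Finset.prod_map`) -/

theorem pk_Rexp_cls (p : Par) (hω : 0 < p.ω) (col R : ℕ) (hcol : 1 ≤ col) (hG : G.bc = BC.per) (hM : 3 ≤ G.M) (g gs : Grid G) (hg : g.Ok) (t z : ℂ) :
    (Cfg.Rexp g R (Step.alpha p.ω) t z).Cls p col R gs :=
  pk7_Rexp_cls p hω col R hcol hG hM g gs hg t z

/-! ### LEAF C7-C: the norm
PLAN.  `ζ = toC φ + f`, `tnorm g X f < h₀`, `B ∈ X`, `E_B := gE G (g.sites {B}) φ`, `w_B := t/2 e_B^0 (ζ) + z c_B^α (ζ)`, `s := |t| + |z|`.  `Hol.norm_eBC_le` (+ `tnorm_mono`) and the bound inside `Hol.cB_size` give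
`|w_B| ≤ s y_B`, `y_B := E_B + q`, `q := 8 h₀² + 4 e^{αm h₀}`.  `Complex.norm_exp_sub_sum_le_norm_mul_exp` (`n = 1, 2`): `|e^w - 1| ≤ |w| e^{|w|}`, `|e^w - 1 - w| ≤ |w|² e^{|w|}`.
`Wt ≥ exp (κ gE (D_m X)) ≥ exp (κ ∑_{B ∈ X} E_B)` (`Hol.exp_le_Wt`, `Hol.gE_le_U`; the `g.sites {B}` are disjoint subsets of `D_m X`).  For `s ≤ κ/2`: `y e^{s y - κ E} ≤ (2/κ) e^{κ q} =: C₂`, `y² e^{s y - κ E} ≤ (4/κ)² e^{κ q} =: C₁`.
`|X| = 1`: `A C₁ s²`.  `|X| ≥ 2` (there `single = 0`): `(A C₂ s)^{|X|} ≤ (A C₂ s)²` if `A C₂ s ≤ 1`.  Not a polymer: `0`.  `d1 := min (κ/4) (1/(2 A C₂))`. -/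

theorem pk_Rexp_norm (δ κ : ℝ) (h0 : ℝ≥0) (A αm : ℝ) (hδ : 0 < δ) (hκ : 0 < κ) (hA : 0 < A) : ∃ (Ce d1 : ℝ), 0 ≤ Ce ∧ 0 < d1 ∧
    ∀ p : Par, p.δ = δ → p.κ = κ → p.h0 = h0 → p.A = A → |Step.alpha p.ω| ≤ αm →
    ∀ (G : Geom) (g : Grid G), g.Ok → ∀ (V : Extra g) (R : ℕ) (t z : ℂ), ‖t‖ ≤ d1 → ‖z‖ ≤ d1 →
      actNorm p g V (Cfg.Rexp g R (Step.alpha p.ω) t z) ≤ ENNReal.ofReal (Ce * (‖t‖ + ‖z‖) ^ 2) :=
  pk7_Rexp_norm δ κ h0 A αm hδ hκ hA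

/-! ### LEAF C7-D: copies
PLAN.  `m = L^j`, `n = M/m`.  Let `pdiam S + 2 c0 m < M`.  For `x, y ∈ S` the plane index difference `d = |x.1/m - y.1/m|` satisfies `d ≤ n - 2 c0`; the periodic index distance is `min d (n - d)`, and `n - d ≥ 2 c0 > R`:
so `idist ≤ R ↔ d ≤ R` (both axes), in BOTH tori, and `x ↦ blk (π x)` identifies the blocks of `foldS S` with the plane blocks `(x.1/m, x.2/m)`, `x ∈ S`.  Hence `Conn R` agrees and the products run over the same index set.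
The sites of the block of `y ∈ S` and their neighbours are `π x`, `|x - y| ≤ m ≤ c0 m`: there `z (π x) = z' (π' x)`, so `e_B^0`, `c_B^α` agree. -/

theorem pk_Rexp_copy (s : Sc) (c0 R : ℕ) (hc0 : 1 ≤ c0) (hR : R ≤ c0) (h0 : ℝ≥0) (α : ℝ) (t z : ℂ) (j h h' : ℕ) (hj : j ≤ h) (hj' : j ≤ h') :
    Copy h0 c0 (s.lev h j) (s.lev h' j) (Cfg.Rexp (s.lev h j) R α t z) (Cfg.Rexp (s.lev h' j) R α t z) :=
  pk7_Rexp_copy s c0 R hc0 hR h0 α t z j h h' hj hj'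

end rexp

/-! ## 8. The exponential entries in the Banach spaces -/

/-- hypotheses on the exponential entries -/
structure ExpIn (K : Cfg) (Ce d1 : ℝ) : Prop where
  hA : 0 < K.p.A
  hω : 0 < K.p.ω
  col : 1 ≤ K.c.col
  c0 : 1 ≤ K.c0
  cR : K.c.R ≤ K.c0
  hD : 3 ≤ K.s.D0
  hd1 : 0 < d1
  hCe : 0 ≤ Ce
  bd : ∀ (G : Geom) (g : Grid G), g.Ok → ∀ (V : Extra g) (t z : ℂ), ‖t‖ ≤ d1 → ‖z‖ ≤ d1 →
    actNorm K.p g V (Cfg.Rexp g K.c.R (Step.alpha K.p.ω) t z) ≤ ENNReal.ofReal (Ce * (‖t‖ + ‖z‖) ^ 2)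

variable {K : Cfg} {𝓡 : Reg K.s} {Ce d1 : ℝ}

/-! ### LEAF C8-P: plane entries
(`pk_plMk_spec` with `pk_cls_cutW`, `pk_Rexp_cls`, `Sc.lev_ok`, `pk_cutW_of_not`, `pk_copy_cutW`, `pk_Rexp_copy`, `pk_actNorm_cutW_le`, `E.bd`;
`an`: `differentiableOn_codRestrict`, `lp_differentiableOn`, coordinates by `pk_plAct_spec`, `sp_ev_congr`, `pk_Rexp_diff`;  `S`, `re`: `pk_pl_ext`, `pk_sig_act`, `pk_cjg_act`, `pk_cutW_halfShift`, `pk_cutW_conjAct`, `pk_Rexp_halfShift`, `pk_Rexp_conj`) -/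

theorem pk_C8_M (E : ExpIn K Ce d1) (h : ℕ) : 3 ≤ (K.s.T h).M := by
  have h1 : 1 ≤ K.s.L ^ h := Nat.one_le_pow _ _ K.s.L_pos
  have h2 : K.s.D0 * 1 ≤ K.s.D0 * K.s.L ^ h := Nat.mul_le_mul_left _ h1
  have h3 : (K.s.T h).M = K.s.D0 * K.s.L ^ h := rfl
  have := E.hD
  omega

theorem pk_C8_C (E : ExpIn K Ce d1) (t z : ℂ) : 0 ≤ Ce * (‖t‖ + ‖z‖) ^ 2 := mul_nonneg E.hCe (sq_nonneg _)

theorem pk_C8_cls (E : ExpIn K Ce d1) (j h : ℕ) (t z : ℂ) :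
    Adm K.p K.c (𝓡.gs h) (Cfg.Rexp (K.s.lev h j) K.c.R (Step.alpha K.p.ω) t z) :=
  pk_Rexp_cls K.p E.hω K.c.col K.c.R E.col rfl (pk_C8_M E h) _ _ (K.s.lev_ok h j) t z

theorem pk_C8_ball {w : ℂ × ℂ} (hw : w ∈ Metric.ball (0 : ℂ × ℂ) d1) : ‖w.1‖ ≤ d1 ∧ ‖w.2‖ ≤ d1 := by
  have h1 : ‖w‖ < d1 := by simpa using hw
  exact ⟨(norm_fst_le w).trans h1.le, (norm_snd_le w).trans h1.le⟩

theorem pk_C8_ev_diff {G : Geom} (p : Par) (g : Grid G) (V : Extra g) (Kb : ℂ × ℂ → Act g)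
    (hhol : ∀ X ζ, Differentiable ℂ (fun w => Kb w X ζ)) (i : Idx g) :
    Differentiable ℂ (fun w => ev p g V (Kb w) i) := by
  obtain ⟨X, φ, f⟩ := i
  by_cases hf : tnorm g X f < p.h0
  · simp only [sp_ev_pos p g V _ X φ f hf]
    exact (hhol X _).const_mul _
  · simp only [sp_ev_neg p g V _ X φ f hf]
    exact differentiable_const _

theorem pk_C8_cut_diff {G : Geom} (g : Grid G) (c0 R : ℕ) (α : ℝ) (X : Finset g.I) (ζ : G.V → ℂ) :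
    Differentiable ℂ fun w : ℂ × ℂ => cutW c0 (Cfg.Rexp g R α w.1 w.2) X ζ := by
  by_cases hX : g.Unwr c0 X
  · simp only [cutW, if_pos hX]
    exact pk_Rexp_diff g R α X ζ
  · simp only [cutW, if_neg hX]
    exact differentiable_const _

theorem pk_eExp_spec (E : ExpIn K Ce d1) (j : ℕ) (t z : ℂ) (ht : ‖t‖ ≤ d1) (hz : ‖z‖ ≤ d1) :
    (∀ i : 𝓡.Ix j, EqOn K.p.h0 (K.plAct 𝓡 (K.eExp 𝓡 j t z).2.2 i) (cutW K.c0 (Cfg.Rexp (K.s.lev i.1 j) K.c.R (Step.alpha K.p.ω) t z))) ∧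
    ‖(K.eExp 𝓡 j t z).2.2‖ ≤ Ce * (‖t‖ + ‖z‖) ^ 2 := by
  exact pk_plMk_spec K 𝓡 E.hA j (fun i => cutW K.c0 (Cfg.Rexp (K.s.lev i.1 j) K.c.R (Step.alpha K.p.ω) t z))
    (fun i => pk_cls_cutW rfl (pk_C8_M E i.1) K.c0 (pk_C8_cls E j i.1 t z))
    (fun i X hX => pk_cutW_of_not K.c0 _ X hX)
    (fun i i' => pk_copy_cutW
      (by
        show K.s.L ^ min j i.1 = K.s.L ^ min j i'.1
        rw [min_eq_left i.2.1.le, min_eq_left i'.2.1.le])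
      (pk_Rexp_copy K.s K.c0 K.c.R E.c0 E.cR K.p.h0 _ t z j i.1 i'.1 i.2.1.le i'.2.1.le))
    _ (pk_C8_C E t z) (fun i => (pk_actNorm_cutW_le K.p _ _ K.c0 _).trans (E.bd _ _ (K.s.lev_ok i.1 j) _ t z ht hz))

theorem pk_eExp_an (E : ExpIn K Ce d1) (j : ℕ) : DifferentiableOn ℂ (fun w : ℂ × ℂ => K.eExp 𝓡 j w.1 w.2) (Metric.ball 0 d1) := by
  have h3 : DifferentiableOn ℂ (fun w : ℂ × ℂ => (K.eExp 𝓡 j w.1 w.2).2.2) (Metric.ball 0 d1) := by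
    refine differentiableOn_codRestrict _ (bulkSp_isClosed K.p E.hA _ _ _ _) _ Metric.isOpen_ball _
      (lp_differentiableOn _ Metric.isOpen_ball _ (fun y => ?_) fun x hx => ?_)
    · obtain ⟨i, x⟩ := y
      refine ((pk_C8_ev_diff K.p (K.s.lev i.1 j) (𝓡.V i.1 j)
        (fun w => cutW K.c0 (Cfg.Rexp (K.s.lev i.1 j) K.c.R (Step.alpha K.p.ω) w.1 w.2))
        (fun X ζ => pk_C8_cut_diff _ _ _ _ X ζ) x).differentiableOn).congr fun w hw => ?_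
      show (K.eExp 𝓡 j w.1 w.2).2.2.1 ⟨i, x⟩ = _
      rw [(pk_plAct_spec K 𝓡 E.hA _).2.2.2.1 i x]
      exact sp_ev_congr _ _ _ _ _ ((pk_eExp_spec E j w.1 w.2 (pk_C8_ball hw).1 (pk_C8_ball hw).2).1 i) x
    · obtain ⟨ε, hε, hball⟩ := Metric.isOpen_iff.1 Metric.isOpen_ball x hx
      refine ⟨ε, hε, Ce * (d1 + d1) ^ 2, fun y hy => ?_⟩
      have hy' := pk_C8_ball (hball hy)
      refine (pk_eExp_spec E j y.1 y.2 hy'.1 hy'.2).2.trans ?_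
      exact mul_le_mul_of_nonneg_left (pow_le_pow_left₀ (by positivity) (add_le_add hy'.1 hy'.2) 2) E.hCe
  exact differentiableOn_fst.prodMk (differentiableOn_snd.prodMk h3)

theorem pk_eExp_S (E : ExpIn K Ce d1) (j : ℕ) (t z : ℂ) (ht : ‖t‖ ≤ d1) (hz : ‖z‖ ≤ d1) :
    sig K 𝓡 j (K.eExp 𝓡 j t z).2.2 = (K.eExp 𝓡 j t (-z)).2.2 := by
  refine pk_pl_ext K 𝓡 E.hA _ _ fun i => ?_
  rw [pk_sig_act K 𝓡 E.hA]
  have h1 := pk_eqOn_halfShift K.p.ω ((pk_eExp_spec E j t z ht hz).1 i)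
  have h2 := (pk_eExp_spec E j t (-z) ht (by rwa [norm_neg])).1 i
  rw [← pk_cutW_halfShift, pk_Rexp_halfShift K.p.ω E.hω] at h1
  exact pk_eqOn_trans h1 (pk_eqOn_symm h2)

theorem pk_eExp_re (E : ExpIn K Ce d1) (j : ℕ) (t z : ℂ) (ht : ‖t‖ ≤ d1) (hz : ‖z‖ ≤ d1) :
    cjg K 𝓡 j (K.eExp 𝓡 j t z).2.2 = (K.eExp 𝓡 j (starRingEnd ℂ t) (starRingEnd ℂ z)).2.2 := by
  refine pk_pl_ext K 𝓡 E.hA _ _ fun i => ?_
  rw [pk_cjg_act K 𝓡 E.hA]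
  have h1 := pk_eqOn_conjAct ((pk_eExp_spec E j t z ht hz).1 i)
  have h2 := (pk_eExp_spec E j (starRingEnd ℂ t) (starRingEnd ℂ z) (by rwa [RCLike.norm_conj]) (by rwa [RCLike.norm_conj])).1 i
  rw [← pk_cutW_conjAct, pk_Rexp_conj] at h1
  exact pk_eqOn_trans h1 (pk_eqOn_symm h2)

/-! ### LEAF C8-T: torus entries (same with `pk_toMk_spec`, `pk_to_ext`, `pk_sigT_act`) -/

theorem pk_eExpT_spec (E : ExpIn K Ce d1) (j h : ℕ) (t z : ℂ) (ht : ‖t‖ ≤ d1) (hz : ‖z‖ ≤ d1) :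
    EqOn K.p.h0 (K.toAct 𝓡 (K.eExpT 𝓡 j h t z)) (Cfg.Rexp (K.s.lev h j) K.c.R (Step.alpha K.p.ω) t z) ∧
    ‖K.eExpT 𝓡 j h t z‖ ≤ Ce * (‖t‖ + ‖z‖) ^ 2 := by
  exact pk_toMk_spec K 𝓡 E.hA j h _ (pk_C8_cls E j h t z) _ (pk_C8_C E t z) (E.bd _ _ (K.s.lev_ok h j) _ t z ht hz)

theorem pk_eExpT_an (E : ExpIn K Ce d1) (j h : ℕ) : DifferentiableOn ℂ (fun w : ℂ × ℂ => K.eExpT 𝓡 j h w.1 w.2) (Metric.ball 0 d1) := by
  refine differentiableOn_codRestrict _ (actSp_isClosed K.p E.hA _ _ _ _ _) _ Metric.isOpen_ball _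
    (lp_differentiableOn _ Metric.isOpen_ball _ (fun x => ?_) fun x hx => ?_)
  · refine ((pk_C8_ev_diff K.p (K.s.lev h j) (𝓡.V h j)
      (fun w => Cfg.Rexp (K.s.lev h j) K.c.R (Step.alpha K.p.ω) w.1 w.2)
      (fun X ζ => pk_Rexp_diff _ _ _ X ζ) x).differentiableOn).congr fun w hw => ?_
    show (K.eExpT 𝓡 j h w.1 w.2).1 x = _
    rw [(pk_toAct_spec K 𝓡 E.hA _).2.1 x]
    exact sp_ev_congr _ _ _ _ _ (pk_eExpT_spec E j h w.1 w.2 (pk_C8_ball hw).1 (pk_C8_ball hw).2).1 x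
  · obtain ⟨ε, hε, hball⟩ := Metric.isOpen_iff.1 Metric.isOpen_ball x hx
    refine ⟨ε, hε, Ce * (d1 + d1) ^ 2, fun y hy => ?_⟩
    have hy' := pk_C8_ball (hball hy)
    refine (pk_eExpT_spec E j h y.1 y.2 hy'.1 hy'.2).2.trans ?_
    exact mul_le_mul_of_nonneg_left (pow_le_pow_left₀ (by positivity) (add_le_add hy'.1 hy'.2) 2) E.hCe

theorem pk_eExpT_S (E : ExpIn K Ce d1) (j h : ℕ) (t z : ℂ) (ht : ‖t‖ ≤ d1) (hz : ‖z‖ ≤ d1) :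
    sigT K 𝓡 j h (K.eExpT 𝓡 j h t z) = K.eExpT 𝓡 j h t (-z) := by
  refine pk_to_ext K 𝓡 E.hA _ _ ?_
  rw [pk_sigT_act K 𝓡 E.hA]
  have h1 := pk_eqOn_halfShift K.p.ω (pk_eExpT_spec (𝓡 := 𝓡) E j h t z ht hz).1
  rw [pk_Rexp_halfShift K.p.ω E.hω] at h1
  exact pk_eqOn_trans h1 (pk_eqOn_symm (pk_eExpT_spec E j h t (-z) ht (by rwa [norm_neg])).1)

/-- the torus entry is a copy of the plane entry -/
theorem pk_eExp_copy (E : ExpIn K Ce d1) (j h : ℕ) (hj : j < h) (hm : 𝓡.hmin ≤ h) (t z : ℂ) (ht : ‖t‖ ≤ d1) (hz : ‖z‖ ≤ d1) :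
    EqOn K.p.h0 (cutW K.c0 (K.toAct 𝓡 (K.eExpT 𝓡 j h t z))) (K.plAct 𝓡 (K.eExp 𝓡 j t z).2.2 ⟨h, hj, hm⟩) := by
  exact pk_eqOn_trans (pk_eqOn_cutW K.c0 (pk_eExpT_spec E j h t z ht hz).1)
    (pk_eqOn_symm ((pk_eExp_spec E j t z ht hz).1 ⟨h, hj, hm⟩))

/-! ## 9. The multipliers, the copies of the steps -/

/-! ### LEAF C9-L
PLAN.  `α² = (2π/ω8)² = k0 = 8π`; `Γ(0,0) = ℓ log 2/2π + δ`, `|δ| ≤ C₀ / √(L^j)` (`entry_diag ℓ` on the torus `h`, `u = L^j`, `2^ℓ u = L^{j+1}`, `D₁ L^{j+1} < D₀ L^h`); `lam = L² e^{-4π Γ(0,0)} = e^{-4π δ}`;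
`|e^x - 1| ≤ |x| e^{|x|}`; `1/√(L^j) = e^{-(ℓ log 2/2) j}`.  `Cl := 4π C₀ e^{4π C₀}`. -/

theorem pk_lam_bd (ℓ : ℕ) (hℓ : 1 ≤ ℓ) : ∃ (Cl : ℝ) (D1 : ℕ), 0 ≤ Cl ∧ ∀ (K : Cfg) (𝓡 : Reg K.s), K.s.ℓ = ℓ → K.F = Fam.entry → K.p.ω = ω8 → D1 < K.s.D0 →
    ∀ (h j : ℕ) (hj : j < h), |(K.step 𝓡 h j hj).lam K.p.ω - 1| ≤ Cl * Real.exp (-(ℓ * Real.log 2 / 2) * j) :=
  pk9_lam_bd ℓ hℓ

/-! ### LEAF C9-S
PLAN.  `side`: both are `L^{min j h} = L^j`.  `cov`: `cov_unwrap` with `P = Fam.entry.shellP (L^j) (L^{j+1})`, `natDegree P < L^{j+1} (pp + 1)`: `natDegree (Fej t) ≤ t - 1` (`Chebyshev.T` has degree `k`), `natDegree (Q t) ≤ pp (t - 1)`,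
`natDegree_comp_le`, `natDegree_divX_le`.  `grid`: `blk1 (fold x) = ⟨(x mod M)/m, _⟩` and `m ∣ M`: `(x mod M)/m = (x/m) mod (M/m)`. -/

theorem pk_stepCopy (K : Cfg) (𝓡 : Reg K.s) (hF : K.F = Fam.entry) (h h' j : ℕ) (hj : j < h) (hj' : j < h') :
    StepCopy (K.step 𝓡 h j hj) (K.step 𝓡 h' j hj') :=
  pk9_stepCopy K 𝓡 hF h h' j hj hj'

/-- the multiplier is the same on all tori (`cov_unwrap` at `x = y = 0`, same degree bound; `org G = G.π 0`) -/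
theorem pk_lam_const (K : Cfg) (𝓡 : Reg K.s) (hF : K.F = Fam.entry) (hD : pp + 1 < K.s.D0) (h j : ℕ) (hj : j < h) :
    (K.step 𝓡 h j hj).lam K.p.ω = K.lam 𝓡 j :=
  pk9_lam_const K 𝓡 hF hD h j hj

/-- hypotheses on the multipliers -/
structure LamIn (K : Cfg) (𝓡 : Reg K.s) (j0 : ℕ) (Cl cl : ℝ) : Prop where
  bd : ∀ j, j0 ≤ j → |K.lam 𝓡 j - 1| ≤ Cl * Real.exp (-cl * j)
  le2 : ∀ j, j0 ≤ j → |K.lam 𝓡 j| ≤ 2

/-! ## 10. THE EXPORT -/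

/-- **everything MAP-PACK delivers about one tower** (fields verbatim as in `Asm.RawMapOK`, `B10.PureOK`, `B8.Sys8`) -/
structure MapSys (K : Cfg) (𝓡 : Reg K.s) (j0 : ℕ) (hA : 0 < K.p.A) (κr : B10.RawC) (d1 : ℝ) : Prop where
  raw : B10.RawOK κr (K.raw 𝓡 hA j0 (ops K 𝓡))
  j0_pos : 1 ≤ j0
  Ψ_an : ∀ j h, j0 ≤ j → j < h → DifferentiableOn ℂ (K.Psi 𝓡 j h) (Metric.ball 0 κr.ρ)
  Ψ_bd : ∀ j h, j0 ≤ j → j < h → ∀ X ∈ Metric.ball (0 : (ℂ × ℂ) × K.To 𝓡 j h) κr.ρ, ‖K.Psi 𝓡 j h X‖ ≤ κr.θ * ‖X.2‖ + κr.C * ‖X‖ ^ 2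
  σT_inv : ∀ j h q, sigT K 𝓡 j h (sigT K 𝓡 j h q) = q
  σT_iso : ∀ j h q, ‖sigT K 𝓡 j h q‖ = ‖q‖
  Ψ_par : ∀ j h, j0 ≤ j → j < h → ∀ X ∈ Metric.ball (0 : (ℂ × ℂ) × K.To 𝓡 j h) κr.ρ,
    K.Psi 𝓡 j h (Flow.parX (sigT K 𝓡 j h) X) = sigT K 𝓡 (j + 1) h (K.Psi 𝓡 j h X)
  /-- what the operators are -/
  σ_act : ∀ j (a : K.Pl 𝓡 j) i, K.plAct 𝓡 (sig K 𝓡 j a) i = halfShift K.p.ω (K.plAct 𝓡 a i)
  cj_act : ∀ j (a : K.Pl 𝓡 j) i, K.plAct 𝓡 (cjg K 𝓡 j a) i = conjAct (K.plAct 𝓡 a i)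
  σT_act : ∀ j h (a : K.To 𝓡 j h), K.toAct 𝓡 (sigT K 𝓡 j h a) = halfShift K.p.ω (K.toAct 𝓡 a)
  /-- exponential entries, at ALL levels, two parameters (`z = 0`: the pure Gaussian entries of `B10.PureOK`) -/
  e_an : ∀ j, DifferentiableOn ℂ (fun w : ℂ × ℂ => K.eExp 𝓡 j w.1 w.2) (Metric.ball 0 d1)
  e_R : ∀ j (t z : ℂ), ‖t‖ < d1 → ‖z‖ < d1 → ‖(K.eExp 𝓡 j t z).2.2‖ ≤ κr.C * (‖t‖ + ‖z‖) ^ 2
  e_S : ∀ j (t z : ℂ), ‖t‖ < d1 → ‖z‖ < d1 → sig K 𝓡 j (K.eExp 𝓡 j t z).2.2 = (K.eExp 𝓡 j t (-z)).2.2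
  e_re : ∀ j (t z : ℂ), ‖t‖ < d1 → ‖z‖ < d1 → cjg K 𝓡 j (K.eExp 𝓡 j t z).2.2 = (K.eExp 𝓡 j (starRingEnd ℂ t) (starRingEnd ℂ z)).2.2
  e_act : ∀ j (t z : ℂ), ‖t‖ < d1 → ‖z‖ < d1 → ∀ i : 𝓡.Ix j,
    EqOn K.p.h0 (K.plAct 𝓡 (K.eExp 𝓡 j t z).2.2 i) (cutW K.c0 (Cfg.Rexp (K.s.lev i.1 j) K.c.R (Step.alpha K.p.ω) t z))
  eT_an : ∀ j h, DifferentiableOn ℂ (fun w : ℂ × ℂ => K.eExpT 𝓡 j h w.1 w.2) (Metric.ball 0 d1)
  eT_bd : ∀ j h (t z : ℂ), ‖t‖ < d1 → ‖z‖ < d1 → ‖K.eExpT 𝓡 j h t z‖ ≤ κr.C * (‖t‖ + ‖z‖) ^ 2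
  eT_S : ∀ j h (t z : ℂ), ‖t‖ < d1 → ‖z‖ < d1 → sigT K 𝓡 j h (K.eExpT 𝓡 j h t z) = K.eExpT 𝓡 j h t (-z)
  eT_act : ∀ j h (t z : ℂ), ‖t‖ < d1 → ‖z‖ < d1 →
    EqOn K.p.h0 (K.toAct 𝓡 (K.eExpT 𝓡 j h t z)) (Cfg.Rexp (K.s.lev h j) K.c.R (Step.alpha K.p.ω) t z)
  eT_copy : ∀ j h (hj : j < h) (hm : 𝓡.hmin ≤ h) (t z : ℂ), ‖t‖ < d1 → ‖z‖ < d1 →
    EqOn K.p.h0 (cutW K.c0 (K.toAct 𝓡 (K.eExpT 𝓡 j h t z))) (K.plAct 𝓡 (K.eExp 𝓡 j t z).2.2 ⟨h, hj, hm⟩)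
  /-- **copying** (= `B8.Sys8.copy`) -/
  copy : ∀ j h, j0 ≤ j → ∀ (hj : j < h) (hm : 𝓡.hmin ≤ h), ∀ (x : ℂ × ℂ × K.Pl 𝓡 j) (a : K.To 𝓡 j h), ‖x‖ < κr.ρ → ‖a‖ < κr.ρ →
    EqOn K.p.h0 (cutW K.c0 (K.toAct 𝓡 a)) (K.plAct 𝓡 x.2.2 ⟨h, hj, hm⟩) →
    (K.PhiT 𝓡 h j hj (x.1, x.2.1, K.toAct 𝓡 a)).1 = (K.Phi 𝓡 j x).1 ∧ (K.PhiT 𝓡 h j hj (x.1, x.2.1, K.toAct 𝓡 a)).2.1 = (K.Phi 𝓡 j x).2.1 ∧
    EqOn K.p.h0 (K.toAct 𝓡 (K.Psi 𝓡 j h ((x.1, x.2.1), a))) (K.PhiT 𝓡 h j hj (x.1, x.2.1, K.toAct 𝓡 a)).2.2 ∧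
    ∀ hj' : j + 1 < h, EqOn K.p.h0 (cutW K.c0 (K.toAct 𝓡 (K.Psi 𝓡 j h ((x.1, x.2.1), a)))) (K.plAct 𝓡 (K.Phi 𝓡 j x).2.2 ⟨h, hj', hm⟩)
  /-- **the exact identity of one step** (for the stopped identity of READOUT / COEF) -/
  exact : ∀ j h, j0 ≤ j → ∀ hj : j < h, ∀ X ∈ Metric.ball (0 : (ℂ × ℂ) × K.To 𝓡 j h) κr.ρ,
    ∃ cst : ℂ, cst ≠ 0 ∧ ∀ z ∈ strip K.p.h0 (K.s.lev h (j + 1)) Finset.univ,
      conv (K.step 𝓡 h j hj).Γ (ZA (K.s.lev h j) K.c.R (Kof (K.s.lev h j) (Step.alpha K.p.ω) (X.1.1, X.1.2, K.toAct 𝓡 X.2))) z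
        = cst * ZA (K.s.lev h (j + 1)) K.c.R (Kof (K.s.lev h (j + 1)) (Step.alpha K.p.ω)
            ((K.PhiT 𝓡 h j hj (X.1.1, X.1.2, K.toAct 𝓡 X.2)).1, (K.PhiT 𝓡 h j hj (X.1.1, X.1.2, K.toAct 𝓡 X.2)).2.1, K.toAct 𝓡 (K.Psi 𝓡 j h X))) z

/-- the threshold for `κr.C` -/
def Cmap (θ C ε0 : ℝ≥0) (Ce Cl : ℝ) : ℝ :=
  max (max (4 * (1 + 2 + 9 * C + θ + 9 * C * (ε0 / 3)) / (ε0 / 3)) (9 * C)) (max Ce Cl)

/-! ### the glue (helper114) -/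

section glue

variable {K : Cfg} {𝓡 : Reg K.s} {j0 : ℕ} {θ C ε0 : ℝ≥0} {Ce dm Cl cl : ℝ}

/-- with the cosine coordinate there is no restriction on `z` -/
theorem pk_hz {b : Bool} (hcos : b = true) (p : Prop) : b = false → p := fun h => by rw [hcos] at h; exact Bool.noConfusion h

theorem pk_ball_le {E : Type*} [SeminormedAddCommGroup E] {ρ : ℝ} {ε0 : ℝ≥0} (hρ : ρ ≤ ε0 / 3) {X : E} (hX : X ∈ Metric.ball (0 : E) ρ) :
    3 * ‖X‖ ≤ ε0 := by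
  have : ‖X‖ < ρ := by simpa using hX
  linarith

/-- the triangular structure of the plane map on the fixed ball of radius `ε₀/3` -/
theorem pk_tri (H : PackIn K 𝓡 j0 θ C ε0) (hcos : K.cosOn = true) (Lm : LamIn K 𝓡 j0 Cl cl) (j : ℕ) (hj : j0 ≤ j) :
    ‖dPt (K.Phi 𝓡 j)‖ ≤ 9 * C ∧ ‖dPz (K.Phi 𝓡 j)‖ ≤ 9 * C ∧ ‖dCc (K.Phi 𝓡 j)‖ ≤ θ ∧
      ∀ X ∈ Metric.ball (0 : ℂ × ℂ × K.Pl 𝓡 j) (ε0 / 3),
        ‖K.Phi 𝓡 j X - (X.1 + dPt (K.Phi 𝓡 j) X.2.2, (K.lam 𝓡 j : ℂ) * X.2.1 + dPz (K.Phi 𝓡 j) X.2.2, dCc (K.Phi 𝓡 j) X.2.2)‖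
          ≤ 4 * (1 + 2 + 9 * C + θ + 9 * C * (ε0 / 3)) / (ε0 / 3) * ‖X‖ ^ 2 := by
  have hε : (0 : ℝ) < ε0 / 3 := by have : (0 : ℝ) < ε0 := by exact_mod_cast H.hε
                                   positivity
  have hC0 : (0 : ℝ) ≤ C := C.2
  have key := pk_triangular (K.Phi 𝓡 j) (ε0 / 3) (9 * C) θ (K.lam 𝓡 j : ℂ) hε (by positivity) θ.2
    (pk_Phi_an H hcos j hj (ε0 / 3) (by linarith))
    (fun X hX => by
      have h := (pk_plane_step H j hj X (pk_hz hcos _) (pk_ball_le le_rfl hX)).2.2.2.2.1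
      refine h.trans ?_
      have := norm_nonneg X.2.2
      nlinarith)
    (fun X hX => by
      have h := (pk_plane_step H j hj X (pk_hz hcos _) (pk_ball_le le_rfl hX)).2.2.2.2.2
      refine h.trans ?_
      have := norm_nonneg X.2.2
      nlinarith)
    (fun X hX => by
      have h := (pk_plane_step H j hj X (pk_hz hcos _) (pk_ball_le le_rfl hX)).2.2.2.1
      refine h.trans (le_of_eq ?_)
      ring)
  refine ⟨key.1, key.2.1, key.2.2.1, fun X hX => (key.2.2.2 X hX).trans ?_⟩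
  have hl : ‖(K.lam 𝓡 j : ℂ)‖ ≤ 2 := by
    rw [Complex.norm_real, Real.norm_eq_abs]
    exact Lm.le2 j hj
  gcongr

theorem pk_Cmap_le1 (θ C ε0 : ℝ≥0) (Ce Cl : ℝ) : 4 * (1 + 2 + 9 * C + θ + 9 * C * (ε0 / 3)) / (ε0 / 3) ≤ Cmap θ C ε0 Ce Cl :=
  (le_max_left _ _).trans (le_max_left _ _)

theorem pk_Cmap_le2 (θ C ε0 : ℝ≥0) (Ce Cl : ℝ) : 9 * (C : ℝ) ≤ Cmap θ C ε0 Ce Cl :=
  (le_max_right _ _).trans (le_max_left _ _)

theorem pk_Cmap_le3 (θ C ε0 : ℝ≥0) (Ce Cl : ℝ) : Ce ≤ Cmap θ C ε0 Ce Cl :=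
  (le_max_left _ _).trans (le_max_right _ _)

theorem pk_Cmap_le4 (θ C ε0 : ℝ≥0) (Ce Cl : ℝ) : Cl ≤ Cmap θ C ε0 Ce Cl :=
  (le_max_right _ _).trans (le_max_right _ _)

/-- **`B10.RawOK`** -/
theorem pk_rawOK (H : PackIn K 𝓡 j0 θ C ε0) (hcos : K.cosOn = true) (Lm : LamIn K 𝓡 j0 Cl cl) (κr : B10.RawC) (hθ : κr.θ = θ)
    (hC : Cmap θ C ε0 Ce Cl ≤ κr.C) (hρ : κr.ρ ≤ ε0 / 3) (hc : κr.c ≤ cl)
    (hsm : κr.C * Real.exp (-κr.c * j0) / (1 - Real.exp (-κr.c)) ≤ 1 / 4) :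
    B10.RawOK κr (K.raw 𝓡 H.hA j0 (ops K 𝓡)) where
  an := fun j hj => pk_Phi_an H hcos j hj κr.ρ (by linarith)
  quad := fun j hj X hX => by
    have h := (pk_tri H hcos Lm j hj).2.2.2 X (Metric.ball_subset_ball hρ hX)
    refine h.trans ?_
    exact mul_le_mul_of_nonneg_right ((pk_Cmap_le1 θ C ε0 Ce Cl).trans hC) (sq_nonneg _)
  Pt_bd := fun j hj => (pk_tri H hcos Lm j hj).1.trans ((pk_Cmap_le2 θ C ε0 Ce Cl).trans hC)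
  Pz_bd := fun j hj => (pk_tri H hcos Lm j hj).2.1.trans ((pk_Cmap_le2 θ C ε0 Ce Cl).trans hC)
  Cc_bd := fun j hj => (pk_tri H hcos Lm j hj).2.2.1.trans (le_of_eq hθ.symm)
  lam_bd := fun j hj => by
    have h1 : ‖((K.lam 𝓡 j : ℝ) : ℂ) - 1‖ = |K.lam 𝓡 j - 1| := by
      rw [← Complex.ofReal_one, ← Complex.ofReal_sub, Complex.norm_real, Real.norm_eq_abs]
    show ‖((K.lam 𝓡 j : ℝ) : ℂ) - 1‖ ≤ _
    rw [h1]
    refine (Lm.bd j hj).trans ?_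
    have h2 : Cl ≤ κr.C := (pk_Cmap_le4 θ C ε0 Ce Cl).trans hC
    have h3 : Real.exp (-cl * j) ≤ Real.exp (-κr.c * j) := by
      apply Real.exp_le_exp.2
      have : (0 : ℝ) ≤ j := Nat.cast_nonneg j
      nlinarith
    have h4 : 0 ≤ κr.C := zero_le_one.trans κr.hC
    calc Cl * Real.exp (-cl * j) ≤ κr.C * Real.exp (-cl * j) := by gcongr
      _ ≤ κr.C * Real.exp (-κr.c * j) := by gcongr
  lam_sm := hsm
  lam_re := fun j _ => Complex.ofReal_im _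
  σ_inv := fun j R => pk_sig_inv K 𝓡 H.hA j R
  σ_bd := fun j R => pk_sig_bd K 𝓡 H.hA j R
  par := fun j hj X hX => pk_Phi_par H j hj X (pk_hz hcos _) (pk_ball_le hρ hX)
  cj_add := fun j _ R R' => pk_cjg_add K 𝓡 H.hA j R R'
  cj_smul := fun j _ a R => pk_cjg_smul K 𝓡 H.hA j a R
  cj_inv := fun j _ R => pk_cjg_inv K 𝓡 H.hA j R
  cj_bd := fun j _ R => pk_cjg_bd K 𝓡 H.hA j R
  real := fun j hj X hX => pk_Phi_real H j hj X (pk_hz hcos _) (pk_ball_le hρ hX)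

/-- **`MapSys` from the three bundles of hypotheses**, for every admissible choice of the constants -/
theorem pk_mapSys (H : PackIn K 𝓡 j0 θ C ε0) (hcos : K.cosOn = true) (E : ExpIn K Ce dm) (Lm : LamIn K 𝓡 j0 Cl cl) (κr : B10.RawC) (d1 : ℝ) (hθ : κr.θ = θ)
    (hC : Cmap θ C ε0 Ce Cl ≤ κr.C) (hρ : κr.ρ ≤ ε0 / 3) (hc : κr.c ≤ cl) (hd : d1 ≤ dm) (hj0 : 1 ≤ j0)
    (hsm : κr.C * Real.exp (-κr.c * j0) / (1 - Real.exp (-κr.c)) ≤ 1 / 4) :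
    MapSys K 𝓡 j0 H.hA κr d1 where
  raw := pk_rawOK H hcos Lm κr hθ hC hρ hc hsm
  j0_pos := hj0
  Ψ_an := fun j h hj hjh => pk_Psi_an H hcos j h hj hjh κr.ρ (by linarith)
  Ψ_bd := fun j h hj hjh X hX => by
    have h1 := (pk_torus_step H j h hj hjh X (pk_hz hcos _) (pk_ball_le hρ hX)).2.2
    refine h1.trans ?_
    rw [hθ]
    have h2 : 9 * (C : ℝ) ≤ κr.C := (pk_Cmap_le2 θ C ε0 Ce Cl).trans hC
    have h3 : (C : ℝ) * (3 * ‖X‖) ^ 2 = 9 * C * ‖X‖ ^ 2 := by ring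
    rw [h3]
    have h4 := mul_le_mul_of_nonneg_right h2 (sq_nonneg ‖X‖)
    linarith
  σT_inv := fun j h q => pk_sigT_inv K 𝓡 H.hA j h q
  σT_iso := fun j h q => pk_sigT_iso K 𝓡 H.hA j h q
  Ψ_par := fun j h hj hjh X hX => pk_Psi_par H j h hj hjh X (pk_hz hcos _) (pk_ball_le hρ hX)
  σ_act := fun j a i => pk_sig_act K 𝓡 H.hA j a i
  cj_act := fun j a i => pk_cjg_act K 𝓡 H.hA j a i
  σT_act := fun j h a => pk_sigT_act K 𝓡 H.hA j h a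
  e_an := fun j => (pk_eExp_an E j).mono (Metric.ball_subset_ball hd)
  e_R := fun j t z ht hz => by
    refine (pk_eExp_spec E j t z (by linarith) (by linarith)).2.trans ?_
    exact mul_le_mul_of_nonneg_right ((pk_Cmap_le3 θ C ε0 Ce Cl).trans hC) (sq_nonneg _)
  e_S := fun j t z ht hz => pk_eExp_S E j t z (by linarith) (by linarith)
  e_re := fun j t z ht hz => pk_eExp_re E j t z (by linarith) (by linarith)
  e_act := fun j t z ht hz => (pk_eExp_spec E j t z (by linarith) (by linarith)).1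
  eT_an := fun j h => (pk_eExpT_an E j h).mono (Metric.ball_subset_ball hd)
  eT_bd := fun j h t z ht hz => by
    refine (pk_eExpT_spec E j h t z (by linarith) (by linarith)).2.trans ?_
    exact mul_le_mul_of_nonneg_right ((pk_Cmap_le3 θ C ε0 Ce Cl).trans hC) (sq_nonneg _)
  eT_S := fun j h t z ht hz => pk_eExpT_S E j h t z (by linarith) (by linarith)
  eT_act := fun j h t z ht hz => (pk_eExpT_spec E j h t z (by linarith) (by linarith)).1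
  eT_copy := fun j h hj hm t z ht hz => pk_eExp_copy E j h hj hm t z (by linarith) (by linarith)
  copy := fun j h hj hjh hm x a hx ha e => pk_copy H j h hj hjh hm x a (pk_hz hcos _) (by linarith) (by linarith) e
  exact := fun j h hj hjh X hX => pk_exact H j h hj hjh X (pk_hz hcos _) (pk_ball_le hρ hX)

theorem pk_in_ball {d1 : ℝ} {d : ℂ} (hd : d ∈ Metric.ball (0 : ℂ) d1) : ‖d‖ < d1 ∧ ‖(0 : ℂ)‖ < d1 := by
  have h1 : ‖d‖ < d1 := by simpa using hd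
  exact ⟨h1, by rw [norm_zero]; exact (norm_nonneg d).trans_lt h1⟩

theorem pk_mapsTo_ball (d1 : ℝ) : Set.MapsTo (fun d : ℂ => ((d, 0) : ℂ × ℂ)) (Metric.ball 0 d1) (Metric.ball 0 d1) := by
  intro d hd
  have h1 := pk_in_ball hd
  simp only [Metric.mem_ball, dist_zero_right, Prod.norm_def, norm_zero]
  exact max_lt h1.1 (by simpa using h1.2)

theorem pk_diff_inl (d1 : ℝ) : DifferentiableOn ℂ (fun d : ℂ => ((d, 0) : ℂ × ℂ)) (Metric.ball 0 d1) :=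
  (differentiable_id.prodMk (differentiable_const 0)).differentiableOn

/-- the field `resp` of `B10.PureOK` (READOUT) -/
def RespOK (κ : B10.RawC) (d1 : ℝ) (F : B10.Raw) (𝒯 : B10.Tor) (e : B10.Curve F) (eT : ∀ j h, ℂ → 𝒯.T j h) : Prop :=
  ∀ h, F.j0 ≤ h → ∀ d ∈ Metric.ball (0 : ℂ) d1,
    (∀ j, F.j0 ≤ j → j ≤ h → ‖B10.pl F e j d‖ < κ.ρ ∧ ‖B10.tr F 𝒯 e eT h j d‖ < κ.ρ) →
    ‖𝒯.rV h (((B10.pl F e h d).1, (B10.pl F e h d).2.1), B10.tr F 𝒯 e eT h h d)‖ ≤ κ.C * ‖d‖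

/-- **`B10.PureOK`** for the pure Gaussian entries `z = 0`, given the response bound of READOUT -/
theorem MapSys.pureOK {hA : 0 < K.p.A} {κr : B10.RawC} {d1 : ℝ} (M : MapSys K 𝓡 j0 hA κr d1)
    (resp : RespOK κr d1 (K.raw 𝓡 hA j0 (ops K 𝓡)) (K.tor 𝓡 (ops K 𝓡)) (fun j d => K.eExp 𝓡 j d 0) (fun j h d => K.eExpT 𝓡 j h d 0)) :
    B10.PureOK κr d1 (K.raw 𝓡 hA j0 (ops K 𝓡)) (K.tor 𝓡 (ops K 𝓡)) (fun j d => K.eExp 𝓡 j d 0) (fun j h d => K.eExpT 𝓡 j h d 0) where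
  e_an := by
    have := (M.e_an j0).comp (pk_diff_inl d1) (pk_mapsTo_ball d1)
    exact this
  e_t := fun _ _ => rfl
  e_R := fun d hd => by
    have := M.e_R j0 d 0 (pk_in_ball hd).1 (pk_in_ball hd).2
    rwa [norm_zero, add_zero] at this
  e_S := fun d hd => by
    have := M.e_S j0 d 0 (pk_in_ball hd).1 (pk_in_ball hd).2
    rw [neg_zero] at this
    exact Prod.ext rfl (Prod.ext neg_zero this)
  e_re := fun d hd => by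
    have := M.e_re j0 d 0 (pk_in_ball hd).1 (pk_in_ball hd).2
    rw [map_zero] at this
    exact Prod.ext rfl (Prod.ext (map_zero _) this)
  eT_an := fun h _ => by
    have := (M.eT_an j0 h).comp (pk_diff_inl d1) (pk_mapsTo_ball d1)
    exact this
  eT_bd := fun h _ d hd => by
    have := M.eT_bd j0 h d 0 (pk_in_ball hd).1 (pk_in_ball hd).2
    rwa [norm_zero, add_zero] at this
  eT_S := fun h _ d hd => by
    have := M.eT_S j0 h d 0 (pk_in_ball hd).1 (pk_in_ball hd).2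
    rwa [neg_zero] at this
  resp := resp

end glue

/-! ### the final statement -/

theorem pk_omega8_pos : 0 < ω8 := by
  unfold ω8 k0
  have := Real.pi_pos
  positivity

theorem pk_alpha8 : Step.alpha ω8 ^ 2 = k0 := by
  have hk : 0 < k0 := by unfold k0; have := Real.pi_pos; positivity
  have hs : 0 < Real.sqrt k0 := Real.sqrt_pos.2 hk
  have h1 : Step.alpha ω8 = Real.sqrt k0 := by
    unfold Step.alpha ω8
    have := Real.pi_pos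
    field_simp
  rw [h1, Real.sq_sqrt hk.le]

/-- `a e^{-c j} ≤ b` from some `j` on -/
theorem pk_exp_small (a b c : ℝ) (hb : 0 < b) (hc : 0 < c) : ∃ j1 : ℕ, ∀ j : ℕ, j1 ≤ j → a * Real.exp (-c * j) ≤ b := by
  have h1 : Filter.Tendsto (fun j : ℕ => a * Real.exp (-c * j)) Filter.atTop (nhds (a * 0)) := by
    apply Filter.Tendsto.const_mul
    have h2 : Filter.Tendsto (fun j : ℕ => -(c * (j : ℝ))) Filter.atTop Filter.atBot :=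
      Filter.tendsto_neg_atTop_atBot.comp (Filter.Tendsto.const_mul_atTop hc tendsto_natCast_atTop_atTop)
    refine (Real.tendsto_exp_atBot.comp h2).congr fun j => ?_
    show Real.exp (-(c * (j : ℝ))) = Real.exp (-c * j)
    rw [neg_mul]
  rw [mul_zero] at h1
  obtain ⟨j1, hj1⟩ := Filter.eventually_atTop.1 (h1.eventually (gt_mem_nhds hb))
  exact ⟨j1, fun j hj => (hj1 j hj).le⟩

theorem pk_lam_sm (κr : B10.RawC) : ∃ j1 : ℕ, ∀ j0 : ℕ, j1 ≤ j0 → κr.C * Real.exp (-κr.c * j0) / (1 - Real.exp (-κr.c)) ≤ 1 / 4 := by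
  have h1 : 0 < 1 - Real.exp (-κr.c) := by
    have : Real.exp (-κr.c) < 1 := by rw [Real.exp_lt_one_iff]; have := κr.hc; linarith
    linarith
  obtain ⟨j1, hj1⟩ := pk_exp_small κr.C ((1 - Real.exp (-κr.c)) / 4) κr.c (by positivity) κr.hc
  refine ⟨j1, fun j0 hj => ?_⟩
  rw [div_le_iff₀ h1]
  have := hj1 j0 hj
  linarith

/-- **the three bundles of hypotheses** `PackIn`, `ExpIn`, `LamIn` for the marginal entry-family tower (from `weak_step`, `pk_lam_bd`, `pk_Rexp_norm`, `pk_stepCopy`, `pk_lam_const`).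
Consumers: `map_system` below, `Map/Chain.lean` (`Rdo.ChainOK`), `Map/Sys8.lean`. -/
theorem map_inputs (c : Geo) (hc : c.Ok) (c0 : ℕ) (hc0 : 2 * (c.ρ + 4) ≤ c0) (hcR : c.R ≤ c0) (hpp : pp + 4 ≤ c0) :
    ∃ C1 : ℝ≥0, 0 < C1 ∧ ∀ (δ κ : ℝ) (h0 : ℝ≥0), 0 < δ → 0 < κ → C1 ≤ h0 → ∀ θ : ℝ≥0, 0 < θ →
    ∃ ℓ0 : ℕ, ∀ ℓ ≥ ℓ0, 1 ≤ ℓ ∧ ∃ (A0 : ℝ) (D1 : ℕ), 1 ≤ A0 ∧ ∀ A, A0 ≤ A →
    ∃ (C ε0 : ℝ≥0) (Ce dm Cl : ℝ) (j2 : ℕ), 0 < ε0 ∧ 0 < dm ∧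
    ∀ (D0 : ℕ) (hD : 0 < D0), D1 ≤ D0 →
    ∀ (𝓡 : Reg (cfg8 c δ κ h0 A c0 ℓ D0 hD).s) (j0 : ℕ), j2 ≤ j0 → (cfg8 c δ κ h0 A c0 ℓ D0 hD).TowerOK 𝓡 j0 →
      PackIn (cfg8 c δ κ h0 A c0 ℓ D0 hD) 𝓡 j0 θ C ε0 ∧ ExpIn (cfg8 c δ κ h0 A c0 ℓ D0 hD) Ce dm ∧
      LamIn (cfg8 c δ κ h0 A c0 ℓ D0 hD) 𝓡 j0 Cl (ℓ * Real.log 2 / 2) := by
  obtain ⟨C1, W⟩ := weak_step c hc
  refine ⟨max C1 1, lt_of_lt_of_le one_pos (le_max_right _ _), fun δ κ h0 hδ hκ hh θ hθ0 => ?_⟩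
  have hh0 : 0 < h0 := lt_of_lt_of_le one_pos ((le_max_right _ _).trans hh)
  obtain ⟨ℓ0, D1w, W⟩ := W δ κ h0 hδ hκ ((le_max_left _ _).trans hh) θ hθ0
  refine ⟨max ℓ0 (max 1 (c.R * c.n0)), fun ℓ hℓ => ?_⟩
  have hℓ0 : ℓ0 ≤ ℓ := (le_max_left _ _).trans hℓ
  have hℓ1 : 1 ≤ ℓ := ((le_max_left _ _).trans (le_max_right _ _)).trans hℓ
  have hℓ2 : c.R * c.n0 ≤ 2 ^ ℓ := (((le_max_right _ _).trans (le_max_right _ _)).trans hℓ).trans Nat.lt_two_pow_self.le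
  obtain ⟨A0, W⟩ := W ℓ hℓ0
  obtain ⟨Cl, D1l, _, hlam⟩ := pk_lam_bd ℓ hℓ1
  refine ⟨hℓ1, max A0 1, max (D1w + 1) (max (D1l + 1) (max (2 * c0 + 5) (pp + 2))), le_max_right _ _, fun A hA => ?_⟩
  have hA0 : A0 ≤ A := (le_max_left _ _).trans hA
  have hApos : 0 < A := lt_of_lt_of_le one_pos ((le_max_right _ _).trans hA)
  obtain ⟨C, ε0, hε, W⟩ := W A hA0
  obtain ⟨Ce, dm, hCe, hdm, hR⟩ := pk_Rexp_norm δ κ h0 A |Step.alpha ω8| hδ hκ hApos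
  have hcm : 0 < (ℓ : ℝ) * Real.log 2 / 2 := by
    have h1 : (0 : ℝ) < ℓ := by exact_mod_cast hℓ1
    have h2 := Real.log_pos one_lt_two
    positivity
  obtain ⟨j2, hj2⟩ := pk_exp_small Cl 1 (ℓ * Real.log 2 / 2) one_pos hcm
  refine ⟨C, ε0, Ce, dm, Cl, j2, hε, hdm, fun D0 hD hD1 𝓡 j0 hjB hT => ?_⟩
  have hDa : D1w + 1 ≤ D0 := (le_max_left _ _).trans hD1
  have hDb : D1l + 1 ≤ D0 := ((le_max_left _ _).trans (le_max_right _ _)).trans hD1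
  have hDc : 2 * c0 + 5 ≤ D0 := ((le_max_left _ _).trans ((le_max_right _ _).trans (le_max_right _ _))).trans hD1
  have hDd : pp + 2 ≤ D0 := ((le_max_right _ _).trans ((le_max_right _ _).trans (le_max_right _ _))).trans hD1
  have hl : ∀ (h j : ℕ) (hj : j < h), |((cfg8 c δ κ h0 A c0 ℓ D0 hD).step 𝓡 h j hj).lam (cfg8 c δ κ h0 A c0 ℓ D0 hD).p.ω - 1| ≤ Cl * Real.exp (-(ℓ * Real.log 2 / 2) * j) :=
    hlam (cfg8 c δ κ h0 A c0 ℓ D0 hD) 𝓡 rfl rfl rfl (by show D1l < D0; omega)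
  have hl2 : ∀ (h j : ℕ) (hj : j < h), j0 ≤ j → |((cfg8 c δ κ h0 A c0 ℓ D0 hD).step 𝓡 h j hj).lam (cfg8 c δ κ h0 A c0 ℓ D0 hD).p.ω| ≤ 2 := by
    intro h j hj hjj
    have h1 := (hl h j hj).trans (hj2 j (hjB.trans hjj))
    have h2 := abs_sub_abs_le_abs_sub (((cfg8 c δ κ h0 A c0 ℓ D0 hD).step 𝓡 h j hj).lam (cfg8 c δ κ h0 A c0 ℓ D0 hD).p.ω) 1
    rw [abs_one] at h2
    linarith
  refine ⟨?_, ?_, ?_⟩
  · exact
    { hA := hApos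
      hω := pk_omega8_pos
      hh := hh0
      hA1 := (le_max_right _ _).trans hA
      cpp := hpp
      geo := hc
      c0 := hc0
      cR := hcR
      hℓ := hℓ2
      hD := by show 2 * c0 + 4 ≤ D0 - 1; omega
      hε := hε
      tower := hT
      weak := fun h j hjj hj => by
        refine W (D0 - 1) (by omega) ω8 ((cfg8 c δ κ h0 A c0 ℓ D0 hD).s.T h) (𝓡.gs h) ((cfg8 c δ κ h0 A c0 ℓ D0 hD).step 𝓡 h j hj) pk_omega8_pos (le_of_eq pk_alpha8.symm) ?_ ?_ (hT.step h j hjj hj)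
        · rw [pk_alpha8]
          have : 0 < k0 := by unfold k0; have := Real.pi_pos; positivity
          linarith
        · have h1 := (le_abs_self _).trans (hl2 h j hj hjj)
          have h2 : ((cfg8 c δ κ h0 A c0 ℓ D0 hD).step 𝓡 h j hj).lam (cfg8 c δ κ h0 A c0 ℓ D0 hD).p.ω
              = ((2 : ℝ) ^ ℓ) ^ 2 * Real.exp (-k0 * ((cfg8 c δ κ h0 A c0 ℓ D0 hD).step 𝓡 h j hj).Γ (org ((cfg8 c δ κ h0 A c0 ℓ D0 hD).s.T h)) (org ((cfg8 c δ κ h0 A c0 ℓ D0 hD).s.T h)) / 2) := by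
            show ((2 : ℝ) ^ ℓ) ^ 2 * Real.exp (-(Step.alpha ω8) ^ 2 * ((cfg8 c δ κ h0 A c0 ℓ D0 hD).step 𝓡 h j hj).Γ (org ((cfg8 c δ κ h0 A c0 ℓ D0 hD).s.T h)) (org ((cfg8 c δ κ h0 A c0 ℓ D0 hD).s.T h)) / 2) = _
            rw [pk_alpha8]
          rw [← h2]
          exact h1
      scopy := fun h h' j _ hj hj' => pk_stepCopy (cfg8 c δ κ h0 A c0 ℓ D0 hD) 𝓡 rfl h h' j hj hj'
      lamc := fun h j _ hj => pk_lam_const (cfg8 c δ κ h0 A c0 ℓ D0 hD) 𝓡 rfl (by show pp + 1 < D0; omega) h j hj }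
  · exact
    { hA := hApos
      hω := pk_omega8_pos
      col := hc.col_pos
      c0 := by show 1 ≤ c0; omega
      cR := hcR
      hD := by show 3 ≤ D0; omega
      hd1 := hdm
      hCe := hCe
      bd := fun G g hg V t z ht hz => hR (cfg8 c δ κ h0 A c0 ℓ D0 hD).p rfl rfl rfl rfl le_rfl G g hg V c.R t z ht hz }
  · exact
    { bd := fun j _ => hl (j + 1) j (Nat.lt_succ_self j)
      le2 := fun j hj => hl2 (j + 1) j (Nat.lt_succ_self j) hj }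

theorem pk_rate_pos {ℓ : ℕ} (hℓ : 1 ≤ ℓ) : 0 < (ℓ : ℝ) * Real.log 2 / 2 := by
  have h1 : (0 : ℝ) < ℓ := by exact_mod_cast hℓ
  have h2 := Real.log_pos one_lt_two
  positivity

/-- **THE EXPORT OF MAP-PACK** (marginal reference `a' = 8π`, entry family, arbitrary regulators and cells).
Order: geometry, padding `c0 ≥ max (2 (ρ + 4)) R`; `δ, κ`; `h₀ ≥ C₁`; `θ`; `L = 2^ℓ`; `A ≥ A₀`, `D₁`; thresholds `Cm, ρm, cm, dm`; ANY raw constants beyond the thresholds; `jmin`; then `d1 ≤ dm`, `D₀ ≥ D₁`, the tower. -/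
theorem map_system (c : Geo) (hc : c.Ok) (c0 : ℕ) (hc0 : 2 * (c.ρ + 4) ≤ c0) (hcR : c.R ≤ c0) (hpp : pp + 4 ≤ c0) :
    ∃ C1 : ℝ≥0, ∀ (δ κ : ℝ) (h0 : ℝ≥0), 0 < δ → 0 < κ → C1 ≤ h0 → ∀ θ : ℝ, 0 < θ → θ < 1 →
    ∃ ℓ0 : ℕ, ∀ ℓ ≥ ℓ0, ∃ (A0 : ℝ) (D1 : ℕ), 0 < A0 ∧ ∀ A, A0 ≤ A →
    ∃ (Cm ρm cm dm : ℝ), 0 < ρm ∧ 0 < cm ∧ 0 < dm ∧
    ∀ κr : B10.RawC, κr.θ = θ → Cm ≤ κr.C → κr.ρ ≤ ρm → κr.c ≤ cm → ∃ jmin : ℕ,
    ∀ d1 : ℝ, d1 ≤ dm → ∀ (D0 : ℕ) (hD : 0 < D0), D1 ≤ D0 →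
    ∀ (𝓡 : Reg (cfg8 c δ κ h0 A c0 ℓ D0 hD).s) (j0 : ℕ), jmin ≤ j0 → (cfg8 c δ κ h0 A c0 ℓ D0 hD).TowerOK 𝓡 j0 →
    ∀ hA' : 0 < (cfg8 c δ κ h0 A c0 ℓ D0 hD).p.A, MapSys (cfg8 c δ κ h0 A c0 ℓ D0 hD) 𝓡 j0 hA' κr d1 := by
  obtain ⟨C1, -, W⟩ := map_inputs c hc c0 hc0 hcR hpp
  refine ⟨C1, fun δ κ h0 hδ hκ hh θ hθ0 _ => ?_⟩
  obtain ⟨ℓ0, W⟩ := W δ κ h0 hδ hκ hh ⟨θ, hθ0.le⟩ (by exact_mod_cast hθ0)
  refine ⟨ℓ0, fun ℓ hℓ => ?_⟩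
  obtain ⟨hℓ1, A0, D1, hA0, W⟩ := W ℓ hℓ
  refine ⟨A0, D1, lt_of_lt_of_le one_pos hA0, fun A hA => ?_⟩
  obtain ⟨C, ε0, Ce, dm, Cl, j2, hε, hdm, W⟩ := W A hA
  have hε' : (0 : ℝ) < ε0 := by exact_mod_cast hε
  refine ⟨Cmap ⟨θ, hθ0.le⟩ C ε0 Ce Cl, ε0 / 3, ℓ * Real.log 2 / 2, dm, by positivity, pk_rate_pos hℓ1, hdm, fun κr hθ hC hρ hcc => ?_⟩
  obtain ⟨j1, hj1⟩ := pk_lam_sm κr
  refine ⟨max j1 (max j2 1), fun d1 hd1 D0 hD hD1 𝓡 j0 hj0 hT hA' => ?_⟩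
  have hjA : j1 ≤ j0 := (le_max_left _ _).trans hj0
  have hjB : j2 ≤ j0 := ((le_max_left _ _).trans (le_max_right _ _)).trans hj0
  have hjC : 1 ≤ j0 := ((le_max_right _ _).trans (le_max_right _ _)).trans hj0
  obtain ⟨H, E, Lm⟩ := W D0 hD hD1 𝓡 j0 hjB hT
  exact pk_mapSys H rfl E Lm κr d1 hθ hC hρ hcc hd1 hjC (hj1 j0 hjA)

end

end Claimed.Agent.R285.Pack
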