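import Claimed.Agent.R285.Map.WLin

/-!
# ROW 285, unit MAP, weak step: THE CONTRACTION `‖C_j R‖ ≤ θ ‖R‖` from the gain of the subtracted small inputs; the three gains (marginal / gapped / high frequency)      (owner helper202)

`SmallGain η`: every subtracted small input `E R (X) - ∑_{B ∈ X} piece X B` has coarse size `≤ η · (fine size of R X)`.  There are at most `C_pl L²` small `X` with a given closure (`B4.placements_bulk`), so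
`η = c_pl θ / L²` suffices; large inputs are beaten by `A` (`B4.large_linear_abs`).
The three variants of P8.3 differ ONLY in the proof of `SmallGain`:
 * marginal (`cosOn = true`): neutral `L⁻³` (L4.5) + fundamental `λ L⁻² · L⁻¹` (`fund_localization`) + charges `|q| ≥ 2`: `L⁻⁶` (`B4.charged_gain`, amplitude `a = √k₀` FIXED);
 * gapped (`cosOn = false`, `a' ∈ [a₁, a₂]`, `a₁ > k₀`): neutral + all charges `|q| ≥ 1`: `L^{-(1 + a₁/k₀)}` (`B4.charged_gain`, `a = √a₁`);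
 * high frequency: neutral + `B4.charged_contraction`.
LEAVES `W-BND-*`, `W-GAIN-*`.
-/

set_option autoImplicit false

namespace Claimed.Agent.R285.B8

open scoped BigOperators ENNReal NNReal
open MeasureTheory
open Claimed.Agent.R285.RG Claimed.Agent.R285.Hol

noncomputable section

variable {G : Geom} {D0 ℓ : ℕ} {c : Geo} {p : Par} {gs : Grid G} {S : Step G D0 ℓ}

/-- the gain of the subtracted small inputs -/
def SmallGain (c : Geo) (p : Par) (gs : Grid G) (S : Step G D0 ℓ) (cosOn : Bool) (η : ℝ≥0) : Prop :=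
  ∀ Rm : Act S.P.g, Adm p c gs Rm → actNorm p S.P.g S.Vf Rm ≠ ⊤ → ∀ X ∈ S.small c,
    fnSize p S.P.g' S.Vc (S.P.N.cl X) (conv S.Γ (Rm X) - ∑ B ∈ X, S.piece p.ω cosOn Rm X B) ≤ η * fnSize p S.P.g S.Vf X (Rm X)

theorem SmallGain.mono {cosOn : Bool} {η η' : ℝ≥0} (h : SmallGain c p gs S cosOn η) (hη : η ≤ η') : SmallGain c p gs S cosOn η' :=
  fun Rm hR hfin X hX => (h Rm hR hfin X hX).trans (mul_le_mul' (by exact_mod_cast hη) le_rfl)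

/-! ## LEAF `W-BND-1`: the small part -/

/-- plan: for each `Y`: `A^{|Y|} fnSize (∑_X ..) ≤ ∑_X A^{|Y|} η fnSize (R X) ≤ ∑_X η A^{|X|} fnSize (R X) ≤ (number of X) η ‖R‖` (`|Y| = |cl X| ≤ |X|`: `Finset.card_image_le`; `A ≥ 1`); `w_fnSize_sum_le`; the number of `X` is `≤ N` by hypothesis. -/
theorem w_clinS_norm (h : Ctx c p gs S) (cosOn : Bool) (η : ℝ≥0) (hg : SmallGain c p gs S cosOn η) (N : ℕ)
    (hN : ∀ Y : Finset S.P.g'.I, (open Classical in (S.small c).filter (fun X => S.P.N.cl X = Y)).card ≤ N)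
    {Rm : Act S.P.g} (hR : Adm p c gs Rm) (hfin : actNorm p S.P.g S.Vf Rm ≠ ⊤) :
    actNorm p S.P.g' S.Vc (ClinS S c p.ω cosOn Rm) ≤ (N : ℝ≥0∞) * η * actNorm p S.P.g S.Vf Rm := by
  rw [w_actNorm_le_iff]
  intro Y
  have hNY := hN Y
  unfold ClinS
  generalize hs : @Finset.filter _ (fun X => S.P.N.cl X = Y) _ (S.small c) = s at hNY ⊢
  have hmem : ∀ X ∈ s, X ∈ S.small c ∧ S.P.N.cl X = Y := by
    intro X hX
    rw [← hs, Finset.mem_filter] at hX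
    exact hX
  have hA0 : 0 ≤ p.A := le_trans zero_le_one h.hA
  calc ENNReal.ofReal (p.A ^ Y.card) * fnSize p S.P.g' S.Vc Y
        (∑ X ∈ s, (conv S.Γ (Rm X) - ∑ B ∈ X, S.piece p.ω cosOn Rm X B))
      ≤ ENNReal.ofReal (p.A ^ Y.card) * ∑ X ∈ s, fnSize p S.P.g' S.Vc Y
          (conv S.Γ (Rm X) - ∑ B ∈ X, S.piece p.ω cosOn Rm X B) :=
        mul_le_mul' le_rfl (w_fnSize_sum_le p S.P.g' S.Vc Y s _)
    _ = ∑ X ∈ s, ENNReal.ofReal (p.A ^ Y.card) * fnSize p S.P.g' S.Vc Y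
          (conv S.Γ (Rm X) - ∑ B ∈ X, S.piece p.ω cosOn Rm X B) := Finset.mul_sum _ _ _
    _ ≤ ∑ _X ∈ s, (η : ℝ≥0∞) * actNorm p S.P.g S.Vf Rm := by
        refine Finset.sum_le_sum fun X hX => ?_
        obtain ⟨hXs, hXY⟩ := hmem X hX
        have h1 := hg Rm hR hfin X hXs
        rw [hXY] at h1
        have h2 : Y.card ≤ X.card := by
          rw [← hXY]
          exact Finset.card_image_le
        have h3 : ENNReal.ofReal (p.A ^ Y.card) ≤ ENNReal.ofReal (p.A ^ X.card) :=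
          ENNReal.ofReal_le_ofReal (pow_le_pow_right₀ h.hA h2)
        calc ENNReal.ofReal (p.A ^ Y.card) * fnSize p S.P.g' S.Vc Y
              (conv S.Γ (Rm X) - ∑ B ∈ X, S.piece p.ω cosOn Rm X B)
            ≤ ENNReal.ofReal (p.A ^ X.card) * ((η : ℝ≥0∞) * fnSize p S.P.g S.Vf X (Rm X)) := mul_le_mul' h3 h1
          _ = (η : ℝ≥0∞) * (ENNReal.ofReal (p.A ^ X.card) * fnSize p S.P.g S.Vf X (Rm X)) := by ring
          _ ≤ _ := mul_le_mul' le_rfl (w_le_actNorm p S.P.g S.Vf Rm X)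
    _ = (s.card : ℝ≥0∞) * ((η : ℝ≥0∞) * actNorm p S.P.g S.Vf Rm) := by
        rw [Finset.sum_const, nsmul_eq_mul]
    _ ≤ (N : ℝ≥0∞) * ((η : ℝ≥0∞) * actNorm p S.P.g S.Vf Rm) := mul_le_mul' (by exact_mod_cast hNY) le_rfl
    _ = _ := by ring

/-! ## LEAF `W-BND-2`: the large part -/

/-- plan: `B4.large_linear_abs` for `B4.scalarSizes S.P S.Γ S.Vf S.Vc p c.R c.n0 c.cst ..` (`h.ok.half`); `SizeSys.nc A.toNNReal = actNorm` and `SizeSys.nf A.toNNReal = actNorm` by `ENNReal.ofReal_pow` (`rfl` after unfolding). -/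
theorem w_clinL_norm (c : Geo) (η : ℝ≥0) (hη : 0 < η) (ℓ : ℕ) : ∃ A0 : ℝ, 1 ≤ A0 ∧ ∀ A ≥ A0, ∀ (δ κ : ℝ) (h0 : ℝ≥0) (ω : ℝ) (D0 : ℕ) (G : Geom) (gs : Grid G) (S : Step G D0 ℓ),
    Ctx c ⟨δ, κ, h0, A, ω⟩ gs S → ∀ Rm : Act S.P.g,
      actNorm ⟨δ, κ, h0, A, ω⟩ S.P.g' S.Vc (ClinL S c Rm) ≤ η * actNorm ⟨δ, κ, h0, A, ω⟩ S.P.g S.Vf Rm := by
  obtain ⟨A0, hA0⟩ := B4.large_linear_abs c.R c.n0 c.cst η hη ℓ
  refine ⟨max 1 (A0 : ℝ), le_max_left _ _, fun A hA δ κ h0 ω D0 G gs S h Rm => ?_⟩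
  have hA1 : (1 : ℝ) ≤ A := (le_max_left _ _).trans hA
  have hA0' : (0 : ℝ) ≤ A := by linarith
  have hA' : A0 ≤ A.toNNReal := by
    rw [← NNReal.coe_le_coe, Real.coe_toNNReal _ hA0']
    exact (le_max_right _ _).trans hA
  have hR : max 5 S.Vf.sep ≤ c.R := by
    have h1 := h.geo.hs
    have h2 := h.geo.hrR
    have h3 := h.ok.sepf
    omega
  have key := hA0 A.toNNReal hA' D0 G S.P h.ok.half (Fn G) (conv S.Γ)
    (B4.scalarSizes S.P S.Γ S.Vf S.Vc ⟨δ, κ, h0, A, ω⟩ c.R c.n0 c.cst h.ok.reg h.ok.adm hR) Rm le_rfl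
  have e1 : ∀ n : ℕ, ENNReal.ofReal (A ^ n) = ((A.toNNReal : ℝ≥0) : ℝ≥0∞) ^ n := fun n => ENNReal.ofReal_pow hA0' n
  have e2 : actNorm ⟨δ, κ, h0, A, ω⟩ S.P.g' S.Vc (ClinL S c Rm)
      = (B4.scalarSizes S.P S.Γ S.Vf S.Vc ⟨δ, κ, h0, A, ω⟩ c.R c.n0 c.cst h.ok.reg h.ok.adm hR).nc A.toNNReal
        (ClinL S c Rm) := by
    unfold actNorm SizeSys.nc
    exact iSup_congr fun Y => by rw [e1]; rfl
  have e3 : actNorm ⟨δ, κ, h0, A, ω⟩ S.P.g S.Vf Rm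
      = (B4.scalarSizes S.P S.Γ S.Vf S.Vc ⟨δ, κ, h0, A, ω⟩ c.R c.n0 c.cst h.ok.reg h.ok.adm hR).nf A.toNNReal Rm := by
    unfold actNorm SizeSys.nf
    exact iSup_congr fun Y => by rw [e1]; rfl
  rw [e2, e3]
  exact key

/-! ## LEAF `W-BND-3`: the contraction -/

theorem w_contr_num (C : ℕ) (θ : ℝ≥0) (ℓ : ℕ) :
    ((C * (2 ^ ℓ) ^ 2 : ℕ) : ℝ≥0∞) * ((1 / (2 * ((C : ℝ≥0) + 1)) * θ / (2 ^ ℓ) ^ 2 : ℝ≥0) : ℝ≥0∞) ≤ ((θ / 2 : ℝ≥0) : ℝ≥0∞) := by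
  have h : ((C * (2 ^ ℓ) ^ 2 : ℕ) : ℝ≥0) * (1 / (2 * ((C : ℝ≥0) + 1)) * θ / (2 ^ ℓ) ^ 2) ≤ θ / 2 := by
    have hp : (0 : ℝ≥0) < (2 ^ ℓ) ^ 2 := by positivity
    have e : ((C * (2 ^ ℓ) ^ 2 : ℕ) : ℝ≥0) * (1 / (2 * ((C : ℝ≥0) + 1)) * θ / (2 ^ ℓ) ^ 2)
        = ((C : ℝ≥0) / ((C : ℝ≥0) + 1)) * (θ / 2) := by
      push_cast
      field_simp
    rw [e]
    calc ((C : ℝ≥0) / ((C : ℝ≥0) + 1)) * (θ / 2) ≤ 1 * (θ / 2) := by
          gcongr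
          rw [div_le_one (by positivity)]
          exact le_self_add
      _ = θ / 2 := one_mul _
  exact_mod_cast h

/-- **`WeakOK.contr`.**  plan: `C_pl, ℓ0, D1` from `B4.placements_bulk c.R c.n0`; `c_pl = 1 / (2 C_pl)`; `A0` from `w_clinL_norm` with `η = θ/2`; `‖R‖ = ⊤` is trivial (`θ > 0`); otherwise `w_clin_split`, `w_actNorm_add_le`,
`w_clinS_norm` with `N = C_pl L²`: `N · c_pl θ / L² = θ / 2`. -/
theorem w_contr (c : Geo) (hc : c.Ok) (θ : ℝ≥0) (hθ : 0 < θ) : ∃ (cpl : ℝ≥0) (ℓ0 D1 : ℕ), 0 < cpl ∧ ∀ ℓ ≥ ℓ0, ∃ A0 : ℝ, 1 ≤ A0 ∧ ∀ A ≥ A0, ∀ D0 ≥ D1,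
    ∀ (δ κ : ℝ) (h0 : ℝ≥0) (ω : ℝ) (G : Geom) (gs : Grid G) (S : Step G D0 ℓ) (cosOn : Bool), Ctx c ⟨δ, κ, h0, A, ω⟩ gs S →
      SmallGain c ⟨δ, κ, h0, A, ω⟩ gs S cosOn (cpl * θ / (2 ^ ℓ) ^ 2) → ∀ Rm : Act S.P.g, Adm ⟨δ, κ, h0, A, ω⟩ c gs Rm →
        actNorm ⟨δ, κ, h0, A, ω⟩ S.P.g' S.Vc (S.Clin c ω cosOn Rm) ≤ θ * actNorm ⟨δ, κ, h0, A, ω⟩ S.P.g S.Vf Rm := by
  obtain ⟨C, ℓ0, D1, hpl⟩ := B4.placements_bulk c.R c.n0
  refine ⟨1 / (2 * ((C : ℝ≥0) + 1)), ℓ0, D1, by positivity, fun ℓ hℓ => ?_⟩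
  obtain ⟨A0, hA01, hA0⟩ := w_clinL_norm c (θ / 2) (half_pos hθ) ℓ
  refine ⟨A0, hA01, fun A hA D0 hD δ κ h0 ω G gs S cosOn h hg Rm hR => ?_⟩
  by_cases hfin : actNorm ⟨δ, κ, h0, A, ω⟩ S.P.g S.Vf Rm = ⊤
  · rw [hfin, ENNReal.mul_top (by exact_mod_cast hθ.ne')]
    exact le_top
  have hsplit := w_clin_split h cosOn hR hfin
  simp only at hsplit
  rw [hsplit]
  have hN : ∀ Y : Finset S.P.g'.I, (open Classical in (S.small c).filter (fun X => S.P.N.cl X = Y)).card ≤ C * (2 ^ ℓ) ^ 2 := by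
    intro Y
    have := hpl D0 hD G ℓ hℓ S.P Y
    refine le_trans (le_of_eq ?_) this
    unfold Step.small
    rw [Finset.filter_filter]
    congr 1
    ext X
    simp only [Finset.mem_filter, Finset.mem_univ, true_and, and_assoc]
  have h1 := w_clinS_norm h cosOn _ hg (C * (2 ^ ℓ) ^ 2) hN hR hfin
  have h2 := hA0 A hA δ κ h0 ω D0 G gs S h Rm
  have h3 := w_contr_num C θ ℓ
  calc actNorm ⟨δ, κ, h0, A, ω⟩ S.P.g' S.Vc (ClinS S c ω cosOn Rm + ClinL S c Rm)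
      ≤ actNorm ⟨δ, κ, h0, A, ω⟩ S.P.g' S.Vc (ClinS S c ω cosOn Rm) + actNorm ⟨δ, κ, h0, A, ω⟩ S.P.g' S.Vc (ClinL S c Rm) :=
        w_actNorm_add_le _ _ _ _ _
    _ ≤ ((θ / 2 : ℝ≥0) : ℝ≥0∞) * actNorm ⟨δ, κ, h0, A, ω⟩ S.P.g S.Vf Rm
        + ((θ / 2 : ℝ≥0) : ℝ≥0∞) * actNorm ⟨δ, κ, h0, A, ω⟩ S.P.g S.Vf Rm :=
        add_le_add (h1.trans (mul_le_mul' h3 le_rfl)) h2
    _ = θ * actNorm ⟨δ, κ, h0, A, ω⟩ S.P.g S.Vf Rm := by
        rw [← add_mul, ← ENNReal.coe_add, add_halves]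

/-! ## LEAF `W-GAIN-0`: the Fourier decomposition of a subtracted small input -/

open Classical in
/-- the charge-`q` part of the subtracted input -/
def Tq (S : Step G D0 ℓ) (ω : ℝ) (cosOn : Bool) (Rm : Act S.P.g) (X : Finset S.P.g.I) (q : ℤ) : Fn G :=
  if q = 0 then S.Hq ω 0 Rm X - ∑ B ∈ X, Loc S.P.g X (anchor S.P.g X) (S.Hq ω 0 Rm X) B
  else if cosOn = true ∧ (q = 1 ∨ q = -1) then fun z => S.Hq ω q Rm X z - S.Hq ω q Rm X 0 * chiX S.P.g (Step.alpha ω) q X z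
  else S.Hq ω q Rm X

variable {G : Geom} {D0 ℓ : ℕ} {c : Geo} {p : Par} {gs : Grid G} {S : Step G D0 ℓ}

theorem w_chi_add (g : Grid G) (α : ℝ) (X : Finset g.I) (z : G.V → ℂ) :
    chiX g α 1 X z + chiX g α (-1) X z = (2 / (X.card : ℂ)) * ∑ B ∈ X, cBC g α B z := by
  have key : ∀ x, Complex.exp (Complex.I * ((1 : ℤ) : ℂ) * α * z x) + Complex.exp (Complex.I * ((-1 : ℤ) : ℂ) * α * z x)
      = 2 * Complex.cos (α * z x) := fun x => by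
    rw [Complex.two_cos]
    push_cast
    congr 1 <;> congr 1 <;> ring
  unfold chiX cBC
  calc _ = (1 / (X.card : ℂ)) * ∑ B ∈ X, ((((g.m : ℝ) ^ 2)⁻¹ : ℝ) : ℂ) * ∑ x ∈ g.sites {B},
        (Complex.exp (Complex.I * ((1 : ℤ) : ℂ) * α * z x) + Complex.exp (Complex.I * ((-1 : ℤ) : ℂ) * α * z x)) := by
        simp only [Finset.sum_add_distrib, mul_add]
    _ = _ := by
        simp only [key, ← Finset.mul_sum]
        ring

/-- plan: `w_conv_hasSum` minus a finitely supported family (`hasSum_sum_of_ne_finset_zero` on `{0, 1, -1}`, `HasSum.sub`); `H_1 (0) = H_{-1} (0)` (`w_Hq_neg` at `0`), `χ_1 + χ_{-1} = (2 / |X|) ∑_{B ∈ X} c_B` (`Complex.cos` as exponentials). -/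
theorem w_small_decomp (h : Ctx c p gs S) (cosOn : Bool) {Rm : Act S.P.g} (hR : Adm p c gs Rm) (hfin : actNorm p S.P.g S.Vf Rm ≠ ⊤) {X : Finset S.P.g.I} (hX : X ∈ S.small c)
    {z : G.V → ℂ} (hz : z ∈ strip p.h0 S.P.g X) :
    HasSum (fun q : ℤ => Tq S p.ω cosOn Rm X q z) ((conv S.Γ (Rm X) - ∑ B ∈ X, S.piece p.ω cosOn Rm X B) z) := by
  have h1 : HasSum (fun q : ℤ => S.Hq p.ω q Rm X z) (conv S.Γ (Rm X) z) :=
    w_conv_hasSum h (hR.ok.fn X) (w_fin h hfin X) hz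
  have hD0 : ∀ q ∉ ({0, 1, -1} : Finset ℤ), S.Hq p.ω q Rm X z - Tq S p.ω cosOn Rm X q z = 0 := by
    intro q hq
    simp only [Finset.mem_insert, Finset.mem_singleton, not_or] at hq
    have : ¬ (cosOn = true ∧ (q = 1 ∨ q = -1)) := fun hh => hh.2.elim hq.2.1 hq.2.2
    simp only [Tq, if_neg hq.1, if_neg this, sub_self]
  have h2 : HasSum (fun q : ℤ => S.Hq p.ω q Rm X z - Tq S p.ω cosOn Rm X q z)
      (∑ q ∈ ({0, 1, -1} : Finset ℤ), (S.Hq p.ω q Rm X z - Tq S p.ω cosOn Rm X q z)) :=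
    hasSum_sum_of_ne_finset_zero hD0
  have h3 := h1.sub h2
  have ha : S.Hq p.ω 1 Rm X 0 = S.Hq p.ω (-1) Rm X 0 := by
    have := w_Hq_neg h hR 1 X (w_zero_mem_strip h.hh S.P.g X)
    rwa [neg_zero] at this
  have e1 : (fun q : ℤ => S.Hq p.ω q Rm X z - (S.Hq p.ω q Rm X z - Tq S p.ω cosOn Rm X q z))
      = fun q : ℤ => Tq S p.ω cosOn Rm X q z := funext fun q => by ring
  rw [e1] at h3
  have e2 : ∑ q ∈ ({0, 1, -1} : Finset ℤ), (S.Hq p.ω q Rm X z - Tq S p.ω cosOn Rm X q z)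
      = ∑ B ∈ X, S.piece p.ω cosOn Rm X B z := by
    rw [Finset.sum_insert (by decide), Finset.sum_insert (by decide), Finset.sum_singleton]
    have t0 : S.Hq p.ω 0 Rm X z - Tq S p.ω cosOn Rm X 0 z
        = ∑ B ∈ X, Loc S.P.g X (anchor S.P.g X) (S.Hq p.ω 0 Rm X) B z := by
      simp only [Tq, if_true, Pi.sub_apply, Finset.sum_apply]
      ring
    rw [t0]
    cases cosOn with
    | false =>
      simp [Tq, Step.piece]
    | true =>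
      have t1 : S.Hq p.ω 1 Rm X z - Tq S p.ω true Rm X 1 z
          = S.Hq p.ω 1 Rm X 0 * chiX S.P.g (Step.alpha p.ω) 1 X z := by
        simp [Tq]
      have t2 : S.Hq p.ω (-1) Rm X z - Tq S p.ω true Rm X (-1) z
          = S.Hq p.ω (-1) Rm X 0 * chiX S.P.g (Step.alpha p.ω) (-1) X z := by
        simp [Tq]
      rw [t1, t2, ← ha, ← mul_add, w_chi_add]
      simp only [Step.piece, if_true, Pi.add_apply, Pi.smul_apply, smul_eq_mul, Finset.sum_add_distrib,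
        ← Finset.mul_sum]
      rw [← ha]
      ring
  rw [e2] at h3
  simpa only [Pi.sub_apply, Finset.sum_apply] using h3

end

end Claimed.Agent.R285.B8
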