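import Claimed.Agent.R285.Map.WCopyG
import Claimed.Agent.R285.Obs.PairGeo

/-!
# ROW 285, unit MAP, package COPY: `B8.weak_copy`, `B8.weak_cut` ([B] P8.3, last paragraph: plane = torus on unwrapped supports)      (architect helper21)

PURE LOCALITY, no estimate.  Files: `WCopyA` (transport of `Kprime`, `Klin` along threshold isometries), `WCopyG` (plane sets, periodic grids seen from the plane, windows), this file.
Several leaves share the file: edit ONLY your theorems, pull before landing.  Helper lemmas: prefix `wc_`.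

## Plan
* s.1 `FnCopy W U U' F F'`: functions on two tori which agree on fields agreeing on the plane window `W`.  Stable under products, `chargeProj`, `conv` (`F6.Pr.pr_conv_transport`); second derivatives at `0` agree (`wc_D2_copy`).
  `RG.Copy` = `FnCopy` on the windows `pnb S (c0 m)` (`wc_copy_iff`).
* s.2 the context `CC` (two steps which are copies; `c.R ≤ c0`, `pp + 4 ≤ c0`) and its arithmetic.
* s.3 the explicit local objects: `eBC`, `cBC`, `single`, `Hq`, `DX`, `piece` are copies (BOX-FREE: polymers are `foldS T`, blocks are `blk (π y)`).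
* s.4 ONE torus and a window `b`: sums over small polymers are sums over the small polymers of the window; `desig`, `Pt`, `Pz` read in the window.
* s.5 the designated data and the scalars are copies.
* s.6 `Kprime`, `Klin` are copies (window `bxOf` of the plane set, `wca_Kprime_two`, `wca_Klin_two`).
* s.7 `weak_copy'`, `weak_cut'`.
-/

set_option autoImplicit false

namespace Claimed.Agent.R285.B8

open scoped BigOperators ENNReal NNReal
open MeasureTheory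
open Claimed.Agent.R285 Claimed.Agent.R285.RG

noncomputable section

variable {G G' : Geom}

/-! ## 1. Copies of functions -/

/-- `F` on `G` and `F'` on `G'` agree on fields (in the domains `U`, `U'`) which agree on the plane window `W` -/
def FnCopy (W : Finset (ℤ × ℤ)) (U : Set (G.V → ℂ)) (U' : Set (G'.V → ℂ)) (F : Fn G) (F' : Fn G') : Prop :=
  ∀ z ∈ U, ∀ z' ∈ U', (∀ x ∈ W, z (G.π x) = z' (G'.π x)) → F z = F' z'

theorem FnCopy.mono {W W₂ : Finset (ℤ × ℤ)} {U U₂ : Set (G.V → ℂ)} {U' U₂' : Set (G'.V → ℂ)} {F : Fn G} {F' : Fn G'}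
    (h : FnCopy W U U' F F') (hW : W ⊆ W₂) (hU : U₂ ⊆ U) (hU' : U₂' ⊆ U') : FnCopy W₂ U₂ U₂' F F' :=
  fun z hz z' hz' e => h z (hU hz) z' (hU' hz') fun x hx => e x (hW hx)

theorem FnCopy.prod {W : Finset (ℤ × ℤ)} {U : Set (G.V → ℂ)} {U' : Set (G'.V → ℂ)} {ι : Type} (s : Finset ι) (F : ι → Fn G) (F' : ι → Fn G')
    (h : ∀ i ∈ s, FnCopy W U U' (F i) (F' i)) : FnCopy W U U' (∏ i ∈ s, F i) (∏ i ∈ s, F' i) := by
  intro z hz z' hz' e
  rw [Finset.prod_apply, Finset.prod_apply]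
  exact Finset.prod_congr rfl fun i hi => h i hi z hz z' hz' e

theorem FnCopy.add {W : Finset (ℤ × ℤ)} {U : Set (G.V → ℂ)} {U' : Set (G'.V → ℂ)} {F₁ F₂ : Fn G} {F₁' F₂' : Fn G'}
    (h₁ : FnCopy W U U' F₁ F₁') (h₂ : FnCopy W U U' F₂ F₂') : FnCopy W U U' (F₁ + F₂) (F₁' + F₂') := by
  intro z hz z' hz' e
  show F₁ z + F₂ z = F₁' z' + F₂' z'
  rw [h₁ z hz z' hz' e, h₂ z hz z' hz' e]

theorem FnCopy.smul {W : Finset (ℤ × ℤ)} {U : Set (G.V → ℂ)} {U' : Set (G'.V → ℂ)} {F : Fn G} {F' : Fn G'} (a : ℂ)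
    (h : FnCopy W U U' F F') : FnCopy W U U' (a • F) (a • F') := by
  intro z hz z' hz' e
  show a • F z = a • F' z'
  rw [h z hz z' hz' e]

theorem wc_copy_iff {h0 : ℝ≥0} {c0 : ℕ} {g : Grid G} {g' : Grid G'} {K : Act g} {K' : Act g'} :
    Copy h0 c0 g g' K K' ↔ ∀ S : Finset (ℤ × ℤ), pdiam S + 2 * c0 * g.m < G.M → pdiam S + 2 * c0 * g.m < G'.M →
      FnCopy (pnb S (c0 * g.m)) (strip h0 g (g.foldS S)) (strip h0 g' (g'.foldS S)) (K (g.foldS S)) (K' (g'.foldS S)) := by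
  constructor
  · intro h S h1 h2 z hz z' hz' e
    exact h S h1 h2 z hz z' hz' fun x hx => e x (wcg_mem_pnb.2 hx)
  · intro h S h1 h2 z hz z' hz' e
    exact h S h1 h2 z hz z' hz' fun x hx => e x (wcg_mem_pnb.1 hx)

theorem wc_charge_copy {W : Finset (ℤ × ℤ)} {U : Set (G.V → ℂ)} {U' : Set (G'.V → ℂ)} {F : Fn G} {F' : Fn G'} (ω : ℝ) (q : ℤ)
    (hU : ∀ z ∈ U, ∀ t : ℝ, (fun v => z v + (t : ℂ)) ∈ U) (hU' : ∀ z ∈ U', ∀ t : ℝ, (fun v => z v + (t : ℂ)) ∈ U')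
    (h : FnCopy W U U' F F') : FnCopy W U U' (chargeProj ω q F) (chargeProj ω q F') := by
  intro z hz z' hz' e
  unfold chargeProj
  congr 1
  refine intervalIntegral.integral_congr fun t _ => ?_
  rw [h _ (hU z hz t) _ (hU' z' hz' t) fun x hx => by rw [e x hx]]

theorem wc_conv_copy {W : Finset (ℤ × ℤ)} {U : Set (G.V → ℂ)} {U' : Set (G'.V → ℂ)} {F : Fn G} {F' : Fn G'}
    (Γ : Matrix G.V G.V ℝ) (Γ' : Matrix G'.V G'.V ℝ) (hΓ : Γ.PosSemidef) (hΓ' : Γ'.PosSemidef)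
    (hi : Set.InjOn G.π (W : Set (ℤ × ℤ))) (hi' : Set.InjOn G'.π (W : Set (ℤ × ℤ)))
    (hcov : ∀ x ∈ W, ∀ y ∈ W, Γ (G.π x) (G.π y) = Γ' (G'.π x) (G'.π y))
    (hU : ∀ z ∈ U, ∀ ζ : G.V → ℝ, z + toC ζ ∈ U) (hU' : ∀ z ∈ U', ∀ ζ : G'.V → ℝ, z + toC ζ ∈ U')
    (h : FnCopy W U U' F F') : FnCopy W U U' (conv Γ F) (conv Γ' F') := by
  classical
  intro z hz z' hz' e
  refine F6.Pr.pr_conv_transport Γ Γ' hΓ hΓ' (κ := {x // x ∈ W}) (fun x => G.π x.1) (fun x => G'.π x.1)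
    (fun x y hxy => Subtype.ext (hi x.2 y.2 hxy)) (fun x y hxy => Subtype.ext (hi' x.2 y.2 hxy))
    (fun x y => hcov x.1 x.2 y.1 y.2) F F' z z' ?_
  intro ζ ζ' hζ
  refine h _ (hU z hz ζ) _ (hU' z' hz' ζ') fun x hx => ?_
  have h1 : ζ (G.π x) = ζ' (G'.π x) := hζ ⟨x, hx⟩
  show z (G.π x) + toC ζ (G.π x) = z' (G'.π x) + toC ζ' (G'.π x)
  simp only [toC]
  rw [e x hx, h1]

/-- the extension by `0` of a plane function on the window `W` to a field on `G` -/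
def pext (G : Geom) (W : Finset (ℤ × ℤ)) (u : ℤ × ℤ → ℂ) : G.V → ℂ := fun v => ∑ x ∈ W, if G.π x = v then u x else 0

theorem wc_pext_apply {W : Finset (ℤ × ℤ)} (hi : Set.InjOn G.π (W : Set (ℤ × ℤ))) (u : ℤ × ℤ → ℂ) {x : ℤ × ℤ} (hx : x ∈ W) :
    pext G W u (G.π x) = u x := by
  classical
  unfold pext
  rw [Finset.sum_eq_single x]
  · rw [if_pos rfl]
  · intro y hy hne
    rw [if_neg fun h => hne (hi hy hx h)]
  · intro h
    exact absurd hx h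

/-! ### LEAF `W-COPY-D2`: second derivatives at `0` of copies
PLAN (~80 l.).  `E := {x // x ∈ W} → ℂ` (finite dimensional).  `Λ : E →L[ℂ] (G.V → ℂ)`, `Λ t v = ∑ x : W, if π x = v then t x else 0` (`LinearMap.toContinuousLinearMap`), same `Λ'`; `pext G W u = Λ (u ∘ Subtype.val)` (`Finset.sum_coe_sort`).
`H ∘ Λ = H' ∘ Λ'` on the open neighbourhood `Λ⁻¹ U ∩ Λ'⁻¹ U'` of `0` by `h` (`(Λ t) (π x) = t x = (Λ' t) (π' x)`, as `wc_pext_apply`), so the second derivatives at `0` agree (`Filter.EventuallyEq.iteratedFDeriv`, as `w_D2_congr`).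
Chain rule on both sides: copy the proof of `wd2_comp` (`Map/WInt.lean`) for `Λ : E →L[ℂ] E₂` between TWO spaces (`ContinuousLinearMap.iteratedFDerivWithin_comp_right`, `wd2_contDiffOn`). -/
/-- chain rule for a linear map between two spaces (copy of `wd2_comp`) -/
theorem wc_d2_comp {E E₂ : Type} [NormedAddCommGroup E] [NormedSpace ℂ E] [NormedAddCommGroup E₂] [NormedSpace ℂ E₂] [FiniteDimensional ℂ E₂]
    {U : Set E₂} (hU : IsOpen U) (h0 : (0 : E₂) ∈ U) {H : E₂ → ℂ} (hH : DifferentiableOn ℂ H U) (Λ : E →L[ℂ] E₂) (a b : E) :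
    iteratedFDeriv ℂ 2 (fun z => H (Λ z)) 0 ![a, b] = iteratedFDeriv ℂ 2 H 0 ![Λ a, Λ b] := by
  have hV : IsOpen (Λ ⁻¹' U) := hU.preimage Λ.continuous
  have h0' : Λ 0 ∈ U := by simpa using h0
  have h1 := Λ.iteratedFDerivWithin_comp_right (wd2_contDiffOn hU hH) hU.uniqueDiffOn hV.uniqueDiffOn (x := 0) h0' (i := 2) le_rfl
  rw [iteratedFDerivWithin_of_isOpen 2 hV h0', iteratedFDerivWithin_of_isOpen 2 hU h0', map_zero] at h1
  have h2 : (fun z => H (Λ z)) = H ∘ Λ := rfl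
  rw [h2, h1, ContinuousMultilinearMap.compContinuousLinearMap_apply]
  congr 1
  funext i
  fin_cases i <;> rfl

/-- `pext` as a continuous linear map on the functions on the window -/
def wcLam (G : Geom) (W : Finset (ℤ × ℤ)) : ({x // x ∈ W} → ℂ) →L[ℂ] (G.V → ℂ) :=
  LinearMap.toContinuousLinearMap
    { toFun := fun t v => ∑ x : {x // x ∈ W}, if G.π x.1 = v then t x else 0
      map_add' := fun t t' => by
        funext v
        simp only [Pi.add_apply, ← Finset.sum_add_distrib]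
        refine Finset.sum_congr rfl fun x _ => ?_
        split_ifs <;> simp
      map_smul' := fun k t => by
        funext v
        simp only [Pi.smul_apply, smul_eq_mul, RingHom.id_apply, Finset.mul_sum]
        refine Finset.sum_congr rfl fun x _ => ?_
        split_ifs <;> simp }

theorem wc_Lam_eq (G : Geom) (W : Finset (ℤ × ℤ)) (u : ℤ × ℤ → ℂ) : wcLam G W (fun x => u x.1) = pext G W u := by
  funext v
  show (∑ x : {x // x ∈ W}, if G.π x.1 = v then u x.1 else 0) = ∑ x ∈ W, if G.π x = v then u x else 0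
  exact Finset.sum_coe_sort W (fun x => if G.π x = v then u x else 0)

theorem wc_Lam_apply {W : Finset (ℤ × ℤ)} (hi : Set.InjOn G.π (W : Set (ℤ × ℤ))) (t : {x // x ∈ W} → ℂ) (x : {x // x ∈ W}) :
    wcLam G W t (G.π x.1) = t x := by
  show (∑ y : {x // x ∈ W}, if G.π y.1 = G.π x.1 then t y else 0) = t x
  rw [Finset.sum_eq_single x]
  · rw [if_pos rfl]
  · intro y _ hne
    rw [if_neg fun h => hne (Subtype.ext (hi y.2 x.2 h))]
  · intro h
    exact absurd (Finset.mem_univ x) h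

theorem wc_D2_copy {W : Finset (ℤ × ℤ)} {U : Set (G.V → ℂ)} {U' : Set (G'.V → ℂ)} {H : Fn G} {H' : Fn G'}
    (hi : Set.InjOn G.π (W : Set (ℤ × ℤ))) (hi' : Set.InjOn G'.π (W : Set (ℤ × ℤ)))
    (hU : IsOpen U) (h0 : (0 : G.V → ℂ) ∈ U) (hU' : IsOpen U') (h0' : (0 : G'.V → ℂ) ∈ U')
    (hH : DifferentiableOn ℂ H U) (hH' : DifferentiableOn ℂ H' U') (h : FnCopy W U U' H H') (u w : ℤ × ℤ → ℂ) :
    D2 H (pext G W u) (pext G W w) = D2 H' (pext G' W u) (pext G' W w) := by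
  unfold D2
  rw [← wc_Lam_eq G W u, ← wc_Lam_eq G W w, ← wc_Lam_eq G' W u, ← wc_Lam_eq G' W w,
    ← wc_d2_comp hU h0 hH (wcLam G W), ← wc_d2_comp hU' h0' hH' (wcLam G' W)]
  have hV : IsOpen ((wcLam G W) ⁻¹' U ∩ (wcLam G' W) ⁻¹' U') :=
    (hU.preimage (wcLam G W).continuous).inter (hU'.preimage (wcLam G' W).continuous)
  have h00 : (0 : {x // x ∈ W} → ℂ) ∈ (wcLam G W) ⁻¹' U ∩ (wcLam G' W) ⁻¹' U' := ⟨by simpa using h0, by simpa using h0'⟩
  have h1 : (fun z => H (wcLam G W z)) =ᶠ[nhds 0] fun z => H' (wcLam G' W z) := by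
    filter_upwards [hV.mem_nhds h00] with t ht
    exact h _ ht.1 _ ht.2 fun x hx => by rw [wc_Lam_apply hi t ⟨x, hx⟩, wc_Lam_apply hi' t ⟨x, hx⟩]
  rw [(Filter.EventuallyEq.iteratedFDeriv ℂ h1 2).eq_of_nhds]

/-! ## 2. The context -/

variable {D0 ℓ : ℕ}

/-- **two steps on two tori which are copies of each other**, padding `c0` -/
structure CC (c : Geo) (p : Par) (c0 : ℕ) (gs : Grid G) (gs' : Grid G') (S : Step G D0 ℓ) (S' : Step G' D0 ℓ) : Prop where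
  A : Ctx c p gs S
  B : Ctx c p gs' S'
  cp : StepCopy S S'
  cR : c.R ≤ c0
  cpp : pp + 4 ≤ c0
  hD : 2 * c0 + 4 ≤ D0
  hL : c.R * c.n0 ≤ 2 ^ ℓ

variable {c : Geo} {p : Par} {c0 : ℕ} {gs : Grid G} {gs' : Grid G'} {S : Step G D0 ℓ} {S' : Step G' D0 ℓ}

theorem CC.side' (H : CC c p c0 gs gs' S S') : S.P.g'.m = S'.P.g'.m := by
  rw [S.P.hS, S'.P.hS, H.cp.side]

theorem CC.two_le (H : CC c p c0 gs gs' S S') : 2 ≤ 2 ^ ℓ := by
  have h1 := H.A.hL
  have h2 := H.A.geo.hrR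
  omega

theorem CC.M_gt (H : CC c p c0 gs gs' S S') : (2 * c0 + 4) * S.P.g'.m < min G.M G'.M := by
  have h1 := S.P.clear
  have h2 := S'.P.clear
  rw [← H.side'] at h2
  have h3 : (2 * c0 + 4) * S.P.g'.m ≤ D0 * S.P.g'.m := Nat.mul_le_mul_right _ H.hD
  exact lt_min (lt_of_le_of_lt h3 h1) (lt_of_le_of_lt h3 h2)

/-- `L + c0 ≤ c0 L` in block units -/
theorem CC.ar1 (H : CC c p c0 gs gs' S S') : S.P.g'.m + c0 * S.P.g.m ≤ c0 * S.P.g'.m := by
  have h1 := H.two_le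
  have h2 := H.cpp
  rw [S.P.hS]
  have h3 : 2 ^ ℓ + c0 ≤ c0 * 2 ^ ℓ := by
    have : 2 ≤ c0 := by omega
    nlinarith
  calc 2 ^ ℓ * S.P.g.m + c0 * S.P.g.m = (2 ^ ℓ + c0) * S.P.g.m := by ring
    _ ≤ (c0 * 2 ^ ℓ) * S.P.g.m := Nat.mul_le_mul_right _ h3
    _ = c0 * (2 ^ ℓ * S.P.g.m) := by ring

/-- `35 L + 2 c0 ≤ 2 c0 L` in block units -/
theorem CC.ar2 (H : CC c p c0 gs gs' S S') : 2 * (S.P.g'.m + c0 * S.P.g.m) + S.P.g'.m * (pp + 1) ≤ 2 * c0 * S.P.g'.m := by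
  have h1 := H.two_le
  have h2 := H.cpp
  rw [S.P.hS]
  have hp : pp = 32 := rfl
  have h3 : 2 * (2 ^ ℓ + c0) + 2 ^ ℓ * (pp + 1) ≤ 2 * c0 * 2 ^ ℓ := by
    rw [hp] at h2 ⊢
    nlinarith
  calc 2 * (2 ^ ℓ * S.P.g.m + c0 * S.P.g.m) + 2 ^ ℓ * S.P.g.m * (pp + 1) = (2 * (2 ^ ℓ + c0) + 2 ^ ℓ * (pp + 1)) * S.P.g.m := by ring
    _ ≤ (2 * c0 * 2 ^ ℓ) * S.P.g.m := Nat.mul_le_mul_right _ h3
    _ = 2 * c0 * (2 ^ ℓ * S.P.g.m) := by ring

theorem CC.m_le (H : CC c p c0 gs gs' S S') : S.P.g.m ≤ S.P.g'.m := by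
  have _ := H
  rw [S.P.hS]
  exact Nat.le_mul_of_pos_left _ (by positivity)

/-- the covariances agree on plane windows which leave `pp + 1` coarse blocks -/
theorem CC.cov (H : CC c p c0 gs gs' S S') (W : Finset (ℤ × ℤ)) (hW : pdiam W + S.P.g'.m * (pp + 1) < min G.M G'.M) :
    ∀ x ∈ W, ∀ y ∈ W, S.Γ (G.π x) (G.π y) = S'.Γ (G'.π x) (G'.π y) := by
  intro x hx y hy
  refine H.cp.cov x y (lt_of_le_of_lt (Nat.add_le_add_right ?_ _) hW)
  exact wcg_pd_le_pdiam hx hy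

/-- a small plane set (`pdiam T ≤ L m`): all the windows used for it are admissible -/
theorem CC.small_bd (H : CC c p c0 gs gs' S S') {T : Finset (ℤ × ℤ)} (hT : pdiam T ≤ S.P.g'.m) :
    pdiam T + 2 * c0 * S.P.g.m + S.P.g'.m * (pp + 1) < min G.M G'.M := by
  have h1 := H.M_gt
  have h2 := H.ar2
  have e : (2 * c0 + 4) * S.P.g'.m = 2 * c0 * S.P.g'.m + 4 * S.P.g'.m := by ring
  have e2 : 2 * c0 * S.P.g.m = 2 * (c0 * S.P.g.m) := by ring
  omega

/-! ## 3. The explicit local objects are copies (box-free: polymers are `foldS T`, blocks are `blk (π y)`) -/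

section lvl

variable {g : Grid G} {g' : Grid G'}

/-! ### LEAF `W-COPY-S1`: the two singletons, level-generic (`wcg_sum_sites`, `wcg_dif`, `wcg_pd_pcell`, `wcg_mem_pnb`; a step `dir e` has `pd (x + dir e) x ≤ 1`: `fin_cases e`) -/

theorem wc_pd_step (x : ℤ × ℤ) (e : Fin 4) : pd (x + dir e) x ≤ 1 := by
  unfold pd
  fin_cases e <;> simp [dir]

theorem wc_eBC_copy (hG : G.bc = BC.per) (hG' : G'.bc = BC.per) (hg : g.Ok) (hg' : g'.Ok) (hm : g.m = g'.m) (y : ℤ × ℤ) :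
    FnCopy (pnb {y} g.m) Set.univ Set.univ (eBC g (g.blk (G.π y))) (eBC g' (g'.blk (G'.π y))) := by
  intro z _ z' _ e
  unfold eBC
  rw [wcg_sum_sites hG hg y, wcg_sum_sites hG' hg' y, ← hm]
  congr 1
  refine Finset.sum_congr rfl fun x hx => Finset.sum_congr rfl fun d _ => ?_
  rw [wcg_dif hG, wcg_dif hG']
  have h1 := wcg_pd_pcell hg.pos hx
  have hpos := hg.pos
  have h2 := wc_pd_step x d
  have h3 := wcg_pd_tri (x + dir d) x y
  rw [e x (wcg_mem_pnb.2 ⟨y, Finset.mem_singleton_self _, by omega⟩),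
    e (x + dir d) (wcg_mem_pnb.2 ⟨y, Finset.mem_singleton_self _, by omega⟩)]

theorem wc_cBC_copy (hG : G.bc = BC.per) (hG' : G'.bc = BC.per) (hg : g.Ok) (hg' : g'.Ok) (hm : g.m = g'.m) (α : ℝ) (y : ℤ × ℤ) :
    FnCopy (pnb {y} g.m) Set.univ Set.univ (cBC g α (g.blk (G.π y))) (cBC g' α (g'.blk (G'.π y))) := by
  intro z _ z' _ e
  unfold cBC
  rw [wcg_sum_sites hG hg y, wcg_sum_sites hG' hg' y, ← hm]
  congr 1
  refine Finset.sum_congr rfl fun x hx => ?_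
  have h1 := wcg_pd_pcell hg.pos hx
  rw [e x (wcg_mem_pnb.2 ⟨y, Finset.mem_singleton_self _, by omega⟩)]

theorem wc_pvec_copy (hG : G.bc = BC.per) (hG' : G'.bc = BC.per) (hm : g.m = g'.m) (z : G.V → ℂ) (z' : G'.V → ℂ) (x : ℤ × ℤ)
    (h : ∀ x', pd x' x ≤ 1 → z (G.π x') = z' (G'.π x')) (ε : Fin 2 → Bool) (i : Fin 2) : pvec g z (G.π x) ε i = pvec g' z' (G'.π x) ε i := by
  unfold pvec
  rw [wcg_dif hG, wcg_dif hG', hm, h _ (wc_pd_step x _), h x (by rw [wcg_pd_self]; omega)]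
/-! ### LEAF `W-COPY-S2`
PLAN.  `wc_copy_iff`.  `S = ∅`: `foldS ∅ = ∅`, `w_single_of_ne`.  `s0 ∈ S`: `wcg_foldS_single` in both tori (`pdiam S + m ≤ M`).  If `S ⊆ pcell m s0`: `wcg_foldS_of_subset`, `w_single_singleton`, `wc_eBC_copy`, `wc_cBC_copy` at `y = s0`
(`FnCopy.smul`, `.add`, `.mono`; `pnb {s0} m ⊆ pnb S (c0 m)`).  Otherwise both sides vanish (`w_single_of_ne`). -/
theorem wc_single_copy (hG : G.bc = BC.per) (hG' : G'.bc = BC.per) (hg : g.Ok) (hg' : g'.Ok) (hm : g.m = g'.m) (h0 : ℝ≥0) (c0 : ℕ) (hc0 : 1 ≤ c0)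
    (α : ℝ) (t u : ℂ) : Copy h0 c0 g g' (single g α t u) (single g' α t u) := by
  rw [wc_copy_iff]
  intro S h1 h2
  rcases S.eq_empty_or_nonempty with rfl | ⟨s0, hs0⟩
  · intro z _ z' _ _
    have e1 : g.foldS ∅ = ∅ := rfl
    have e2 : g'.foldS ∅ = ∅ := rfl
    rw [e1, e2, w_single_of_ne g α t u ∅ (fun B h => Finset.singleton_ne_empty B h.symm),
      w_single_of_ne g' α t u ∅ (fun B h => Finset.singleton_ne_empty B h.symm)]
    rfl
  · have hle : g.m ≤ c0 * g.m := Nat.le_mul_of_pos_left _ hc0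
    have e2 : 2 * c0 * g.m = 2 * (c0 * g.m) := by ring
    have k1 := wcg_foldS_single hG hg S (by omega) hs0
    have k2 := wcg_foldS_single hG' hg' S (by rw [← hm]; omega) hs0
    rw [← hm] at k2
    by_cases hsub : S ⊆ pcell g.m s0
    · rw [wcg_foldS_of_subset hG hg S hs0 hsub, wcg_foldS_of_subset hG' hg' S hs0 (hm ▸ hsub), w_single_singleton,
        w_single_singleton]
      refine FnCopy.mono (((wc_eBC_copy hG hG' hg hg' hm s0).smul (t / 2)).add ((wc_cBC_copy hG hG' hg hg' hm α s0).smul u))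
        ?_ (Set.subset_univ _) (Set.subset_univ _)
      refine wcg_pnb_mono (k := 0) (fun x hx => ⟨s0, hs0, ?_⟩) (by omega)
      rw [Finset.mem_singleton.1 hx, wcg_pd_self]
    · have n1 : ∀ B, g.foldS S ≠ {B} := fun B h => hsub (k1.1 ⟨B, h⟩)
      have n2 : ∀ B, g'.foldS S ≠ {B} := fun B h => hsub (k2.1 ⟨B, h⟩)
      intro z _ z' _ _
      rw [w_single_of_ne g α t u _ n1, w_single_of_ne g' α t u _ n2]
      rfl

end lvl

theorem wc_copy_add {h0 : ℝ≥0} {c0 : ℕ} {g : Grid G} {g' : Grid G'} {K J : Act g} {K' J' : Act g'} (h : Copy h0 c0 g g' K K') (h' : Copy h0 c0 g g' J J') :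
    Copy h0 c0 g g' (K + J) (K' + J') := by
  intro T h1 h2 z hz z' hz' e
  show K _ z + J _ z = K' _ z' + J' _ z'
  rw [h T h1 h2 z hz z' hz' e, h' T h1 h2 z hz z' hz' e]

theorem wc_copy_sub {h0 : ℝ≥0} {c0 : ℕ} {g : Grid G} {g' : Grid G'} {K J : Act g} {K' J' : Act g'} (h : Copy h0 c0 g g' K K') (h' : Copy h0 c0 g g' J J') :
    Copy h0 c0 g g' (K - J) (K' - J') := by
  intro T h1 h2 z hz z' hz' e
  show K _ z - J _ z = K' _ z' - J' _ z'
  rw [h T h1 h2 z hz z' hz' e, h' T h1 h2 z hz z' hz' e]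

theorem wc_strip_shift {h0 : ℝ≥0} {g : Grid G} {X : Finset g.I} : ∀ z ∈ strip h0 g X, ∀ t : ℝ, (fun v => z v + (t : ℂ)) ∈ strip h0 g X := by
  intro z hz t
  exact Hol.strip_add_toC hz fun _ => t

/-- `H_q^X` is a copy.  PROVED. -/
theorem wc_Hq_copy (H : CC c p c0 gs gs' S S') {Rm : Act S.P.g} {Rm' : Act S'.P.g} (hc : Copy p.h0 c0 S.P.g S'.P.g Rm Rm') (q : ℤ) (T : Finset (ℤ × ℤ))
    (hT : pdiam T + 2 * c0 * S.P.g.m + S.P.g'.m * (pp + 1) < min G.M G'.M) :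
    FnCopy (pnb T (c0 * S.P.g.m)) (strip p.h0 S.P.g (S.P.g.foldS T)) (strip p.h0 S'.P.g (S'.P.g.foldS T))
      (S.Hq p.ω q Rm (S.P.g.foldS T)) (S'.Hq p.ω q Rm' (S'.P.g.foldS T)) := by
  have hd := wcg_pdiam_pnb T (c0 * S.P.g.m)
  have e2 : 2 * c0 * S.P.g.m = 2 * (c0 * S.P.g.m) := by ring
  obtain ⟨hM, hM'⟩ := lt_min_iff.1 hT
  unfold Step.Hq
  refine wc_conv_copy S.Γ S'.Γ H.A.psd H.B.psd (wcg_pi_injOn H.A.ok.per _ (by omega)) (wcg_pi_injOn H.B.ok.per _ (by omega))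
    (H.cov _ (lt_of_le_of_lt (by omega) hT)) (fun z hz ζ => Hol.strip_add_toC hz ζ) (fun z hz ζ => Hol.strip_add_toC hz ζ) ?_
  exact wc_charge_copy p.ω q wc_strip_shift wc_strip_shift (wc_copy_iff.1 hc T (by omega) (by omega))

/-! ### LEAF `W-COPY-DX`: the matrices `D^X` are copies
PLAN (~150 l.).  `s0 ∈ T`, `W := pnb T (c0 m)`, `λ_i x := (x_i : ℂ) / m`.  On each torus:
(1) `w_DX_anchor` (`w_anchor_mem`, `wcg_mem_sites_foldS`): the anchor may be replaced by `π s0`;   (2) `w_DX_eq`;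
(3) `w_D2_local` (`H.A.hh`, `w_Hq_local`, neutrality `w_Hq_const`) with `a := pext G W λ_i`, `a' := toC (ell g (π s0) i)`, `k := - s0_i / m`: a site `v` near `foldS T` is `π x`, `x ∈ pnb T (m - 1 + col) ⊆ W` (`wcg_near`; `2 col < m`: `H.A.ok.col`;
`2 ≤ c0`), `pext .. (π x) = λ_i x` (`wc_pext_apply`, `wcg_pi_injOn`, `wcg_pdiam_pnb`, `H.small_bd`), `ell g (π s0) i (π x) = (x_i - s0_i) / m` (`wcg_ell`; `pd x s0 ≤ pdiam T + c0 m`).
Then `wc_D2_copy` with `U`, `U'` = the strips (`Hol.strip_isOpen`, `w_zero_mem_strip`, `(w_Hq_local ..).hol`) and `wc_Hq_copy` (`H.small_bd hT`).  `S'.P.g.m = S.P.g.m` : `H.cp.side`. -/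
/-- the linear plane function `x ↦ x_i / m` -/
def wc_lam (m : ℕ) (i : Fin 2) (x : ℤ × ℤ) : ℂ := (((if i = 0 then x.1 else x.2 : ℤ) : ℝ) : ℂ) / (m : ℂ)

/-- `D^X` on ONE torus in plane coordinates -/
theorem wc_DX_plane (h : Ctx c p gs S) {Rm : Act S.P.g} (hR : Adm p c gs Rm) (hf : actNorm p S.P.g S.Vf Rm ≠ ⊤)
    (c0 : ℕ) (hc0 : 2 ≤ c0) (T : Finset (ℤ × ℤ)) {s0 : ℤ × ℤ} (hs0 : s0 ∈ T) (hM1 : pdiam T + 2 * (c0 * S.P.g.m) < G.M)
    (hM2 : 2 * (pdiam T + c0 * S.P.g.m) < G.M) (hs : S.P.g.foldS T ∈ S.small c) (i j : Fin 2) :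
    DX S.P.g (anchor S.P.g (S.P.g.foldS T)) (S.Hq p.ω 0 Rm (S.P.g.foldS T)) i j =
      D2 (S.Hq p.ω 0 Rm (S.P.g.foldS T)) (pext G (pnb T (c0 * S.P.g.m)) (wc_lam S.P.g.m i))
        (pext G (pnb T (c0 * S.P.g.m)) (wc_lam S.P.g.m j)) := by
  have hW : Set.InjOn G.π (pnb T (c0 * S.P.g.m) : Set (ℤ × ℤ)) :=
    wcg_pi_injOn h.ok.per _ (lt_of_le_of_lt (wcg_pdiam_pnb T _) hM1)
  have hcol := h.ok.col
  have h2m : 2 * S.P.g.m ≤ c0 * S.P.g.m := Nat.mul_le_mul_right _ hc0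
  have key : ∀ (i : Fin 2) (v : G.V), (∃ w ∈ S.P.g.sites (S.P.g.foldS T), G.dist w v ≤ c.col) →
      toC (ell S.P.g (G.π s0) i) v = pext G (pnb T (c0 * S.P.g.m)) (wc_lam S.P.g.m i) v + (-wc_lam S.P.g.m i s0) := by
    intro i v hv
    obtain ⟨x, hx, rfl⟩ := wcg_near h.ok.per S.P.ok T c.col v hv
    have hxW : x ∈ pnb T (c0 * S.P.g.m) :=
      wcg_pnb_mono (k := 0) (fun y hy => ⟨y, hy, by rw [wcg_pd_self]⟩) (by omega) hx
    obtain ⟨y, hy, hxy⟩ := wcg_mem_pnb.1 hxW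
    have hd : pd x s0 ≤ pdiam T + c0 * S.P.g.m := by
      have h1 := wcg_pd_tri x y s0
      have h2 := wcg_pd_le_pdiam hy hs0
      omega
    rw [wc_pext_apply hW _ hxW]
    show ((ell S.P.g (G.π s0) i (G.π x) : ℝ) : ℂ) = _
    rw [wcg_ell h.ok.per S.P.g s0 x (by omega) i]
    unfold wc_lam
    split_ifs <;> push_cast <;> ring
  rw [w_DX_anchor h hR hf hs (wcg_mem_sites_foldS S.P.g hs0) (w_anchor_mem h hs) i j, w_DX_eq]
  exact w_D2_local h.hh (w_Hq_local h hR hf 0 _) (fun z hz a hz' => w_Hq_const h hR _ a hz hz') _ _ _ _ _ _ (key i) (key j)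

theorem wc_DX_copy (H : CC c p c0 gs gs' S S') {Rm : Act S.P.g} {Rm' : Act S'.P.g} (hR : Adm p c gs Rm) (hR' : Adm p c gs' Rm')
    (hf : actNorm p S.P.g S.Vf Rm ≠ ⊤) (hf' : actNorm p S'.P.g S'.Vf Rm' ≠ ⊤) (hc : Copy p.h0 c0 S.P.g S'.P.g Rm Rm')
    (T : Finset (ℤ × ℤ)) (hne : T.Nonempty) (hT : pdiam T ≤ S.P.g'.m) (hs : S.P.g.foldS T ∈ S.small c) (hs' : S'.P.g.foldS T ∈ S'.small c) (i j : Fin 2) :
    DX S.P.g (anchor S.P.g (S.P.g.foldS T)) (S.Hq p.ω 0 Rm (S.P.g.foldS T)) i j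
      = DX S'.P.g (anchor S'.P.g (S'.P.g.foldS T)) (S'.Hq p.ω 0 Rm' (S'.P.g.foldS T)) i j := by
  obtain ⟨s0, hs0⟩ := hne
  have hb := H.small_bd hT
  obtain ⟨hM, hM'⟩ := lt_min_iff.1 hb
  have hside := H.cp.side
  have hpp : pp = 32 := rfl
  have hc0 : 2 ≤ c0 := by have := H.cpp; omega
  have e2 : 2 * c0 * S.P.g.m = 2 * (c0 * S.P.g.m) := by ring
  have h33 : S.P.g'.m ≤ S.P.g'.m * (pp + 1) := Nat.le_mul_of_pos_right _ (Nat.succ_pos _)
  have hd := wcg_pdiam_pnb T (c0 * S.P.g.m)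
  rw [wc_DX_plane H.A hR hf c0 hc0 T hs0 (by omega) (by omega) hs i j,
    wc_DX_plane H.B hR' hf' c0 hc0 T hs0 (by rw [← hside]; omega) (by rw [← hside]; omega) hs' i j, ← hside]
  exact wc_D2_copy (wcg_pi_injOn H.A.ok.per _ (by omega)) (wcg_pi_injOn H.B.ok.per _ (by omega))
    (Hol.strip_isOpen _ _ _) (w_zero_mem_strip H.A.hh _ _) (Hol.strip_isOpen _ _ _) (w_zero_mem_strip H.B.hh _ _)
    (w_Hq_local H.A hR hf 0 _).hol (w_Hq_local H.B hR' hf' 0 _).hol (wc_Hq_copy H hc 0 T hb) _ _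

/-! ### LEAF `W-COPY-PC`: the pieces are copies
PLAN (~120 l.).  `unfold Step.piece Loc`; the cardinalities agree (`hcard`), `H_q (0)` agree (`wc_Hq_copy` at `z = 0`, `z' = 0`: `w_zero_mem_strip`, `H.small_bd hT`), `DX` agree (`wc_DX_copy`); the sum over the sites of the block `blk (π y)` is a sum
over `pcell m y` in both tori (`wcg_sum_sites`, `H.cp.side`), `wc_pvec_copy` at `x ∈ pcell m y` (`pd x' y ≤ pd x' x + pd x y ≤ 1 + (m - 1)`), `wc_cBC_copy`. -/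
theorem wc_piece_copy (H : CC c p c0 gs gs' S S') {Rm : Act S.P.g} {Rm' : Act S'.P.g} (hR : Adm p c gs Rm) (hR' : Adm p c gs' Rm')
    (hf : actNorm p S.P.g S.Vf Rm ≠ ⊤) (hf' : actNorm p S'.P.g S'.Vf Rm' ≠ ⊤) (hc : Copy p.h0 c0 S.P.g S'.P.g Rm Rm') (cosOn : Bool)
    (T : Finset (ℤ × ℤ)) (hne : T.Nonempty) (hT : pdiam T ≤ S.P.g'.m) (hs : S.P.g.foldS T ∈ S.small c) (hs' : S'.P.g.foldS T ∈ S'.small c)
    (hcard : (S.P.g.foldS T).card = (S'.P.g.foldS T).card) (y : ℤ × ℤ) :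
    FnCopy (pnb {y} S.P.g.m) Set.univ Set.univ (S.piece p.ω cosOn Rm (S.P.g.foldS T) (S.P.g.blk (G.π y)))
      (S'.piece p.ω cosOn Rm' (S'.P.g.foldS T) (S'.P.g.blk (G'.π y))) := by
  have hq : ∀ q : ℤ, S.Hq p.ω q Rm (S.P.g.foldS T) 0 = S'.Hq p.ω q Rm' (S'.P.g.foldS T) 0 := fun q =>
    wc_Hq_copy H hc q T (H.small_bd hT) 0 (w_zero_mem_strip H.A.hh _ _) 0 (w_zero_mem_strip H.B.hh _ _) (fun _ _ => rfl)
  have hDX := wc_DX_copy H hR hR' hf hf' hc T hne hT hs hs'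
  have hm := H.cp.side
  have hmpos : 0 < S.P.g.m := S.P.ok.pos
  intro z _ z' _ e
  unfold Step.piece
  show Loc S.P.g _ _ _ _ z + _ = Loc S'.P.g _ _ _ _ z' + _
  congr 1
  · unfold Loc
    rw [hcard, hq 0, wcg_sum_sites H.A.ok.per S.P.ok, wcg_sum_sites H.B.ok.per S'.P.ok, ← hm]
    congr 3
    refine Finset.sum_congr rfl fun x hx => ?_
    congr 1
    refine Finset.sum_congr rfl fun ε _ => Finset.sum_congr rfl fun i _ => Finset.sum_congr rfl fun j _ => ?_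
    have hp : ∀ i, pvec S.P.g z (G.π x) ε i = pvec S'.P.g z' (G'.π x) ε i := fun i =>
      wc_pvec_copy H.A.ok.per H.B.ok.per hm z z' x (fun x' hx' => e x' (wcg_mem_pnb.2 ⟨y, Finset.mem_singleton_self _, by
        have h1 := wcg_pd_pcell hmpos hx
        have h2 := wcg_pd_tri x' x y
        omega⟩)) ε i
    rw [hp i, hp j, hDX i j]
  · cases cosOn
    · rfl
    · simp only [if_true]
      simp only [Pi.smul_apply]
      rw [hcard, hq 1, hq (-1), wc_cBC_copy H.A.ok.per H.B.ok.per S.P.ok S'.P.ok hm _ y z (Set.mem_univ _) z' (Set.mem_univ _) e]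

theorem wc_pdiam_singleton (y : ℤ × ℤ) : pdiam {y} = 0 := by
  simp [pdiam]

/-- the window of one fine block is admissible for `wc_conv_copy` -/
theorem wc_conv_block (H : CC c p c0 gs gs' S S') (y : ℤ × ℤ) {F : Fn G} {F' : Fn G'} (h : FnCopy (pnb {y} S.P.g.m) Set.univ Set.univ F F') :
    FnCopy (pnb {y} S.P.g.m) Set.univ Set.univ (conv S.Γ F) (conv S'.Γ F') := by
  have hd := wcg_pdiam_pnb {y} S.P.g.m
  rw [wc_pdiam_singleton] at hd
  have hb := H.small_bd (T := {y}) (by rw [wc_pdiam_singleton]; exact Nat.zero_le _)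
  rw [wc_pdiam_singleton] at hb
  have h2 := H.cpp
  have h3 : 2 * S.P.g.m ≤ 2 * c0 * S.P.g.m := by
    have : 1 * S.P.g.m ≤ c0 * S.P.g.m := Nat.mul_le_mul_right _ (by omega)
    have e2 : 2 * c0 * S.P.g.m = 2 * (c0 * S.P.g.m) := by ring
    omega
  obtain ⟨hM, hM'⟩ := lt_min_iff.1 hb
  exact wc_conv_copy S.Γ S'.Γ H.A.psd H.B.psd (wcg_pi_injOn H.A.ok.per _ (by omega)) (wcg_pi_injOn H.B.ok.per _ (by omega))
    (H.cov _ (lt_of_le_of_lt (by omega) hb)) (fun _ _ _ => Set.mem_univ _) (fun _ _ _ => Set.mem_univ _) h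

/-- the expectation of the two singletons is a copy.  PROVED. -/
theorem wc_convsingle_copy (H : CC c p c0 gs gs' S S') (a u : ℂ) (y : ℤ × ℤ) :
    FnCopy (pnb {y} S.P.g.m) Set.univ Set.univ
      (conv S.Γ (a • eBC S.P.g (S.P.g.blk (G.π y)) + u • cBC S.P.g (Step.alpha p.ω) (S.P.g.blk (G.π y))))
      (conv S'.Γ (a • eBC S'.P.g (S'.P.g.blk (G'.π y)) + u • cBC S'.P.g (Step.alpha p.ω) (S'.P.g.blk (G'.π y)))) :=
  wc_conv_block H y (((wc_eBC_copy H.A.ok.per H.B.ok.per S.P.ok S'.P.ok H.cp.side y).smul a).add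
    ((wc_cBC_copy H.A.ok.per H.B.ok.per S.P.ok S'.P.ok H.cp.side _ y).smul u))

/-! ## 4. One torus and a window -/

section win

variable {b : Bx ℓ}

theorem wc_mem_bsmall {X₀ : Finset b.P.g.I} : X₀ ∈ b.small c ↔ b.P.g.Conn c.R X₀ ∧ X₀.card ≤ c.n0 := by
  classical
  simp [Bx.small]

theorem wc_small_map (hA : b.Fits S.P c.R) (X₀ : Finset b.P.g.I) : X₀.map hA.f ∈ S.small c ↔ X₀ ∈ b.small c := by
  rw [w_mem_small, wc_mem_bsmall, Finset.card_map]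
  exact and_congr_left' (wca_conn_map hA.f c.R (wcg_f_idist hA c.R le_rfl) X₀)

/-! ### LEAF `W-COPY-R1`: small polymers through a block of the window
PLAN of `wc_small_range`: `idiam (cl X) ≤ 1` (`h.ok.diam`, `w_mem_small`); for `a ∈ X`: `idist (up (f B₀)) (up a) ≤ 1` (`Finset.le_sup` twice), `up (f B₀) = c (up B₀)` (`wcg_up`), so `up a ∈ range c` (`wcg_nb`), so `a ∈ range f` (`wcg_fib`);
`Finset.subset_map_iff` as in `wca_Ktil`.   `wc_sum_small`: `Finset.sum_bij (fun X₀ _ => X₀.map f)` backwards, `wc_small_map`, `Finset.mem_map'`, `Finset.map_injective`. -/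

theorem wc_small_range (h : Ctx c p gs S) (hA : b.Fits S.P c.R) (B₀ : b.P.g.I) (hin : b.Inner (b.P.N.up B₀)) {X : Finset S.P.g.I} (hX : X ∈ S.small c)
    (hB : hA.f B₀ ∈ X) : ∃ X₀ : Finset b.P.g.I, X₀.map hA.f = X := by
  classical
  obtain ⟨hc, hn⟩ := w_mem_small.1 hX
  have hd := (h.ok.diam X hc hn).1
  have hsub : X ⊆ (Finset.univ : Finset b.P.g.I).map hA.f := by
    intro a ha
    have h1 : S.P.g'.idist (S.P.N.up (hA.f B₀)) (S.P.N.up a) ≤ 1 := by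
      refine le_trans ?_ hd
      unfold Grid.idiam
      have m1 : S.P.N.up (hA.f B₀) ∈ S.P.N.cl X := Finset.mem_image_of_mem _ hB
      have m2 : S.P.N.up a ∈ S.P.N.cl X := Finset.mem_image_of_mem _ ha
      exact le_trans (Finset.le_sup (f := fun y => S.P.g'.idist (S.P.N.up (hA.f B₀)) y) m2)
        (Finset.le_sup (f := fun x => (S.P.N.cl X).sup fun y => S.P.g'.idist x y) m1)
    rw [wcg_up hA] at h1
    obtain ⟨β', hβ'⟩ := wcg_nb hA _ hin _ h1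
    obtain ⟨a₀, ha₀⟩ := wcg_fib hA a β' hβ'.symm
    exact Finset.mem_map.2 ⟨a₀, Finset.mem_univ _, ha₀⟩
  obtain ⟨X₀, _, hX₀⟩ := Finset.subset_map_iff.1 hsub
  exact ⟨X₀, hX₀.symm⟩

open Classical in
theorem wc_sum_small (h : Ctx c p gs S) (hA : b.Fits S.P c.R) (B₀ : b.P.g.I) (hin : b.Inner (b.P.N.up B₀)) {M : Type} [AddCommMonoid M] (φ : Finset S.P.g.I → M) :
    ∑ X ∈ (S.small c).filter (fun X => hA.f B₀ ∈ X), φ X = ∑ X₀ ∈ (b.small c).filter (fun X₀ => B₀ ∈ X₀), φ (X₀.map hA.f) := by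
  symm
  refine Finset.sum_bij (fun X₀ _ => X₀.map hA.f) ?_ ?_ ?_ ?_
  · intro X₀ hX₀
    obtain ⟨h1, h2⟩ := Finset.mem_filter.1 hX₀
    exact Finset.mem_filter.2 ⟨(wc_small_map hA X₀).2 h1, Finset.mem_map_of_mem _ h2⟩
  · intro X₀ _ X₁ _ he
    exact Finset.map_injective _ he
  · intro X hX
    obtain ⟨h1, h2⟩ := Finset.mem_filter.1 hX
    obtain ⟨X₀, rfl⟩ := wc_small_range h hA B₀ hin h1 h2
    exact ⟨X₀, Finset.mem_filter.2 ⟨(wc_small_map hA X₀).1 h1, (Finset.mem_map' _).1 h2⟩, rfl⟩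
  · intro _ _
    rfl

/-- the fibre of `up` over the image of a block of the window (`wcg_fib`, `wcg_up`, injectivity of `c`) -/
theorem wc_sum_fib (hA : b.Fits S.P c.R) (β : b.P.g'.I) {M : Type} [AddCommMonoid M] (φ : S.P.g.I → M)
    [DecidablePred fun B : S.P.g.I => S.P.N.up B = hA.c β] [DecidablePred fun B₀ : b.P.g.I => b.P.N.up B₀ = β] :
    ∑ B ∈ Finset.univ.filter (fun B => S.P.N.up B = hA.c β), φ B = ∑ B₀ ∈ Finset.univ.filter (fun B₀ => b.P.N.up B₀ = β), φ (hA.f B₀) := by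
  symm
  refine Finset.sum_bij (fun B₀ _ => hA.f B₀) ?_ ?_ ?_ ?_
  · intro B₀ hB₀
    have h1 := (Finset.mem_filter.1 hB₀).2
    exact Finset.mem_filter.2 ⟨Finset.mem_univ _, by rw [wcg_up hA, h1]⟩
  · intro B₀ _ B₁ _ he
    exact hA.f.injective he
  · intro B hB
    have h1 := (Finset.mem_filter.1 hB).2
    obtain ⟨B₀, rfl⟩ := wcg_fib hA B β h1
    rw [wcg_up hA] at h1
    exact ⟨B₀, Finset.mem_filter.2 ⟨Finset.mem_univ _, hA.c.injective h1⟩, rfl⟩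
  · intro _ _
    rfl

/-- a small polymer of the window is a small plane set (`wcg_pdiam_le`, `wcg_pd_pf`, `F6.Pr.prg_small_diam`, `Finset.le_sup`, `S.P.hS`) -/
theorem wc_box_small_pdiam (hA : b.Fits S.P c.R) (hL : c.R * c.n0 ≤ 2 ^ ℓ) {X₀ : Finset b.P.g.I} (hX : X₀ ∈ b.small c) : pdiam (X₀.image b.pf) ≤ S.P.g'.m := by
  classical
  obtain ⟨hc, hn⟩ := wc_mem_bsmall.1 hX
  have hd := F6.Pr.prg_small_diam b.P.g c.R c.n0 X₀ hc hn
  refine wcg_pdiam_le fun x hx y hy => ?_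
  obtain ⟨a, ha, rfl⟩ := Finset.mem_image.1 hx
  obtain ⟨a', ha', rfl⟩ := Finset.mem_image.1 hy
  rw [wcg_pd_pf, S.P.hS, hA.side, mul_comm]
  refine Nat.mul_le_mul_right _ ?_
  refine le_trans ?_ (hd.trans hL)
  unfold Grid.idiam
  exact le_trans (Finset.le_sup (f := fun y => b.P.g.idist a y) ha')
    (Finset.le_sup (f := fun x => X₀.sup fun y => b.P.g.idist x y) ha)

/-! ### LEAF `W-COPY-R2`: the designated data read in the window
PLAN.  `unfold Step.desig`.  Exchange the two sums (`Finset.sum_comm'` : `X ∈ small, cl X = Y, B ∈ X, up B = b` ↔ `B, up B = b; X ∈ small, B ∈ X, cl X = Y`), `wc_sum_fib`, then `wc_sum_small` at every `B₀` (`up B₀ = β` is inner) with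
`φ X := if cl X = Y'.map c then piece X (f B₀) else 0` (`Finset.sum_filter`, `Finset.filter_filter`); `cl (X₀.map f) = (cl X₀).map c` (`wca_cl_map`, `wcg_up`), `Finset.map_inj`; `Y'.map c = {c β} ↔ Y' = {β}` (`Finset.map_singleton`). -/

open Classical in
/-- exchange of the sums over small polymers and over their blocks in one fibre, read in the window -/
theorem wc_sum_exch (h : Ctx c p gs S) (hA : b.Fits S.P c.R) (β : b.P.g'.I) (hβ : b.Inner β) {M : Type} [AddCommMonoid M]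
    (Q : Finset S.P.g.I → Prop) [DecidablePred Q] (φ : Finset S.P.g.I → S.P.g.I → M) :
    ∑ X ∈ (S.small c).filter Q, ∑ B ∈ X.filter (fun B => S.P.N.up B = hA.c β), φ X B
      = ∑ B₀ ∈ Finset.univ.filter (fun B₀ => b.P.N.up B₀ = β), ∑ X₀ ∈ (b.small c).filter (fun X₀ => B₀ ∈ X₀ ∧ Q (X₀.map hA.f)),
          φ (X₀.map hA.f) (hA.f B₀) := by
  have e1 : ∑ X ∈ (S.small c).filter Q, ∑ B ∈ X.filter (fun B => S.P.N.up B = hA.c β), φ X B
      = ∑ B ∈ Finset.univ.filter (fun B => S.P.N.up B = hA.c β), ∑ X ∈ (S.small c).filter (fun X => B ∈ X), if Q X then φ X B else 0 := by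
    simp only [← Finset.sum_filter, Finset.filter_filter]
    refine Finset.sum_comm' fun X B => ?_
    simp only [Finset.mem_filter, Finset.mem_univ, true_and]
    tauto
  rw [e1, wc_sum_fib hA β]
  refine Finset.sum_congr rfl fun B₀ hB₀ => ?_
  have hup : b.P.N.up B₀ = β := (Finset.mem_filter.1 hB₀).2
  rw [wc_sum_small h hA B₀ (by rw [hup]; exact hβ) (fun X => if Q X then φ X (hA.f B₀) else 0), ← Finset.sum_filter, Finset.filter_filter]

open Classical in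
theorem wc_desig_F_box (h : Ctx c p gs S) (hA : b.Fits S.P c.R) (cosOn : Bool) (x : ℂ × ℂ × Act S.P.g) (β : b.P.g'.I) (hβ : b.Inner β) (Y' : Finset b.P.g'.I) :
    (S.desig c p.ω cosOn x).F (Y'.map hA.c) (hA.c β)
      = (∑ B₀ ∈ Finset.univ.filter (fun B₀ => b.P.N.up B₀ = β), ∑ X₀ ∈ (b.small c).filter (fun X₀ => B₀ ∈ X₀ ∧ b.P.N.cl X₀ = Y'),
          S.piece p.ω cosOn x.2.2 (X₀.map hA.f) (hA.f B₀))
        + if Y' = {β} then ∑ B₀ ∈ Finset.univ.filter (fun B₀ => b.P.N.up B₀ = β),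
            conv S.Γ ((x.1 / 2) • eBC S.P.g (hA.f B₀) + x.2.1 • cBC S.P.g (Step.alpha p.ω) (hA.f B₀)) else 0 := by
  unfold Step.desig
  simp only
  congr 1
  · refine (wc_sum_exch h hA β hβ (fun X => S.P.N.cl X = Y'.map hA.c) (fun X B => S.piece p.ω cosOn x.2.2 X B)).trans ?_
    refine Finset.sum_congr rfl fun B₀ _ => Finset.sum_congr ?_ fun _ _ => rfl
    refine Finset.filter_congr fun X₀ _ => ?_
    rw [wca_cl_map hA.f hA.c (wcg_up hA), Finset.map_inj]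
  · have e : (Y'.map hA.c = {hA.c β}) ↔ Y' = {β} := by
      rw [← Finset.map_singleton, Finset.map_inj]
    by_cases hY : Y' = {β}
    · rw [if_pos hY, if_pos (e.2 hY), wc_sum_fib hA β]
    · rw [if_neg hY, if_neg (fun h' => hY (e.1 h'))]

open Classical in
theorem wc_desig_a_box (h : Ctx c p gs S) (hA : b.Fits S.P c.R) (cosOn : Bool) (x : ℂ × ℂ × Act S.P.g) (β : b.P.g'.I) (hβ : b.Inner β) :
    (S.desig c p.ω cosOn x).a (hA.c β)
      = (∑ B₀ ∈ Finset.univ.filter (fun B₀ => b.P.N.up B₀ = β), ∑ X₀ ∈ (b.small c).filter (fun X₀ => B₀ ∈ X₀),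
          (1 / (X₀.card : ℂ)) * S.Hq p.ω 0 x.2.2 (X₀.map hA.f) 0)
        + ∑ B₀ ∈ Finset.univ.filter (fun B₀ => b.P.N.up B₀ = β), (x.1 / 2) * conv S.Γ (eBC S.P.g (hA.f B₀)) 0 := by
  unfold Step.desig
  simp only
  congr 1
  · have h1 := wc_sum_exch h hA β hβ (fun _ => True) (fun X _ => (1 / (X.card : ℂ)) * S.Hq p.ω 0 x.2.2 X 0)
    simp only [Finset.filter_true, and_true, Finset.card_map] at h1
    exact h1
  · rw [wc_sum_fib hA β]

end win

/-! ## 5. The designated data and the scalars are copies -/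

/-- the designated data are copies: in every window which fits into both tori, at the inner blocks -/
def DesCopy (c : Geo) (S : Step G D0 ℓ) (S' : Step G' D0 ℓ) (d : Desig S.P.g' (Fn G)) (d' : Desig S'.P.g' (Fn G')) : Prop :=
  ∀ (b : Bx ℓ) (hA : b.Fits S.P c.R) (hB : b.Fits S'.P c.R) (β : b.P.g'.I), b.Inner β →
    d.a (hA.c β) = d'.a (hB.c β) ∧
    ∀ Y' : Finset b.P.g'.I, FnCopy (pnb {b.pc β} (2 * S.P.g'.m)) Set.univ Set.univ (d.F (Y'.map hA.c) (hA.c β)) (d'.F (Y'.map hB.c) (hB.c β))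

theorem wc_side_c {b : Bx ℓ} (hA : b.Fits S.P c.R) : S.P.g'.m = 2 ^ ℓ * b.m := by
  rw [S.P.hS, hA.side]

/-- the window of a fine block inside the window of its coarse block -/
theorem wc_pnb_fine {b : Bx ℓ} (hA : b.Fits S.P c.R) (B₀ : b.P.g.I) : pnb {b.pf B₀} S.P.g.m ⊆ pnb {b.pc (b.P.N.up B₀)} (2 * S.P.g'.m) := by
  have hm' : 0 < 2 ^ ℓ * b.m := Nat.mul_pos (by positivity) b.hm
  have h1 := wcg_pd_pcell hm' (wcg_pf_mem_cell B₀)
  have h2 : S.P.g.m ≤ S.P.g'.m := by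
    rw [S.P.hS]
    exact Nat.le_mul_of_pos_left _ (by positivity)
  rw [← wc_side_c hA] at h1
  refine wcg_pnb_mono (k := S.P.g'.m) (fun x hx => ⟨_, Finset.mem_singleton_self _, ?_⟩) (by omega)
  rw [Finset.mem_singleton.1 hx]
  omega

/-- **the designated data of the weak map are copies.**  PROVED from s.3, s.4. -/
theorem wc_desig_copy (H : CC c p c0 gs gs' S S') {Rm : Act S.P.g} {Rm' : Act S'.P.g} (hR : Adm p c gs Rm) (hR' : Adm p c gs' Rm')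
    (hf : actNorm p S.P.g S.Vf Rm ≠ ⊤) (hf' : actNorm p S'.P.g S'.Vf Rm' ≠ ⊤) (hc : Copy p.h0 c0 S.P.g S'.P.g Rm Rm') (cosOn : Bool) (t u : ℂ) :
    DesCopy c S S' (S.desig c p.ω cosOn (t, u, Rm)) (S'.desig c p.ω cosOn (t, u, Rm')) := by
  classical
  intro b hA hB β hβ
  constructor
  · rw [wc_desig_a_box H.A hA cosOn _ β hβ, wc_desig_a_box H.B hB cosOn _ β hβ]
    congr 1
    · refine Finset.sum_congr rfl fun B₀ _ => Finset.sum_congr rfl fun X₀ hX₀ => ?_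
      congr 1
      have hX := (Finset.mem_filter.1 hX₀).1
      have h1 := wc_Hq_copy H hc 0 (X₀.image b.pf) (H.small_bd (wc_box_small_pdiam hA H.hL hX)) 0 (w_zero_mem_strip H.A.hh _ _) 0
        (w_zero_mem_strip H.B.hh _ _) (fun _ _ => rfl)
      rwa [wcg_foldS_f hA, wcg_foldS_f hB] at h1
    · refine Finset.sum_congr rfl fun B₀ _ => ?_
      congr 1
      exact wc_conv_block H (b.pf B₀) (wc_eBC_copy H.A.ok.per H.B.ok.per S.P.ok S'.P.ok H.cp.side (b.pf B₀)) 0 (Set.mem_univ _) 0 (Set.mem_univ _)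
        (fun _ _ => rfl)
  · intro Y' z _ z' _ e
    rw [wc_desig_F_box H.A hA cosOn _ β hβ, wc_desig_F_box H.B hB cosOn _ β hβ]
    simp only [Pi.add_apply, Finset.sum_apply]
    congr 1
    · refine Finset.sum_congr rfl fun B₀ hB₀ => Finset.sum_congr rfl fun X₀ hX₀ => ?_
      have hX := (Finset.mem_filter.1 hX₀).1
      have hBX := (Finset.mem_filter.1 hX₀).2.1
      have hup : b.P.N.up B₀ = β := (Finset.mem_filter.1 hB₀).2
      have h1 := wc_piece_copy H hR hR' hf hf' hc cosOn (X₀.image b.pf) ⟨_, Finset.mem_image_of_mem _ hBX⟩ (wc_box_small_pdiam hA H.hL hX)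
        (by rw [wcg_foldS_f hA]; exact (wc_small_map hA X₀).2 hX) (by rw [wcg_foldS_f hB]; exact (wc_small_map hB X₀).2 hX)
        (by rw [wcg_foldS_f hA, wcg_foldS_f hB, Finset.card_map, Finset.card_map]) (b.pf B₀) z (Set.mem_univ _) z' (Set.mem_univ _)
        (fun x hx => e x (by rw [← hup]; exact wc_pnb_fine hA B₀ hx))
      rwa [wcg_foldS_f hA, wcg_foldS_f hB] at h1
    · by_cases hY : Y' = {β}
      · rw [if_pos hY, if_pos hY, Finset.sum_apply, Finset.sum_apply]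
        refine Finset.sum_congr rfl fun B₀ hB₀ => ?_
        have hup : b.P.N.up B₀ = β := (Finset.mem_filter.1 hB₀).2
        exact wc_convsingle_copy H (t / 2) u (b.pf B₀) z (Set.mem_univ _) z' (Set.mem_univ _)
          (fun x hx => e x (by rw [← hup]; exact wc_pnb_fine hA B₀ hx))
      · rw [if_neg hY, if_neg hY]
        rfl

theorem wc_pi_zero (hG : G.bc = BC.per) : G.π (0, 0) = org G := by
  have h2 : G.fold 0 = ⟨0, G.hM⟩ := by
    apply Fin.ext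
    unfold Geom.fold
    split
    · simp
    · rename_i h
      rw [hG] at h
      cases h
  unfold Geom.π org
  simp only [h2]

/-! ### LEAF `W-COPY-TZ`: the scalars are copies
PLAN (~120 l.).  `lam`: `H.cp.cov (0, 0) (0, 0)` (`G.π (0, 0) = org G`: `Prod.ext (Fin.ext ..)`, unfold `Geom.π`, `Geom.fold`, `H.A.ok.per`; `S.P.g'.m (pp + 1) < min M M'` from `H.M_gt`, `H.cpp`).
`Pt`, `Pz`: the window `b := ⟨S.P.g.m, 3, (-1, -1), S.P.ok.pos, _⟩`; it fits (`n' m' = M > (2 c0 + 4) m'` by `Pack.syml_M`, `H.M_gt`; `c.R ≤ c0`); `b.Reg (0, 0)`; `B₀ := b.jf (0, 0)`; `S.B0 = hA.f B₀` (`wcg_blk_f`), `b.P.N.up B₀ = b.jc (0,0)` (`wcg_jc_up`) is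
the block `(1, 1)`, inner.  `unfold Step.Pt Step.Pz`, `wc_sum_small` in both tori, then termwise: `Finset.card_map`, `wc_DX_copy`, `wc_Hq_copy` at `0` with `T := X₀.image b.pf` (`wcg_foldS_f`, `wc_small_map`, `wc_box_small_pdiam`), exactly as in the proof of
`wc_desig_copy`. -/
theorem wc_tz_copy (H : CC c p c0 gs gs' S S') {Rm : Act S.P.g} {Rm' : Act S'.P.g} (hR : Adm p c gs Rm) (hR' : Adm p c gs' Rm')
    (hf : actNorm p S.P.g S.Vf Rm ≠ ⊤) (hf' : actNorm p S'.P.g S'.Vf Rm' ≠ ⊤) (hc : Copy p.h0 c0 S.P.g S'.P.g Rm Rm') :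
    S.Pt c p.ω Rm = S'.Pt c p.ω Rm' ∧ S.Pz c p.ω Rm = S'.Pz c p.ω Rm' ∧ S.lam p.ω = S'.lam p.ω := by
  classical
  have hm : 0 < S.P.g.m := S.P.ok.pos
  have hMgt := H.M_gt
  have hcpp := H.cpp
  have hcR := H.cR
  obtain ⟨hM, hM'⟩ := lt_min_iff.1 hMgt
  have e4 : (2 * c0 + 4) * S.P.g'.m = 2 * c0 * S.P.g'.m + 4 * S.P.g'.m := by ring
  obtain ⟨b, hb⟩ : ∃ b : Bx ℓ, b = bxOf ℓ S.P.g.m hm {(0, 0)} (Finset.singleton_nonempty _) := ⟨_, rfl⟩
  have hA : b.Fits S.P c.R := by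
    rw [hb]
    exact wcg_bxOf_fits H.A.ok.per _ hm rfl _ _ c0 (by omega) (by rw [wc_pdiam_singleton]; omega)
  have hB : b.Fits S'.P c.R := by
    rw [hb]
    exact wcg_bxOf_fits H.B.ok.per _ hm H.cp.side.symm _ _ c0 (by omega) (by rw [wc_pdiam_singleton, ← H.side']; omega)
  have hreg : b.Reg (0, 0) := by
    rw [hb]
    exact wcg_bxOf_reg _ _ _ _ _ (Finset.mem_singleton_self _)
  have hin : b.Inner (b.P.N.up (b.jf (0, 0))) := by
    rw [wcg_jc_up, hb]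
    exact wcg_bxOf_inner _ _ _ _ _ (Finset.mem_singleton_self _)
  have hB0 : S.B0 = hA.f (b.jf (0, 0)) := by
    unfold Step.B0
    rw [← wc_pi_zero H.A.ok.per]
    exact wcg_blk_f hA hreg
  have hB0' : S'.B0 = hB.f (b.jf (0, 0)) := by
    unfold Step.B0
    rw [← wc_pi_zero H.B.ok.per]
    exact wcg_blk_f hB hreg
  refine ⟨?_, ?_, ?_⟩
  · unfold Step.Pt
    congr 1
    refine Finset.sum_congr rfl fun i _ => ?_
    rw [hB0, hB0', wc_sum_small H.A hA _ hin, wc_sum_small H.B hB _ hin]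
    refine Finset.sum_congr rfl fun X₀ hX₀ => ?_
    have hX := (Finset.mem_filter.1 hX₀).1
    have hBX := (Finset.mem_filter.1 hX₀).2
    rw [Finset.card_map, Finset.card_map]
    congr 1
    have h1 := wc_DX_copy H hR hR' hf hf' hc (X₀.image b.pf) ⟨_, Finset.mem_image_of_mem _ hBX⟩ (wc_box_small_pdiam hA H.hL hX)
      (by rw [wcg_foldS_f hA]; exact (wc_small_map hA X₀).2 hX) (by rw [wcg_foldS_f hB]; exact (wc_small_map hB X₀).2 hX) i i
    rwa [wcg_foldS_f hA, wcg_foldS_f hB] at h1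
  · unfold Step.Pz
    congr 1
    rw [hB0, hB0', wc_sum_small H.A hA _ hin, wc_sum_small H.B hB _ hin]
    refine Finset.sum_congr rfl fun X₀ hX₀ => ?_
    have hX := (Finset.mem_filter.1 hX₀).1
    rw [Finset.card_map, Finset.card_map]
    have hq : ∀ q : ℤ, S.Hq p.ω q Rm (X₀.map hA.f) 0 = S'.Hq p.ω q Rm' (X₀.map hB.f) 0 := by
      intro q
      have h1 := wc_Hq_copy H hc q (X₀.image b.pf) (H.small_bd (wc_box_small_pdiam hA H.hL hX)) 0 (w_zero_mem_strip H.A.hh _ _) 0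
        (w_zero_mem_strip H.B.hh _ _) (fun _ _ => rfl)
      rwa [wcg_foldS_f hA, wcg_foldS_f hB] at h1
    rw [hq 1, hq (-1)]
  · unfold Step.lam
    have h5 : S.P.g'.m * (pp + 1) ≤ (2 * c0 + 4) * S.P.g'.m := by
      rw [mul_comm]
      exact Nat.mul_le_mul_right _ (by omega)
    have h6 := H.cp.cov (0, 0) (0, 0) (by
      simp only [sub_self, Int.natAbs_zero, max_self, zero_add]
      exact lt_of_le_of_lt h5 hMgt)
    rw [← wc_pi_zero H.A.ok.per, ← wc_pi_zero H.B.ok.per, h6]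

/-! ## 6. `Kprime`, `Klin` are copies -/

section big

variable {b : Bx ℓ}

/-- the fine corners of a polymer whose closure is covered by `T` are near `T` -/
theorem wc_corner_near (hA : b.Fits S.P c.R) (T : Finset (ℤ × ℤ)) (hreg : ∀ x ∈ T, b.Reg x) (X : Finset b.P.g.I) (hX : b.P.N.cl X ⊆ T.image b.jc) :
    ∀ x ∈ X.image b.pf, ∃ y ∈ T, pd x y ≤ S.P.g'.m - 1 := by
  classical
  intro x hx
  obtain ⟨a, ha, rfl⟩ := Finset.mem_image.1 hx
  obtain ⟨s, hs, hsa⟩ := Finset.mem_image.1 (hX (Finset.mem_image_of_mem _ ha))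
  have hm' : 0 < 2 ^ ℓ * b.m := Nat.mul_pos (by positivity) b.hm
  have h1 := (wcg_mem_pcell hm').1 (wcg_pf_mem_cell a)
  have h2 := (wcg_mem_pcell hm').1 (wcg_mem_cell_c (hreg s hs))
  rw [hsa] at h2
  refine ⟨s, hs, ?_⟩
  rw [wc_side_c hA]
  exact wcg_pd_pcell hm' ((wcg_mem_pcell hm').2 ⟨h1.1.trans h2.1.symm, h1.2.trans h2.2.symm⟩)

/-- the fine activities on the polymers below the coarse plane set `T` are copies w.r.t. ONE window -/
theorem wc_win_act (H : CC c p c0 gs gs' S S') {K : Act S.P.g} {K' : Act S'.P.g} (hK : Copy p.h0 c0 S.P.g S'.P.g K K')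
    (hA : b.Fits S.P c.R) (hB : b.Fits S'.P c.R) (T : Finset (ℤ × ℤ)) (hreg : ∀ x ∈ T, b.Reg x)
    (h1 : pdiam T + 2 * c0 * S.P.g'.m < G.M) (h2 : pdiam T + 2 * c0 * S.P.g'.m < G'.M) (X : Finset b.P.g.I) (hX : b.P.N.cl X ⊆ T.image b.jc) :
    FnCopy (pnb T (S.P.g'.m + c0 * S.P.g.m)) (strip p.h0 S.P.g' ((T.image b.jc).map hA.c)) (strip p.h0 S'.P.g' ((T.image b.jc).map hB.c))
      (K (X.map hA.f)) (K' (X.map hB.f)) := by
  have hnear := wc_corner_near hA T hreg X hX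
  have hd := wcg_pdiam_near hnear
  have ha := H.ar1
  have e1 : 2 * c0 * S.P.g'.m = 2 * (c0 * S.P.g'.m) := by ring
  have e2 : 2 * c0 * S.P.g.m = 2 * (c0 * S.P.g.m) := by ring
  have h3 := wc_copy_iff.1 hK (X.image b.pf) (by omega) (by omega)
  rw [wcg_foldS_f hA, wcg_foldS_f hB] at h3
  refine h3.mono (wcg_pnb_mono hnear (by omega)) (fun z hz => w_strip_coarse S.P p.h0 ?_ hz) (fun z hz => w_strip_coarse S'.P p.h0 ?_ hz)
  · rw [wca_cl_map hA.f hA.c (wcg_up hA)]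
    exact Finset.map_subset_map.2 hX
  · rw [wca_cl_map hB.f hB.c (wcg_up hB)]
    exact Finset.map_subset_map.2 hX

/-- .. and their expectations -/
theorem wc_win_conv (H : CC c p c0 gs gs' S S') (T : Finset (ℤ × ℤ)) (h1 : pdiam T + 2 * c0 * S.P.g'.m < G.M) (h2 : pdiam T + 2 * c0 * S.P.g'.m < G'.M)
    {Y : Finset S.P.g'.I} {Y' : Finset S'.P.g'.I} {F : Fn G} {F' : Fn G'}
    (h : FnCopy (pnb T (S.P.g'.m + c0 * S.P.g.m)) (strip p.h0 S.P.g' Y) (strip p.h0 S'.P.g' Y') F F') :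
    FnCopy (pnb T (S.P.g'.m + c0 * S.P.g.m)) (strip p.h0 S.P.g' Y) (strip p.h0 S'.P.g' Y') (conv S.Γ F) (conv S'.Γ F') := by
  have hd := wcg_pdiam_pnb T (S.P.g'.m + c0 * S.P.g.m)
  have ha := H.ar2
  exact wc_conv_copy S.Γ S'.Γ H.A.psd H.B.psd (wcg_pi_injOn H.A.ok.per _ (by omega)) (wcg_pi_injOn H.B.ok.per _ (by omega))
    (H.cov _ (lt_min (by omega) (by omega))) (fun z hz ζ => Hol.strip_add_toC hz ζ) (fun z hz ζ => Hol.strip_add_toC hz ζ) h

end big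

theorem wc_foldS_empty (g : Grid G) : g.foldS ∅ = ∅ := rfl

theorem wc_not_conn_empty (g : Grid G) (R : ℕ) : ¬ g.Conn R ∅ := fun h => by
  simpa using h.1

/-- **`Kprime` preserves the copy relation.**  PROVED from `wca_Kprime_two`, the window `bxOf`, s.1. -/
theorem wc_Kprime_copy (H : CC c p c0 gs gs' S S') {K : Act S.P.g} {K' : Act S'.P.g} {d : Desig S.P.g' (Fn G)} {d' : Desig S'.P.g' (Fn G')}
    (hK : Copy p.h0 c0 S.P.g S'.P.g K K') (hd : d.Small c.r S.P.g') (hd' : d'.Small c.r S'.P.g') (hD : DesCopy c S S' d d') :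
    Copy p.h0 c0 S.P.g' S'.P.g' (Kprime S.P c.r c.R (conv S.Γ) K d) (Kprime S'.P c.r c.R (conv S'.Γ) K' d') := by
  classical
  intro T h1 h2 z hz z' hz' e
  by_cases hT : T.Nonempty
  swap
  · rw [Finset.not_nonempty_iff_eq_empty.1 hT, wc_foldS_empty, wc_foldS_empty]
    unfold Kprime Kext
    rw [if_neg (wc_not_conn_empty _ _), if_neg (wc_not_conn_empty _ _)]
    rfl
  have hcR := H.cR
  have hcp := H.cpp
  have hrR : c.r ≤ c.R := by have := H.A.geo.hrR; omega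
  obtain ⟨b, hb⟩ : ∃ b : Bx ℓ, b = bxOf ℓ S.P.g.m S.P.ok.pos T hT := ⟨_, rfl⟩
  have hA : b.Fits S.P c.R := by
    rw [hb]; exact wcg_bxOf_fits H.A.ok.per _ _ rfl T hT c0 (by omega) h1
  have hB : b.Fits S'.P c.R := by
    rw [hb]; exact wcg_bxOf_fits H.B.ok.per _ _ H.cp.side.symm T hT c0 (by omega) (by rw [← H.side']; exact h2)
  have hreg : ∀ x ∈ T, b.Reg x := fun x hx => by rw [hb]; exact wcg_bxOf_reg ℓ _ _ T hT hx
  have hin : ∀ β ∈ T.image b.jc, b.Inner β := by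
    intro β hβ
    obtain ⟨x, hx, rfl⟩ := Finset.mem_image.1 hβ
    subst hb
    exact wcg_bxOf_inner ℓ _ _ T hT hx
  rw [wcg_foldS_jc hA T hreg] at hz ⊢
  rw [wcg_foldS_jc hB T hreg] at hz' ⊢
  have e' : ∀ x ∈ pnb T (c0 * S.P.g'.m), z (G.π x) = z' (G'.π x) := fun x hx => e x (wcg_mem_pnb.1 hx)
  have ha1 := H.ar1
  refine wca_Kprime_two (Pi.evalRingHom (fun _ : G.V → ℂ => ℂ) z) (Pi.evalRingHom (fun _ : G'.V → ℂ => ℂ) z') hA.f hA.c hB.f hB.c c.r c.R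
    (wcg_f_idist hA c.R le_rfl) (wcg_c_idist hA c.r hrR) (wcg_c_idist hA c.R le_rfl) (wcg_up hA) (wcg_fib hA)
    (wcg_f_idist hB c.R le_rfl) (wcg_c_idist hB c.r hrR) (wcg_c_idist hB c.R le_rfl) (wcg_up hB) (wcg_fib hB)
    (conv S.Γ) (conv S'.Γ) K K' d d' hd hd' (T.image b.jc) (fun β hβ => wcg_nb hA β (hin β hβ)) (fun β hβ => wcg_nb hB β (hin β hβ)) ?_ ?_ ?_
  · intro V hV
    simp only [Pi.evalRingHom_apply]
    refine wc_win_conv H T h1 h2 (FnCopy.prod _ _ _ fun X hX => wc_win_act H hK hA hB T hreg h1 h2 X ?_) z hz z' hz'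
      (fun x hx => e' x (wcg_pnb_mono (k := 0) (fun y hy => ⟨y, hy, by rw [wcg_pd_self]⟩) (by omega) hx))
    exact (Finset.image_subset_image (Alg.comps_subset hX)).trans hV
  · intro β hβ Y'
    simp only [Pi.evalRingHom_apply]
    refine (hD b hA hB β (hin β hβ)).2 Y' z (Set.mem_univ _) z' (Set.mem_univ _) fun x hx => e' x ?_
    obtain ⟨s, hs, rfl⟩ := Finset.mem_image.1 hβ
    have hm' : 0 < 2 ^ ℓ * b.m := Nat.mul_pos (by positivity) b.hm
    have h3 := wcg_pd_pcell hm' (wcg_mem_cell_c (hreg s hs))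
    rw [← wc_side_c hA, wcg_pd_comm] at h3
    have h4 : 3 * S.P.g'.m ≤ c0 * S.P.g'.m := Nat.mul_le_mul_right _ (by omega)
    refine wcg_pnb_mono (k := S.P.g'.m) (fun y hy => ⟨s, hs, ?_⟩) (by omega) hx
    rw [Finset.mem_singleton.1 hy]
    omega
  · intro β hβ
    rw [(hD b hA hB β (hin β hβ)).1]
    simp

/-- **`Klin` preserves the copy relation.**  PROVED from `wca_Klin_two`, the window `bxOf`, s.1. -/
theorem wc_Klin_copy (H : CC c p c0 gs gs' S S') {K : Act S.P.g} {K' : Act S'.P.g} {d : Desig S.P.g' (Fn G)} {d' : Desig S'.P.g' (Fn G')}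
    (hK : Copy p.h0 c0 S.P.g S'.P.g K K') (hd : d.Small c.r S.P.g') (hd' : d'.Small c.r S'.P.g') (hD : DesCopy c S S' d d') :
    Copy p.h0 c0 S.P.g' S'.P.g' (Klin S.P c.R (conv S.Γ) K d) (Klin S'.P c.R (conv S'.Γ) K' d') := by
  classical
  intro T h1 h2 z hz z' hz' e
  by_cases hT : T.Nonempty
  swap
  · rw [Finset.not_nonempty_iff_eq_empty.1 hT, wc_foldS_empty, wc_foldS_empty]
    unfold Klin
    rw [if_neg (wc_not_conn_empty _ _), if_neg (wc_not_conn_empty _ _)]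
    rfl
  have hcR := H.cR
  have hcp := H.cpp
  obtain ⟨b, hb⟩ : ∃ b : Bx ℓ, b = bxOf ℓ S.P.g.m S.P.ok.pos T hT := ⟨_, rfl⟩
  have hA : b.Fits S.P c.R := by
    rw [hb]; exact wcg_bxOf_fits H.A.ok.per _ _ rfl T hT c0 (by omega) h1
  have hB : b.Fits S'.P c.R := by
    rw [hb]; exact wcg_bxOf_fits H.B.ok.per _ _ H.cp.side.symm T hT c0 (by omega) (by rw [← H.side']; exact h2)
  have hreg : ∀ x ∈ T, b.Reg x := fun x hx => by rw [hb]; exact wcg_bxOf_reg ℓ _ _ T hT hx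
  have hin : ∀ β ∈ T.image b.jc, b.Inner β := by
    intro β hβ
    obtain ⟨x, hx, rfl⟩ := Finset.mem_image.1 hβ
    subst hb
    exact wcg_bxOf_inner ℓ _ _ T hT hx
  rw [wcg_foldS_jc hA T hreg] at hz ⊢
  rw [wcg_foldS_jc hB T hreg] at hz' ⊢
  have e' : ∀ x ∈ pnb T (c0 * S.P.g'.m), z (G.π x) = z' (G'.π x) := fun x hx => e x (wcg_mem_pnb.1 hx)
  have ha1 := H.ar1
  refine wca_Klin_two (Pi.evalRingHom (fun _ : G.V → ℂ => ℂ) z) (Pi.evalRingHom (fun _ : G'.V → ℂ => ℂ) z') hA.f hA.c hB.f hB.c c.r c.R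
    (wcg_f_idist hA c.R le_rfl) (wcg_c_idist hA c.R le_rfl) (wcg_up hA) (wcg_fib hA)
    (wcg_f_idist hB c.R le_rfl) (wcg_c_idist hB c.R le_rfl) (wcg_up hB) (wcg_fib hB)
    (conv S.Γ) (conv S'.Γ) K K' d d' hd hd' (T.image b.jc) (fun β hβ => wcg_nb hA β (hin β hβ)) (fun β hβ => wcg_nb hB β (hin β hβ)) ?_ ?_ ?_
  · intro X hX
    simp only [Pi.evalRingHom_apply]
    exact wc_win_conv H T h1 h2 (wc_win_act H hK hA hB T hreg h1 h2 X hX.subset) z hz z' hz'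
      (fun x hx => e' x (wcg_pnb_mono (k := 0) (fun y hy => ⟨y, hy, by rw [wcg_pd_self]⟩) (by omega) hx))
  · intro β hβ Y'
    simp only [Pi.evalRingHom_apply]
    refine (hD b hA hB β (hin β hβ)).2 Y' z (Set.mem_univ _) z' (Set.mem_univ _) fun x hx => e' x ?_
    obtain ⟨s, hs, rfl⟩ := Finset.mem_image.1 hβ
    have hm' : 0 < 2 ^ ℓ * b.m := Nat.mul_pos (by positivity) b.hm
    have h3 := wcg_pd_pcell hm' (wcg_mem_cell_c (hreg s hs))
    rw [← wc_side_c hA, wcg_pd_comm] at h3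
    have h4 : 3 * S.P.g'.m ≤ c0 * S.P.g'.m := Nat.mul_le_mul_right _ (by omega)
    refine wcg_pnb_mono (k := S.P.g'.m) (fun y hy => ⟨s, hs, ?_⟩) (by omega) hx
    rw [Finset.mem_singleton.1 hy]
    omega
  · intro β hβ
    rw [(hD b hA hB β (hin β hβ)).1]
    simp

/-! ## 7. The two contracts -/

/-- `n₀ ≥ 1`: a singleton is not large (`StepOK.half`) -/
theorem wc_n0_pos (hS : StepOK c p gs S) : 1 ≤ c.n0 := by
  classical
  by_contra hn
  have h0 : c.n0 = 0 := by omega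
  have h1 := hS.half {S.P.g.blk (org G)} (w_conn_singleton _ _ _) (by rw [h0]; simp)
  have h2 : (S.P.N.cl {S.P.g.blk (org G)}).card = 1 := by
    unfold Nest.cl
    rw [Finset.image_singleton, Finset.card_singleton]
  rw [h2, Finset.card_singleton] at h1
  omega

theorem wc_ctx (hc : c.Ok) (hω : 0 < p.ω) (hh : 0 < p.h0) (hA : 1 ≤ p.A) (hD : 12 ≤ D0) (hℓ : c.R * c.n0 ≤ 2 ^ ℓ) (hS : StepOK c p gs S) : Ctx c p gs S :=
  ⟨hc, hS, hω, hh, hA, hD, le_trans (Nat.le_mul_of_pos_right _ (wc_n0_pos hS)) hℓ⟩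

/-- **[B] P8.3, last paragraph** in the context `CC` -/
theorem wc_main (H : CC c p c0 gs gs' S S') (cosOn : Bool) (t z : ℂ) {Rm : Act S.P.g} {Rm' : Act S'.P.g} (hR : Adm p c gs Rm) (hR' : Adm p c gs' Rm')
    (hf : actNorm p S.P.g S.Vf Rm ≠ ⊤) (hf' : actNorm p S'.P.g S'.Vf Rm' ≠ ⊤) (h : Copy p.h0 c0 S.P.g S'.P.g Rm Rm') :
    (S.Phi c p.ω cosOn (t, z, Rm)).1 = (S'.Phi c p.ω cosOn (t, z, Rm')).1 ∧
    (S.Phi c p.ω cosOn (t, z, Rm)).2.1 = (S'.Phi c p.ω cosOn (t, z, Rm')).2.1 ∧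
    Copy p.h0 c0 S.P.g' S'.P.g' (S.Phi c p.ω cosOn (t, z, Rm)).2.2 (S'.Phi c p.ω cosOn (t, z, Rm')).2.2 ∧
    Copy p.h0 c0 S.P.g' S'.P.g' (S.Clin c p.ω cosOn Rm) (S'.Clin c p.ω cosOn Rm') := by
  obtain ⟨hPt, hPz, hlam⟩ := wc_tz_copy H hR hR' hf hf' h
  have hc1 : 1 ≤ c0 := by have := H.cpp; omega
  have htz : ∀ t z : ℂ, S.tz c p.ω cosOn (t, z, Rm) = S'.tz c p.ω cosOn (t, z, Rm') := by
    intro t z
    unfold Step.tz
    simp only
    rw [hPt, hPz, hlam]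
  have hsf : ∀ t z : ℂ, Copy p.h0 c0 S.P.g S'.P.g (single S.P.g (Step.alpha p.ω) t z) (single S'.P.g (Step.alpha p.ω) t z) :=
    fun t z => wc_single_copy H.A.ok.per H.B.ok.per S.P.ok S'.P.ok H.cp.side p.h0 c0 hc1 _ t z
  have hsc : ∀ t z : ℂ, Copy p.h0 c0 S.P.g' S'.P.g' (single S.P.g' (Step.alpha p.ω) t z) (single S'.P.g' (Step.alpha p.ω) t z) :=
    fun t z => wc_single_copy H.A.ok.per H.B.ok.per S.P.ok' S'.P.ok' H.side' p.h0 c0 hc1 _ t z
  refine ⟨congrArg Prod.fst (htz t z), congrArg Prod.snd (htz t z), ?_, ?_⟩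
  · unfold Step.Phi
    simp only
    rw [htz t z]
    refine wc_copy_sub (wc_Kprime_copy H ?_ (w_desig_small H.A cosOn _) (w_desig_small H.B cosOn _) (wc_desig_copy H hR hR' hf hf' h cosOn t z)) (hsc _ _)
    exact wc_copy_add (hsf t z) h
  · unfold Step.Clin
    rw [htz 0 0]
    exact wc_copy_sub (wc_Klin_copy H h (w_desig_small H.A cosOn _) (w_desig_small H.B cosOn _) (wc_desig_copy H hR hR' hf hf' h cosOn 0 0)) (hsc _ _)

/-- **`B8.weak_copy`** (with the hypotheses `0 < ω`, `0 < h₀`, `1 ≤ A`, `R ≤ c0`, `pp + 4 ≤ c0`) -/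
theorem weak_copy' (c : Geo) (hc : c.Ok) (c0 : ℕ) (hcR : c.R ≤ c0) (hpp : pp + 4 ≤ c0) (p : Par) (hω : 0 < p.ω) (hh : 0 < p.h0) (hA : 1 ≤ p.A)
    {G G' : Geom} {D0 ℓ : ℕ} (hℓ : c.R * c.n0 ≤ 2 ^ ℓ)
    (hD : 2 * c0 + 4 ≤ D0) (gs : Grid G) (gs' : Grid G') (S : Step G D0 ℓ) (S' : Step G' D0 ℓ) (hS : StepOK c p gs S) (hS' : StepOK c p gs' S')
    (hc' : StepCopy S S') (cosOn : Bool) (t z : ℂ) (Rm : Act S.P.g) (Rm' : Act S'.P.g) (hR : Adm p c gs Rm) (hR' : Adm p c gs' Rm')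
    (hf : actNorm p S.P.g S.Vf Rm ≠ ⊤) (hf' : actNorm p S'.P.g S'.Vf Rm' ≠ ⊤) (h : Copy p.h0 c0 S.P.g S'.P.g Rm Rm') :
    (S.Phi c p.ω cosOn (t, z, Rm)).1 = (S'.Phi c p.ω cosOn (t, z, Rm')).1 ∧
    (S.Phi c p.ω cosOn (t, z, Rm)).2.1 = (S'.Phi c p.ω cosOn (t, z, Rm')).2.1 ∧
    Copy p.h0 c0 S.P.g' S'.P.g' (S.Phi c p.ω cosOn (t, z, Rm)).2.2 (S'.Phi c p.ω cosOn (t, z, Rm')).2.2 ∧
    Copy p.h0 c0 S.P.g' S'.P.g' (S.Clin c p.ω cosOn Rm) (S'.Clin c p.ω cosOn Rm') :=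
  wc_main ⟨wc_ctx hc hω hh hA (by omega) hℓ hS, wc_ctx hc hω hh hA (by omega) hℓ hS', hc', hcR, hpp, hD, hℓ⟩ cosOn t z hR hR' hf hf' h

/-! ### `weak_cut` = `weak_copy` between a torus and itself -/

theorem wc_actNorm_cutW_le (p : Par) (g : Grid G) (V : Extra g) (c0 : ℕ) (K : Act g) : actNorm p g V (cutW c0 K) ≤ actNorm p g V K := by
  unfold actNorm
  refine iSup_mono fun X => mul_le_mul_right ?_ _
  by_cases hX : g.Unwr c0 X
  · simp only [cutW, if_pos hX, le_refl]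
  · simp only [cutW, if_neg hX]
    simp [fnSize, ptNorm]

theorem wc_cls_cutW {g : Grid G} (hG : G.bc = BC.per) (hM : 3 ≤ G.M) {col R : ℕ} {gs : Grid G} {K : Act g} (c0 : ℕ) (hK : K.Cls p col R gs) :
    (cutW c0 K).Cls p col R gs := by
  have hc : ∀ X, cutW c0 K X = K X ∨ cutW c0 K X = 0 := fun X => by
    by_cases hX : g.Unwr c0 X
    · left; simp only [cutW, if_pos hX]
    · right; simp only [cutW, if_neg hX]
  refine ⟨⟨fun X => ?_, fun X hX => ?_⟩, fun X z hz => ?_, fun s hs X z hz hz' => ?_⟩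
  · rcases hc X with h | h <;> rw [h]
    · exact hK.ok.fn X
    · exact LocalFn.sp_zero p col g X
  · rcases hc X with h | h <;> rw [h]
    exact hK.ok.poly X hX
  · rcases hc X with h | h <;> rw [h]
    · exact hK.even X z hz
    · rfl
  · by_cases hX : g.Unwr c0 X
    · have hX' := (Pack.sym_unwr hG hM s c0 X).2 hX
      simp only [cutW, if_pos hX, if_pos hX']
      exact hK.sym s hs X z hz hz'
    · have hX' : ¬ g.Unwr c0 (X.map s.τ.toEmbedding) := fun h => hX ((Pack.sym_unwr hG hM s c0 X).1 h)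
      simp only [cutW, if_neg hX, if_neg hX', Pi.zero_apply]

/-- a step is a copy of itself -/
theorem wc_stepCopy_self (hG : G.bc = BC.per) (S : Step G D0 ℓ) : StepCopy S S where
  side := rfl
  cov := fun _ _ _ => rfl
  grid := fun _ _ =>
    ⟨fun h => ⟨wcg_blk_pcell hG S.P.ok ((wcg_mem_pcell S.P.ok.pos).2 h), wcg_blk_pcell hG S.P.ok ((wcg_mem_pcell S.P.ok.pos).2 h)⟩,
     fun h => ⟨wcg_blk_pcell hG S.P.ok' ((wcg_mem_pcell S.P.ok'.pos).2 h), wcg_blk_pcell hG S.P.ok' ((wcg_mem_pcell S.P.ok'.pos).2 h)⟩⟩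

/-- an admissible activity is a copy of its restriction to the unwrapped polymers -/
theorem wc_copy_cutW (hG : G.bc = BC.per) {g : Grid G} (hg : g.Ok) {col R : ℕ} (hcol : 2 * col < g.m) (c0 : ℕ) (hc0 : 2 ≤ c0) {K : Act g} (hK : K.Ok p col R) :
    Copy p.h0 c0 g g K (cutW c0 K) := by
  intro T h1 _ z hz z' hz' e
  have hU : g.Unwr c0 (g.foldS T) := ⟨T, rfl, h1⟩
  simp only [cutW, if_pos hU]
  refine (hK.fn _).loc z hz z' hz' fun v hv => ?_
  obtain ⟨x, hx, rfl⟩ := wcg_near hG hg T col v hv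
  obtain ⟨y, hy, hxy⟩ := wcg_mem_pnb.1 hx
  refine e x ⟨y, hy, le_trans hxy ?_⟩
  have : 2 * g.m ≤ c0 * g.m := Nat.mul_le_mul_right _ hc0
  omega

/-- **`B8.weak_cut`** (with the hypotheses `0 < ω`, `0 < h₀`, `1 ≤ A`, `R ≤ c0`, `pp + 4 ≤ c0`) -/
theorem weak_cut' (c : Geo) (hc : c.Ok) (c0 : ℕ) (hcR : c.R ≤ c0) (hpp : pp + 4 ≤ c0) (p : Par) (hω : 0 < p.ω) (hh : 0 < p.h0) (hA : 1 ≤ p.A)
    {G : Geom} {D0 ℓ : ℕ} (hℓ : c.R * c.n0 ≤ 2 ^ ℓ) (hD : 2 * c0 + 4 ≤ D0)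
    (gs : Grid G) (S : Step G D0 ℓ) (hS : StepOK c p gs S) (cosOn : Bool) (t z : ℂ) (Rm : Act S.P.g) (hR : Adm p c gs Rm) (hf : actNorm p S.P.g S.Vf Rm ≠ ⊤) :
    (S.Phi c p.ω cosOn (t, z, cutW c0 Rm)).1 = (S.Phi c p.ω cosOn (t, z, Rm)).1 ∧
    (S.Phi c p.ω cosOn (t, z, cutW c0 Rm)).2.1 = (S.Phi c p.ω cosOn (t, z, Rm)).2.1 ∧
    EqOn p.h0 (cutW c0 (S.Phi c p.ω cosOn (t, z, cutW c0 Rm)).2.2) (cutW c0 (S.Phi c p.ω cosOn (t, z, Rm)).2.2) := by
  have hx := wc_ctx hc hω hh hA (by omega) hℓ hS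
  obtain ⟨h1, h2, h3, -⟩ := weak_copy' c hc c0 hcR hpp p hω hh hA hℓ hD gs gs S S hS hS (wc_stepCopy_self hS.per S) cosOn t z Rm (cutW c0 Rm) hR
    (wc_cls_cutW hS.per hx.hM c0 hR) hf (ne_top_of_le_ne_top hf (wc_actNorm_cutW_le p _ _ c0 Rm))
    (wc_copy_cutW hS.per S.P.ok hS.col c0 (by omega) hR.ok)
  refine ⟨h1.symm, h2.symm, fun Y w hw => ?_⟩
  by_cases hY : S.P.g'.Unwr c0 Y
  · simp only [cutW, if_pos hY]
    obtain ⟨T, rfl, hT⟩ := hY
    exact (h3 T hT hT w hw w hw fun _ _ => rfl).symm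
  · simp only [cutW, if_neg hY]

end

end Claimed.Agent.R285.B8
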