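import Claimed.Agent.R285.Obs.PairAlg

/-!
# ROW 285, unit MAP, package COPY (`B8.weak_copy`, `B8.weak_cut`), file A: TRANSPORT OF `Kprime`, `Klin` ALONG THRESHOLD ISOMETRIES      (architect helper21)

PAPER-FREE, pure finite algebra.  `Obs/PairAlg.lean` (helper79) transports `Kprime` along an embedding of the blocks which preserves ALL index distances.  There is no such embedding from a window (a free box of
blocks) into a torus when the window is larger than half of the torus; but the proofs only use the relations `idist ≤ R`, `idist ≤ r` (and `idist ≤ 1` through `Desig.Small`).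
s.1-2: the lemmas of `PairAlg` with the hypothesis `∀ a b, idist (e a) (e b) ≤ R ↔ idist a b ≤ R` (same proofs).
s.3: TWO volumes `P₁`, `P₂` which contain a copy of the same window `Q`: `wca_Kprime_two`, `wca_Klin_two`.
-/

set_option autoImplicit false

namespace Claimed.Agent.R285.B8

open scoped BigOperators
open Claimed.Agent.R285 Claimed.Agent.R285.RG Claimed.Agent.R285.F6.Pr

noncomputable section

variable {G₀ G₁ : Geom}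

/-! ## 1. Combinatorics of a threshold isometry -/

section comb

variable {g₀ : Grid G₀} {g₁ : Grid G₁} (e : g₀.I ↪ g₁.I)

theorem wca_conn_map (R : ℕ) (he : ∀ a b, g₁.idist (e a) (e b) ≤ R ↔ g₀.idist a b ≤ R) (X : Finset g₀.I) :
    g₁.Conn R (X.map e) ↔ g₀.Conn R X := by
  unfold Grid.Conn
  constructor
  · rintro ⟨hne, h⟩
    refine ⟨by simpa using hne, fun a ha b hb => ?_⟩
    have key : ∀ y, Relation.ReflTransGen (fun u v => u ∈ X.map e ∧ v ∈ X.map e ∧ g₁.idist u v ≤ R) (e a) y →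
        ∃ b', y = e b' ∧ Relation.ReflTransGen (fun u v => u ∈ X ∧ v ∈ X ∧ g₀.idist u v ≤ R) a b' := by
      intro y hy
      induction hy with
      | refl => exact ⟨a, rfl, Relation.ReflTransGen.refl⟩
      | @tail y z _ hyz ih =>
        obtain ⟨b', rfl, hb'⟩ := ih
        obtain ⟨h1, h2, h3⟩ := hyz
        obtain ⟨c, hc, rfl⟩ := Finset.mem_map.1 h2
        refine ⟨c, rfl, hb'.tail ⟨?_, hc, (he _ _).1 h3⟩⟩
        simpa using h1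
    obtain ⟨b', hbb, hp⟩ := key (e b) (h _ (Finset.mem_map_of_mem e ha) _ (Finset.mem_map_of_mem e hb))
    rwa [e.injective hbb]
  · rintro ⟨hne, h⟩
    refine ⟨by simpa using hne, ?_⟩
    intro a' ha' b' hb'
    obtain ⟨a, ha, rfl⟩ := Finset.mem_map.1 ha'
    obtain ⟨b, hb, rfl⟩ := Finset.mem_map.1 hb'
    exact Relation.ReflTransGen.lift e (fun u v huv => ⟨Finset.mem_map_of_mem e huv.1, Finset.mem_map_of_mem e huv.2.1,
      (he _ _).2 huv.2.2⟩) _ _ (h a ha b hb)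

theorem wca_comps_map (R : ℕ) (he : ∀ a b, g₁.idist (e a) (e b) ≤ R ↔ g₀.idist a b ≤ R) (V : Finset g₀.I) :
    g₁.comps R (V.map e) = (g₀.comps R V).map (Finset.mapEmbedding e).toEmbedding := by
  ext Y
  rw [Alg.mem_comps, Finset.mem_map]
  simp only [Alg.mem_comps, RelEmbedding.coe_toEmbedding, Finset.mapEmbedding_apply]
  constructor
  · rintro ⟨h1, h2, h3⟩
    obtain ⟨X, hX, rfl⟩ := Finset.subset_map_iff.1 h1
    refine ⟨X, ⟨hX, (wca_conn_map e R he X).1 h2, fun a ha b hb hab => ?_⟩, rfl⟩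
    have := h3 (e a) (Finset.mem_map_of_mem e ha) (e b) (Finset.mem_map_of_mem e hb) ((he _ _).2 hab)
    simpa using this
  · rintro ⟨X, ⟨h1, h2, h3⟩, rfl⟩
    refine ⟨Finset.map_subset_map.2 h1, (wca_conn_map e R he X).2 h2, ?_⟩
    intro a' ha' b' hb' hab
    obtain ⟨a, ha, rfl⟩ := Finset.mem_map.1 ha'
    obtain ⟨b, hb, rfl⟩ := Finset.mem_map.1 hb'
    exact Finset.mem_map_of_mem e (h3 a ha b hb ((he _ _).1 hab))

theorem wca_idiam_map (k : ℕ) (he : ∀ a b, g₁.idist (e a) (e b) ≤ k ↔ g₀.idist a b ≤ k) (X : Finset g₀.I) :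
    g₁.idiam (X.map e) ≤ k ↔ g₀.idiam X ≤ k := by
  unfold Grid.idiam
  simp only [Finset.sup_map, Function.comp_def, Finset.sup_le_iff, he]

theorem wca_newSupp_map (r : ℕ) (he : ∀ a b, g₁.idist (e a) (e b) ≤ r ↔ g₀.idist a b ≤ r) (W T : Finset g₀.I) :
    newSupp r g₁ (W.map e) (T.map e) = (newSupp r g₀ W T).map e := by
  unfold newSupp
  rw [wca_comps_map e r he]
  ext a
  simp only [Finset.mem_union, Finset.mem_map, Finset.mem_biUnion, Finset.mem_filter, RelEmbedding.coe_toEmbedding,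
    Finset.mapEmbedding_apply, id]
  constructor
  · rintro (⟨b, hb, rfl⟩ | ⟨Y, ⟨⟨X, hX, rfl⟩, h2⟩, h3⟩)
    · exact ⟨b, Or.inl hb, rfl⟩
    · obtain ⟨b, hb, rfl⟩ := Finset.mem_map.1 h3
      rw [← Finset.map_inter, Finset.map_eq_empty] at h2
      exact ⟨b, Or.inr ⟨X, ⟨hX, h2⟩, hb⟩, rfl⟩
  · rintro ⟨b, hb | ⟨X, ⟨hX, h2⟩, h3⟩, rfl⟩
    · exact Or.inl ⟨b, hb, rfl⟩
    · refine Or.inr ⟨X.map e, ⟨⟨X, hX, rfl⟩, ?_⟩, Finset.mem_map_of_mem e h3⟩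
      rw [← Finset.map_inter, Finset.map_eq_empty]
      exact h2

end comb

/-! ## 2. The three steps -/

section steps

variable {𝔸₀ 𝔸₁ 𝔹 : Type} [CommRing 𝔸₀] [Algebra ℂ 𝔸₀] [CommRing 𝔸₁] [Algebra ℂ 𝔸₁] [CommRing 𝔹]
  (φ₀ : 𝔸₀ →+* 𝔹) (φ₁ : 𝔸₁ →+* 𝔹)

/-- STEP 3 -/
theorem wca_Kext {g₀ : Grid G₀} {g₁ : Grid G₁} (e : g₀.I ↪ g₁.I) (R : ℕ) (he : ∀ a b, g₁.idist (e a) (e b) ≤ R ↔ g₀.idist a b ≤ R)
    (H₀ : Finset g₀.I → 𝔸₀) (H₁ : Finset g₁.I → 𝔸₁) (d₀ : Desig g₀ 𝔸₀) (d₁ : Desig g₁ 𝔸₁) (Y : Finset g₀.I)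
    (hH : ∀ Z ⊆ Y, φ₀ (H₀ Z) = φ₁ (H₁ (Z.map e)))
    (ha : ∀ b ∈ Y, φ₀ (((1 + d₀.a b)⁻¹ - 1) • (1 : 𝔸₀)) = φ₁ (((1 + d₁.a (e b))⁻¹ - 1) • (1 : 𝔸₁))) :
    φ₀ (Kext R g₀ H₀ d₀ Y) = φ₁ (Kext R g₁ H₁ d₁ (Y.map e)) := by
  unfold Kext
  by_cases hY : g₀.Conn R Y
  · rw [if_pos hY, if_pos ((wca_conn_map e R he Y).2 hY)]
    simp only [Finset.sum_filter]
    rw [pra_sum_powerset_map, map_sum, map_sum]
    refine Finset.sum_congr rfl fun Z hZ => ?_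
    rw [pra_sum_powerset_map, map_sum, map_sum]
    refine Finset.sum_congr rfl fun T hT => ?_
    rw [← Finset.map_union]
    by_cases hZT : Z ∪ T = Y
    · rw [if_pos hZT, if_pos (by rw [hZT]), pra_prod_smul, pra_prod_smul, map_mul, map_mul, map_prod, map_prod, map_prod, map_prod,
        wca_comps_map e R he, Finset.prod_map, Finset.prod_map]
      congr 1
      · exact Finset.prod_congr rfl fun b hb => ha b (Finset.mem_powerset.1 hT hb)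
      · refine Finset.prod_congr rfl fun X hX => ?_
        exact hH X ((Alg.comps_subset hX).trans (Finset.mem_powerset.1 hZ))
    · rw [if_neg hZT, if_neg (fun h => hZT (Finset.map_inj.1 h)), map_zero, map_zero]
  · rw [if_neg hY, if_neg (fun h => hY ((wca_conn_map e R he Y).1 h)), map_zero, map_zero]

/-- STEP 2.  `hnb`: the unit neighbourhood of the image of `Z` is in the range of the embedding. -/
theorem wca_Hrel {g₀ : Grid G₀} {g₁ : Grid G₁} (e : g₀.I ↪ g₁.I) (r R : ℕ)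
    (her : ∀ a b, g₁.idist (e a) (e b) ≤ r ↔ g₀.idist a b ≤ r) (heR : ∀ a b, g₁.idist (e a) (e b) ≤ R ↔ g₀.idist a b ≤ R)
    (Kt₀ : Finset g₀.I → 𝔸₀) (Kt₁ : Finset g₁.I → 𝔸₁) (d₀ : Desig g₀ 𝔸₀) (d₁ : Desig g₁ 𝔸₁)
    (hd₁ : d₁.Small r g₁) (Z : Finset g₀.I)
    (hnb : ∀ b ∈ Z, ∀ b' : g₁.I, g₁.idist (e b) b' ≤ 1 → b' ∈ Set.range e)
    (hK : ∀ Y' ⊆ Z, φ₀ (Kt₀ Y') = φ₁ (Kt₁ (Y'.map e)))
    (hF : ∀ b ∈ Z, ∀ Y', φ₀ (d₀.F Y' b) = φ₁ (d₁.F (Y'.map e) (e b))) :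
    φ₀ (Hrel r R g₀ Kt₀ d₀ Z) = φ₁ (Hrel r R g₁ Kt₁ d₁ (Z.map e)) := by
  unfold Hrel
  by_cases hZ : g₀.Conn R Z
  · rw [if_pos hZ, if_pos ((wca_conn_map e R heR Z).2 hZ)]
    simp only [Finset.sum_filter]
    -- only the images of `e` contribute on the `g₁` side
    have hres : ∑ W' : Finset g₁.I, ∑ T' ∈ W'.powerset,
          (if newSupp r g₁ W' T' = Z.map e then ∏ Y ∈ g₁.comps r W', tempObj g₁ Kt₁ d₁ T' Y else 0)
        = ∑ W : Finset g₀.I, ∑ T' ∈ (W.map e).powerset,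
          (if newSupp r g₁ (W.map e) T' = Z.map e then ∏ Y ∈ g₁.comps r (W.map e), tempObj g₁ Kt₁ d₁ T' Y else 0) := by
      have h1 := Finset.sum_map (Finset.univ : Finset (Finset g₀.I)) (Finset.mapEmbedding e).toEmbedding
        (fun W' : Finset g₁.I => ∑ T' ∈ W'.powerset,
          (if newSupp r g₁ W' T' = Z.map e then ∏ Y ∈ g₁.comps r W', tempObj g₁ Kt₁ d₁ T' Y else 0))
      refine Eq.trans (Eq.symm ?_) h1
      refine Finset.sum_subset (Finset.subset_univ _) fun W' _ hW' => ?_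
      refine Finset.sum_eq_zero fun T' hT' => ?_
      by_cases hs : newSupp r g₁ W' T' = Z.map e
      · rw [if_pos hs]
        by_cases hG : Alg.Good r W' T'
        · exfalso
          apply hW'
          have hsub : W' ⊆ (Finset.univ : Finset g₀.I).map e := by
            intro a ha
            have h2 := Alg.good_subset_nb (Finset.mem_powerset.1 hT') hG ha
            rw [hs] at h2
            obtain ⟨b', hb', hab⟩ := Alg.mem_nb.1 h2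
            obtain ⟨b, hb, rfl⟩ := Finset.mem_map.1 hb'
            rw [Alg.idist_comm] at hab
            obtain ⟨a, rfl⟩ := hnb b hb a hab
            exact Finset.mem_map_of_mem e (Finset.mem_univ a)
          obtain ⟨W, _, rfl⟩ := Finset.subset_map_iff.1 hsub
          simp only [Finset.mem_map, Finset.mem_univ, true_and, RelEmbedding.coe_toEmbedding, Finset.mapEmbedding_apply]
          exact ⟨W, rfl⟩
        · exact Alg.om_eq_zero Kt₁ d₁ hd₁ hG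
      · rw [if_neg hs]
    rw [hres, map_sum, map_sum]
    refine Finset.sum_congr rfl fun W _ => ?_
    rw [pra_sum_powerset_map, map_sum, map_sum]
    refine Finset.sum_congr rfl fun T hT => ?_
    rw [wca_newSupp_map e r her]
    by_cases hs : newSupp r g₀ W T = Z
    · rw [if_pos hs, if_pos (by rw [hs]), map_prod, map_prod, wca_comps_map e r her, Finset.prod_map]
      refine Finset.prod_congr rfl fun Y hY => ?_
      simp only [RelEmbedding.coe_toEmbedding, Finset.mapEmbedding_apply]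
      have hTZ : T ⊆ Z := by
        rw [← hs]
        unfold newSupp
        exact Finset.subset_union_left
      have hYZ : Y ∩ T = ∅ → Y ⊆ Z := by
        intro h0 a ha
        rw [← hs]
        unfold newSupp
        apply Finset.mem_union_right
        simp only [Finset.mem_biUnion, Finset.mem_filter, id]
        exact ⟨Y, ⟨hY, h0⟩, ha⟩
      refine pra_tempObj_transport φ₀ φ₁ e Kt₀ Kt₁ d₀ d₁ T Y (fun h0 => hK Y (hYZ h0)) ?_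
      rintro b hb (h0 | hbT)
      · exact hF b (hYZ h0 hb) Y
      · exact hF b (hTZ hbT) Y
    · rw [if_neg hs, if_neg (fun h => hs (Finset.map_inj.1 h)), map_zero, map_zero]
  · rw [if_neg hZ, if_neg (fun h => hZ ((wca_conn_map e R heR Z).1 h)), map_zero, map_zero]

variable {D0 D0' ℓ : ℕ} {P₀ : Pair G₀ D0 ℓ} {P₁ : Pair G₁ D0' ℓ}

theorem wca_cl_map (f : P₀.g.I ↪ P₁.g.I) (c : P₀.g'.I ↪ P₁.g'.I) (hup : ∀ a, P₁.N.up (f a) = c (P₀.N.up a)) (V : Finset P₀.g.I) :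
    P₁.N.cl (V.map f) = (P₀.N.cl V).map c := by
  unfold Nest.cl
  ext a
  simp only [Finset.mem_image, Finset.mem_map]
  constructor
  · rintro ⟨_, ⟨b, hb, rfl⟩, rfl⟩
    exact ⟨P₀.N.up b, ⟨b, hb, rfl⟩, (hup b).symm⟩
  · rintro ⟨_, ⟨b, hb, rfl⟩, rfl⟩
    exact ⟨f b, ⟨b, hb, rfl⟩, hup b⟩

/-- STEP 1.  `hup`, `hfib`: the embeddings of the two levels commute with `up`, with full fibres. -/
theorem wca_Ktil (f : P₀.g.I ↪ P₁.g.I) (c : P₀.g'.I ↪ P₁.g'.I) (r R : ℕ)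
    (hf : ∀ a b, P₁.g.idist (f a) (f b) ≤ R ↔ P₀.g.idist a b ≤ R) (hc : ∀ a b, P₁.g'.idist (c a) (c b) ≤ r ↔ P₀.g'.idist a b ≤ r)
    (hup : ∀ a, P₁.N.up (f a) = c (P₀.N.up a)) (hfib : ∀ a' b, P₁.N.up a' = c b → a' ∈ Set.range f)
    (E₀ : 𝔸₀ → 𝔸₀) (E₁ : 𝔸₁ → 𝔸₁) (K₀ : Finset P₀.g.I → 𝔸₀) (K₁ : Finset P₁.g.I → 𝔸₁) (Y : Finset P₀.g'.I)
    (h : ∀ V : Finset P₀.g.I, P₀.N.cl V = Y →
      φ₀ (E₀ (∏ X ∈ P₀.g.comps R V, K₀ X)) = φ₁ (E₁ (∏ X ∈ P₀.g.comps R V, K₁ (X.map f)))) :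
    φ₀ (Ktil P₀ r R E₀ K₀ Y) = φ₁ (Ktil P₁ r R E₁ K₁ (Y.map c)) := by
  have hcl := wca_cl_map f c hup
  unfold Ktil
  by_cases hY : P₀.g'.Conn r Y
  · rw [if_pos hY, if_pos ((wca_conn_map c r hc Y).2 hY), map_sum, map_sum]
    refine Finset.sum_bij (fun V _ => V.map f) ?_ ?_ ?_ ?_
    · intro V hV
      simp only [Finset.mem_filter, Finset.mem_univ, true_and] at hV ⊢
      rw [hcl, hV]
    · intro V _ V' _ hVV
      exact Finset.map_injective f hVV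
    · intro V' hV'
      simp only [Finset.mem_filter, Finset.mem_univ, true_and] at hV'
      have hsub : V' ⊆ (Finset.univ : Finset P₀.g.I).map f := by
        intro a' ha'
        have h1 : P₁.N.up a' ∈ Y.map c := by
          rw [← hV']
          exact Finset.mem_image_of_mem _ ha'
        obtain ⟨b, _, hb⟩ := Finset.mem_map.1 h1
        obtain ⟨a, rfl⟩ := hfib a' b hb.symm
        exact Finset.mem_map_of_mem f (Finset.mem_univ a)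
      obtain ⟨V, _, rfl⟩ := Finset.subset_map_iff.1 hsub
      rw [hcl, Finset.map_inj] at hV'
      exact ⟨V, by simp [hV'], rfl⟩
    · intro V hV
      simp only [Finset.mem_filter, Finset.mem_univ, true_and] at hV
      rw [h V hV, wca_comps_map f R hf, Finset.prod_map]
      rfl
  · rw [if_neg hY, if_neg (fun h => hY ((wca_conn_map c r hc Y).1 h)), map_zero, map_zero]

/-- **the transport lemma along a threshold isometry** -/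
theorem wca_Kprime (f : P₀.g.I ↪ P₁.g.I) (c : P₀.g'.I ↪ P₁.g'.I) (r R : ℕ)
    (hf : ∀ a b, P₁.g.idist (f a) (f b) ≤ R ↔ P₀.g.idist a b ≤ R)
    (hcr : ∀ a b, P₁.g'.idist (c a) (c b) ≤ r ↔ P₀.g'.idist a b ≤ r) (hcR : ∀ a b, P₁.g'.idist (c a) (c b) ≤ R ↔ P₀.g'.idist a b ≤ R)
    (hup : ∀ a, P₁.N.up (f a) = c (P₀.N.up a)) (hfib : ∀ a' b, P₁.N.up a' = c b → a' ∈ Set.range f)
    (E₀ : 𝔸₀ → 𝔸₀) (E₁ : 𝔸₁ → 𝔸₁) (K₀ : Finset P₀.g.I → 𝔸₀) (K₁ : Finset P₁.g.I → 𝔸₁)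
    (d₀ : Desig P₀.g' 𝔸₀) (d₁ : Desig P₁.g' 𝔸₁) (hd₁ : d₁.Small r P₁.g') (Y : Finset P₀.g'.I)
    (hnb : ∀ b ∈ Y, ∀ b' : P₁.g'.I, P₁.g'.idist (c b) b' ≤ 1 → b' ∈ Set.range c)
    (hK : ∀ V : Finset P₀.g.I, P₀.N.cl V ⊆ Y →
      φ₀ (E₀ (∏ X ∈ P₀.g.comps R V, K₀ X)) = φ₁ (E₁ (∏ X ∈ P₀.g.comps R V, K₁ (X.map f))))
    (hF : ∀ b ∈ Y, ∀ Y', φ₀ (d₀.F Y' b) = φ₁ (d₁.F (Y'.map c) (c b)))
    (ha : ∀ b ∈ Y, φ₀ (((1 + d₀.a b)⁻¹ - 1) • (1 : 𝔸₀)) = φ₁ (((1 + d₁.a (c b))⁻¹ - 1) • (1 : 𝔸₁))) :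
    φ₀ (Kprime P₀ r R E₀ K₀ d₀ Y) = φ₁ (Kprime P₁ r R E₁ K₁ d₁ (Y.map c)) := by
  unfold Kprime
  refine wca_Kext φ₀ φ₁ c R hcR _ _ d₀ d₁ Y (fun Z hZ => ?_) ha
  refine wca_Hrel φ₀ φ₁ c r R hcr hcR _ _ d₀ d₁ hd₁ Z (fun b hb => hnb b (hZ hb)) (fun Y' hY' => ?_)
    (fun b hb => hF b (hZ hb))
  exact wca_Ktil φ₀ φ₁ f c r R hf hcr hup hfib E₀ E₁ K₀ K₁ Y' (fun V hV => hK V (hV ▸ hY'.trans hZ))

/-! ### LEAF `W-COPY-A1`: the linear part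
PLAN (as `wca_Ktil`, `wca_Hrel`; ~120 l.).  `unfold Klin`; `Conn R` by `wca_conn_map`.  First sum: `Finset.sum_bij (fun X _ => X.map f)` (a polymer `X'` of `P₁` with `cl X' = Y.map c` lies in the range of `f` by `hfib`, as in `wca_Ktil`;
`wca_cl_map`).  Second sum: `Finset.sum_map`, `hF`.  Third sum: `Y.map c = {c b} ↔ Y = {b}` (`Finset.map_singleton`, `Finset.map_inj`); in `∑ Y'' : Finset P₁.g'.I, if c b ∈ Y'' then d₁.F Y'' (c b) else 0` the terms with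
`Y''` outside the range of `Finset.map c` vanish: if `d₁.F Y'' (c b) ≠ 0` then `idiam Y'' ≤ 1`, `c b ∈ Y''` (`hd₁`), so every element of `Y''` is within `1` of `c b` (`Finset.le_sup` twice), so in the range of `c` (`hnb`);
`Finset.sum_subset` + `Finset.sum_map` as in `hres` of `wca_Hrel`; `Finset.mem_map'`. -/
theorem wca_Klin (f : P₀.g.I ↪ P₁.g.I) (c : P₀.g'.I ↪ P₁.g'.I) (r R : ℕ)
    (hf : ∀ a b, P₁.g.idist (f a) (f b) ≤ R ↔ P₀.g.idist a b ≤ R)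
    (hcR : ∀ a b, P₁.g'.idist (c a) (c b) ≤ R ↔ P₀.g'.idist a b ≤ R)
    (hup : ∀ a, P₁.N.up (f a) = c (P₀.N.up a)) (hfib : ∀ a' b, P₁.N.up a' = c b → a' ∈ Set.range f)
    (E₀ : 𝔸₀ → 𝔸₀) (E₁ : 𝔸₁ → 𝔸₁) (K₀ : Finset P₀.g.I → 𝔸₀) (K₁ : Finset P₁.g.I → 𝔸₁)
    (d₀ : Desig P₀.g' 𝔸₀) (d₁ : Desig P₁.g' 𝔸₁) (hd₁ : d₁.Small r P₁.g') (Y : Finset P₀.g'.I)
    (hnb : ∀ b ∈ Y, ∀ b' : P₁.g'.I, P₁.g'.idist (c b) b' ≤ 1 → b' ∈ Set.range c)
    (hK : ∀ X : Finset P₀.g.I, P₀.N.cl X = Y → φ₀ (E₀ (K₀ X)) = φ₁ (E₁ (K₁ (X.map f))))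
    (hF : ∀ b ∈ Y, ∀ Y', φ₀ (d₀.F Y' b) = φ₁ (d₁.F (Y'.map c) (c b)))
    (ha : ∀ b ∈ Y, φ₀ (d₀.a b • (1 : 𝔸₀)) = φ₁ (d₁.a (c b) • (1 : 𝔸₁))) :
    φ₀ (Klin P₀ R E₀ K₀ d₀ Y) = φ₁ (Klin P₁ R E₁ K₁ d₁ (Y.map c)) := by
  have hcl := wca_cl_map f c hup
  unfold Klin
  by_cases hY : P₀.g'.Conn R Y
  · rw [if_pos hY, if_pos ((wca_conn_map c R hcR Y).2 hY), map_add, map_add, map_sub, map_sub]
    congr 1
    · congr 1
      · rw [map_sum, map_sum]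
        refine Finset.sum_bij (fun V _ => V.map f) ?_ ?_ ?_ ?_
        · intro V hV
          simp only [Finset.mem_filter, Finset.mem_univ, true_and] at hV ⊢
          exact ⟨(wca_conn_map f R hf V).2 hV.1, by rw [hcl, hV.2]⟩
        · intro V _ V' _ hVV
          exact Finset.map_injective f hVV
        · intro V' hV'
          simp only [Finset.mem_filter, Finset.mem_univ, true_and] at hV'
          have hsub : V' ⊆ (Finset.univ : Finset P₀.g.I).map f := by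
            intro a' ha'
            have h1 : P₁.N.up a' ∈ Y.map c := by
              rw [← hV'.2]
              exact Finset.mem_image_of_mem _ ha'
            obtain ⟨b, _, hb⟩ := Finset.mem_map.1 h1
            obtain ⟨a, rfl⟩ := hfib a' b hb.symm
            exact Finset.mem_map_of_mem f (Finset.mem_univ a)
          obtain ⟨V, _, rfl⟩ := Finset.subset_map_iff.1 hsub
          obtain ⟨h1, h2⟩ := hV'
          rw [hcl, Finset.map_inj] at h2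
          exact ⟨V, by simp [h2, (wca_conn_map f R hf V).1 h1], rfl⟩
        · intro V hV
          simp only [Finset.mem_filter, Finset.mem_univ, true_and] at hV
          exact hK V hV.2
      · rw [map_sum, map_sum, Finset.sum_map]
        exact Finset.sum_congr rfl fun b hb => hF b hb Y
    · rw [map_sum, map_sum, Finset.sum_map]
      refine Finset.sum_congr rfl fun b hb => ?_
      by_cases hYb : Y = {b}
      · rw [if_pos hYb, if_pos (by rw [hYb, Finset.map_singleton]), map_sub, map_sub, ha b hb]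
        congr 1
        have hres : ∑ Y'' : Finset P₁.g'.I, (if c b ∈ Y'' then d₁.F Y'' (c b) else 0)
            = ∑ Y' : Finset P₀.g'.I, (if c b ∈ Y'.map c then d₁.F (Y'.map c) (c b) else 0) := by
          have h1 := Finset.sum_map (Finset.univ : Finset (Finset P₀.g'.I)) (Finset.mapEmbedding c).toEmbedding
            (fun Y'' : Finset P₁.g'.I => if c b ∈ Y'' then d₁.F Y'' (c b) else 0)
          refine Eq.trans (Eq.symm ?_) h1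
          refine Finset.sum_subset (Finset.subset_univ _) fun Y'' _ hY'' => ?_
          by_cases hm : c b ∈ Y''
          · rw [if_pos hm]
            by_contra hne
            apply hY''
            have hsm : P₁.g'.Conn r Y'' ∧ P₁.g'.idiam Y'' ≤ 1 ∧ c b ∈ Y'' := by
              by_contra hn
              exact hne (hd₁ Y'' (c b) hn)
            have hsub : Y'' ⊆ (Finset.univ : Finset P₀.g'.I).map c := by
              intro a ha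
              have h2 : P₁.g'.idist (c b) a ≤ 1 := by
                refine le_trans ?_ hsm.2.1
                unfold Grid.idiam
                exact le_trans (Finset.le_sup (f := fun b' => P₁.g'.idist (c b) b') ha)
                  (Finset.le_sup (f := fun a' => Y''.sup fun b' => P₁.g'.idist a' b') hm)
              obtain ⟨a, rfl⟩ := hnb b hb a h2
              exact Finset.mem_map_of_mem c (Finset.mem_univ a)
            obtain ⟨W, _, rfl⟩ := Finset.subset_map_iff.1 hsub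
            simp only [Finset.mem_map, Finset.mem_univ, true_and, RelEmbedding.coe_toEmbedding, Finset.mapEmbedding_apply]
            exact ⟨W, rfl⟩
          · rw [if_neg hm]
        rw [hres, map_sum, map_sum]
        refine Finset.sum_congr rfl fun Y' _ => ?_
        by_cases hm : b ∈ Y'
        · rw [if_pos hm, if_pos (Finset.mem_map_of_mem c hm)]
          exact hF b hb Y'
        · rw [if_neg hm, if_neg (by simpa using hm), map_zero, map_zero]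
      · rw [if_neg hYb, if_neg ?_, map_zero, map_zero]
        intro h
        apply hYb
        rw [← Finset.map_singleton] at h
        exact Finset.map_inj.1 h
  · rw [if_neg hY, if_neg (fun h => hY ((wca_conn_map c R hcR Y).1 h)), map_zero, map_zero]

end steps

/-! ## 3. Two volumes which contain the same window -/

section two

variable {G₂ : Geom} {D0 D1 D2 ℓ : ℕ} {Q : Pair G₀ D0 ℓ} {P₁ : Pair G₁ D1 ℓ} {P₂ : Pair G₂ D2 ℓ}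
  {𝔸₁ 𝔸₂ 𝔹 : Type} [CommRing 𝔸₁] [Algebra ℂ 𝔸₁] [CommRing 𝔸₂] [Algebra ℂ 𝔸₂] [CommRing 𝔹]
  (φ₁ : 𝔸₁ →+* 𝔹) (φ₂ : 𝔸₂ →+* 𝔹)

/-- the designated data of a volume, read in the window -/
def Desig.pull {g₀ : Grid G₀} {g₁ : Grid G₁} {𝔸 : Type} (c : g₀.I ↪ g₁.I) (d : Desig g₁ 𝔸) : Desig g₀ 𝔸 :=
  ⟨fun Y b => d.F (Y.map c) (c b), fun b => d.a (c b)⟩

/-- **`Kprime` in two volumes which contain the window `Q`.**  PROVED from `wca_Kprime` (twice; the algebra over the window is `𝔸₁`). -/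
theorem wca_Kprime_two (f₁ : Q.g.I ↪ P₁.g.I) (c₁ : Q.g'.I ↪ P₁.g'.I) (f₂ : Q.g.I ↪ P₂.g.I) (c₂ : Q.g'.I ↪ P₂.g'.I) (r R : ℕ)
    (hf₁ : ∀ a b, P₁.g.idist (f₁ a) (f₁ b) ≤ R ↔ Q.g.idist a b ≤ R)
    (hcr₁ : ∀ a b, P₁.g'.idist (c₁ a) (c₁ b) ≤ r ↔ Q.g'.idist a b ≤ r) (hcR₁ : ∀ a b, P₁.g'.idist (c₁ a) (c₁ b) ≤ R ↔ Q.g'.idist a b ≤ R)
    (hup₁ : ∀ a, P₁.N.up (f₁ a) = c₁ (Q.N.up a)) (hfib₁ : ∀ a' b, P₁.N.up a' = c₁ b → a' ∈ Set.range f₁)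
    (hf₂ : ∀ a b, P₂.g.idist (f₂ a) (f₂ b) ≤ R ↔ Q.g.idist a b ≤ R)
    (hcr₂ : ∀ a b, P₂.g'.idist (c₂ a) (c₂ b) ≤ r ↔ Q.g'.idist a b ≤ r) (hcR₂ : ∀ a b, P₂.g'.idist (c₂ a) (c₂ b) ≤ R ↔ Q.g'.idist a b ≤ R)
    (hup₂ : ∀ a, P₂.N.up (f₂ a) = c₂ (Q.N.up a)) (hfib₂ : ∀ a' b, P₂.N.up a' = c₂ b → a' ∈ Set.range f₂)
    (E₁ : 𝔸₁ → 𝔸₁) (E₂ : 𝔸₂ → 𝔸₂) (K₁ : Finset P₁.g.I → 𝔸₁) (K₂ : Finset P₂.g.I → 𝔸₂)
    (d₁ : Desig P₁.g' 𝔸₁) (d₂ : Desig P₂.g' 𝔸₂) (hd₁ : d₁.Small r P₁.g') (hd₂ : d₂.Small r P₂.g') (Y : Finset Q.g'.I)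
    (hnb₁ : ∀ b ∈ Y, ∀ b' : P₁.g'.I, P₁.g'.idist (c₁ b) b' ≤ 1 → b' ∈ Set.range c₁)
    (hnb₂ : ∀ b ∈ Y, ∀ b' : P₂.g'.I, P₂.g'.idist (c₂ b) b' ≤ 1 → b' ∈ Set.range c₂)
    (hK : ∀ V : Finset Q.g.I, Q.N.cl V ⊆ Y →
      φ₁ (E₁ (∏ X ∈ Q.g.comps R V, K₁ (X.map f₁))) = φ₂ (E₂ (∏ X ∈ Q.g.comps R V, K₂ (X.map f₂))))
    (hF : ∀ b ∈ Y, ∀ Y' : Finset Q.g'.I, φ₁ (d₁.F (Y'.map c₁) (c₁ b)) = φ₂ (d₂.F (Y'.map c₂) (c₂ b)))
    (ha : ∀ b ∈ Y, φ₁ (((1 + d₁.a (c₁ b))⁻¹ - 1) • (1 : 𝔸₁)) = φ₂ (((1 + d₂.a (c₂ b))⁻¹ - 1) • (1 : 𝔸₂))) :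
    φ₁ (Kprime P₁ r R E₁ K₁ d₁ (Y.map c₁)) = φ₂ (Kprime P₂ r R E₂ K₂ d₂ (Y.map c₂)) := by
  have h1 := wca_Kprime φ₁ φ₁ f₁ c₁ r R hf₁ hcr₁ hcR₁ hup₁ hfib₁ E₁ E₁ (fun X => K₁ (X.map f₁)) K₁ (Desig.pull c₁ d₁) d₁ hd₁ Y hnb₁
    (fun _ _ => rfl) (fun _ _ _ => rfl) (fun _ _ => rfl)
  have h2 := wca_Kprime φ₁ φ₂ f₂ c₂ r R hf₂ hcr₂ hcR₂ hup₂ hfib₂ E₁ E₂ (fun X => K₁ (X.map f₁)) K₂ (Desig.pull c₁ d₁) d₂ hd₂ Y hnb₂
    hK hF ha
  rw [← h1, h2]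

/-- **`Klin` in two volumes which contain the window `Q`.**  PROVED from `wca_Klin` (twice). -/
theorem wca_Klin_two (f₁ : Q.g.I ↪ P₁.g.I) (c₁ : Q.g'.I ↪ P₁.g'.I) (f₂ : Q.g.I ↪ P₂.g.I) (c₂ : Q.g'.I ↪ P₂.g'.I) (r R : ℕ)
    (hf₁ : ∀ a b, P₁.g.idist (f₁ a) (f₁ b) ≤ R ↔ Q.g.idist a b ≤ R)
    (hcR₁ : ∀ a b, P₁.g'.idist (c₁ a) (c₁ b) ≤ R ↔ Q.g'.idist a b ≤ R)
    (hup₁ : ∀ a, P₁.N.up (f₁ a) = c₁ (Q.N.up a)) (hfib₁ : ∀ a' b, P₁.N.up a' = c₁ b → a' ∈ Set.range f₁)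
    (hf₂ : ∀ a b, P₂.g.idist (f₂ a) (f₂ b) ≤ R ↔ Q.g.idist a b ≤ R)
    (hcR₂ : ∀ a b, P₂.g'.idist (c₂ a) (c₂ b) ≤ R ↔ Q.g'.idist a b ≤ R)
    (hup₂ : ∀ a, P₂.N.up (f₂ a) = c₂ (Q.N.up a)) (hfib₂ : ∀ a' b, P₂.N.up a' = c₂ b → a' ∈ Set.range f₂)
    (E₁ : 𝔸₁ → 𝔸₁) (E₂ : 𝔸₂ → 𝔸₂) (K₁ : Finset P₁.g.I → 𝔸₁) (K₂ : Finset P₂.g.I → 𝔸₂)
    (d₁ : Desig P₁.g' 𝔸₁) (d₂ : Desig P₂.g' 𝔸₂) (hd₁ : d₁.Small r P₁.g') (hd₂ : d₂.Small r P₂.g') (Y : Finset Q.g'.I)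
    (hnb₁ : ∀ b ∈ Y, ∀ b' : P₁.g'.I, P₁.g'.idist (c₁ b) b' ≤ 1 → b' ∈ Set.range c₁)
    (hnb₂ : ∀ b ∈ Y, ∀ b' : P₂.g'.I, P₂.g'.idist (c₂ b) b' ≤ 1 → b' ∈ Set.range c₂)
    (hK : ∀ X : Finset Q.g.I, Q.N.cl X = Y → φ₁ (E₁ (K₁ (X.map f₁))) = φ₂ (E₂ (K₂ (X.map f₂))))
    (hF : ∀ b ∈ Y, ∀ Y' : Finset Q.g'.I, φ₁ (d₁.F (Y'.map c₁) (c₁ b)) = φ₂ (d₂.F (Y'.map c₂) (c₂ b)))
    (ha : ∀ b ∈ Y, φ₁ (d₁.a (c₁ b) • (1 : 𝔸₁)) = φ₂ (d₂.a (c₂ b) • (1 : 𝔸₂))) :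
    φ₁ (Klin P₁ R E₁ K₁ d₁ (Y.map c₁)) = φ₂ (Klin P₂ R E₂ K₂ d₂ (Y.map c₂)) := by
  have h1 := wca_Klin φ₁ φ₁ f₁ c₁ r R hf₁ hcR₁ hup₁ hfib₁ E₁ E₁ (fun X => K₁ (X.map f₁)) K₁ (Desig.pull c₁ d₁) d₁ hd₁ Y hnb₁
    (fun _ _ => rfl) (fun _ _ _ => rfl) (fun _ _ => rfl)
  have h2 := wca_Klin φ₁ φ₂ f₂ c₂ r R hf₂ hcR₂ hup₂ hfib₂ E₁ E₂ (fun X => K₁ (X.map f₁)) K₂ (Desig.pull c₁ d₁) d₂ hd₂ Y hnb₂
    hK hF ha
  rw [← h1, h2]

end two

end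

end Claimed.Agent.R285.B8
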