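import Claimed.Agent.R285.Map.WCopyA
import Claimed.Agent.R285.Map.WDes

/-!
# ROW 285, unit MAP, package COPY (`B8.weak_copy`, `B8.weak_cut`), file G: PLANE SETS, PERIODIC GRIDS, WINDOWS      (architect helper21)

PAPER-FREE: integer arithmetic and finite sets.  Several leaves share the file: edit ONLY your theorems, pull before landing.  Helper lemmas: prefix `wcg_`.
KIT for periodic tori (all PROVED): `Map/Sym.lean` (`Pack.syml_fold_eq`, `syml_pi_eq`, `syml_iota_pi`, `syml_pi_add`, `syml_blk1 : blk1 i = i / m`, `syml_M : M = n m`), `Ker/Fold.lean` (`Ker.ker_pi_iota`, ..),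
`Obs/PairGeo.lean` (`F6.Pr.prg_idist1_free`, `prg_idist1_per`, `prg_fold_val`, `prg_small_diam`), `Hol.blk_up`.

* s.1 plane sets: `pd` (sup distance), `pnb S ρ` (neighbourhood), `pcell m s` (the cell of side `m` containing `s`).
* s.2 ONE periodic full-block grid `g` seen from the plane: `blk (π x)` in closed form, sums over the sites of a block, differences of lifts, dependence sets, `ell`.
* s.3 THE WINDOW `b : Bx ℓ`: a FREE box of `b.n × b.n` coarse blocks (`b.P : Pair b.Gb 0 ℓ`, full blocks of sides `b.m`, `2^ℓ b.m`), placed in the plane with its corner at the coarse block `b.o`.  It is only an INDEX SET.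
  `b.Fits P T`: the torus pair `P` has the same sides and `b.n + T ≤ n'`; then `a ↦ blk (π (corner of a))` are embeddings `h.f`, `h.c` of the blocks, which preserve the relations `idist ≤ k`, `k ≤ T` (NOT the distances).
* s.4 the window `bxOf m S` of a plane set.
-/

set_option autoImplicit false

namespace Claimed.Agent.R285.B8

open scoped BigOperators
open Claimed.Agent.R285 Claimed.Agent.R285.RG

noncomputable section

/-! ## 1. Plane sets -/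

/-- plane sup distance -/
def pd (x y : ℤ × ℤ) : ℕ := max (x.1 - y.1).natAbs (x.2 - y.2).natAbs

/-- the neighbourhood of radius `ρ` of a finite plane set -/
def pnb (S : Finset (ℤ × ℤ)) (ρ : ℕ) : Finset (ℤ × ℤ) :=
  S.biUnion fun y => Finset.Icc (y.1 - ρ) (y.1 + ρ) ×ˢ Finset.Icc (y.2 - ρ) (y.2 + ρ)

/-- the plane cell of side `m` which contains `s` -/
def pcell (m : ℕ) (s : ℤ × ℤ) : Finset (ℤ × ℤ) :=
  Finset.Ico (s.1 / m * m) (s.1 / m * m + m) ×ˢ Finset.Ico (s.2 / m * m) (s.2 / m * m + m)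

/-! ### LEAF `W-COPY-G0` (plane kit; `omega` after unfolding `pd`, `Finset.sup_le_iff`, `Finset.le_sup`) -/

theorem wcg_pd_comm (x y : ℤ × ℤ) : pd x y = pd y x := by
  unfold pd; omega

theorem wcg_pd_self (x : ℤ × ℤ) : pd x x = 0 := by
  unfold pd; simp

theorem wcg_pd_tri (x y z : ℤ × ℤ) : pd x z ≤ pd x y + pd y z := by
  unfold pd; omega

theorem wcg_mem_pnb {S : Finset (ℤ × ℤ)} {ρ : ℕ} {x : ℤ × ℤ} : x ∈ pnb S ρ ↔ ∃ y ∈ S, pd x y ≤ ρ := by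
  unfold pnb pd
  simp only [Finset.mem_biUnion, Finset.mem_product, Finset.mem_Icc]
  constructor
  · rintro ⟨y, hy, h⟩
    exact ⟨y, hy, by omega⟩
  · rintro ⟨y, hy, h⟩
    exact ⟨y, hy, by omega⟩

theorem wcg_pd_le_pdiam {S : Finset (ℤ × ℤ)} {x y : ℤ × ℤ} (hx : x ∈ S) (hy : y ∈ S) : pd x y ≤ pdiam S := by
  unfold pdiam
  exact le_trans (Finset.le_sup (f := fun y => max (x.1 - y.1).natAbs (x.2 - y.2).natAbs) hy)
    (Finset.le_sup (f := fun x => S.sup fun y => max (x.1 - y.1).natAbs (x.2 - y.2).natAbs) hx)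

theorem wcg_pdiam_le {S : Finset (ℤ × ℤ)} {k : ℕ} (h : ∀ x ∈ S, ∀ y ∈ S, pd x y ≤ k) : pdiam S ≤ k := by
  unfold pdiam
  exact Finset.sup_le fun x hx => Finset.sup_le fun y hy => h x hx y hy

/-- a set near `S₂` -/
theorem wcg_pdiam_near {S₁ S₂ : Finset (ℤ × ℤ)} {ρ : ℕ} (h : ∀ x ∈ S₁, ∃ y ∈ S₂, pd x y ≤ ρ) : pdiam S₁ ≤ pdiam S₂ + 2 * ρ := by
  refine wcg_pdiam_le fun x hx y hy => ?_
  obtain ⟨x', hx', h1⟩ := h x hx
  obtain ⟨y', hy', h2⟩ := h y hy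
  have h3 := wcg_pd_le_pdiam hx' hy'
  have h4 := wcg_pd_tri x x' y
  have h5 := wcg_pd_tri x' y' y
  rw [wcg_pd_comm y y'] at h2
  omega

theorem wcg_pdiam_pnb (S : Finset (ℤ × ℤ)) (ρ : ℕ) : pdiam (pnb S ρ) ≤ pdiam S + 2 * ρ :=
  wcg_pdiam_near fun _ hx => wcg_mem_pnb.1 hx

theorem wcg_pnb_mono {S₁ S₂ : Finset (ℤ × ℤ)} {ρ₁ ρ₂ k : ℕ} (h : ∀ x ∈ S₁, ∃ y ∈ S₂, pd x y ≤ k) (hρ : ρ₁ + k ≤ ρ₂) : pnb S₁ ρ₁ ⊆ pnb S₂ ρ₂ := by
  intro x hx
  obtain ⟨y, hy, h1⟩ := wcg_mem_pnb.1 hx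
  obtain ⟨y', hy', h2⟩ := h y hy
  have := wcg_pd_tri x y y'
  exact wcg_mem_pnb.2 ⟨y', hy', by omega⟩

theorem wcg_ediv_eq_iff {m : ℤ} (hm : 0 < m) (x q : ℤ) : x / m = q ↔ q * m ≤ x ∧ x < q * m + m := by
  have h1 : q ≤ x / m ↔ q * m ≤ x := Int.le_ediv_iff_mul_le hm
  have h2 : x / m < q + 1 ↔ x < (q + 1) * m := Int.ediv_lt_iff_lt_mul hm
  have e : (q + 1) * m = q * m + m := by ring
  rw [e] at h2
  constructor
  · intro h
    exact ⟨h1.1 (by omega), h2.1 (by omega)⟩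
  · rintro ⟨a, b⟩
    have := h1.2 a
    have := h2.2 b
    omega

theorem wcg_mem_pcell {m : ℕ} (hm : 0 < m) {s x : ℤ × ℤ} : x ∈ pcell m s ↔ x.1 / m = s.1 / m ∧ x.2 / m = s.2 / m := by
  have hm' : (0 : ℤ) < (m : ℤ) := by exact_mod_cast hm
  unfold pcell
  rw [Finset.mem_product, Finset.mem_Ico, Finset.mem_Ico, wcg_ediv_eq_iff hm', wcg_ediv_eq_iff hm']

theorem wcg_pd_pcell {m : ℕ} (hm : 0 < m) {s x : ℤ × ℤ} (hx : x ∈ pcell m s) : pd x s ≤ m - 1 := by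
  have hm' : (0 : ℤ) < (m : ℤ) := by exact_mod_cast hm
  obtain ⟨h1, h2⟩ := (wcg_mem_pcell hm).1 hx
  obtain ⟨a1, a2⟩ := (wcg_ediv_eq_iff hm' x.1 _).1 h1
  obtain ⟨b1, b2⟩ := (wcg_ediv_eq_iff hm' x.2 _).1 h2
  obtain ⟨c1, c2⟩ := (wcg_ediv_eq_iff hm' s.1 _).1 rfl
  obtain ⟨d1, d2⟩ := (wcg_ediv_eq_iff hm' s.2 _).1 rfl
  unfold pd
  generalize s.1 / (m : ℤ) * (m : ℤ) = p at *
  generalize s.2 / (m : ℤ) * (m : ℤ) = p' at *
  omega

variable {G : Geom}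

/-- `π` is injective on plane sets of diameter `< M` (`Pack.syml_pi_eq`) -/
theorem wcg_pi_injOn (hG : G.bc = BC.per) (W : Finset (ℤ × ℤ)) (h : pdiam W < G.M) : Set.InjOn G.π (W : Set (ℤ × ℤ)) := by
  intro x hx y hy hxy
  obtain ⟨h1, h2⟩ := (Pack.syml_pi_eq hG x y).1 hxy
  have hd := wcg_pd_le_pdiam (Finset.mem_coe.1 hx) (Finset.mem_coe.1 hy)
  unfold pd at hd
  have e1 : x.1 - y.1 = 0 := Int.eq_zero_of_abs_lt_dvd h1 (by
    have : |x.1 - y.1| = ((x.1 - y.1).natAbs : ℤ) := Int.abs_eq_natAbs _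
    rw [this]
    exact_mod_cast (by omega : (x.1 - y.1).natAbs < G.M))
  have e2 : x.2 - y.2 = 0 := Int.eq_zero_of_abs_lt_dvd h2 (by
    have : |x.2 - y.2| = ((x.2 - y.2).natAbs : ℤ) := Int.abs_eq_natAbs _
    rw [this]
    exact_mod_cast (by omega : (x.2 - y.2).natAbs < G.M))
  exact Prod.ext (by omega) (by omega)

/-! ## 2. One periodic full-block grid seen from the plane -/

/-! ### LEAF `W-COPY-G1` -/

theorem wcg_emod_mul_ediv {m n : ℤ} (hm : 0 < m) (hn : 0 < n) (x : ℤ) : (x % (n * m)) / m = (x / m) % n := by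
  have hq : x / m % n + n * (x / m / n) = x / m := Int.emod_add_mul_ediv _ _
  have hx : x % m + m * (x / m) = x := Int.emod_add_mul_ediv _ _
  have c0 : 0 ≤ x / m % n := Int.emod_nonneg _ hn.ne'
  have c1 : x / m % n < n := Int.emod_lt_of_pos _ hn
  have r0 : 0 ≤ x % m := Int.emod_nonneg _ hm.ne'
  have r1 : x % m < m := Int.emod_lt_of_pos _ hm
  have h1 : x % (n * m) = x % m + m * (x / m % n) := by
    have := (Int.ediv_emod_unique (a := x) (b := n * m) (r := x % m + m * (x / m % n)) (q := x / m / n)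
      (by positivity)).2 ⟨by linear_combination hx + m * hq, by positivity, by nlinarith⟩
    exact this.2
  rw [h1, Int.add_mul_ediv_left _ _ hm.ne', Int.ediv_eq_zero_of_lt r0 r1, zero_add]

theorem wcg_blk1_val (hG : G.bc = BC.per) {g : Grid G} (hg : g.Ok) (x : ℤ) :
    (((g.blk1 (G.fold x) : Fin g.n) : ℕ) : ℤ) = (x / g.m) % g.n := by
  have hm : (0 : ℤ) < (g.m : ℤ) := by exact_mod_cast hg.pos
  have hM := Pack.syml_M hG hg
  have hn : (0 : ℤ) < (g.n : ℤ) := by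
    have : 0 < g.n := by
      rcases Nat.eq_zero_or_pos g.n with h | h
      · rw [h, zero_mul] at hM
        exact absurd hM G.hM.ne'
      · exact h
    exact_mod_cast this
  rw [Pack.syml_blk1 hG hg]
  push_cast
  rw [Reg.regl_fold_per G hG, hM]
  push_cast
  exact wcg_emod_mul_ediv hm hn x

/-- the block of a plane point in closed form (`Pack.syml_blk1`, `Pack.syml_M`; `(x % (n m)) / m = (x / m) % n`) -/
theorem wcg_blk_val (hG : G.bc = BC.per) {g : Grid G} (hg : g.Ok) (x : ℤ × ℤ) :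
    ((((g.blk (G.π x)).1 : Fin g.n) : ℕ) : ℤ) = (x.1 / g.m) % g.n ∧ ((((g.blk (G.π x)).2 : Fin g.n) : ℕ) : ℤ) = (x.2 / g.m) % g.n :=
  ⟨wcg_blk1_val hG hg x.1, wcg_blk1_val hG hg x.2⟩

/-- two plane points of the same cell are in the same block -/
theorem wcg_blk_pcell (hG : G.bc = BC.per) {g : Grid G} (hg : g.Ok) {s x : ℤ × ℤ} (hx : x ∈ pcell g.m s) : g.blk (G.π x) = g.blk (G.π s) := by
  obtain ⟨h1, h2⟩ := (wcg_mem_pcell hg.pos).1 hx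
  obtain ⟨a1, a2⟩ := wcg_blk_val hG hg x
  obtain ⟨b1, b2⟩ := wcg_blk_val hG hg s
  apply Prod.ext <;> apply Fin.ext
  · have : ((((g.blk (G.π x)).1 : Fin g.n) : ℕ) : ℤ) = ((((g.blk (G.π s)).1 : Fin g.n) : ℕ) : ℤ) := by rw [a1, b1, h1]
    exact_mod_cast this
  · have : ((((g.blk (G.π x)).2 : Fin g.n) : ℕ) : ℤ) = ((((g.blk (G.π s)).2 : Fin g.n) : ℕ) : ℤ) := by rw [a2, b2, h2]
    exact_mod_cast this

/-- one axis: a site of the block of `fold s` is the fold of a point of the plane cell -/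
theorem wcg_lift1 (hG : G.bc = BC.per) {g : Grid G} (hg : g.Ok) (s : ℤ) (i : Fin G.M) (h : g.blk1 i = g.blk1 (G.fold s)) :
    ∃ x : ℤ, x / g.m = s / g.m ∧ G.fold x = i := by
  have hm : (0 : ℤ) < (g.m : ℤ) := by exact_mod_cast hg.pos
  have hM := Pack.syml_M hG hg
  have hi : G.fold ((i : ℕ) : ℤ) = i := by
    have := Reg.reg_pi_iota G (i, i)
    exact congrArg Prod.fst this
  have h1 := wcg_blk1_val hG hg ((i : ℕ) : ℤ)
  have h2 := wcg_blk1_val hG hg s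
  rw [hi, h, h2] at h1
  have h3 : (g.n : ℤ) ∣ s / g.m - ((i : ℕ) : ℤ) / g.m := by
    rw [Int.dvd_iff_emod_eq_zero, ← Int.emod_eq_emod_iff_emod_sub_eq_zero]
    exact h1
  obtain ⟨k, hk⟩ := h3
  refine ⟨((i : ℕ) : ℤ) + (g.n * k) * g.m, ?_, ?_⟩
  · rw [Int.add_mul_ediv_right _ _ hm.ne']
    omega
  · rw [← hi, Pack.syml_fold_eq hG, hi]
    have hM' : (G.M : ℤ) = (g.n : ℤ) * (g.m : ℤ) := by exact_mod_cast hM
    exact ⟨k, by rw [hM']; ring⟩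

/-- the sites of a block = the folded plane cell (bijectively) -/
theorem wcg_sum_sites (hG : G.bc = BC.per) {g : Grid G} (hg : g.Ok) (s : ℤ × ℤ) (φ : G.V → ℂ) :
    ∑ v ∈ g.sites {g.blk (G.π s)}, φ v = ∑ x ∈ pcell g.m s, φ (G.π x) := by
  classical
  have hM := Pack.syml_M hG hg
  have hn : 0 < g.n := by
    rcases Nat.eq_zero_or_pos g.n with h | h
    · rw [h, zero_mul] at hM
      exact absurd hM G.hM.ne'
    · exact h
  have hinj : Set.InjOn G.π ((pcell g.m s : Finset (ℤ × ℤ)) : Set (ℤ × ℤ)) := by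
    apply wcg_pi_injOn hG
    have h1 : pdiam (pcell g.m s) ≤ g.m - 1 := by
      refine wcg_pdiam_le fun x hx y hy => ?_
      have hy' : y ∈ pcell g.m x := by
        rw [wcg_mem_pcell hg.pos] at hx hy ⊢
        exact ⟨hy.1.trans hx.1.symm, hy.2.trans hx.2.symm⟩
      rw [wcg_pd_comm]
      exact wcg_pd_pcell hg.pos hy'
    have h2 : g.m ≤ G.M := by
      rw [hM]
      exact Nat.le_mul_of_pos_left _ hn
    have := hg.pos
    omega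
  have himg : g.sites {g.blk (G.π s)} = (pcell g.m s).image G.π := by
    ext v
    unfold Grid.sites
    rw [Finset.mem_filter, Finset.mem_singleton, Finset.mem_image]
    constructor
    · rintro ⟨-, hv⟩
      have hv1 : g.blk1 v.1 = g.blk1 (G.fold s.1) := congrArg Prod.fst hv
      have hv2 : g.blk1 v.2 = g.blk1 (G.fold s.2) := congrArg Prod.snd hv
      obtain ⟨x1, a1, b1⟩ := wcg_lift1 hG hg s.1 v.1 hv1
      obtain ⟨x2, a2, b2⟩ := wcg_lift1 hG hg s.2 v.2 hv2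
      exact ⟨(x1, x2), (wcg_mem_pcell hg.pos).2 ⟨a1, a2⟩, Prod.ext b1 b2⟩
    · rintro ⟨x, hx, rfl⟩
      exact ⟨Finset.mem_univ _, wcg_blk_pcell hG hg hx⟩
  rw [himg, Finset.sum_image hinj]

/-- differences of the lift at a folded point (`Pack.syml_pi_add`) -/
theorem wcg_dif (hG : G.bc = BC.per) (z : G.V → ℂ) (x e : ℤ × ℤ) : dif e (G.lift z) (G.ι (G.π x)) = z (G.π (x + e)) - z (G.π x) := by
  unfold dif Geom.lift
  rw [Pack.syml_pi_add hG, Reg.reg_pi_iota]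

/-- a folded point of `S` is a site of `foldS S` -/
theorem wcg_mem_sites_foldS (g : Grid G) {S : Finset (ℤ × ℤ)} {s : ℤ × ℤ} (hs : s ∈ S) : G.π s ∈ g.sites (g.foldS S) := by
  unfold Grid.sites Grid.foldS
  rw [Finset.mem_filter]
  exact ⟨Finset.mem_univ _, Finset.mem_image_of_mem (fun x => g.blk (G.π x)) hs⟩

/-! ### LEAF `W-COPY-G2` -/

/-- one axis: a site whose block is the block of `s` has a lift in the plane cell of `s` -/
theorem wcg_aux_lift (m n : ℕ) (hm : 0 < m) (i : ℕ) (s : ℤ) (h : ((i / m : ℕ) : ℤ) = (s / m) % n) :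
    ∃ y : ℤ, y / m = s / m ∧ ((n * m : ℕ) : ℤ) ∣ y - i := by
  have hm' : ((m : ℕ) : ℤ) ≠ 0 := by exact_mod_cast hm.ne'
  refine ⟨i + (n * ((s / m) / n)) * m, ?_, ⟨(s / m) / n, by push_cast; ring⟩⟩
  rw [Int.add_mul_ediv_right _ _ hm', ← Int.natCast_div, h]
  exact Int.emod_add_mul_ediv _ _

/-- a site whose block is the block of `π s` has a lift in the plane cell of `s` -/
theorem wcg_lift_cell (hG : G.bc = BC.per) {g : Grid G} (hg : g.Ok) (s : ℤ × ℤ) (v : G.V) (h : g.blk v = g.blk (G.π s)) :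
    ∃ y ∈ pcell g.m s, G.π y = v := by
  obtain ⟨h1, h2⟩ := wcg_blk_val hG hg s
  rw [← h] at h1 h2
  have e1 : (((g.blk v).1 : Fin g.n) : ℕ) = (v.1 : ℕ) / g.m := Pack.syml_blk1 hG hg v.1
  have e2 : (((g.blk v).2 : Fin g.n) : ℕ) = (v.2 : ℕ) / g.m := Pack.syml_blk1 hG hg v.2
  rw [e1] at h1
  rw [e2] at h2
  obtain ⟨y1, a1, b1⟩ := wcg_aux_lift g.m g.n hg.pos _ _ h1
  obtain ⟨y2, a2, b2⟩ := wcg_aux_lift g.m g.n hg.pos _ _ h2
  rw [← Pack.syml_M hG hg] at b1 b2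
  refine ⟨(y1, y2), (wcg_mem_pcell hg.pos).2 ⟨a1, a2⟩, ?_⟩
  rw [← Ker.ker_pi_iota G v, Pack.syml_pi_eq hG]
  exact ⟨b1, b2⟩

/-- the dependence set of `foldS S` is covered by the plane neighbourhood of radius `m - 1 + col` -/
theorem wcg_near (hG : G.bc = BC.per) {g : Grid G} (hg : g.Ok) (S : Finset (ℤ × ℤ)) (col : ℕ) (v : G.V) (hv : Near g col (g.foldS S) v) :
    ∃ x ∈ pnb S (g.m - 1 + col), G.π x = v := by
  obtain ⟨w, hw, hd⟩ := hv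
  unfold Grid.sites Grid.foldS at hw
  rw [Finset.mem_filter, Finset.mem_image] at hw
  obtain ⟨-, s, hs, hsw⟩ := hw
  obtain ⟨y, hy, hyw⟩ := wcg_lift_cell hG hg s w hsw.symm
  obtain ⟨x, hx, hxd⟩ := Reg.regl_dist_spec G w v
  have h1 := wcg_pd_pcell hg.pos hy
  obtain ⟨d1, d2⟩ := Pack.syml_iota_pi hG y
  rw [hyw] at d1 d2
  refine ⟨(x.1 + (y.1 - (G.ι w).1), x.2 + (y.2 - (G.ι w).2)), wcg_mem_pnb.2 ⟨s, hs, ?_⟩, ?_⟩
  · rw [hxd] at hd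
    unfold pd at h1 ⊢
    simp only
    omega
  · rw [← hx, Pack.syml_pi_eq hG]
    constructor
    · have : (x.1 + (y.1 - (G.ι w).1), x.2 + (y.2 - (G.ι w).2)).1 - x.1 = -((G.ι w).1 - y.1) := by simp
      rw [this]; exact (dvd_neg).2 d1
    · have : (x.1 + (y.1 - (G.ι w).1), x.2 + (y.2 - (G.ι w).2)).2 - x.2 = -((G.ι w).2 - y.2) := by simp
      rw [this]; exact (dvd_neg).2 d2

/-- signed displacement on one axis of a torus, in plane coordinates -/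
theorem wcg_disp1 (hG : G.bc = BC.per) (x0 x : ℤ) (h : 2 * (x - x0).natAbs < G.M) : disp1 G (G.fold x0) (G.fold x) = x - x0 := by
  unfold disp1
  rw [hG]
  show Int.bmod _ _ = _
  rw [Int.bmod_eq_iff G.hM, Reg.regl_fold_per G hG, Reg.regl_fold_per G hG]
  refine ⟨by omega, by omega, ⟨x / G.M - x0 / G.M, ?_⟩⟩
  have e1 := Int.emod_add_mul_ediv x G.M
  have e2 := Int.emod_add_mul_ediv x0 G.M
  linear_combination e2 - e1

/-- `ell` in plane coordinates -/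
theorem wcg_ell (hG : G.bc = BC.per) (g : Grid G) (x0 x : ℤ × ℤ) (h : 2 * pd x x0 < G.M) (i : Fin 2) :
    ell g (G.π x0) i (G.π x) = (((if i = 0 then x.1 - x0.1 else x.2 - x0.2 : ℤ) : ℝ)) / g.m := by
  unfold pd at h
  have h1 : disp1 G (G.π x0).1 (G.π x).1 = x.1 - x0.1 := wcg_disp1 hG _ _ (by omega)
  have h2 : disp1 G (G.π x0).2 (G.π x).2 = x.2 - x0.2 := wcg_disp1 hG _ _ (by omega)
  unfold ell
  rw [h1, h2]
  split_ifs <;> rfl

theorem wcg_foldS_of_subset (hG : G.bc = BC.per) {g : Grid G} (hg : g.Ok) (S : Finset (ℤ × ℤ)) {s0 : ℤ × ℤ} (h0 : s0 ∈ S) (h : S ⊆ pcell g.m s0) :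
    g.foldS S = {g.blk (G.π s0)} := by
  unfold Grid.foldS
  ext B
  rw [Finset.mem_image, Finset.mem_singleton]
  constructor
  · rintro ⟨x, hx, rfl⟩
    exact wcg_blk_pcell hG hg (h hx)
  · rintro rfl
    exact ⟨s0, h0, rfl⟩

/-- one axis: two close integers whose cells are congruent mod `n` are in the same cell -/
theorem wcg_aux_single (m n : ℕ) (hm : 0 < m) (x s : ℤ) (h : (x / m) % n = (s / m) % n) (hd : (x - s).natAbs + m ≤ n * m) : x / m = s / m := by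
  have hm' : (0 : ℤ) < m := by exact_mod_cast hm
  have e1 := Int.emod_add_mul_ediv x m
  have e2 := Int.emod_add_mul_ediv s m
  have r1 := Int.emod_nonneg x hm'.ne'
  have r2 := Int.emod_lt_of_pos x hm'
  have r3 := Int.emod_nonneg s hm'.ne'
  have r4 := Int.emod_lt_of_pos s hm'
  obtain ⟨t, ht⟩ : (n : ℤ) ∣ x / m - s / m := Int.ModEq.dvd (Int.ModEq.symm h)
  obtain ⟨p, hp⟩ : ∃ p : ℤ, p = x / m := ⟨_, rfl⟩
  obtain ⟨q, hq⟩ : ∃ q : ℤ, q = s / m := ⟨_, rfl⟩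
  obtain ⟨r, hr⟩ : ∃ r : ℤ, r = x % m := ⟨_, rfl⟩
  obtain ⟨r', hr'⟩ : ∃ r : ℤ, r = s % m := ⟨_, rfl⟩
  rw [← hp, ← hr] at e1
  rw [← hq, ← hr'] at e2
  rw [← hp, ← hq] at ht ⊢
  rw [← hr] at r1 r2
  rw [← hr'] at r3 r4
  have hd' : (((x - s).natAbs : ℕ) : ℤ) + m ≤ n * m := by exact_mod_cast hd
  have hn0 : (0 : ℤ) ≤ n := by positivity
  have e3 : x - s = (n : ℤ) * m * t + (r - r') := by
    have : (m : ℤ) * (p - q) = n * m * t := by rw [ht]; ring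
    linear_combination this - e1 + e2
  have hnm : (0 : ℤ) ≤ n * m := by positivity
  have ht0 : t = 0 := by
    rcases lt_trichotomy t 0 with ht' | ht' | ht'
    · exfalso
      have : (n : ℤ) * m * t ≤ n * m * (-1) := mul_le_mul_of_nonneg_left (by omega) hnm
      omega
    · exact ht'
    · exfalso
      have : (n : ℤ) * m * 1 ≤ n * m * t := mul_le_mul_of_nonneg_left (by omega) hnm
      omega
  rw [ht0] at ht
  linarith

/-- when is the folded set one block? -/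
theorem wcg_foldS_single (hG : G.bc = BC.per) {g : Grid G} (hg : g.Ok) (S : Finset (ℤ × ℤ)) (hS : pdiam S + g.m ≤ G.M) {s0 : ℤ × ℤ} (h0 : s0 ∈ S) :
    (∃ B, g.foldS S = {B}) ↔ S ⊆ pcell g.m s0 := by
  constructor
  · rintro ⟨B, hB⟩ x hx
    have m1 : g.blk (G.π x) ∈ g.foldS S := Finset.mem_image_of_mem (fun x => g.blk (G.π x)) hx
    have m2 : g.blk (G.π s0) ∈ g.foldS S := Finset.mem_image_of_mem (fun x => g.blk (G.π x)) h0
    rw [hB, Finset.mem_singleton] at m1 m2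
    obtain ⟨a1, a2⟩ := wcg_blk_val hG hg x
    obtain ⟨b1, b2⟩ := wcg_blk_val hG hg s0
    rw [m1] at a1 a2
    rw [m2] at b1 b2
    have hd := wcg_pd_le_pdiam hx h0
    unfold pd at hd
    rw [Pack.syml_M hG hg] at hS
    rw [wcg_mem_pcell hg.pos]
    exact ⟨wcg_aux_single g.m g.n hg.pos _ _ (a1.symm.trans b1) (by omega), wcg_aux_single g.m g.n hg.pos _ _ (a2.symm.trans b2) (by omega)⟩
  · intro h
    exact ⟨_, wcg_foldS_of_subset hG hg S h0 h⟩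

/-! ## 3. The window -/

/-- a free box of `n × n` coarse blocks, with its corner at the coarse block `o` of the plane -/
structure Bx (ℓ : ℕ) where
  m : ℕ
  n : ℕ
  o : ℤ × ℤ
  hm : 0 < m
  hn : 0 < n

namespace Bx

variable {ℓ : ℕ} (b : Bx ℓ)

/-- the free square -/
def Gb : Geom := ⟨BC.free, b.n * (2 ^ ℓ * b.m), Nat.mul_pos b.hn (Nat.mul_pos (by positivity) b.hm)⟩

theorem dvd_f : b.m ∣ b.Gb.M := ⟨b.n * 2 ^ ℓ, by show b.n * (2 ^ ℓ * b.m) = b.m * (b.n * 2 ^ ℓ); ring⟩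

theorem dvd_c : 2 ^ ℓ * b.m ∣ b.Gb.M := ⟨b.n, by show b.n * (2 ^ ℓ * b.m) = 2 ^ ℓ * b.m * b.n; ring⟩

/-- the two full-block grids of the box -/
def P : Pair b.Gb 0 ℓ where
  g := torusGrid b.Gb b.m b.dvd_f
  g' := torusGrid b.Gb (2 ^ ℓ * b.m) b.dvd_c
  N :=
    { up1 := fun a => ⟨(a : ℕ) / 2 ^ ℓ, by
        have ha : (a : ℕ) < b.Gb.M / b.m := a.2
        show (a : ℕ) / 2 ^ ℓ < b.Gb.M / (2 ^ ℓ * b.m)
        rw [mul_comm (2 ^ ℓ) b.m, ← Nat.div_div_eq_div_mul]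
        apply Nat.div_lt_div_of_lt_of_dvd _ ha
        apply Nat.dvd_div_of_mul_dvd
        rw [mul_comm b.m]; exact b.dvd_c⟩
      comm := fun i => by
        apply Fin.ext
        show (i : ℕ) / (2 ^ ℓ * b.m) = (i : ℕ) / b.m / 2 ^ ℓ
        rw [Nat.div_div_eq_div_mul, mul_comm] }
  ok := torusGrid_ok _ _ _ b.hm
  ok' := torusGrid_ok _ _ _ (Nat.mul_pos (by positivity) b.hm)
  hS := rfl
  clear := by rw [Nat.zero_mul]; exact b.Gb.hM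

open Classical in
/-- the small polymers of the box -/
def small (c : Geo) : Finset (Finset b.P.g.I) := Finset.univ.filter fun X => b.P.g.Conn c.R X ∧ X.card ≤ c.n0

/-- the plane corner of a fine block of the box -/
def pf (a : b.P.g.I) : ℤ × ℤ := ((b.o.1 * 2 ^ ℓ + ((a.1 : ℕ) : ℤ)) * b.m, (b.o.2 * 2 ^ ℓ + ((a.2 : ℕ) : ℤ)) * b.m)

/-- the plane corner of a coarse block of the box -/
def pc (β : b.P.g'.I) : ℤ × ℤ := ((b.o.1 + ((β.1 : ℕ) : ℤ)) * (2 ^ ℓ * b.m), (b.o.2 + ((β.2 : ℕ) : ℤ)) * (2 ^ ℓ * b.m))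

/-- the plane region covered by the box -/
def Reg (x : ℤ × ℤ) : Prop :=
  b.o.1 * (2 ^ ℓ * b.m) ≤ x.1 ∧ x.1 < (b.o.1 + b.n) * (2 ^ ℓ * b.m) ∧ b.o.2 * (2 ^ ℓ * b.m) ≤ x.2 ∧ x.2 < (b.o.2 + b.n) * (2 ^ ℓ * b.m)

/-- the site of the box at the plane point `x` (junk outside `Reg`) -/
def st (x : ℤ × ℤ) : b.Gb.V := b.Gb.π (x.1 - b.o.1 * (2 ^ ℓ * b.m), x.2 - b.o.2 * (2 ^ ℓ * b.m))

/-- the fine block of the box at the plane point `x` -/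
def jf (x : ℤ × ℤ) : b.P.g.I := b.P.g.blk (b.st x)

/-- the coarse block of the box at the plane point `x` -/
def jc (x : ℤ × ℤ) : b.P.g'.I := b.P.g'.blk (b.st x)

/-- the coarse block is not at the boundary of the box -/
def Inner (β : b.P.g'.I) : Prop := 1 ≤ (β.1 : ℕ) ∧ (β.1 : ℕ) + 1 < b.n ∧ 1 ≤ (β.2 : ℕ) ∧ (β.2 : ℕ) + 1 < b.n

variable {D0 : ℕ}

/-- the box fits into the torus pair `P`, with room for the thresholds `≤ T` -/
structure Fits (P : Pair G D0 ℓ) (T : ℕ) : Prop where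
  per : G.bc = BC.per
  side : P.g.m = b.m
  room : b.n + T ≤ P.g'.n

/-- box block `↦` torus block, fine level -/
def ef (P : Pair G D0 ℓ) (a : b.P.g.I) : P.g.I := P.g.blk (G.π (b.pf a))

/-- box block `↦` torus block, coarse level -/
def ec (P : Pair G D0 ℓ) (β : b.P.g'.I) : P.g'.I := P.g'.blk (G.π (b.pc β))

end Bx

variable {ℓ D0 : ℕ} {b : Bx ℓ} {P : Pair G D0 ℓ} {T : ℕ}

/-! ### LEAF `W-COPY-G3` (the box alone: natural number arithmetic; `F6.Pr.prg_idist1_free`, `F6.Pr.prg_fold_val`) -/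

theorem wcg_idist1_free (hG : G.bc = BC.free) (g : Grid G) (a b : Fin g.n) : g.idist1 a b = ((a : ℤ) - b).natAbs := by
  unfold Grid.idist1
  rw [hG]

theorem wcg_box_n : b.P.g.n = b.n * 2 ^ ℓ ∧ b.P.g'.n = b.n := by
  constructor
  · show b.n * (2 ^ ℓ * b.m) / b.m = b.n * 2 ^ ℓ
    rw [← mul_assoc]; exact Nat.mul_div_cancel _ b.hm
  · show b.n * (2 ^ ℓ * b.m) / (2 ^ ℓ * b.m) = b.n
    exact Nat.mul_div_cancel _ (Nat.mul_pos (by positivity) b.hm)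

theorem wcg_box_idist (a a' : b.P.g.I) : b.P.g.idist a a' = max (((a.1 : ℕ) : ℤ) - (a'.1 : ℕ)).natAbs (((a.2 : ℕ) : ℤ) - (a'.2 : ℕ)).natAbs := by
  unfold Grid.idist
  rw [wcg_idist1_free rfl, wcg_idist1_free rfl]

theorem wcg_box_idist' (β β' : b.P.g'.I) : b.P.g'.idist β β' = max (((β.1 : ℕ) : ℤ) - (β'.1 : ℕ)).natAbs (((β.2 : ℕ) : ℤ) - (β'.2 : ℕ)).natAbs := by
  unfold Grid.idist
  rw [wcg_idist1_free rfl, wcg_idist1_free rfl]

theorem wcg_box_up (a : b.P.g.I) : ((b.P.N.up a).1 : ℕ) = (a.1 : ℕ) / 2 ^ ℓ ∧ ((b.P.N.up a).2 : ℕ) = (a.2 : ℕ) / 2 ^ ℓ := ⟨rfl, rfl⟩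

/-- one axis: the corner of a fine block is in the region -/
theorem wcg_aux_reg_f (o L m n a : ℤ) (hm : 0 < m) (ha0 : 0 ≤ a) (ha : a < n * L) :
    o * (L * m) ≤ (o * L + a) * m ∧ (o * L + a) * m < (o + n) * (L * m) := by
  constructor <;> nlinarith

/-- one axis: the corner of a coarse block is in the region -/
theorem wcg_aux_reg_c (o K n a : ℤ) (hK : 0 < K) (ha0 : 0 ≤ a) (ha : a < n) :
    o * K ≤ (o + a) * K ∧ (o + a) * K < (o + n) * K := by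
  constructor <;> nlinarith

theorem wcg_lt_f (a : Fin b.P.g.n) : (((a : ℕ) : ℤ)) < (b.n : ℤ) * 2 ^ ℓ := by
  have h := a.2
  have h2 : b.P.g.n = b.n * 2 ^ ℓ := wcg_box_n.1
  have : (a : ℕ) < b.n * 2 ^ ℓ := by omega
  exact_mod_cast this

theorem wcg_lt_c (a : Fin b.P.g'.n) : (((a : ℕ) : ℤ)) < (b.n : ℤ) := by
  have h := a.2
  have h2 : b.P.g'.n = b.n := wcg_box_n.2
  have : (a : ℕ) < b.n := by omega
  exact_mod_cast this

theorem wcg_reg_pf (a : b.P.g.I) : b.Reg (b.pf a) := by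
  have hm : (0 : ℤ) < b.m := by exact_mod_cast b.hm
  obtain ⟨h1, h2⟩ := wcg_aux_reg_f b.o.1 (2 ^ ℓ) b.m b.n (a.1 : ℕ) hm (by positivity) (wcg_lt_f a.1)
  obtain ⟨h3, h4⟩ := wcg_aux_reg_f b.o.2 (2 ^ ℓ) b.m b.n (a.2 : ℕ) hm (by positivity) (wcg_lt_f a.2)
  exact ⟨h1, h2, h3, h4⟩

theorem wcg_reg_pc (β : b.P.g'.I) : b.Reg (b.pc β) := by
  have hm : (0 : ℤ) < 2 ^ ℓ * b.m := by have : (0 : ℤ) < b.m := by exact_mod_cast b.hm
                                        positivity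
  obtain ⟨h1, h2⟩ := wcg_aux_reg_c b.o.1 (2 ^ ℓ * b.m) b.n (β.1 : ℕ) hm (by positivity) (wcg_lt_c β.1)
  obtain ⟨h3, h4⟩ := wcg_aux_reg_c b.o.2 (2 ^ ℓ * b.m) b.n (β.2 : ℕ) hm (by positivity) (wcg_lt_c β.2)
  exact ⟨h1, h2, h3, h4⟩

/-- the site of the box at a point of the region -/
theorem wcg_st_val {x : ℤ × ℤ} (hx : b.Reg x) :
    ((((b.st x).1 : Fin b.Gb.M) : ℕ) : ℤ) = x.1 - b.o.1 * (2 ^ ℓ * b.m) ∧ ((((b.st x).2 : Fin b.Gb.M) : ℕ) : ℤ) = x.2 - b.o.2 * (2 ^ ℓ * b.m) := by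
  obtain ⟨h1, h2, h3, h4⟩ := hx
  have hM : ((b.Gb.M : ℕ) : ℤ) = b.n * (2 ^ ℓ * b.m) := by
    show ((b.n * (2 ^ ℓ * b.m) : ℕ) : ℤ) = _
    push_cast; ring
  constructor
  · exact Reg.regl_fold_in b.Gb _ (by linarith) (by rw [hM]; linarith)
  · exact Reg.regl_fold_in b.Gb _ (by linarith) (by rw [hM]; linarith)

/-- the fine block of the box at a point of the region -/
theorem wcg_jf_val {x : ℤ × ℤ} (hx : b.Reg x) :
    ((((b.jf x).1 : Fin b.P.g.n) : ℕ) : ℤ) = x.1 / b.m - b.o.1 * 2 ^ ℓ ∧ ((((b.jf x).2 : Fin b.P.g.n) : ℕ) : ℤ) = x.2 / b.m - b.o.2 * 2 ^ ℓ := by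
  obtain ⟨h1, h2⟩ := wcg_st_val hx
  have hm : ((b.m : ℕ) : ℤ) ≠ 0 := by exact_mod_cast b.hm.ne'
  constructor
  · show (((((b.st x).1 : Fin b.Gb.M) : ℕ) / b.m : ℕ) : ℤ) = _
    rw [Int.natCast_div, h1]
    have : x.1 - b.o.1 * (2 ^ ℓ * (b.m : ℤ)) = x.1 + (-(b.o.1 * 2 ^ ℓ)) * b.m := by ring
    rw [this, Int.add_mul_ediv_right _ _ hm]; ring
  · show (((((b.st x).2 : Fin b.Gb.M) : ℕ) / b.m : ℕ) : ℤ) = _
    rw [Int.natCast_div, h2]
    have : x.2 - b.o.2 * (2 ^ ℓ * (b.m : ℤ)) = x.2 + (-(b.o.2 * 2 ^ ℓ)) * b.m := by ring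
    rw [this, Int.add_mul_ediv_right _ _ hm]; ring

/-- the coarse block of the box at a point of the region -/
theorem wcg_jc_val {x : ℤ × ℤ} (hx : b.Reg x) :
    ((((b.jc x).1 : Fin b.P.g'.n) : ℕ) : ℤ) = x.1 / (2 ^ ℓ * b.m) - b.o.1 ∧ ((((b.jc x).2 : Fin b.P.g'.n) : ℕ) : ℤ) = x.2 / (2 ^ ℓ * b.m) - b.o.2 := by
  obtain ⟨h1, h2⟩ := wcg_st_val hx
  have hm : (2 ^ ℓ * (b.m : ℤ)) ≠ 0 := by have : ((b.m : ℕ) : ℤ) ≠ 0 := by exact_mod_cast b.hm.ne'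
                                          positivity
  constructor
  · show (((((b.st x).1 : Fin b.Gb.M) : ℕ) / (2 ^ ℓ * b.m) : ℕ) : ℤ) = _
    rw [Int.natCast_div, h1]
    push_cast
    have : x.1 - b.o.1 * (2 ^ ℓ * (b.m : ℤ)) = x.1 + (-b.o.1) * (2 ^ ℓ * b.m) := by ring
    rw [this, Int.add_mul_ediv_right _ _ hm]; ring
  · show (((((b.st x).2 : Fin b.Gb.M) : ℕ) / (2 ^ ℓ * b.m) : ℕ) : ℤ) = _
    rw [Int.natCast_div, h2]
    push_cast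
    have : x.2 - b.o.2 * (2 ^ ℓ * (b.m : ℤ)) = x.2 + (-b.o.2) * (2 ^ ℓ * b.m) := by ring
    rw [this, Int.add_mul_ediv_right _ _ hm]; ring

theorem wcg_jf_pf (a : b.P.g.I) : b.jf (b.pf a) = a := by
  obtain ⟨h1, h2⟩ := wcg_jf_val (wcg_reg_pf a)
  have hm : ((b.m : ℕ) : ℤ) ≠ 0 := by exact_mod_cast b.hm.ne'
  refine Prod.ext (Fin.ext ?_) (Fin.ext ?_)
  · have : (b.pf a).1 / (b.m : ℤ) = b.o.1 * 2 ^ ℓ + ((a.1 : ℕ) : ℤ) := Int.mul_ediv_cancel _ hm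
    rw [this] at h1
    have h : ((((b.jf (b.pf a)).1 : Fin b.P.g.n) : ℕ) : ℤ) = ((a.1 : ℕ) : ℤ) := by linarith
    exact_mod_cast h
  · have : (b.pf a).2 / (b.m : ℤ) = b.o.2 * 2 ^ ℓ + ((a.2 : ℕ) : ℤ) := Int.mul_ediv_cancel _ hm
    rw [this] at h2
    have h : ((((b.jf (b.pf a)).2 : Fin b.P.g.n) : ℕ) : ℤ) = ((a.2 : ℕ) : ℤ) := by linarith
    exact_mod_cast h

theorem wcg_jc_pc (β : b.P.g'.I) : b.jc (b.pc β) = β := by
  obtain ⟨h1, h2⟩ := wcg_jc_val (wcg_reg_pc β)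
  have hm : (2 ^ ℓ * (b.m : ℤ)) ≠ 0 := by have : ((b.m : ℕ) : ℤ) ≠ 0 := by exact_mod_cast b.hm.ne'
                                          positivity
  refine Prod.ext (Fin.ext ?_) (Fin.ext ?_)
  · have : (b.pc β).1 / (2 ^ ℓ * (b.m : ℤ)) = b.o.1 + ((β.1 : ℕ) : ℤ) := Int.mul_ediv_cancel _ hm
    rw [this] at h1
    have h : ((((b.jc (b.pc β)).1 : Fin b.P.g'.n) : ℕ) : ℤ) = ((β.1 : ℕ) : ℤ) := by linarith
    exact_mod_cast h
  · have : (b.pc β).2 / (2 ^ ℓ * (b.m : ℤ)) = b.o.2 + ((β.2 : ℕ) : ℤ) := Int.mul_ediv_cancel _ hm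
    rw [this] at h2
    have h : ((((b.jc (b.pc β)).2 : Fin b.P.g'.n) : ℕ) : ℤ) = ((β.2 : ℕ) : ℤ) := by linarith
    exact_mod_cast h

theorem wcg_jc_up (x : ℤ × ℤ) : b.P.N.up (b.jf x) = b.jc x := (Hol.blk_up b.P (b.st x)).symm

/-- a point of the region lies in the plane cell of the corner of its block -/
theorem wcg_mem_cell_f {x : ℤ × ℤ} (hx : b.Reg x) : x ∈ pcell b.m (b.pf (b.jf x)) := by
  obtain ⟨h1, h2⟩ := wcg_jf_val hx
  have hm : ((b.m : ℕ) : ℤ) ≠ 0 := by exact_mod_cast b.hm.ne'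
  rw [wcg_mem_pcell b.hm]
  constructor
  · have : (b.pf (b.jf x)).1 / (b.m : ℤ) = b.o.1 * 2 ^ ℓ + (((b.jf x).1 : ℕ) : ℤ) := Int.mul_ediv_cancel _ hm
    rw [this, h1]; ring
  · have : (b.pf (b.jf x)).2 / (b.m : ℤ) = b.o.2 * 2 ^ ℓ + (((b.jf x).2 : ℕ) : ℤ) := Int.mul_ediv_cancel _ hm
    rw [this, h2]; ring

theorem wcg_mem_cell_c {x : ℤ × ℤ} (hx : b.Reg x) : x ∈ pcell (2 ^ ℓ * b.m) (b.pc (b.jc x)) := by
  obtain ⟨h1, h2⟩ := wcg_jc_val hx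
  have hm : (2 ^ ℓ * (b.m : ℤ)) ≠ 0 := by have : ((b.m : ℕ) : ℤ) ≠ 0 := by exact_mod_cast b.hm.ne'
                                          positivity
  rw [wcg_mem_pcell (Nat.mul_pos (by positivity) b.hm)]
  push_cast
  constructor
  · have : (b.pc (b.jc x)).1 / (2 ^ ℓ * (b.m : ℤ)) = b.o.1 + (((b.jc x).1 : ℕ) : ℤ) := Int.mul_ediv_cancel _ hm
    rw [this, h1]; ring
  · have : (b.pc (b.jc x)).2 / (2 ^ ℓ * (b.m : ℤ)) = b.o.2 + (((b.jc x).2 : ℕ) : ℤ) := Int.mul_ediv_cancel _ hm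
    rw [this, h2]; ring

/-- the corner of a fine block lies in the plane cell of the corner of its coarse block -/
theorem wcg_pf_mem_cell (a : b.P.g.I) : b.pf a ∈ pcell (2 ^ ℓ * b.m) (b.pc (b.P.N.up a)) := by
  have h := wcg_mem_cell_c (wcg_reg_pf a)
  rwa [← wcg_jc_up, wcg_jf_pf] at h

/-- corners of fine blocks: plane distance = `m ×` index distance -/
theorem wcg_pd_pf (a a' : b.P.g.I) : pd (b.pf a) (b.pf a') = b.m * b.P.g.idist a a' := by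
  rw [wcg_box_idist, ← Nat.mul_max_mul_left]
  unfold pd
  congr 1
  · show ((b.o.1 * 2 ^ ℓ + ((a.1 : ℕ) : ℤ)) * b.m - (b.o.1 * 2 ^ ℓ + ((a'.1 : ℕ) : ℤ)) * b.m).natAbs = _
    rw [← sub_mul, Int.natAbs_mul, Int.natAbs_natCast, mul_comm]
    congr 2; ring
  · show ((b.o.2 * 2 ^ ℓ + ((a.2 : ℕ) : ℤ)) * b.m - (b.o.2 * 2 ^ ℓ + ((a'.2 : ℕ) : ℤ)) * b.m).natAbs = _
    rw [← sub_mul, Int.natAbs_mul, Int.natAbs_natCast, mul_comm]
    congr 2; ring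

/-! ### LEAF `W-COPY-G4` (the box in a torus, one axis: `u = (o + a) % n`, `a < N`, `N + k ≤ n`; `wcg_blk_val`, `F6.Pr.prg_idist1_per`)

Fine level: `P.g.n = 2^ℓ P.g'.n` (`Pack.syml_M` twice, `P.hS`), so `b.P.g.n + T ≤ P.g.n`. -/

/-- one axis: `a ↦ (c + a) % n`, `a < N`, `N + k ≤ n`, preserves the relation `idist ≤ k` -/
theorem wcg_ax (n N k : ℕ) (c : ℤ) (a a' : ℕ) (ha : a < N) (ha' : a' < N) (hN : N + k ≤ n) :
    min (((c + a) % n) - ((c + a') % n)).natAbs (n - (((c + a) % n) - ((c + a') % n)).natAbs) ≤ k ↔ ((a : ℤ) - a').natAbs ≤ k := by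
  have hn : (0 : ℤ) < n := by omega
  have h1 := Int.emod_nonneg (c + a) hn.ne'
  have h2 := Int.emod_lt_of_pos (c + a) hn
  have h3 := Int.emod_nonneg (c + a') hn.ne'
  have h4 := Int.emod_lt_of_pos (c + a') hn
  have e1 := Int.emod_add_mul_ediv (c + a) n
  have e2 := Int.emod_add_mul_ediv (c + a') n
  obtain ⟨u, hu⟩ : ∃ u : ℤ, u = (c + a) % n := ⟨_, rfl⟩
  obtain ⟨u', hu'⟩ : ∃ u : ℤ, u = (c + a') % n := ⟨_, rfl⟩
  obtain ⟨q, hq⟩ : ∃ q : ℤ, q = (c + a) / n := ⟨_, rfl⟩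
  obtain ⟨q', hq'⟩ : ∃ q : ℤ, q = (c + a') / n := ⟨_, rfl⟩
  rw [← hu, ← hq] at e1
  rw [← hu', ← hq'] at e2
  rw [← hu] at h1 h2
  rw [← hu'] at h3 h4
  rw [← hu, ← hu']
  obtain ⟨e, he⟩ : ∃ e : ℤ, e = q' - q := ⟨_, rfl⟩
  have e3 : u - u' = (a : ℤ) - a' + n * e := by rw [he]; linear_combination e1 - e2
  have b1 : (n : ℤ) * e < n * 2 := by omega
  have b2 : (n : ℤ) * (-2) < n * e := by omega
  have b3 : e < 2 := lt_of_mul_lt_mul_left b1 hn.le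
  have b4 : -2 < e := lt_of_mul_lt_mul_left b2 hn.le
  have : e = -1 ∨ e = 0 ∨ e = 1 := by omega
  rcases this with rfl | rfl | rfl
  · rw [min_le_iff]; omega
  · rw [min_le_iff]; omega
  · rw [min_le_iff]; omega

/-- index distance on one axis of a torus -/
theorem wcg_idist1_per (hG : G.bc = BC.per) (g : Grid G) (a b : Fin g.n) :
    g.idist1 a b = min ((a : ℤ) - b).natAbs (g.n - ((a : ℤ) - b).natAbs) := by
  unfold Grid.idist1
  rw [hG]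

/-- the fine index of the image of a fine block of the box -/
theorem wcg_ef_val (h : b.Fits P T) (a : b.P.g.I) :
    ((((b.ef P a).1 : Fin P.g.n) : ℕ) : ℤ) = (b.o.1 * 2 ^ ℓ + ((a.1 : ℕ) : ℤ)) % P.g.n ∧
      ((((b.ef P a).2 : Fin P.g.n) : ℕ) : ℤ) = (b.o.2 * 2 ^ ℓ + ((a.2 : ℕ) : ℤ)) % P.g.n := by
  have h1 := wcg_blk_val h.per P.ok (b.pf a)
  have hm : ((P.g.m : ℕ) : ℤ) ≠ 0 := by have := P.ok.pos; omega
  unfold Bx.ef
  rw [h1.1, h1.2]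
  unfold Bx.pf
  rw [← h.side]
  simp only
  rw [Int.mul_ediv_cancel _ hm, Int.mul_ediv_cancel _ hm]
  exact ⟨rfl, rfl⟩

/-- the coarse index of the image of a coarse block of the box -/
theorem wcg_ec_val (h : b.Fits P T) (β : b.P.g'.I) :
    ((((b.ec P β).1 : Fin P.g'.n) : ℕ) : ℤ) = (b.o.1 + ((β.1 : ℕ) : ℤ)) % P.g'.n ∧
      ((((b.ec P β).2 : Fin P.g'.n) : ℕ) : ℤ) = (b.o.2 + ((β.2 : ℕ) : ℤ)) % P.g'.n := by
  have h1 := wcg_blk_val h.per P.ok' (b.pc β)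
  have hm : ((P.g'.m : ℕ) : ℤ) ≠ 0 := by have := P.ok'.pos; omega
  have e : ((2 : ℤ) ^ ℓ * (b.m : ℤ)) = ((P.g'.m : ℕ) : ℤ) := by rw [P.hS, h.side]; push_cast; rfl
  unfold Bx.ec
  rw [h1.1, h1.2]
  unfold Bx.pc
  rw [e]
  simp only
  rw [Int.mul_ediv_cancel _ hm, Int.mul_ediv_cancel _ hm]
  exact ⟨rfl, rfl⟩

/-- room at the fine level -/
theorem wcg_room_f (h : b.Fits P T) : b.n * 2 ^ ℓ + T ≤ P.g.n := by
  have h1 := Pack.syml_M h.per P.ok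
  have h2 := Pack.syml_M h.per P.ok'
  have hm := P.ok.pos
  have e : P.g.n = P.g'.n * 2 ^ ℓ := by
    apply Nat.eq_of_mul_eq_mul_right hm
    rw [← h1, h2, P.hS]
    ring
  rw [e]
  have h3 : 1 ≤ 2 ^ ℓ := Nat.one_le_two_pow
  calc b.n * 2 ^ ℓ + T ≤ b.n * 2 ^ ℓ + T * 2 ^ ℓ := by nlinarith
    _ = (b.n + T) * 2 ^ ℓ := by ring
    _ ≤ P.g'.n * 2 ^ ℓ := Nat.mul_le_mul_right _ h.room

theorem wcg_ef_inj (h : b.Fits P T) : Function.Injective (b.ef P) := by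
  intro a a' haa
  have hr := wcg_room_f h
  have v := wcg_ef_val h a
  have v' := wcg_ef_val h a'
  rw [haa] at v
  have hn := (wcg_box_n (b := b)).1
  have l1 : (a.1 : ℕ) < b.n * 2 ^ ℓ := hn ▸ a.1.2
  have l2 : (a.2 : ℕ) < b.n * 2 ^ ℓ := hn ▸ a.2.2
  have l1' : (a'.1 : ℕ) < b.n * 2 ^ ℓ := hn ▸ a'.1.2
  have l2' : (a'.2 : ℕ) < b.n * 2 ^ ℓ := hn ▸ a'.2.2
  have q1 := (wcg_ax P.g.n (b.n * 2 ^ ℓ) 0 (b.o.1 * 2 ^ ℓ) a.1 a'.1 l1 l1' (by omega)).1 (by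
    rw [← v.1, ← v'.1]; simp)
  have q2 := (wcg_ax P.g.n (b.n * 2 ^ ℓ) 0 (b.o.2 * 2 ^ ℓ) a.2 a'.2 l2 l2' (by omega)).1 (by
    rw [← v.2, ← v'.2]; simp)
  exact Prod.ext (Fin.ext (by omega)) (Fin.ext (by omega))

theorem wcg_ec_inj (h : b.Fits P T) : Function.Injective (b.ec P) := by
  intro a a' haa
  have hr := h.room
  have v := wcg_ec_val h a
  have v' := wcg_ec_val h a'
  rw [haa] at v
  have hn := (wcg_box_n (b := b)).2
  have l1 : (a.1 : ℕ) < b.n := hn ▸ a.1.2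
  have l2 : (a.2 : ℕ) < b.n := hn ▸ a.2.2
  have l1' : (a'.1 : ℕ) < b.n := hn ▸ a'.1.2
  have l2' : (a'.2 : ℕ) < b.n := hn ▸ a'.2.2
  have q1 := (wcg_ax P.g'.n b.n 0 b.o.1 a.1 a'.1 l1 l1' (by omega)).1 (by
    rw [← v.1, ← v'.1]; simp)
  have q2 := (wcg_ax P.g'.n b.n 0 b.o.2 a.2 a'.2 l2 l2' (by omega)).1 (by
    rw [← v.2, ← v'.2]; simp)
  exact Prod.ext (Fin.ext (by omega)) (Fin.ext (by omega))

/-- the embedding of the fine blocks -/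
def Bx.Fits.f (h : b.Fits P T) : b.P.g.I ↪ P.g.I := ⟨b.ef P, wcg_ef_inj h⟩

/-- the embedding of the coarse blocks -/
def Bx.Fits.c (h : b.Fits P T) : b.P.g'.I ↪ P.g'.I := ⟨b.ec P, wcg_ec_inj h⟩

theorem wcg_f_idist (h : b.Fits P T) (k : ℕ) (hk : k ≤ T) (a a' : b.P.g.I) : P.g.idist (h.f a) (h.f a') ≤ k ↔ b.P.g.idist a a' ≤ k := by
  have hr := wcg_room_f h
  have v := wcg_ef_val h a
  have v' := wcg_ef_val h a'
  have hn := (wcg_box_n (b := b)).1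
  have l1 : (a.1 : ℕ) < b.n * 2 ^ ℓ := hn ▸ a.1.2
  have l2 : (a.2 : ℕ) < b.n * 2 ^ ℓ := hn ▸ a.2.2
  have l1' : (a'.1 : ℕ) < b.n * 2 ^ ℓ := hn ▸ a'.1.2
  have l2' : (a'.2 : ℕ) < b.n * 2 ^ ℓ := hn ▸ a'.2.2
  have q1 := wcg_ax P.g.n (b.n * 2 ^ ℓ) k (b.o.1 * 2 ^ ℓ) a.1 a'.1 l1 l1' (by omega)
  have q2 := wcg_ax P.g.n (b.n * 2 ^ ℓ) k (b.o.2 * 2 ^ ℓ) a.2 a'.2 l2 l2' (by omega)
  rw [wcg_box_idist]
  show P.g.idist (b.ef P a) (b.ef P a') ≤ k ↔ _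
  unfold Grid.idist
  rw [wcg_idist1_per h.per, wcg_idist1_per h.per, v.1, v.2, v'.1, v'.2, max_le_iff, max_le_iff, q1, q2]

theorem wcg_c_idist (h : b.Fits P T) (k : ℕ) (hk : k ≤ T) (β β' : b.P.g'.I) : P.g'.idist (h.c β) (h.c β') ≤ k ↔ b.P.g'.idist β β' ≤ k := by
  have hr := h.room
  have v := wcg_ec_val h β
  have v' := wcg_ec_val h β'
  have hn := (wcg_box_n (b := b)).2
  have l1 : (β.1 : ℕ) < b.n := hn ▸ β.1.2
  have l2 : (β.2 : ℕ) < b.n := hn ▸ β.2.2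
  have l1' : (β'.1 : ℕ) < b.n := hn ▸ β'.1.2
  have l2' : (β'.2 : ℕ) < b.n := hn ▸ β'.2.2
  have q1 := wcg_ax P.g'.n b.n k b.o.1 β.1 β'.1 l1 l1' (by omega)
  have q2 := wcg_ax P.g'.n b.n k b.o.2 β.2 β'.2 l2 l2' (by omega)
  rw [wcg_box_idist']
  show P.g'.idist (b.ec P β) (b.ec P β') ≤ k ↔ _
  unfold Grid.idist
  rw [wcg_idist1_per h.per, wcg_idist1_per h.per, v.1, v.2, v'.1, v'.2, max_le_iff, max_le_iff, q1, q2]

/-! ### LEAF `W-COPY-G5` -/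

/-- the block of a plane point of the region (`wcg_mem_cell_f`, `wcg_blk_pcell`) -/
theorem wcg_blk_f (h : b.Fits P T) {x : ℤ × ℤ} (hx : b.Reg x) : P.g.blk (G.π x) = h.f (b.jf x) := by
  have h1 := wcg_mem_cell_f hx
  rw [← h.side] at h1
  exact wcg_blk_pcell h.per P.ok h1

theorem wcg_blk_c (h : b.Fits P T) {x : ℤ × ℤ} (hx : b.Reg x) : P.g'.blk (G.π x) = h.c (b.jc x) := by
  have h1 := wcg_mem_cell_c hx
  have e : 2 ^ ℓ * b.m = P.g'.m := by rw [P.hS, h.side]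
  rw [e] at h1
  exact wcg_blk_pcell h.per P.ok' h1

/-- (`Hol.blk_up`, `wcg_blk_c` at the corner `pf a`, `wcg_jf_pf`, `wcg_jc_up`) -/
theorem wcg_up (h : b.Fits P T) (a : b.P.g.I) : P.N.up (h.f a) = h.c (b.P.N.up a) := by
  have h1 : P.N.up (h.f a) = P.g'.blk (G.π (b.pf a)) := (Hol.blk_up P (G.π (b.pf a))).symm
  rw [h1, wcg_blk_c h (wcg_reg_pf a), ← wcg_jc_up, wcg_jf_pf]

/-- a site of the block of `π s` is the image of a point of the plane cell of `s` -/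
theorem wcg_site_lift (hG : G.bc = BC.per) {g : Grid G} (hg : g.Ok) (s : ℤ × ℤ) (v : G.V) (hv : g.blk v = g.blk (G.π s)) :
    ∃ y ∈ pcell g.m s, G.π y = v := by
  classical
  by_contra hcon
  push Not at hcon
  have h1 := wcg_sum_sites hG hg s (fun w => if w = v then (1 : ℂ) else 0)
  have h2 : ∑ x ∈ pcell g.m s, (fun w => if w = v then (1 : ℂ) else 0) (G.π x) = 0 :=
    Finset.sum_eq_zero fun x hx => if_neg (hcon x hx)
  have hvs : v ∈ g.sites {g.blk (G.π s)} := by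
    unfold Grid.sites
    rw [Finset.mem_filter, Finset.mem_singleton]
    exact ⟨Finset.mem_univ _, hv⟩
  rw [h2, Finset.sum_ite_eq' _ v, if_pos hvs] at h1
  exact one_ne_zero h1

/-- full fibres: a fine block of the torus inside the image of a coarse block of the box is the image of a fine block of the box.
plan: `a' = blk v`, `v = π y` with `y ∈ pcell m' (pc β)` (`blk' v = blk' (π (pc β))`, as in `wcg_sum_sites` for `P.g'`); `y` is in the region. -/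
theorem wcg_fib (h : b.Fits P T) (a' : P.g.I) (β : b.P.g'.I) (ha : P.N.up a' = h.c β) : a' ∈ Set.range h.f := by
  obtain ⟨v1, hv1⟩ := P.ok.surj a'.1
  obtain ⟨v2, hv2⟩ := P.ok.surj a'.2
  have hv : P.g.blk (v1, v2) = a' := Prod.ext hv1 hv2
  have h1 : P.g'.blk (v1, v2) = P.g'.blk (G.π (b.pc β)) := by
    rw [Hol.blk_up P, hv, ha]
    rfl
  obtain ⟨y, hy, hyv⟩ := wcg_site_lift h.per P.ok' (b.pc β) (v1, v2) h1
  have e : P.g'.m = 2 ^ ℓ * b.m := by rw [P.hS, h.side]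
  have hm' : 0 < 2 ^ ℓ * b.m := Nat.mul_pos (by positivity) b.hm
  rw [e] at hy
  have hn := (wcg_box_n (b := b)).2
  have l1 : (β.1 : ℕ) < b.n := hn ▸ β.1.2
  have l2 : (β.2 : ℕ) < b.n := hn ▸ β.2.2
  have hreg : b.Reg y := by
    unfold pcell Bx.pc at hy
    simp only [Finset.mem_product, Finset.mem_Ico] at hy
    obtain ⟨μ, hμ⟩ : ∃ μ : ℤ, μ = ((2 ^ ℓ * b.m : ℕ) : ℤ) := ⟨_, rfl⟩
    have hμ' : (2 : ℤ) ^ ℓ * (b.m : ℤ) = μ := by rw [hμ]; push_cast; rfl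
    have hμ0 : 0 < μ := by rw [hμ]; exact_mod_cast hm'
    rw [← hμ, hμ', Int.mul_ediv_cancel _ hμ0.ne', Int.mul_ediv_cancel _ hμ0.ne'] at hy
    unfold Bx.Reg
    rw [hμ']
    obtain ⟨⟨y1, y2⟩, y3, y4⟩ := hy
    have p1 : b.o.1 * μ ≤ (b.o.1 + ((β.1 : ℕ) : ℤ)) * μ := mul_le_mul_of_nonneg_right (by omega) hμ0.le
    have p2 : (b.o.1 + ((β.1 : ℕ) : ℤ) + 1) * μ ≤ (b.o.1 + b.n) * μ := mul_le_mul_of_nonneg_right (by omega) hμ0.le
    have p3 : b.o.2 * μ ≤ (b.o.2 + ((β.2 : ℕ) : ℤ)) * μ := mul_le_mul_of_nonneg_right (by omega) hμ0.le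
    have p4 : (b.o.2 + ((β.2 : ℕ) : ℤ) + 1) * μ ≤ (b.o.2 + b.n) * μ := mul_le_mul_of_nonneg_right (by omega) hμ0.le
    refine ⟨by linarith, by linarith, by linarith, by linarith⟩
  refine ⟨b.jf y, ?_⟩
  rw [← wcg_blk_f h hreg, hyv, hv]

/-- one axis: the neighbours of `(c + a) % n` -/
theorem wcg_ax_nb (n : ℕ) (c : ℤ) (w : ℕ) (hw : w < n)
    (hd : min ((c % n) - w).natAbs (n - ((c % n) - w).natAbs) ≤ 1) : ∃ e : ℤ, -1 ≤ e ∧ e ≤ 1 ∧ (w : ℤ) = (c + e) % n := by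
  have hn : (0 : ℤ) < n := by omega
  have h1 := Int.emod_nonneg c hn.ne'
  have h2 := Int.emod_lt_of_pos c hn
  have e1 := Int.emod_add_mul_ediv c n
  obtain ⟨u, hu⟩ : ∃ u : ℤ, u = c % n := ⟨_, rfl⟩
  obtain ⟨q, hq⟩ : ∃ q : ℤ, q = c / n := ⟨_, rfl⟩
  rw [← hu, ← hq] at e1
  rw [← hu] at h1 h2 hd
  have key : ∀ e t : ℤ, (w : ℤ) = u + e + n * t → (w : ℤ) = (c + e) % n := by
    intro e t ht
    have : c + e = (w : ℤ) + n * (q - t) := by rw [ht, ← e1]; ring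
    rw [this, Int.add_mul_emod_self_left]
    exact (Int.emod_eq_of_lt (by omega) (by omega)).symm
  rw [min_le_iff] at hd
  by_cases c1 : (w : ℤ) = u
  · exact ⟨0, by norm_num, by norm_num, key 0 0 (by rw [c1]; ring)⟩
  by_cases c2 : (w : ℤ) = u + 1
  · exact ⟨1, by norm_num, by norm_num, key 1 0 (by rw [c2]; ring)⟩
  by_cases c3 : (w : ℤ) = u - 1
  · exact ⟨-1, by norm_num, by norm_num, key (-1) 0 (by rw [c3]; ring)⟩
  by_cases c4 : (w : ℤ) = u + 1 - n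
  · exact ⟨1, by norm_num, by norm_num, key 1 (-1) (by rw [c4]; ring)⟩
  by_cases c5 : (w : ℤ) = u - 1 + n
  · exact ⟨-1, by norm_num, by norm_num, key (-1) 1 (by rw [c5]; ring)⟩
  exfalso
  omega

/-- the unit neighbourhood of the image of an inner block is in the range -/
theorem wcg_nb (h : b.Fits P T) (β : b.P.g'.I) (hβ : b.Inner β) (β' : P.g'.I) (hd : P.g'.idist (h.c β) β' ≤ 1) : β' ∈ Set.range h.c := by
  have v := wcg_ec_val h β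
  have hn := (wcg_box_n (b := b)).2
  obtain ⟨i1, i2, i3, i4⟩ := hβ
  have hd' : P.g'.idist (b.ec P β) β' ≤ 1 := hd
  unfold Grid.idist at hd'
  rw [max_le_iff, wcg_idist1_per h.per, wcg_idist1_per h.per, v.1, v.2] at hd'
  obtain ⟨e1, a1, a2, a3⟩ := wcg_ax_nb P.g'.n (b.o.1 + ((β.1 : ℕ) : ℤ)) β'.1 β'.1.2 hd'.1
  obtain ⟨e2, b1, b2, b3⟩ := wcg_ax_nb P.g'.n (b.o.2 + ((β.2 : ℕ) : ℤ)) β'.2 β'.2.2 hd'.2
  have g1 : (((β.1 : ℕ) : ℤ) + e1).toNat < b.P.g'.n := by omega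
  have g2 : (((β.2 : ℕ) : ℤ) + e2).toNat < b.P.g'.n := by omega
  refine ⟨(⟨_, g1⟩, ⟨_, g2⟩), ?_⟩
  have w := wcg_ec_val h (⟨_, g1⟩, ⟨_, g2⟩)
  simp only at w
  have t1 : (((((β.1 : ℕ) : ℤ) + e1).toNat : ℕ) : ℤ) = ((β.1 : ℕ) : ℤ) + e1 := Int.toNat_of_nonneg (by omega)
  have t2 : (((((β.2 : ℕ) : ℤ) + e2).toNat : ℕ) : ℤ) = ((β.2 : ℕ) : ℤ) + e2 := Int.toNat_of_nonneg (by omega)
  rw [t1, t2, ← add_assoc, ← add_assoc, ← a3, ← b3] at w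
  show b.ec P _ = β'
  exact Prod.ext (Fin.ext (by exact_mod_cast w.1)) (Fin.ext (by exact_mod_cast w.2))

/-- polymers of the box as folded plane sets -/
theorem wcg_foldS_f (h : b.Fits P T) (X : Finset b.P.g.I) : P.g.foldS (X.image b.pf) = X.map h.f := by
  unfold Grid.foldS
  rw [Finset.image_image, Finset.map_eq_image]
  rfl

theorem wcg_foldS_c (h : b.Fits P T) (Y : Finset b.P.g'.I) : P.g'.foldS (Y.image b.pc) = Y.map h.c := by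
  unfold Grid.foldS
  rw [Finset.image_image, Finset.map_eq_image]
  rfl

/-- a plane set inside the region -/
theorem wcg_foldS_jc (h : b.Fits P T) (S : Finset (ℤ × ℤ)) (hS : ∀ x ∈ S, b.Reg x) : P.g'.foldS S = (S.image b.jc).map h.c := by
  unfold Grid.foldS
  rw [Finset.map_eq_image, Finset.image_image]
  exact Finset.image_congr fun x hx => wcg_blk_c h (hS x hx)

/-! ## 4. The window of a plane set -/

/-- the window of the non-empty plane set `S`: the coarse blocks which meet the bounding rectangle of `S`, with one more layer -/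
def bxOf (ℓ m : ℕ) (hm : 0 < m) (S : Finset (ℤ × ℤ)) (hS : S.Nonempty) : Bx ℓ where
  m := m
  n := pdiam S / (2 ^ ℓ * m) + 4
  o := ((S.image Prod.fst).min' (hS.image _) / ((2 ^ ℓ * m : ℕ) : ℤ) - 1, (S.image Prod.snd).min' (hS.image _) / ((2 ^ ℓ * m : ℕ) : ℤ) - 1)
  hm := hm
  hn := Nat.succ_pos _

/-! ### LEAF `W-COPY-G6` (`Finset.min'_le`, `Finset.min'_mem`, `wcg_pd_le_pdiam`; `x / m' - y / m' ≤ (x - y) / m' + 1`; `Pack.syml_M`) -/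

/-- one axis of the window -/
theorem wcg_win1 (k : ℕ) (hk : 0 < k) (a x : ℤ) (D : ℕ) (h1 : a ≤ x) (h2 : x - a ≤ D) :
    (a / (k : ℤ) - 1 + 1) * (k : ℤ) ≤ x ∧ x < (a / (k : ℤ) - 1 + ((D / k + 4 : ℕ) : ℤ) - 1) * (k : ℤ) := by
  have hk' : (0 : ℤ) < (k : ℤ) := by exact_mod_cast hk
  obtain ⟨a1, a2⟩ := (wcg_ediv_eq_iff hk' a _).1 rfl
  obtain ⟨d1, d2⟩ := (wcg_ediv_eq_iff hk' (D : ℤ) _).1 rfl
  push_cast
  constructor
  · have : (a / (k : ℤ) - 1 + 1) * (k : ℤ) = a / (k : ℤ) * (k : ℤ) := by ring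
    rw [this]
    omega
  · have : (a / (k : ℤ) - 1 + ((D : ℤ) / (k : ℤ) + 4) - 1) * (k : ℤ)
        = a / (k : ℤ) * (k : ℤ) + (D : ℤ) / (k : ℤ) * (k : ℤ) + 2 * (k : ℤ) := by ring
    rw [this]
    omega

theorem wcg_bxOf_aux (ℓ m : ℕ) (hm : 0 < m) (S : Finset (ℤ × ℤ)) (hS : S.Nonempty) {x : ℤ × ℤ} (hx : x ∈ S) :
    (((bxOf ℓ m hm S hS).o.1 + 1) * (2 ^ ℓ * (m : ℤ)) ≤ x.1 ∧
      x.1 < ((bxOf ℓ m hm S hS).o.1 + ((bxOf ℓ m hm S hS).n : ℤ) - 1) * (2 ^ ℓ * (m : ℤ))) ∧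
    (((bxOf ℓ m hm S hS).o.2 + 1) * (2 ^ ℓ * (m : ℤ)) ≤ x.2 ∧
      x.2 < ((bxOf ℓ m hm S hS).o.2 + ((bxOf ℓ m hm S hS).n : ℤ) - 1) * (2 ^ ℓ * (m : ℤ))) := by
  have hk : 0 < 2 ^ ℓ * m := Nat.mul_pos (by positivity) hm
  have ek : ((2 ^ ℓ * m : ℕ) : ℤ) = 2 ^ ℓ * (m : ℤ) := by push_cast; ring
  constructor
  · have hmin : (S.image Prod.fst).min' (hS.image _) ≤ x.1 := Finset.min'_le _ _ (Finset.mem_image_of_mem _ hx)
    obtain ⟨y, hy, hy1⟩ := Finset.mem_image.1 (Finset.min'_mem (S.image Prod.fst) (hS.image _))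
    have hd := wcg_pd_le_pdiam hx hy
    unfold pd at hd
    have h2 : x.1 - (S.image Prod.fst).min' (hS.image _) ≤ (pdiam S : ℤ) := by
      rw [← hy1]
      omega
    have := wcg_win1 (2 ^ ℓ * m) hk _ x.1 (pdiam S) hmin h2
    rw [ek] at this
    exact this
  · have hmin : (S.image Prod.snd).min' (hS.image _) ≤ x.2 := Finset.min'_le _ _ (Finset.mem_image_of_mem _ hx)
    obtain ⟨y, hy, hy1⟩ := Finset.mem_image.1 (Finset.min'_mem (S.image Prod.snd) (hS.image _))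
    have hd := wcg_pd_le_pdiam hx hy
    unfold pd at hd
    have h2 : x.2 - (S.image Prod.snd).min' (hS.image _) ≤ (pdiam S : ℤ) := by
      rw [← hy1]
      omega
    have := wcg_win1 (2 ^ ℓ * m) hk _ x.2 (pdiam S) hmin h2
    rw [ek] at this
    exact this

theorem wcg_bxOf_reg (ℓ m : ℕ) (hm : 0 < m) (S : Finset (ℤ × ℤ)) (hS : S.Nonempty) {x : ℤ × ℤ} (hx : x ∈ S) : (bxOf ℓ m hm S hS).Reg x := by
  obtain ⟨⟨a1, a2⟩, b1, b2⟩ := wcg_bxOf_aux ℓ m hm S hS hx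
  have hk : (0 : ℤ) < 2 ^ ℓ * (m : ℤ) := by
    have : (0 : ℤ) < (m : ℤ) := by exact_mod_cast hm
    positivity
  show (bxOf ℓ m hm S hS).o.1 * (2 ^ ℓ * (m : ℤ)) ≤ x.1 ∧ x.1 < ((bxOf ℓ m hm S hS).o.1 + ((bxOf ℓ m hm S hS).n : ℤ)) * (2 ^ ℓ * (m : ℤ)) ∧
    (bxOf ℓ m hm S hS).o.2 * (2 ^ ℓ * (m : ℤ)) ≤ x.2 ∧ x.2 < ((bxOf ℓ m hm S hS).o.2 + ((bxOf ℓ m hm S hS).n : ℤ)) * (2 ^ ℓ * (m : ℤ))
  refine ⟨by nlinarith, by nlinarith, by nlinarith, by nlinarith⟩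

/-- one axis: the coarse block of a point of the box -/
theorem wcg_box_blk1 (b : Bx ℓ) (y : ℤ) (h1 : 2 ^ ℓ * (b.m : ℤ) ≤ y) (h2 : y < ((b.n : ℤ) - 1) * (2 ^ ℓ * (b.m : ℤ))) :
    1 ≤ ((b.P.g'.blk1 (b.Gb.fold y) : Fin b.P.g'.n) : ℕ) ∧ ((b.P.g'.blk1 (b.Gb.fold y) : Fin b.P.g'.n) : ℕ) + 1 < b.n := by
  have hk : 0 < 2 ^ ℓ * b.m := Nat.mul_pos (by positivity) b.hm
  have hk' : (0 : ℤ) < 2 ^ ℓ * (b.m : ℤ) := by exact_mod_cast hk
  have hM : (b.Gb.M : ℤ) = (b.n : ℤ) * (2 ^ ℓ * (b.m : ℤ)) := by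
    show ((b.n * (2 ^ ℓ * b.m) : ℕ) : ℤ) = _
    push_cast
    ring
  have hy0 : 0 ≤ y := by linarith
  have hyM : y < b.Gb.M := by rw [hM]; nlinarith
  have hv : (((b.Gb.fold y : Fin b.Gb.M) : ℕ) : ℤ) = y := by
    rw [Reg.regl_fold_free b.Gb rfl y]
    have e : y % (2 * (b.Gb.M : ℤ)) = y := Int.emod_eq_of_lt hy0 (by linarith)
    rw [e, if_pos hyM]
  show 1 ≤ ((b.Gb.fold y : Fin b.Gb.M) : ℕ) / (2 ^ ℓ * b.m) ∧ ((b.Gb.fold y : Fin b.Gb.M) : ℕ) / (2 ^ ℓ * b.m) + 1 < b.n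
  generalize ((b.Gb.fold y : Fin b.Gb.M) : ℕ) = Y at hv
  subst hv
  have h1' : 2 ^ ℓ * b.m ≤ Y := by exact_mod_cast h1
  have hn1 : 1 ≤ b.n := b.hn
  have h2' : Y < (b.n - 1) * (2 ^ ℓ * b.m) := by
    have : (((b.n - 1 : ℕ) : ℤ)) = (b.n : ℤ) - 1 := by push_cast [Nat.cast_sub hn1]; ring
    have h3 : (Y : ℤ) < ((b.n - 1 : ℕ) : ℤ) * ((2 ^ ℓ * b.m : ℕ) : ℤ) := by
      rw [this]
      push_cast
      exact h2
    exact_mod_cast h3
  constructor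
  · rw [Nat.le_div_iff_mul_le hk, one_mul]
    exact h1'
  · have := (Nat.div_lt_iff_lt_mul hk).2 h2'
    omega

theorem wcg_bxOf_inner (ℓ m : ℕ) (hm : 0 < m) (S : Finset (ℤ × ℤ)) (hS : S.Nonempty) {x : ℤ × ℤ} (hx : x ∈ S) :
    (bxOf ℓ m hm S hS).Inner ((bxOf ℓ m hm S hS).jc x) := by
  obtain ⟨⟨a1, a2⟩, b1, b2⟩ := wcg_bxOf_aux ℓ m hm S hS hx
  have A := wcg_box_blk1 (bxOf ℓ m hm S hS) (x.1 - (bxOf ℓ m hm S hS).o.1 * (2 ^ ℓ * (m : ℤ)))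
    (by show 2 ^ ℓ * (m : ℤ) ≤ _; linarith) (by show _ < (((bxOf ℓ m hm S hS).n : ℤ) - 1) * (2 ^ ℓ * (m : ℤ)); linarith)
  have B := wcg_box_blk1 (bxOf ℓ m hm S hS) (x.2 - (bxOf ℓ m hm S hS).o.2 * (2 ^ ℓ * (m : ℤ)))
    (by show 2 ^ ℓ * (m : ℤ) ≤ _; linarith) (by show _ < (((bxOf ℓ m hm S hS).n : ℤ) - 1) * (2 ^ ℓ * (m : ℤ)); linarith)
  exact ⟨A.1, A.2, B.1, B.2⟩

/-- `n' m' = M > pdiam S + 2 c0 m'`, so `n' ≥ pdiam S / m' + 2 c0 + 1` -/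
theorem wcg_bxOf_fits (hG : G.bc = BC.per) (m : ℕ) (hm : 0 < m) (hside : P.g.m = m) (S : Finset (ℤ × ℤ)) (hS : S.Nonempty) (c0 : ℕ) (hT : T + 3 ≤ 2 * c0)
    (h : pdiam S + 2 * c0 * P.g'.m < G.M) : (bxOf ℓ m hm S hS).Fits P T := by
  subst hside
  refine ⟨hG, rfl, ?_⟩
  show pdiam S / (2 ^ ℓ * P.g.m) + 4 + T ≤ P.g'.n
  rw [← P.hS]
  have hM := Pack.syml_M hG P.ok'
  have hk := P.ok'.pos
  have h1 : pdiam S / P.g'.m * P.g'.m ≤ pdiam S := Nat.div_mul_le_self _ _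
  have h2 : (pdiam S / P.g'.m + 2 * c0) * P.g'.m < P.g'.n * P.g'.m := by
    rw [← hM, add_mul]
    omega
  have h3 := lt_of_mul_lt_mul_right h2 (Nat.zero_le _)
  omega

end

end Claimed.Agent.R285.B8
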