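import Claimed.Agent.R285.Reg.Lat
import Claimed.Agent.R285.Loc.Multi

/-!
# ROW 285, unit MAP, package COPY (`B8.weak_copy`, `B8.weak_cut`; also OBS/COPY), file M: GAUSSIAN MARGINALS      (helper15)

PAPER-FREE, sorry-free.  `wcm_restrict` (law of the restricted field = Gaussian with the sub-matrix), `wcm_marginal`, `wcm_integral_copy`,
**`wcm_conv_copy`**: `conv Γ F z = conv Γ' F' z'` on two volumes, if the covariances agree on a plane set `A` on which both folding maps are injective and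
`F (z + ζ) = F' (z' + ζ')` for real fields which agree on `A` (+ continuity of `ζ ↦ F (z + ζ)`, true inside the strips: `Hol.continuous_comp_shift`).
**`wcm_d2_copy`**: `D²H(0)[u,v] = D²H'(0)[u',v']` for holomorphic `H`, `H'` on two spaces if `H (s u + t v) = H' (s u' + t v')` for small complex `s, t` (for `DX`; no symmetry, no polarisation).
-/

set_option autoImplicit false

namespace Claimed.Agent.R285.B8

open scoped BigOperators ENNReal NNReal
open MeasureTheory Matrix Filter Topology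
open Claimed.Agent.R285.RG Claimed.Agent.R285.Reg

noncomputable section

section abstract

variable {ι ι' κ : Type} [Fintype ι] [DecidableEq ι] [Fintype ι'] [DecidableEq ι'] [Fintype κ] [DecidableEq κ]

/-- the law of the restricted field -/
theorem wcm_restrict (Γ : Matrix ι ι ℝ) (hΓ : Γ.PosSemidef) (a : κ → ι) :
    (regGauss Γ).map (fun ζ => fun x => ζ (a x)) = regGauss (Γ.submatrix a a) := by
  rw [reg_gauss_map' hΓ (Matrix.of fun x v => if a x = v then 1 else 0 : Matrix κ ι ℝ) _ (fun ζ => by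
    funext x
    simp [Matrix.mulVec, dotProduct])]
  congr 1
  ext x y
  simp [Matrix.mul_apply, Matrix.transpose_apply, Matrix.of_apply]

/-- marginals: two Gaussians whose covariances agree along `a`, `a'` give the same law to the restricted fields -/
theorem wcm_marginal (Γ : Matrix ι ι ℝ) (Γ' : Matrix ι' ι' ℝ) (hΓ : Γ.PosSemidef) (hΓ' : Γ'.PosSemidef) (a : κ → ι) (a' : κ → ι')
    (h : ∀ x y, Γ (a x) (a y) = Γ' (a' x) (a' y)) :
    (regGauss Γ).map (fun ζ => fun x => ζ (a x)) = (regGauss Γ').map (fun ζ => fun x => ζ (a' x)) := by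
  rw [wcm_restrict Γ hΓ, wcm_restrict Γ' hΓ']
  congr 1
  ext x y
  exact h x y

open Classical in
/-- extension by zero along an injection -/
def wcmExt (a : κ → ι) (η : κ → ℝ) : ι → ℝ := fun v => if h : ∃ x, a x = v then η h.choose else 0

omit [Fintype ι] [DecidableEq κ] in
theorem wcm_ext_apply (a : κ → ι) (ha : Function.Injective a) (η : κ → ℝ) (x : κ) : wcmExt a η (a x) = η x := by
  unfold wcmExt
  have h : ∃ y, a y = a x := ⟨x, rfl⟩
  rw [dif_pos h, ha h.choose_spec]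

omit [Fintype ι] [DecidableEq κ] in
theorem wcm_ext_cont (a : κ → ι) : Continuous (wcmExt a) := by
  refine continuous_pi fun v => ?_
  unfold wcmExt
  by_cases h : ∃ x, a x = v
  · simp only [dif_pos h]
    exact continuous_apply _
  · simp only [dif_neg h]
    exact continuous_const

/-- integrals of copies -/
theorem wcm_integral_copy (Γ : Matrix ι ι ℝ) (Γ' : Matrix ι' ι' ℝ) (hΓ : Γ.PosSemidef) (hΓ' : Γ'.PosSemidef) (a : κ → ι) (a' : κ → ι')
    (ha : Function.Injective a) (ha' : Function.Injective a') (h : ∀ x y, Γ (a x) (a y) = Γ' (a' x) (a' y))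
    (f : (ι → ℝ) → ℂ) (f' : (ι' → ℝ) → ℂ) (hc : Continuous f)
    (hf : ∀ ζ ζ', (∀ x, ζ (a x) = ζ' (a' x)) → f ζ = f' ζ') :
    ∫ ζ, f ζ ∂(regGauss Γ) = ∫ ζ, f' ζ ∂(regGauss Γ') := by
  have hΦ : Continuous fun η : κ → ℝ => f (wcmExt a η) := hc.comp (wcm_ext_cont a)
  have e1 : ∀ ζ, f ζ = f (wcmExt a fun x => ζ (a x)) := by
    intro ζ
    rw [hf ζ (wcmExt a' fun x => ζ (a x)) (fun x => by rw [wcm_ext_apply a' ha']),
      hf (wcmExt a fun x => ζ (a x)) (wcmExt a' fun x => ζ (a x)) (fun x => by rw [wcm_ext_apply a' ha', wcm_ext_apply a ha])]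
  have e2 : ∀ ζ', f' ζ' = f (wcmExt a fun x => ζ' (a' x)) := by
    intro ζ'
    rw [hf (wcmExt a fun x => ζ' (a' x)) ζ' (fun x => by rw [wcm_ext_apply a ha])]
  have m1 : Measurable (fun ζ : ι → ℝ => fun x => ζ (a x)) := measurable_pi_lambda _ fun x => measurable_pi_apply _
  have m2 : Measurable (fun ζ : ι' → ℝ => fun x => ζ (a' x)) := measurable_pi_lambda _ fun x => measurable_pi_apply _
  calc ∫ ζ, f ζ ∂(regGauss Γ) = ∫ ζ, (fun η : κ → ℝ => f (wcmExt a η)) (fun x => ζ (a x)) ∂(regGauss Γ) :=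
        integral_congr_ae (Filter.Eventually.of_forall e1)
    _ = ∫ η, f (wcmExt a η) ∂((regGauss Γ).map (fun ζ => fun x => ζ (a x))) :=
        (integral_map m1.aemeasurable hΦ.aestronglyMeasurable).symm
    _ = ∫ η, f (wcmExt a η) ∂((regGauss Γ').map (fun ζ => fun x => ζ (a' x))) := by rw [wcm_marginal Γ Γ' hΓ hΓ' a a' h]
    _ = ∫ ζ, (fun η : κ → ℝ => f (wcmExt a η)) (fun x => ζ (a' x)) ∂(regGauss Γ') :=
        integral_map m2.aemeasurable hΦ.aestronglyMeasurable
    _ = ∫ ζ, f' ζ ∂(regGauss Γ') := integral_congr_ae (Filter.Eventually.of_forall fun ζ' => (e2 ζ').symm)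

end abstract

/-- **Gaussian convolutions of copies are copies.**  `A` = plane support (the folding maps are injective on it), the covariances agree on `A`,
the integrands agree on fields which agree on `A`. -/
theorem wcm_conv_copy {G G' : Geom} (Γ : Matrix G.V G.V ℝ) (Γ' : Matrix G'.V G'.V ℝ) (hΓ : Γ.PosSemidef) (hΓ' : Γ'.PosSemidef)
    (A : Finset (ℤ × ℤ)) (hA : Set.InjOn G.π A) (hA' : Set.InjOn G'.π A)
    (hcov : ∀ x ∈ A, ∀ y ∈ A, Γ (G.π x) (G.π y) = Γ' (G'.π x) (G'.π y))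
    (F : Fn G) (F' : Fn G') (z : G.V → ℂ) (z' : G'.V → ℂ) (hc : Continuous fun ζ : G.V → ℝ => F (z + toC ζ))
    (hF : ∀ (ζ : G.V → ℝ) (ζ' : G'.V → ℝ), (∀ x ∈ A, ζ (G.π x) = ζ' (G'.π x)) → F (z + toC ζ) = F' (z' + toC ζ')) :
    conv Γ F z = conv Γ' F' z' := by
  unfold conv
  rw [reg_gauss_eq, reg_gauss_eq]
  exact wcm_integral_copy Γ Γ' hΓ hΓ' (fun x : A => G.π x.1) (fun x : A => G'.π x.1)
    (fun x y e => Subtype.ext (hA x.2 y.2 e)) (fun x y e => Subtype.ext (hA' x.2 y.2 e))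
    (fun x y => hcov x.1 x.2 y.1 y.2) _ _ hc (fun ζ ζ' h => hF ζ ζ' fun x hx => h ⟨x, hx⟩)

/-! ## Second derivatives of copies -/

section d2

variable {E E' : Type} [NormedAddCommGroup E] [NormedSpace ℂ E] [FiniteDimensional ℂ E]
  [NormedAddCommGroup E'] [NormedSpace ℂ E'] [FiniteDimensional ℂ E']

/-- the mixed second derivative as an iterated derivative along two lines -/
theorem wcm_d2_line {H : E → ℂ} {U : Set E} (hU : IsOpen U) (h0 : (0 : E) ∈ U) (hH : DifferentiableOn ℂ H U) (u v : E) :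
    iteratedFDeriv ℂ 2 H 0 ![u, v] = deriv (fun s : ℂ => deriv (fun t : ℂ => H (s • u + t • v)) 0) 0 := by
  rw [Loc.loc_d2_eq]
  have hcont : Continuous fun s : ℂ => s • u := by fun_prop
  have hnear : ∀ᶠ s : ℂ in 𝓝 0, s • u ∈ U :=
    hcont.continuousAt.eventually_mem (by simpa using hU.mem_nhds h0)
  have h1 : (fun s : ℂ => deriv (fun t : ℂ => H (s • u + t • v)) 0) =ᶠ[𝓝 0] fun s : ℂ => fderiv ℂ H (s • u) v := by
    filter_upwards [hnear] with s hs
    have := Loc.loc_line_hasDerivAt (H := H) (z := s • u) (w := v) (s := 0)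
      (by simpa using (hH _ hs).differentiableAt (hU.mem_nhds hs))
    simpa using this.deriv
  rw [h1.deriv_eq]
  have hD := Hol.hol_fderiv U hU H hH
  have h2 := Loc.loc_line_hasDerivAt (H := fderiv ℂ H) (z := 0) (w := u) (s := 0)
    (by simpa using (hD _ h0).differentiableAt (hU.mem_nhds h0))
  simp only [zero_add, zero_smul] at h2
  have h3 : HasDerivAt (fun s : ℂ => fderiv ℂ H (s • u) v) (fderiv ℂ (fderiv ℂ H) 0 u v) 0 :=
    h2.clm_apply (hasDerivAt_const _ v) |>.congr_deriv (by simp)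
  exact h3.deriv.symm

/-- **second derivatives of copies** -/
theorem wcm_d2_copy {H : E → ℂ} {H' : E' → ℂ} {U : Set E} {U' : Set E'} (hU : IsOpen U) (hU' : IsOpen U') (h0 : (0 : E) ∈ U) (h0' : (0 : E') ∈ U')
    (hH : DifferentiableOn ℂ H U) (hH' : DifferentiableOn ℂ H' U') (u v : E) (u' v' : E')
    (h : ∀ᶠ p : ℂ × ℂ in 𝓝 0, H (p.1 • u + p.2 • v) = H' (p.1 • u' + p.2 • v')) :
    iteratedFDeriv ℂ 2 H 0 ![u, v] = iteratedFDeriv ℂ 2 H' 0 ![u', v'] := by
  rw [wcm_d2_line hU h0 hH, wcm_d2_line hU' h0' hH']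
  apply Filter.EventuallyEq.deriv_eq
  have h' : ∀ᶠ p : ℂ × ℂ in 𝓝 ((0 : ℂ), (0 : ℂ)), H (p.1 • u + p.2 • v) = H' (p.1 • u' + p.2 • v') := h
  filter_upwards [h'.curry_nhds] with s hs
  exact Filter.EventuallyEq.deriv_eq hs

end d2

end

end Claimed.Agent.R285.B8
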