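import Claimed.Agent.R285.Map.WSym

/-!
# ROW 285, unit MAP, weak step: EQUIVARIANCE AND LOCALITY OF THE EXPLICIT MAP `RG.Kprime`, pointwise in the field                   (owner helper202)

The activities are meaningful only inside their strips (junk outside), so identities between activities hold pointwise, at points `z` of a coarse strip.  ONE lemma covers all uses:
`w_Kprime_equiv`: if the inputs `(K, d)`, `(K₂, d₂)` are intertwined by a transformation `T : Tr P Γ` AT THE POINTS `z + ζ` (`ζ` real) ON THE SUPPORTS BELOW `Y`, then so are the outputs at `(Y, z)`.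
`Tr` = (permutations of fine and coarse blocks, a map `θ` of complex fields, a ring endomorphism `τ` of `ℂ`).  Instances: identity (= LOCALITY of `Kprime`), `z ↦ -z` (evenness), `z ↦ z + a` (half period),
complex conjugation, lattice symmetries.
`w_Kprime_equiv` is PROVED from helper79's `F6.Pr.pr_Kprime_transport`.  ONE LEAF: `W-EQ-KLIN` (`w_Klin_equiv`), pure finite algebra.
-/

set_option autoImplicit false

namespace Claimed.Agent.R285.B8

open scoped BigOperators ENNReal NNReal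
open MeasureTheory
open Claimed.Agent.R285.RG Claimed.Agent.R285.Hol

noncomputable section

variable {G : Geom} {D0 ℓ : ℕ}

/-- a transformation of the data of one step -/
structure Tr (P : Pair G D0 ℓ) (Γ : Matrix G.V G.V ℝ) where
  πf : Equiv.Perm P.g.I
  πc : Equiv.Perm P.g'.I
  θ : (G.V → ℂ) → (G.V → ℂ)
  θr : (G.V → ℝ) → (G.V → ℝ)
  τ : ℂ →+* ℂ
  up : ∀ a, P.N.up (πf a) = πc (P.N.up a)
  df : ∀ a b, P.g.idist (πf a) (πf b) = P.g.idist a b
  dc : ∀ a b, P.g'.idist (πc a) (πc b) = P.g'.idist a b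
  add : ∀ z ζ, θ (z + toC ζ) = θ z + toC (θr ζ)
  meas : ∀ f : (G.V → ℝ) → ℂ, ∫ ζ, f (θr ζ) ∂(gauss G Γ) = ∫ ζ, f ζ ∂(gauss G Γ)
  int : ∀ f : (G.V → ℝ) → ℂ, ∫ ζ, τ (f ζ) ∂(gauss G Γ) = τ (∫ ζ, f ζ ∂(gauss G Γ))

variable {P : Pair G D0 ℓ} {Γ : Matrix G.V G.V ℝ}

namespace Tr

/-- action on fine / coarse polymers -/
def mf (T : Tr P Γ) (X : Finset P.g.I) : Finset P.g.I := X.map T.πf.toEmbedding
def mc (T : Tr P Γ) (Y : Finset P.g'.I) : Finset P.g'.I := Y.map T.πc.toEmbedding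

end Tr

/-- closures commute with the transformation (PROVED) -/
theorem w_tr_cl (T : Tr P Γ) (X : Finset P.g.I) : P.N.cl (T.mf X) = T.mc (P.N.cl X) := by
  classical
  ext b
  simp only [Nest.cl, Tr.mf, Tr.mc, Finset.mem_image, Finset.mem_map, Equiv.coe_toEmbedding]
  constructor
  · rintro ⟨_, ⟨a, ha, rfl⟩, rfl⟩
    exact ⟨P.N.up a, ⟨a, ha, rfl⟩, (T.up a).symm⟩
  · rintro ⟨_, ⟨a, ha, rfl⟩, rfl⟩
    exact ⟨T.πf a, ⟨a, ha, rfl⟩, T.up a⟩

/-- the Gaussian convolution is equivariant (PROVED) -/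
theorem w_conv_equiv (T : Tr P Γ) (F F₂ : Fn G) (z : G.V → ℂ) (h : ∀ ζ : G.V → ℝ, F₂ (T.θ (z + toC ζ)) = T.τ (F (z + toC ζ))) :
    conv Γ F₂ (T.θ z) = T.τ (conv Γ F z) := by
  unfold conv
  rw [← T.int, ← T.meas (fun ζ => F₂ (T.θ z + toC ζ))]
  refine integral_congr_ae (Filter.Eventually.of_forall fun ζ => ?_)
  show F₂ (T.θ z + toC (T.θr ζ)) = T.τ (F (z + toC ζ))
  rw [← T.add, h]

/-- **equivariance + locality of the RG map**, PROVED from helper79's transport lemma `F6.Pr.pr_Kprime_transport` (`Obs/PairAlg.lean`, leaves `L-PAIR-A1..A4`) -/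
theorem w_Kprime_equiv (T : Tr P Γ) (r R : ℕ) (K K₂ : Act P.g) (d d₂ : Desig P.g' (Fn G)) (hd : d.Small r P.g') (hd₂ : d₂.Small r P.g')
    (Y : Finset P.g'.I) (z : G.V → ℂ)
    (hK : ∀ X, P.N.cl X ⊆ Y → ∀ ζ : G.V → ℝ, K₂ (T.mf X) (T.θ (z + toC ζ)) = T.τ (K X (z + toC ζ)))
    (hF : ∀ Y' b, b ∈ Y → d₂.F (T.mc Y') (T.πc b) (T.θ z) = T.τ (d.F Y' b z))
    (ha : ∀ b ∈ Y, d₂.a (T.πc b) = T.τ (d.a b)) :
    Kprime P r R (conv Γ) K₂ d₂ (T.mc Y) (T.θ z) = T.τ (Kprime P r R (conv Γ) K d Y z) := by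
  have key := F6.Pr.pr_Kprime_transport (T.τ.comp (Pi.evalRingHom (fun _ : G.V → ℂ => ℂ) z)) (Pi.evalRingHom (fun _ : G.V → ℂ => ℂ) (T.θ z))
    T.πf.toEmbedding T.πc.toEmbedding T.df T.dc T.up (fun a' _ _ => ⟨T.πf.symm a', by simp⟩) r R (conv Γ) (conv Γ) K K₂ d d₂ hd hd₂ Y
    (fun b _ b' _ => ⟨T.πc.symm b', by simp⟩) ?_ ?_ ?_
  · exact key.symm
  · intro V hV
    show T.τ (conv Γ (∏ X ∈ P.g.comps R V, K X) z) = conv Γ (∏ X ∈ P.g.comps R V, K₂ (X.map T.πf.toEmbedding)) (T.θ z)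
    refine (w_conv_equiv T _ _ z fun ζ => ?_).symm
    rw [Finset.prod_apply, Finset.prod_apply, map_prod]
    exact Finset.prod_congr rfl fun X hX => hK X ((Finset.image_subset_image (Alg.comps_subset hX)).trans hV) ζ
  · intro b hb Y'
    exact (hF Y' b hb).symm
  · intro b hb
    show T.τ ((((1 + d.a b)⁻¹ - 1) • (1 : Fn G)) z) = (((1 + d₂.a (T.πc b))⁻¹ - 1) • (1 : Fn G)) (T.θ z)
    rw [ha b hb]
    simp only [Pi.smul_apply, Pi.one_apply, smul_eq_mul, mul_one, map_sub, map_inv₀, map_add, map_one]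

/-! ## LEAF `W-EQ-KLIN` -/

/-- the same for the linear part.  plan: unfold `Klin`; `w_perm_conn` for `πc` (`T.dc`); reindex the sum over `X` by `X ↦ T.mf X` (`w_tr_cl`, `w_perm_conn` for `πf`, injectivity of `Finset.map`), each term by `w_conv_equiv`;
`Finset.sum_map` for the sums over `b ∈ mc Y`; `mc Y = {πc b} ↔ Y = {b}`; reindex `Y' ↦ T.mc Y'` (a bijection of `Finset P.g'.I`; `πc b ∈ mc Y' ↔ b ∈ Y'`); `map_sum`, `map_sub`, `map_add`. -/
theorem w_Klin_equiv (T : Tr P Γ) (R : ℕ) (K K₂ : Act P.g) (d d₂ : Desig P.g' (Fn G)) (Y : Finset P.g'.I) (z : G.V → ℂ)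
    (hK : ∀ X, P.N.cl X ⊆ Y → ∀ ζ : G.V → ℝ, K₂ (T.mf X) (T.θ (z + toC ζ)) = T.τ (K X (z + toC ζ)))
    (hF : ∀ Y' b, b ∈ Y → d₂.F (T.mc Y') (T.πc b) (T.θ z) = T.τ (d.F Y' b z))
    (ha : ∀ b ∈ Y, d₂.a (T.πc b) = T.τ (d.a b)) :
    Klin P R (conv Γ) K₂ d₂ (T.mc Y) (T.θ z) = T.τ (Klin P R (conv Γ) K d Y z) := by
  have hconn : ∀ Y : Finset P.g'.I, P.g'.Conn R (T.mc Y) ↔ P.g'.Conn R Y := fun Y => w_perm_conn T.πc T.dc R Y
  have hconnf : ∀ X : Finset P.g.I, P.g.Conn R (T.mf X) ↔ P.g.Conn R X := fun X => w_perm_conn T.πf T.df R X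
  unfold Klin
  by_cases hY : P.g'.Conn R Y
  · rw [if_pos hY, if_pos ((hconn Y).2 hY)]
    simp only [Pi.add_apply, Pi.sub_apply, Finset.sum_apply, map_add, map_sub, map_sum]
    congr 1
    · congr 1
      · symm
        refine Finset.sum_equiv (Equiv.finsetCongr T.πf) ?_ ?_
        · intro X
          simp only [Finset.mem_filter, Finset.mem_univ, true_and]
          show _ ↔ P.g.Conn R (T.mf X) ∧ P.N.cl (T.mf X) = T.mc Y
          rw [hconnf, w_tr_cl]
          unfold Tr.mc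
          rw [Finset.map_inj]
        · intro X hX
          simp only [Finset.mem_filter, Finset.mem_univ, true_and] at hX
          exact (w_conv_equiv T (K X) (K₂ (T.mf X)) z (fun ζ => hK X hX.2.le ζ)).symm
      · have : ∑ b ∈ T.mc Y, d₂.F (T.mc Y) b (T.θ z) = ∑ b ∈ Y, d₂.F (T.mc Y) (T.πc b) (T.θ z) := by
          conv_lhs => rw [show (T.mc Y) = Y.map T.πc.toEmbedding from rfl]
          rw [Finset.sum_map]
          rfl
        rw [this]
        exact Finset.sum_congr rfl fun b hb => hF Y b hb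
    · have : ∀ f : P.g'.I → ℂ, ∑ b ∈ T.mc Y, f b = ∑ b ∈ Y, f (T.πc b) := by
        intro f
        unfold Tr.mc
        rw [Finset.sum_map]
        rfl
      rw [this]
      refine Finset.sum_congr rfl fun b hb => ?_
      by_cases hb1 : Y = {b}
      · have hb2 : T.mc Y = {T.πc b} := by
          rw [hb1]
          unfold Tr.mc
          rw [Finset.map_singleton]
          rfl
        rw [if_pos hb1, if_pos hb2]
        simp only [Pi.sub_apply, Finset.sum_apply, Pi.smul_apply, Pi.one_apply, smul_eq_mul, mul_one, map_sub, map_sum, ha b hb]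
        congr 1
        symm
        refine Finset.sum_equiv (Equiv.finsetCongr T.πc) (fun _ => by simp) ?_
        intro Y' _
        show T.τ ((if b ∈ Y' then d.F Y' b else 0) z) = (if T.πc b ∈ T.mc Y' then d₂.F (T.mc Y') (T.πc b) else 0) (T.θ z)
        by_cases hbY : b ∈ Y'
        · have : T.πc b ∈ T.mc Y' := Finset.mem_map_of_mem T.πc.toEmbedding hbY
          rw [if_pos hbY, if_pos this, hF Y' b hb]
        · have : T.πc b ∉ T.mc Y' := by
            intro h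
            apply hbY
            unfold Tr.mc at h
            simpa using h
          rw [if_neg hbY, if_neg this]
          simp
      · have hb2 : T.mc Y ≠ {T.πc b} := by
          intro h
          apply hb1
          have h' : Y.map T.πc.toEmbedding = ({b} : Finset P.g'.I).map T.πc.toEmbedding := by
            rw [Finset.map_singleton]
            exact h
          exact Finset.map_inj.1 h'
        rw [if_neg hb1, if_neg hb2]
        simp
  · rw [if_neg hY, if_neg (fun h => hY ((hconn Y).1 h))]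
    simp

/-! ## The instances -/

/-- the identity -/
def Tr.one (P : Pair G D0 ℓ) (Γ : Matrix G.V G.V ℝ) : Tr P Γ where
  πf := 1
  πc := 1
  θ := id
  θr := id
  τ := RingHom.id ℂ
  up := fun _ => rfl
  df := fun _ _ => rfl
  dc := fun _ _ => rfl
  add := fun _ _ => rfl
  meas := fun _ => rfl
  int := fun _ => rfl

/-- translation by a complex constant field -/
def Tr.shift (P : Pair G D0 ℓ) (Γ : Matrix G.V G.V ℝ) (a : ℂ) : Tr P Γ where
  πf := 1
  πc := 1
  θ := fun z v => z v + a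
  θr := id
  τ := RingHom.id ℂ
  up := fun _ => rfl
  df := fun _ _ => rfl
  dc := fun _ _ => rfl
  add := fun z ζ => by funext v; simp only [Pi.add_apply, id]; ring
  meas := fun _ => rfl
  int := fun _ => rfl

/-- `z ↦ -z` -/
def Tr.neg (P : Pair G D0 ℓ) (Γ : Matrix G.V G.V ℝ) (hΓ : Γ.PosSemidef) : Tr P Γ where
  πf := 1
  πc := 1
  θ := fun z => -z
  θr := fun ζ => -ζ
  τ := RingHom.id ℂ
  up := fun _ => rfl
  df := fun _ _ => rfl
  dc := fun _ _ => rfl
  add := fun z ζ => by funext v; simp [toC]; ring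
  meas := fun f => w_gauss_neg Γ hΓ f
  int := fun _ => rfl

/-- complex conjugation -/
def Tr.conj (P : Pair G D0 ℓ) (Γ : Matrix G.V G.V ℝ) : Tr P Γ where
  πf := 1
  πc := 1
  θ := fun z v => starRingEnd ℂ (z v)
  θr := id
  τ := starRingEnd ℂ
  up := fun _ => rfl
  df := fun _ _ => rfl
  dc := fun _ _ => rfl
  add := fun z ζ => by funext v; simp [toC]
  meas := fun _ => rfl
  int := fun _ => integral_conj

/-- a lattice symmetry of both grids -/
def Tr.sym (P : Pair G D0 ℓ) (Γ : Matrix G.V G.V ℝ) (hΓ : Γ.PosSemidef) (hG : G.bc = BC.per) (hM : 3 ≤ G.M) (s : GridSym P.g) (s' : GridSym P.g')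
    (hσ : s.σ = s'.σ) (hs : ∀ v w, Γ (s.σ v) (s.σ w) = Γ v w) : Tr P Γ where
  πf := s.τ
  πc := s'.τ
  θ := symF s
  θr := symF s
  τ := RingHom.id ℂ
  up := fun a => by
    obtain ⟨v1, h1⟩ := P.ok.surj a.1
    obtain ⟨v2, h2⟩ := P.ok.surj a.2
    have ha : a = P.g.blk (v1, v2) := by ext <;> simp [Grid.blk, h1, h2]
    rw [ha, ← s.blk, ← Hol.blk_up, ← Hol.blk_up, hσ, s'.blk]
  df := w_sym_idist hG hM P.ok s
  dc := w_sym_idist hG hM P.ok' s'
  add := fun _ _ => rfl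
  meas := fun f => w_gauss_sym Γ hΓ s hs f
  int := fun _ => rfl

/-- **locality of `Kprime`** (PROVED): the value at `(Y, z)` only depends on `K X` at `z + ζ`, `\bar X ⊆ Y`, on `d.F Y' b` at `z` and on `d.a b`, `b ∈ Y` -/
theorem w_Kprime_congr (r R : ℕ) (K K₂ : Act P.g) (d d₂ : Desig P.g' (Fn G)) (hd : d.Small r P.g') (hd₂ : d₂.Small r P.g') (Y : Finset P.g'.I) (z : G.V → ℂ)
    (hK : ∀ X, P.N.cl X ⊆ Y → ∀ ζ : G.V → ℝ, K₂ X (z + toC ζ) = K X (z + toC ζ))
    (hF : ∀ Y' b, b ∈ Y → d₂.F Y' b z = d.F Y' b z) (ha : ∀ b ∈ Y, d₂.a b = d.a b) :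
    Kprime P r R (conv Γ) K₂ d₂ Y z = Kprime P r R (conv Γ) K d Y z := by
  have e1 : ∀ X : Finset P.g.I, (Tr.one P Γ).mf X = X := fun X => by
    show X.map (Equiv.toEmbedding 1) = X
    ext a; simp; rfl
  have e2 : ∀ X : Finset P.g'.I, (Tr.one P Γ).mc X = X := fun X => by
    show X.map (Equiv.toEmbedding 1) = X
    ext a; simp; rfl
  have h := w_Kprime_equiv (Tr.one P Γ) r R K K₂ d d₂ hd hd₂ Y z
    (fun X hX ζ => by rw [e1]; exact hK X hX ζ)
    (fun Y' b hb => by rw [e2]; exact hF Y' b hb)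
    (fun b hb => ha b hb)
  rw [e2] at h
  exact h

/-- corollary (PROVED, `Scal.Kprime_congr`): `Kprime` respects `EqOn` in `K` -/
theorem w_Kprime_eqOn (h0 : ℝ≥0) (r R : ℕ) (K K₂ : Act P.g) (d : Desig P.g' (Fn G)) (h : EqOn h0 K₂ K) :
    EqOn h0 (Kprime P r R (conv Γ) K₂ d) (Kprime P r R (conv Γ) K d) := fun Y z hz =>
  Scal.Kprime_congr P Γ h0 r R K₂ K d d h (fun _ _ _ _ => rfl) (fun _ => rfl) Y z hz

/-- (PROVED, `Scal.Klin_congr`) -/
theorem w_Klin_eqOn (h0 : ℝ≥0) (R : ℕ) (K K₂ : Act P.g) (d : Desig P.g' (Fn G)) (h : EqOn h0 K₂ K) :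
    EqOn h0 (Klin P R (conv Γ) K₂ d) (Klin P R (conv Γ) K d) := fun Y z hz =>
  Scal.Klin_congr P Γ h0 R K₂ K d d h (fun _ _ _ _ => rfl) (fun _ => rfl) Y z hz

end

end Claimed.Agent.R285.B8
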