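import Claimed.Agent.R285.Map.WLin

/-!
# ROW 285, unit MAP, weak step: THE QUALITATIVE FIELDS OF `WeakOK` (generic in `cosOn`, no smallness of `K`)                    (owner helper90)

`adm`, `adm_lin` (the class is preserved), `conj`, `parity` (equivariance), `exact` (rg:exact-map), `hol` (Gateaux holomorphy).
Everything is PROVED from the kits `WSing`, `WSym`, `WEquiv`, `WDes` (helper202) and the exports of `Scal/Ok.lean`, `B4.exact_map`.  NO LEAF IN THIS FILE.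
Only FINITENESS of the norms is used (never smallness), except `1 + a_b ≠ 0` in `exact`, `hol`: so the fields hold for every `z`, also in the no-cosine variants where `α` is unbounded.
-/

set_option autoImplicit false

namespace Claimed.Agent.R285.B8

open scoped BigOperators ENNReal NNReal
open MeasureTheory
open Claimed.Agent.R285.RG Claimed.Agent.R285.Hol

noncomputable section

variable {G : Geom} {D0 ℓ : ℕ} {c : Geo} {p : Par} {gs : Grid G} {S : Step G D0 ℓ}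

/-! ## consequences of the standing hypotheses -/

theorem Ctx.hR (h : Ctx c p gs S) : max 5 S.Vf.sep ≤ c.R := by
  have h1 := h.ok.sepf
  have h2 := h.geo.hs
  have h3 := h.geo.hrR
  omega

theorem Ctx.hcol' (h : Ctx c p gs S) : 2 * c.col < S.P.g'.m := by
  have h3 : 1 ≤ 2 ^ ℓ := Nat.one_le_two_pow
  calc 2 * c.col < S.P.g.m := h.ok.col
    _ = 1 * S.P.g.m := (one_mul _).symm
    _ ≤ 2 ^ ℓ * S.P.g.m := Nat.mul_le_mul_right _ h3
    _ = S.P.g'.m := S.P.hS.symm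

theorem Ctx.hA0 (h : Ctx c p gs S) : 0 < p.A := lt_of_lt_of_le one_pos h.hA

/-- the singletons have a finite norm, for every `z` and every `ω` -/
theorem w_single_fin (p : Par) (hδ : 0 < p.δ) (hκ : 0 < p.κ) (hA : 1 ≤ p.A) (hω : 0 < p.ω) (g : Grid G) (hg : g.Ok) (V : Extra g) (t z : ℂ) :
    actNorm p g V (single g (Step.alpha p.ω) t z) ≠ ⊤ := by
  obtain ⟨Cs, hCs⟩ := w_single_norm p.δ p.κ p.h0 hδ hκ (Step.alpha p.ω)
  have := hCs p.A p.ω hA hω G g hg V t z (Or.inr le_rfl)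
  refine ne_top_of_le_ne_top ?_ this
  exact ENNReal.mul_ne_top ENNReal.ofReal_ne_top
    (ENNReal.mul_ne_top ENNReal.coe_ne_top (ENNReal.add_ne_top.2 ⟨ENNReal.coe_ne_top, ENNReal.coe_ne_top⟩))

theorem w_Kof_fin (h : Ctx c p gs S) (x : ℂ × ℂ × Act S.P.g) (hfin : actNorm p S.P.g S.Vf x.2.2 ≠ ⊤) :
    actNorm p S.P.g S.Vf (Kof S.P.g (Step.alpha p.ω) x) ≠ ⊤ :=
  ne_top_of_le_ne_top (ENNReal.add_ne_top.2
    ⟨w_single_fin p h.ok.admf.δ_pos h.ok.admf.κ_pos h.hA h.hω S.P.g S.P.ok S.Vf x.1 x.2.1, hfin⟩) (w_actNorm_add_le _ _ _ _ _)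

theorem w_Kof_cls (h : Ctx c p gs S) (x : ℂ × ℂ × Act S.P.g) (hx : Adm p c gs x.2.2) : Adm p c gs (Kof S.P.g (Step.alpha p.ω) x) :=
  w_cls_add p c.col c.R gs (w_single_cls p h.hω c.col c.R h.geo.col_pos h.ok.per gs x.1 x.2.1) hx

theorem w_fin_of_size3 {g : Grid G} {V : Extra g} {x : ℂ × ℂ × Act g} (hx : size3 p g V x ≠ ⊤) : actNorm p g V x.2.2 ≠ ⊤ :=
  ne_top_of_le_ne_top hx (w_actNorm_le_size3 p g V x)

theorem w_map_one {α : Type} (X : Finset α) : X.map (1 : Equiv.Perm α).toEmbedding = X :=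
  Finset.map_refl

theorem w_mf_one {P : Pair G D0 ℓ} {Γ : Matrix G.V G.V ℝ} (T : Tr P Γ) (hT : T.πf = 1) (X : Finset P.g.I) : T.mf X = X := by
  unfold Tr.mf; rw [hT]; exact w_map_one X

theorem w_mc_one {P : Pair G D0 ℓ} {Γ : Matrix G.V G.V ℝ} (T : Tr P Γ) (hT : T.πc = 1) (Y : Finset P.g'.I) : T.mc Y = Y := by
  unfold Tr.mc; rw [hT]; exact w_map_one Y

/-! ## the class is preserved -/

/-- `K'` of an activity of the class, with the designated data of the weak map -/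
theorem w_Kprime_cls (h : Ctx c p gs S) (cosOn : Bool) (K : Act S.P.g) (hK : Adm p c gs K) (hKf : actNorm p S.P.g S.Vf K ≠ ⊤)
    (x : ℂ × ℂ × Act S.P.g) (hx : Adm p c gs x.2.2) (hfin : actNorm p S.P.g S.Vf x.2.2 ≠ ⊤) :
    Adm p c gs (Kprime S.P c.r c.R (conv S.Γ) K (S.desig c p.ω cosOn x)) where
  ok := Scal.Kprime_ok' S.P S.Γ S.Vf S.Vc p c.col c.r c.R c.n0 c.cst h.hR K hK.ok.fn
    (Scal.fnSize_ne_top p h.hA0 S.P.g S.Vf K hKf) h.ok.reg _ (w_desig_fn h cosOn x)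
  even := fun Y z hz => by
    have key := w_Kprime_equiv (Tr.neg S.P S.Γ h.psd) c.r c.R K K (S.desig c p.ω cosOn x) (S.desig c p.ω cosOn x)
      (w_desig_small h cosOn x) (w_desig_small h cosOn x) Y z
      (fun X hX ζ => by
        rw [w_mf_one _ rfl]
        exact hK.even X _ (strip_add_toC (w_strip_coarse S.P p.h0 hX hz) ζ))
      (fun Y' b _ => by
        rw [w_mc_one _ rfl]
        exact w_desig_even h cosOn x Y' b z)
      (fun b _ => rfl)
    rw [w_mc_one _ rfl] at key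
    exact key
  sym := fun s' hs' Y z hz _ => by
    obtain ⟨s, hσ, hs⟩ := h.ok.nest s' hs'
    have key := w_Kprime_equiv (Tr.sym S.P S.Γ h.psd h.ok.per h.hM s s' hσ (h.ok.inv s)) c.r c.R K K
      (S.desig c p.ω cosOn x) (S.desig c p.ω cosOn x) (w_desig_small h cosOn x) (w_desig_small h cosOn x) Y z
      (fun X hX ζ => by
        have hz1 : z + toC ζ ∈ strip p.h0 S.P.g X := strip_add_toC (w_strip_coarse S.P p.h0 hX hz) ζ
        exact hK.sym s hs X _ hz1 ((w_sym_strip h.ok.per h.hM S.P.ok s p.h0 X _).2 hz1))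
      (fun Y' b _ => (w_desig_sym h cosOn x hx hfin s s' hσ hs).1 Y' b z)
      (fun b _ => (w_desig_sym h cosOn x hx hfin s s' hσ hs).2 b)
    have e : (fun v => z (s'.σ.symm v)) = symF s z := by
      funext v; simp only [symF, hσ]
    rw [e]; exact key

/-- the same for the linear part -/
theorem w_Klin_cls (h : Ctx c p gs S) (cosOn : Bool) (K : Act S.P.g) (hK : Adm p c gs K) (hKf : actNorm p S.P.g S.Vf K ≠ ⊤)
    (x : ℂ × ℂ × Act S.P.g) (hx : Adm p c gs x.2.2) (hfin : actNorm p S.P.g S.Vf x.2.2 ≠ ⊤) :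
    Adm p c gs (Klin S.P c.R (conv S.Γ) K (S.desig c p.ω cosOn x)) where
  ok := Scal.Klin_ok' S.P S.Γ S.Vf S.Vc p c.col c.R c.n0 c.cst K hK.ok.fn
    (Scal.fnSize_ne_top p h.hA0 S.P.g S.Vf K hKf) h.ok.reg _ (w_desig_fn h cosOn x)
  even := fun Y z hz => by
    have key := w_Klin_equiv (Tr.neg S.P S.Γ h.psd) c.R K K (S.desig c p.ω cosOn x) (S.desig c p.ω cosOn x) Y z
      (fun X hX ζ => by
        rw [w_mf_one _ rfl]
        exact hK.even X _ (strip_add_toC (w_strip_coarse S.P p.h0 hX hz) ζ))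
      (fun Y' b _ => by
        rw [w_mc_one _ rfl]
        exact w_desig_even h cosOn x Y' b z)
      (fun b _ => rfl)
    rw [w_mc_one _ rfl] at key
    exact key
  sym := fun s' hs' Y z hz _ => by
    obtain ⟨s, hσ, hs⟩ := h.ok.nest s' hs'
    have key := w_Klin_equiv (Tr.sym S.P S.Γ h.psd h.ok.per h.hM s s' hσ (h.ok.inv s)) c.R K K
      (S.desig c p.ω cosOn x) (S.desig c p.ω cosOn x) Y z
      (fun X hX ζ => by
        have hz1 : z + toC ζ ∈ strip p.h0 S.P.g X := strip_add_toC (w_strip_coarse S.P p.h0 hX hz) ζ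
        exact hK.sym s hs X _ hz1 ((w_sym_strip h.ok.per h.hM S.P.ok s p.h0 X _).2 hz1))
      (fun Y' b _ => (w_desig_sym h cosOn x hx hfin s s' hσ hs).1 Y' b z)
      (fun b _ => (w_desig_sym h cosOn x hx hfin s s' hσ hs).2 b)
    have e : (fun v => z (s'.σ.symm v)) = symF s z := by
      funext v; simp only [symF, hσ]
    rw [e]; exact key

/-- **`WeakOK.adm`** (only finiteness is used) -/
theorem w_adm (h : Ctx c p gs S) (cosOn : Bool) (x : ℂ × ℂ × Act S.P.g) (hx : Adm p c gs x.2.2) (hfin : actNorm p S.P.g S.Vf x.2.2 ≠ ⊤) :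
    Adm p c gs (S.Phi c p.ω cosOn x).2.2 :=
  w_cls_sub p c.col c.R gs (w_Kprime_cls h cosOn _ (w_Kof_cls h x hx) (w_Kof_fin h x hfin) x hx hfin)
    (w_single_cls p h.hω c.col c.R h.geo.col_pos h.ok.per gs _ _)

/-- **`WeakOK.adm_lin`** -/
theorem w_adm_lin (h : Ctx c p gs S) (cosOn : Bool) (Rm : Act S.P.g) (hR : Adm p c gs Rm) (hfin : actNorm p S.P.g S.Vf Rm ≠ ⊤) :
    Adm p c gs (S.Clin c p.ω cosOn Rm) :=
  w_cls_sub p c.col c.R gs (w_Klin_cls h cosOn Rm hR hfin (0, 0, Rm) hR hfin)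
    (w_single_cls p h.hω c.col c.R h.geo.col_pos h.ok.per gs _ _)

/-! ## complex conjugation -/

/-- **`WeakOK.conj`** -/
theorem w_conj (h : Ctx c p gs S) (cosOn : Bool) (x : ℂ × ℂ × Act S.P.g) (hx : Adm p c gs x.2.2) (hfin : actNorm p S.P.g S.Vf x.2.2 ≠ ⊤) :
    (S.Phi c p.ω cosOn (starRingEnd ℂ x.1, starRingEnd ℂ x.2.1, conjAct x.2.2)).1 = starRingEnd ℂ (S.Phi c p.ω cosOn x).1 ∧
    (S.Phi c p.ω cosOn (starRingEnd ℂ x.1, starRingEnd ℂ x.2.1, conjAct x.2.2)).2.1 = starRingEnd ℂ (S.Phi c p.ω cosOn x).2.1 ∧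
    EqOn p.h0 (S.Phi c p.ω cosOn (starRingEnd ℂ x.1, starRingEnd ℂ x.2.1, conjAct x.2.2)).2.2 (conjAct (S.Phi c p.ω cosOn x).2.2) := by
  obtain ⟨hF, ha, hPt, hPz⟩ := w_desig_conj h cosOn x hx hfin
  have e1 : (S.tz c p.ω cosOn (starRingEnd ℂ x.1, starRingEnd ℂ x.2.1, conjAct x.2.2)).1 = starRingEnd ℂ (S.tz c p.ω cosOn x).1 := by
    show starRingEnd ℂ x.1 + S.Pt c p.ω (conjAct x.2.2) = starRingEnd ℂ (x.1 + S.Pt c p.ω x.2.2)
    rw [hPt, map_add]
  have e2 : (S.tz c p.ω cosOn (starRingEnd ℂ x.1, starRingEnd ℂ x.2.1, conjAct x.2.2)).2 = starRingEnd ℂ (S.tz c p.ω cosOn x).2 := by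
    show (if cosOn then (S.lam p.ω : ℂ) * starRingEnd ℂ x.2.1 + S.Pz c p.ω (conjAct x.2.2) else 0)
      = starRingEnd ℂ (if cosOn then (S.lam p.ω : ℂ) * x.2.1 + S.Pz c p.ω x.2.2 else 0)
    cases cosOn
    · simp
    · simp only [if_true, hPz, map_add, map_mul, Complex.conj_ofReal]
  refine ⟨e1, e2, fun Y z hz => ?_⟩
  have key := w_Kprime_equiv (Tr.conj S.P S.Γ) c.r c.R (Kof S.P.g (Step.alpha p.ω) x)
    (Kof S.P.g (Step.alpha p.ω) (starRingEnd ℂ x.1, starRingEnd ℂ x.2.1, conjAct x.2.2))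
    (S.desig c p.ω cosOn x) (S.desig c p.ω cosOn (starRingEnd ℂ x.1, starRingEnd ℂ x.2.1, conjAct x.2.2))
    (w_desig_small h cosOn _) (w_desig_small h cosOn _) Y (fun v => starRingEnd ℂ (z v))
    (fun X _ ζ => by
      rw [w_mf_one _ rfl]
      show (single S.P.g (Step.alpha p.ω) (starRingEnd ℂ x.1) (starRingEnd ℂ x.2.1) + conjAct x.2.2) X _ = _
      rw [← w_conjAct_single]
      show starRingEnd ℂ _ + starRingEnd ℂ _ = starRingEnd ℂ (_ + _)
      rw [map_add]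
      simp only [Tr.conj, Complex.conj_conj])
    (fun Y' b _ => by
      rw [w_mc_one _ rfl]
      exact hF Y' b _)
    (fun b _ => ha b)
  rw [w_mc_one _ rfl] at key
  have ez : (Tr.conj S.P S.Γ).θ (fun v => starRingEnd ℂ (z v)) = z := by
    funext v; simp only [Tr.conj, Complex.conj_conj]
  rw [ez] at key
  show Kprime S.P c.r c.R (conv S.Γ) _ _ Y z - single S.P.g' (Step.alpha p.ω) _ _ Y z
    = starRingEnd ℂ (Kprime S.P c.r c.R (conv S.Γ) _ _ Y (fun v => starRingEnd ℂ (z v)) - single S.P.g' (Step.alpha p.ω) _ _ Y (fun v => starRingEnd ℂ (z v)))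
  rw [map_sub, key, e1, e2, ← w_conjAct_single]
  rfl

/-! ## half-period parity -/

/-- **`WeakOK.parity`** -/
theorem w_parity (h : Ctx c p gs S) (cosOn : Bool) (x : ℂ × ℂ × Act S.P.g) (hx : Adm p c gs x.2.2) :
    (S.Phi c p.ω cosOn (x.1, -x.2.1, halfShift p.ω x.2.2)).1 = (S.Phi c p.ω cosOn x).1 ∧
    (S.Phi c p.ω cosOn (x.1, -x.2.1, halfShift p.ω x.2.2)).2.1 = -(S.Phi c p.ω cosOn x).2.1 ∧
    EqOn p.h0 (S.Phi c p.ω cosOn (x.1, -x.2.1, halfShift p.ω x.2.2)).2.2 (halfShift p.ω (S.Phi c p.ω cosOn x).2.2) := by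
  obtain ⟨hF, ha, hPt, hPz⟩ := w_desig_half h cosOn x hx
  have e1 : (S.tz c p.ω cosOn (x.1, -x.2.1, halfShift p.ω x.2.2)).1 = (S.tz c p.ω cosOn x).1 := by
    show x.1 + S.Pt c p.ω (halfShift p.ω x.2.2) = x.1 + S.Pt c p.ω x.2.2
    rw [hPt]
  have e2 : (S.tz c p.ω cosOn (x.1, -x.2.1, halfShift p.ω x.2.2)).2 = -(S.tz c p.ω cosOn x).2 := by
    show (if cosOn then (S.lam p.ω : ℂ) * -x.2.1 + S.Pz c p.ω (halfShift p.ω x.2.2) else 0)
      = -(if cosOn then (S.lam p.ω : ℂ) * x.2.1 + S.Pz c p.ω x.2.2 else 0)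
    cases cosOn
    · simp
    · simp only [if_true, hPz]; ring
  refine ⟨e1, e2, fun Y z hz => ?_⟩
  have key := w_Kprime_equiv (Tr.shift S.P S.Γ ((p.ω / 2 : ℝ) : ℂ)) c.r c.R
    (Kof S.P.g (Step.alpha p.ω) (x.1, -x.2.1, halfShift p.ω x.2.2)) (Kof S.P.g (Step.alpha p.ω) x)
    (S.desig c p.ω cosOn (x.1, -x.2.1, halfShift p.ω x.2.2)) (S.desig c p.ω cosOn x)
    (w_desig_small h cosOn _) (w_desig_small h cosOn _) Y z
    (fun X _ ζ => by
      rw [w_mf_one _ rfl]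
      show _ = (single S.P.g (Step.alpha p.ω) x.1 (-x.2.1) + halfShift p.ω x.2.2) X _
      rw [← w_halfShift_single _ _ h.hω]
      rfl)
    (fun Y' b _ => by
      rw [w_mc_one _ rfl]
      exact (hF Y' b z).symm)
    (fun b _ => (congrFun ha b).symm)
  rw [w_mc_one _ rfl] at key
  show Kprime S.P c.r c.R (conv S.Γ) _ _ Y z - single S.P.g' (Step.alpha p.ω) _ _ Y z
    = Kprime S.P c.r c.R (conv S.Γ) _ _ Y (fun v => z v + ((p.ω / 2 : ℝ) : ℂ)) - single S.P.g' (Step.alpha p.ω) _ _ Y (fun v => z v + ((p.ω / 2 : ℝ) : ℂ))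
  rw [e1, e2, ← w_halfShift_single _ _ h.hω]
  have key' : Kprime S.P c.r c.R (conv S.Γ) (Kof S.P.g (Step.alpha p.ω) x) (S.desig c p.ω cosOn x) Y (fun v => z v + ((p.ω / 2 : ℝ) : ℂ))
      = Kprime S.P c.r c.R (conv S.Γ) (Kof S.P.g (Step.alpha p.ω) (x.1, -x.2.1, halfShift p.ω x.2.2))
          (S.desig c p.ω cosOn (x.1, -x.2.1, halfShift p.ω x.2.2)) Y z := key
  rw [key']
  rfl

/-! ## the exact identity -/

/-- **`WeakOK.exact`** -/
theorem w_exact (h : Ctx c p gs S) (cosOn : Bool) (x : ℂ × ℂ × Act S.P.g) (hx : Adm p c gs x.2.2) (hfin : actNorm p S.P.g S.Vf x.2.2 ≠ ⊤)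
    (ha : ∀ b, ‖(S.desig c p.ω cosOn x).a b‖ ≤ 1 / 2) (z : G.V → ℂ) (hz : z ∈ strip p.h0 S.P.g' Finset.univ) :
    conv S.Γ (ZA S.P.g c.R (Kof S.P.g (Step.alpha p.ω) x)) z
      = (∏ b : S.P.g'.I, (1 + (S.desig c p.ω cosOn x).a b)) * ZA S.P.g' c.R (Kof S.P.g' (Step.alpha p.ω) (S.Phi c p.ω cosOn x)) z := by
  rw [w_Kof_Phi]
  exact B4.exact_map S.P S.Γ S.Vf S.Vc p h.hA0 c.ρ c.col c.r c.R c.n0 c.cst h.geo.hρ h.geo.hrR h.hcol' h.hL h.hR h.psd h.ok.shell.range _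
    (w_Kof_cls h x hx).ok (w_Kof_fin h x hfin) h.ok.reg _ (w_desig_ok h cosOn x ha) z hz

/-! ## Gateaux holomorphy -/

/-- the singletons depend holomorphically on the two coefficients -/
theorem w_single_diff (g : Grid G) (α : ℝ) (Y : Finset g.I) (w : G.V → ℂ) {t z : ℂ → ℂ} {s0 : ℂ} (ht : DifferentiableAt ℂ t s0) (hz : DifferentiableAt ℂ z s0) :
    DifferentiableAt ℂ (fun s => single g α (t s) (z s) Y w) s0 := by
  by_cases hY : ∃ B, Y = {B}
  · obtain ⟨B, rfl⟩ := hY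
    have : (fun s => single g α (t s) (z s) {B} w) = fun s => t s / 2 * eBC g B w + z s * cBC g α B w := by
      funext s; rw [w_single_singleton]; rfl
    rw [this]
    exact ((ht.div_const 2).mul_const _).add (hz.mul_const _)
  · have : (fun s => single g α (t s) (z s) Y w) = fun _ => 0 := by
      funext s; rw [w_single_of_ne _ _ _ _ _ fun B hB => hY ⟨B, hB⟩]; rfl
    rw [this]; exact differentiableAt_const _

/-- all the linear data are affine along a complex line -/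
theorem w_affine (h : Ctx c p gs S) (cosOn : Bool) (x y : ℂ × ℂ × Act S.P.g) (hx : Adm p c gs x.2.2) (hy : Adm p c gs y.2.2)
    (hfx : actNorm p S.P.g S.Vf x.2.2 ≠ ⊤) (hfy : actNorm p S.P.g S.Vf y.2.2 ≠ ⊤) (s : ℂ) :
    Adm p c gs (x + s • y).2.2 ∧ actNorm p S.P.g S.Vf (x + s • y).2.2 ≠ ⊤ ∧
    (S.desig c p.ω cosOn (x + s • y)).F = (S.desig c p.ω cosOn x).F + s • (S.desig c p.ω cosOn y).F ∧
    (S.desig c p.ω cosOn (x + s • y)).a = (S.desig c p.ω cosOn x).a + s • (S.desig c p.ω cosOn y).a ∧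
    (S.tz c p.ω cosOn (x + s • y)).1 = (S.tz c p.ω cosOn x).1 + s * (S.tz c p.ω cosOn y).1 ∧
    (S.tz c p.ω cosOn (x + s • y)).2 = (S.tz c p.ω cosOn x).2 + s * (S.tz c p.ω cosOn y).2 := by
  have hsy : Adm p c gs (s • y).2.2 := w_cls_smul p c.col c.R gs s hy
  have hfs : actNorm p S.P.g S.Vf (s • y).2.2 ≠ ⊤ :=
    ne_top_of_le_ne_top (ENNReal.mul_ne_top ENNReal.coe_ne_top hfy) (w_actNorm_smul_le p S.P.g S.Vf s y.2.2)
  obtain ⟨a1, a2⟩ := w_desig_add h cosOn x (s • y) hx hsy hfx hfs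
  obtain ⟨b1, b2⟩ := w_desig_smul h cosOn s y hy hfy
  obtain ⟨c1, c2⟩ := w_Pt_add h hx hsy hfx hfs
  obtain ⟨d1, d2⟩ := w_Pt_smul h s hy hfy
  have c1' : S.Pt c p.ω (x.2.2 + s • y.2.2) = S.Pt c p.ω x.2.2 + s * S.Pt c p.ω y.2.2 := by rw [← d1]; exact c1
  have c2' : S.Pz c p.ω (x.2.2 + s • y.2.2) = S.Pz c p.ω x.2.2 + s * S.Pz c p.ω y.2.2 := by rw [← d2]; exact c2
  refine ⟨w_cls_add p c.col c.R gs hx hsy, ne_top_of_le_ne_top (ENNReal.add_ne_top.2 ⟨hfx, hfs⟩) (w_actNorm_add_le _ _ _ _ _),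
    by rw [a1, b1], by rw [a2, b2], ?_, ?_⟩
  · show (x.1 + s * y.1) + S.Pt c p.ω (x.2.2 + s • y.2.2) = (x.1 + S.Pt c p.ω x.2.2) + s * (y.1 + S.Pt c p.ω y.2.2)
    rw [c1']; ring
  · show (if cosOn then (S.lam p.ω : ℂ) * (x.2.1 + s * y.2.1) + S.Pz c p.ω (x.2.2 + s • y.2.2) else 0)
      = (if cosOn then (S.lam p.ω : ℂ) * x.2.1 + S.Pz c p.ω x.2.2 else 0) + s * (if cosOn then (S.lam p.ω : ℂ) * y.2.1 + S.Pz c p.ω y.2.2 else 0)
    cases cosOn
    · simp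
    · simp only [if_true]; rw [c2']; ring

/-- **`WeakOK.hol`** -/
theorem w_hol (h : Ctx c p gs S) (cosOn : Bool) (x y : ℂ × ℂ × Act S.P.g) (hx : Adm p c gs x.2.2) (hy : Adm p c gs y.2.2)
    (hfx : actNorm p S.P.g S.Vf x.2.2 ≠ ⊤) (hfy : actNorm p S.P.g S.Vf y.2.2 ≠ ⊤) (ha : ∀ b, ‖(S.desig c p.ω cosOn x).a b‖ ≤ 1 / 2) :
    DifferentiableAt ℂ (fun s : ℂ => (S.Phi c p.ω cosOn (x + s • y)).1) 0 ∧ DifferentiableAt ℂ (fun s : ℂ => (S.Phi c p.ω cosOn (x + s • y)).2.1) 0 ∧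
    ∀ Y, ∀ z ∈ strip p.h0 S.P.g' Y, DifferentiableAt ℂ (fun s : ℂ => (S.Phi c p.ω cosOn (x + s • y)).2.2 Y z) 0 := by
  have aff := w_affine h cosOn x y hx hy hfx hfy
  have ht : Differentiable ℂ (fun s : ℂ => (S.tz c p.ω cosOn (x + s • y)).1) := by
    have : (fun s : ℂ => (S.tz c p.ω cosOn (x + s • y)).1) = fun s => (S.tz c p.ω cosOn x).1 + s * (S.tz c p.ω cosOn y).1 :=
      funext fun s => (aff s).2.2.2.2.1
    rw [this]; fun_prop
  have hz : Differentiable ℂ (fun s : ℂ => (S.tz c p.ω cosOn (x + s • y)).2) := by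
    have : (fun s : ℂ => (S.tz c p.ω cosOn (x + s • y)).2) = fun s => (S.tz c p.ω cosOn x).2 + s * (S.tz c p.ω cosOn y).2 :=
      funext fun s => (aff s).2.2.2.2.2
    rw [this]; fun_prop
  refine ⟨ht 0, hz 0, fun Y z hzY => ?_⟩
  -- the neighbourhood of `0`
  let U : Set ℂ := Metric.ball 0 1 ∩ ⋂ b : S.P.g'.I, {s : ℂ | 1 + ((S.desig c p.ω cosOn x).a b + s * (S.desig c p.ω cosOn y).a b) ≠ 0}
  have hU : IsOpen U := Metric.isOpen_ball.inter (isOpen_iInter_of_finite fun b => isOpen_ne_fun (by fun_prop) continuous_const)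
  have h0U : (0 : ℂ) ∈ U := ⟨Metric.mem_ball_self one_pos, Set.mem_iInter.2 fun b => by
    show 1 + ((S.desig c p.ω cosOn x).a b + 0 * (S.desig c p.ω cosOn y).a b) ≠ 0
    intro hb
    have h1 : (S.desig c p.ω cosOn x).a b = -1 := by linear_combination hb
    have h2 := ha b
    rw [h1, norm_neg, norm_one] at h2
    norm_num at h2⟩
  have eK : ∀ s : ℂ, Kof S.P.g (Step.alpha p.ω) (x + s • y) = Kof S.P.g (Step.alpha p.ω) x + s • Kof S.P.g (Step.alpha p.ω) y := fun s => by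
    rw [w_Kof_add, w_Kof_smul]
  have fx := Scal.fnSize_ne_top p h.hA0 S.P.g S.Vf _ (w_Kof_fin h x hfx)
  have fy := Scal.fnSize_ne_top p h.hA0 S.P.g S.Vf _ (w_Kof_fin h y hfy)
  have hK := Scal.Kprime_hol S.P S.Γ S.Vf S.Vc U hU p c.r c.R c.n0 c.cst h.hR h.ok.reg
    (fun s => Kof S.P.g (Step.alpha p.ω) (x + s • y)) (fun s => S.desig c p.ω cosOn (x + s • y))
    (fun s _ X => ((w_Kof_cls h (x + s • y) (aff s).1).ok.fn X).hol)
    (fun X => fnSize p S.P.g S.Vf X (Kof S.P.g (Step.alpha p.ω) x X) + fnSize p S.P.g S.Vf X (Kof S.P.g (Step.alpha p.ω) y X))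
    (fun X => ENNReal.add_ne_top.2 ⟨fx X, fy X⟩)
    (fun s hs X => by
      have hs1 : ‖s‖₊ ≤ 1 := by
        have : ‖s‖ < 1 := by simpa using hs.1
        exact_mod_cast this.le
      show fnSize p S.P.g S.Vf X (Kof S.P.g (Step.alpha p.ω) (x + s • y) X) ≤ _
      rw [eK s]
      refine (w_fnSize_add_le p S.P.g S.Vf X _ _).trans (add_le_add le_rfl ?_)
      refine (w_fnSize_smul_le p S.P.g S.Vf X s _).trans ?_
      calc (‖s‖₊ : ℝ≥0∞) * fnSize p S.P.g S.Vf X (Kof S.P.g (Step.alpha p.ω) y X)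
          ≤ 1 * fnSize p S.P.g S.Vf X (Kof S.P.g (Step.alpha p.ω) y X) := mul_le_mul' (by exact_mod_cast hs1) le_rfl
        _ = _ := one_mul _)
    (fun X w _ => by
      have : (fun s : ℂ => Kof S.P.g (Step.alpha p.ω) (x + s • y) X w)
          = fun s => Kof S.P.g (Step.alpha p.ω) x X w + s * Kof S.P.g (Step.alpha p.ω) y X w := funext fun s => by rw [eK s]; rfl
      rw [this]; fun_prop)
    (fun Y' b w _ => by
      have : (fun s : ℂ => (S.desig c p.ω cosOn (x + s • y)).F Y' b w)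
          = fun s => (S.desig c p.ω cosOn x).F Y' b w + s * (S.desig c p.ω cosOn y).F Y' b w := funext fun s => by rw [(aff s).2.2.1]; rfl
      rw [this]; fun_prop)
    (fun b => by
      have : (fun s : ℂ => (S.desig c p.ω cosOn (x + s • y)).a b)
          = fun s => (S.desig c p.ω cosOn x).a b + s * (S.desig c p.ω cosOn y).a b := funext fun s => by rw [(aff s).2.2.2.1]; rfl
      rw [this]; fun_prop)
    (fun s hs b => by
      rw [(aff s).2.2.2.1]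
      exact Set.mem_iInter.1 hs.2 b)
    Y z hzY
  exact (hK.differentiableAt (hU.mem_nhds h0U)).sub (w_single_diff S.P.g' (Step.alpha p.ω) Y z (ht 0) (hz 0))

end

end Claimed.Agent.R285.B8
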