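import Claimed.Agent.R285.Map.WBnd

/-!
# ROW 285, unit MAP, weak step: THE GAPPED GAIN (`cosOn = false`, `a' = α² ∈ [a₁, a₂]`, `a₁ > k₀`)             (owner helper14)

`w_gain_gapped`: `SmallGain .. false (η / L²)` for `L = 2^ℓ` large (depending on the gap), in the format of helper202's `weak_core`.
Neutral part: `B4.neutral_localization` (`L⁻³`).  Charges `q ≠ 0`: `B4.charged_gain` with the FIXED amplitude `a = √a₁ ≤ α`: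
`-(a |q| α - a²/2) Γ₀₀ + h₀ |q| α ≤ -(2|q| - 1) γ log L + h₀ √a₂ |q|`, `γ = 1 + a₁/k₀ > 2`, because `a₁ Γ₀₀ ≥ 2 γ log L`.  The sum over `q` is geometric (`Chg.chg_tsum_exp`).
Everything is PROVED here from `w_small_decomp` (leaf `W-GAIN-0`).
-/

set_option autoImplicit false

namespace Claimed.Agent.R285.B8

open scoped BigOperators ENNReal NNReal
open MeasureTheory
open Claimed.Agent.R285.RG Claimed.Agent.R285.Hol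

noncomputable section

/-- the arithmetic of the exponent -/
theorem wg_exponent (a1 a2 h0 α Q Γ00 LL : ℝ) (h1 : k0 < a1) (hα0 : 0 < α) (hα1 : a1 ≤ α ^ 2) (hα2 : α ^ 2 ≤ a2) (hh : 0 ≤ h0) (hQ : 1 ≤ Q) (hLL0 : 0 ≤ LL)
    (hΓ : (1 - (a1 - k0) / (2 * a1)) * (LL / (2 * Real.pi)) ≤ Γ00) (hLL : h0 * Real.sqrt a2 + 1 ≤ 2 * (1 + a1 / k0) * LL) :
    -(Real.sqrt a1 * Q * α - Real.sqrt a1 ^ 2 / 2) * Γ00 + h0 * Q * α ≤ -Q + (h0 * Real.sqrt a2 + 1 - (1 + a1 / k0) * LL) := by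
  have hk : 0 < k0 := by unfold k0; positivity
  have ha1 : 0 < a1 := hk.trans h1
  have hs2 : Real.sqrt a1 ^ 2 = a1 := Real.sq_sqrt ha1.le
  have hs0 : 0 < Real.sqrt a1 := Real.sqrt_pos.2 ha1
  have hsα : Real.sqrt a1 ≤ α := (Real.sqrt_le_left hα0.le).2 hα1
  have hα3 : α ≤ Real.sqrt a2 := Real.le_sqrt_of_sq_le hα2
  -- `a₁ Γ_min = 2 γ LL`
  have e1 : a1 * ((1 - (a1 - k0) / (2 * a1)) * (LL / (2 * Real.pi))) = 2 * (1 + a1 / k0) * LL := by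
    unfold k0
    have := Real.pi_pos
    field_simp
    ring
  have hγ : 0 ≤ 2 * (1 + a1 / k0) * LL := by positivity
  have h3 : 2 * (1 + a1 / k0) * LL ≤ a1 * Γ00 := by
    rw [← e1]; exact mul_le_mul_of_nonneg_left hΓ ha1.le
  have hΓ0 : 0 ≤ Γ00 := by
    by_contra hneg
    rw [not_le] at hneg
    have : a1 * Γ00 < 0 := mul_neg_of_pos_of_neg ha1 hneg
    linarith
  have h4 : a1 ≤ Real.sqrt a1 * α := by
    calc a1 = Real.sqrt a1 * Real.sqrt a1 := by rw [← sq, hs2]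
      _ ≤ Real.sqrt a1 * α := mul_le_mul_of_nonneg_left hsα hs0.le
  have h5 : a1 * Q ≤ Real.sqrt a1 * Q * α := by
    calc a1 * Q ≤ (Real.sqrt a1 * α) * Q := mul_le_mul_of_nonneg_right h4 (by linarith)
      _ = _ := by ring
  have h6 : (a1 * Q - a1 / 2) * Γ00 ≤ (Real.sqrt a1 * Q * α - Real.sqrt a1 ^ 2 / 2) * Γ00 := by
    apply mul_le_mul_of_nonneg_right _ hΓ0
    rw [hs2]; linarith
  have h7 : (Q - 1 / 2) * (2 * (1 + a1 / k0) * LL) ≤ (Q - 1 / 2) * (a1 * Γ00) :=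
    mul_le_mul_of_nonneg_left h3 (by linarith)
  have h8 : h0 * Q * α ≤ h0 * Q * Real.sqrt a2 := mul_le_mul_of_nonneg_left hα3 (by positivity)
  have h9 : (Q - 1) * (h0 * Real.sqrt a2 + 1) ≤ (Q - 1) * (2 * (1 + a1 / k0) * LL) :=
    mul_le_mul_of_nonneg_left hLL (by linarith)
  nlinarith

/-- `K rⁿ → 0` -/
theorem wg_geom_small (K r ε : ℝ) (hr0 : 0 ≤ r) (hr1 : r < 1) (hε : 0 < ε) : ∃ N : ℕ, ∀ n ≥ N, K * r ^ n ≤ ε := by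
  have h1 := (tendsto_pow_atTop_nhds_zero_of_lt_one hr0 hr1).const_mul K
  rw [mul_zero] at h1
  obtain ⟨N, hN⟩ := Filter.eventually_atTop.1 (h1.eventually (gt_mem_nhds hε))
  exact ⟨N, fun n hn => (hN n hn).le⟩

/-- the sum over `ℤ` = the term at `0` + the sum over the charges -/
theorem wg_tsum_int (f : ℤ → ℝ≥0∞) : ∑' q : ℤ, f q = f 0 + ∑' q : {q : ℤ // q ≠ 0}, f q := by
  rw [ENNReal.tsum_eq_add_tsum_ite (0 : ℤ)]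
  congr 1
  have h := tsum_subtype {q : ℤ | q ≠ 0} f
  rw [show (∑' q : {q : ℤ // q ≠ 0}, f q) = ∑' q : ({q : ℤ | q ≠ 0} : Set ℤ), f q from rfl, h]
  refine tsum_congr fun q => ?_
  by_cases hq : q = 0
  · simp [hq]
  · simp [hq]

/-- **THE GAPPED GAIN** (format of `weak_core`).  Order: (radii, kernels), window `[a₁, a₂]`; `h₀ ≥ C₁`; `η`; `L = 2^ℓ` large. -/
theorem w_gain_gapped (c : Geo) (a1 a2 : ℝ) (h1 : k0 < a1) :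
    ∃ C1 : ℝ≥0, 0 < C1 ∧ ∀ (δ κ : ℝ) (h0 : ℝ≥0), 0 < δ → 0 < κ → C1 ≤ h0 → ∀ η : ℝ≥0, 0 < η →
    ∃ (ℓ0 D1 : ℕ), ∀ ℓ ≥ ℓ0, ∀ D0 ≥ D1, ∀ (A ω : ℝ) (G : Geom) (gs : Grid G) (S : Step G D0 ℓ),
      a1 ≤ Step.alpha ω ^ 2 → Step.alpha ω ^ 2 ≤ a2 →
      (1 - (a1 - k0) / (2 * a1)) * (ℓ * Real.log 2 / (2 * Real.pi)) ≤ S.Γ (org G) (org G) →
      Ctx c ⟨δ, κ, h0, A, ω⟩ gs S → SmallGain c ⟨δ, κ, h0, A, ω⟩ gs S false (η / (2 ^ ℓ) ^ 2) := by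
  have hk : 0 < k0 := by unfold k0; positivity
  have ha1 : 0 < a1 := hk.trans h1
  have hs0 : 0 < Real.sqrt a1 := Real.sqrt_pos.2 ha1
  have hlog2 : 0 < Real.log 2 := Real.log_pos (by norm_num)
  obtain ⟨C1, hC1⟩ := B4.charged_gain c.Ck c.ck c.ρ c.R c.n0 c.cst
  refine ⟨⟨max (C1 * Real.sqrt a1) 1, le_trans zero_le_one (le_max_right _ _)⟩,
    (show (0 : ℝ) < max (C1 * Real.sqrt a1) 1 from lt_of_lt_of_le one_pos (le_max_right _ _)), fun δ κ h0 hδ hκ hh η hη => ?_⟩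
  have hh' : max (C1 * Real.sqrt a1) 1 ≤ (h0 : ℝ) := hh
  have hh1 : C1 * Real.sqrt a1 ≤ h0 := le_trans (le_max_left _ _) hh'
  have hh0 : 0 < h0 := by
    have : (0 : ℝ) < h0 := lt_of_lt_of_le one_pos (le_trans (le_max_right _ _) hh')
    exact_mod_cast this
  obtain ⟨Cc, ℓc, Dc, hcg⟩ := hC1 δ κ h0 hδ hκ (Real.sqrt a1) hs0 hh1
  obtain ⟨Cn, ℓn, Dn, hng⟩ := B4.neutral_localization c.R c.n0 c.cst δ κ h0 hδ hκ hh0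
  obtain ⟨γ, hγ⟩ : ∃ γ : ℝ, γ = 1 + a1 / k0 := ⟨_, rfl⟩
  obtain ⟨b, hb⟩ : ∃ b : ℝ, b = h0 * Real.sqrt a2 := ⟨_, rfl⟩
  have hγ2 : 2 < γ := by
    rw [hγ]
    have : 1 < a1 / k0 := (one_lt_div hk).2 h1
    linarith
  have hη2 : (0 : ℝ) < η / 2 := by
    have : (0 : ℝ) < η := by exact_mod_cast hη
    linarith
  obtain ⟨ℓ1, hℓ1⟩ := exists_nat_ge ((b + 1) / (2 * γ * Real.log 2))
  obtain ⟨ℓ2, hℓ2⟩ := wg_geom_small Cn (1 / 2) (η / 2) (by norm_num) (by norm_num) hη2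
  obtain ⟨ℓ3, hℓ3⟩ := wg_geom_small (2 * Cc * Real.exp (b + 1)) (Real.exp (-((γ - 2) * Real.log 2))) (η / 2) (Real.exp_pos _).le
    (by rw [Real.exp_lt_one_iff]; have : 0 < (γ - 2) * Real.log 2 := mul_pos (by linarith) hlog2; linarith) hη2
  refine ⟨max (max ℓc ℓn) (max ℓ1 (max ℓ2 ℓ3)), max Dc Dn, fun ℓ hℓ D0 hD A ω G gs S hα1 hα2 hΓ h => ?_⟩
  have hℓc : ℓc ≤ ℓ := le_trans (le_trans (le_max_left _ _) (le_max_left _ _)) hℓ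
  have hℓn : ℓn ≤ ℓ := le_trans (le_trans (le_max_right _ _) (le_max_left _ _)) hℓ
  have hℓ1' : ℓ1 ≤ ℓ := le_trans (le_trans (le_max_left _ _) (le_max_right _ _)) hℓ
  have hℓ2' : ℓ2 ≤ ℓ := le_trans (le_trans (le_trans (le_max_left _ _) (le_max_right _ _)) (le_max_right _ _)) hℓ
  have hℓ3' : ℓ3 ≤ ℓ := le_trans (le_trans (le_trans (le_max_right _ _) (le_max_right _ _)) (le_max_right _ _)) hℓ
  obtain ⟨LL, hLL⟩ : ∃ LL : ℝ, LL = ℓ * Real.log 2 := ⟨_, rfl⟩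
  have hLL0 : 0 ≤ LL := by rw [hLL]; positivity
  have hLLb : b + 1 ≤ 2 * γ * LL := by
    have h3 : (b + 1) / (2 * γ * Real.log 2) ≤ ℓ := hℓ1.trans (by exact_mod_cast hℓ1')
    rw [div_le_iff₀ (by positivity)] at h3
    rw [hLL]; linarith
  have hω : 0 < ω := h.hω
  have hα0 : 0 < Step.alpha ω := by unfold Step.alpha; positivity
  intro Rm hR hfin X hX
  have hXs : S.P.g.Conn c.R X ∧ X.card ≤ c.n0 := by
    classical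
    unfold Step.small at hX
    simpa using hX
  obtain ⟨u, hu⟩ : ∃ u : ℝ≥0∞, u = fnSize ⟨δ, κ, h0, A, ω⟩ S.P.g S.Vf X (Rm X) := ⟨_, rfl⟩
  have hLI : LocalInput ⟨δ, κ, h0, A, ω⟩ c.col c.R c.n0 S.P.g S.Vf X (Rm X) u := ⟨hXs.1, hXs.2, hR.ok.fn X, hu.ge⟩
  have hv0 : anchor S.P.g X ∈ S.P.g.sites X := by
    have hne : (S.P.g.sites X).Nonempty := Chg.chg_exists_site S.P.g S.P.ok X hXs.1.1
    unfold anchor
    rw [dif_pos hne]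
    exact hne.choose_spec
  -- the Fourier decomposition
  have hdec := w_fnSize_tsum_le ⟨δ, κ, h0, A, ω⟩ S.P.g' S.Vc (S.P.N.cl X) (fun q => Tq S ω false Rm X q) _
    (fun z hz => w_small_decomp h false hR hfin hX (w_strip_coarse S.P h0 (Finset.Subset.refl _) hz))
  refine hdec.trans ?_
  rw [wg_tsum_int, ← hu]
  -- the neutral part
  have hN : fnSize ⟨δ, κ, h0, A, ω⟩ S.P.g' S.Vc (S.P.N.cl X) (Tq S ω false Rm X 0) ≤ Cn * u * (2 ^ ℓ : ℝ≥0∞)⁻¹ ^ 3 := by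
    have h3 := (((hng ⟨δ, κ, h0, A, ω⟩ c.col rfl rfl rfl hω D0 (le_trans (le_max_right _ _) hD) G ℓ hℓn S.P S.Γ S.Vf S.Vc h.psd h.ok.reg X (Rm X) u hLI
      _ rfl).2 (fun ψ hψ => hR.even X ψ hψ)).2 (Or.inl h.ok.per) _ hv0).2
    have e : Tq S ω false Rm X 0 = fun ψ => conv S.Γ (chargeProj ω 0 (Rm X)) ψ
        - ∑ B ∈ X, Loc S.P.g X (anchor S.P.g X) (conv S.Γ (chargeProj ω 0 (Rm X))) B ψ := by
      funext ψ
      simp only [Tq, if_true, Pi.sub_apply, Finset.sum_apply]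
      rfl
    rw [e]
    exact h3
  -- the charges
  have hC : ∀ q : {q : ℤ // q ≠ 0}, fnSize ⟨δ, κ, h0, A, ω⟩ S.P.g' S.Vc (S.P.N.cl X) (Tq S ω false Rm X q)
      ≤ (Cc * u * ENNReal.ofReal (Real.exp (b + 1 - γ * LL))) * ENNReal.ofReal (Real.exp (-|((q : ℤ) : ℝ)|)) := by
    intro q
    have e : Tq S ω false Rm X q = conv S.Γ (chargeProj ω q (Rm X)) := by
      simp only [Tq, if_neg q.2]
      rfl
    rw [e]
    have h3 := hcg ⟨δ, κ, h0, A, ω⟩ c.col rfl rfl rfl hω D0 (le_trans (le_max_left _ _) hD) G ℓ hℓc S.P S.Γ S.Vf S.Vc h.ok.shell h.ok.reg X (Rm X) u hLI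
      _ hv0 q.1 q.2
    refine (w_fnSize_kappa_mono δ κ (κ / 2) h0 A A ω ω hδ.le (by linarith) S.P.g' S.Vc _ _).trans (h3.trans ?_)
    have hQ : (1 : ℝ) ≤ |((q : ℤ) : ℝ)| := by
      have : (1 : ℤ) ≤ |(q : ℤ)| := Int.one_le_abs q.2
      exact_mod_cast this
    have h4 := wg_exponent a1 a2 h0 (Step.alpha ω) |((q : ℤ) : ℝ)| (S.Γ (anchor S.P.g X) (anchor S.P.g X)) LL h1 hα0 hα1 hα2 h0.2 hQ hLL0
      (by rw [h.ok.diag, hLL]; exact hΓ) (by rw [← hb, ← hγ]; exact hLLb)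
    rw [mul_assoc ((Cc : ℝ≥0∞) * u), ← ENNReal.ofReal_mul (Real.exp_pos _).le, ← Real.exp_add]
    refine mul_le_mul' le_rfl (ENNReal.ofReal_le_ofReal (Real.exp_le_exp.2 ?_))
    rw [← hb, ← hγ] at h4
    exact h4.trans (le_of_eq (by ring))
  have hCs : ∑' q : {q : ℤ // q ≠ 0}, fnSize ⟨δ, κ, h0, A, ω⟩ S.P.g' S.Vc (S.P.N.cl X) (Tq S ω false Rm X q)
      ≤ (Cc * u * ENNReal.ofReal (Real.exp (b + 1 - γ * LL))) * 2 := by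
    calc _ ≤ ∑' q : {q : ℤ // q ≠ 0}, (Cc * u * ENNReal.ofReal (Real.exp (b + 1 - γ * LL))) * ENNReal.ofReal (Real.exp (-|((q : ℤ) : ℝ)|)) :=
          ENNReal.tsum_le_tsum hC
      _ = (Cc * u * ENNReal.ofReal (Real.exp (b + 1 - γ * LL))) * ∑' q : {q : ℤ // q ≠ 0}, ENNReal.ofReal (Real.exp (-|((q : ℤ) : ℝ)|)) :=
          ENNReal.tsum_mul_left
      _ ≤ _ := mul_le_mul' le_rfl Chg.chg_tsum_exp
  refine (add_le_add hN hCs).trans ?_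
  -- the numbers
  have hnum : (Cn : ℝ) * ((2 : ℝ) ^ ℓ)⁻¹ ^ 3 + Cc * Real.exp (b + 1 - γ * LL) * 2 ≤ η / ((2 : ℝ) ^ ℓ) ^ 2 := by
    have hL : (0 : ℝ) < 2 ^ ℓ := by positivity
    have e1 : Real.exp (b + 1 - γ * LL) = Real.exp (b + 1) * Real.exp (-((γ - 2) * Real.log 2)) ^ ℓ * (((2 : ℝ) ^ ℓ) ^ 2)⁻¹ := by
      have e2 : (((2 : ℝ) ^ ℓ) ^ 2)⁻¹ = Real.exp (-(2 * LL)) := by
        rw [Real.exp_neg, hLL]
        congr 1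
        rw [show 2 * ((ℓ : ℝ) * Real.log 2) = ((2 * ℓ : ℕ) : ℝ) * Real.log 2 by push_cast; ring, Real.exp_nat_mul, Real.exp_log (by norm_num), ← pow_mul, mul_comm]
      rw [e2, ← Real.exp_nat_mul, ← Real.exp_add, ← Real.exp_add, hLL]
      congr 1
      ring
    have h5 := hℓ2 ℓ hℓ2'
    have h6 := hℓ3 ℓ hℓ3'
    have e3 : (Cn : ℝ) * ((2 : ℝ) ^ ℓ)⁻¹ ^ 3 = (Cn * (1 / 2) ^ ℓ) * (((2 : ℝ) ^ ℓ) ^ 2)⁻¹ := by
      have e5 : ((1 : ℝ) / 2) ^ ℓ = ((2 : ℝ) ^ ℓ)⁻¹ := by rw [one_div, inv_pow]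
      rw [e5, ← inv_pow ((2 : ℝ) ^ ℓ) 2]
      generalize ((2 : ℝ) ^ ℓ)⁻¹ = x
      ring
    rw [e1, e3, div_eq_mul_inv]
    have hpos : (0 : ℝ) ≤ (((2 : ℝ) ^ ℓ) ^ 2)⁻¹ := by positivity
    calc (Cn : ℝ) * (1 / 2) ^ ℓ * (((2 : ℝ) ^ ℓ) ^ 2)⁻¹ + Cc * (Real.exp (b + 1) * Real.exp (-((γ - 2) * Real.log 2)) ^ ℓ * (((2 : ℝ) ^ ℓ) ^ 2)⁻¹) * 2
        = ((Cn : ℝ) * (1 / 2) ^ ℓ + 2 * Cc * Real.exp (b + 1) * Real.exp (-((γ - 2) * Real.log 2)) ^ ℓ) * (((2 : ℝ) ^ ℓ) ^ 2)⁻¹ := by ring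
      _ ≤ η * (((2 : ℝ) ^ ℓ) ^ 2)⁻¹ := mul_le_mul_of_nonneg_right (by linarith) hpos
  have hfinal : (Cn : ℝ≥0∞) * (2 ^ ℓ : ℝ≥0∞)⁻¹ ^ 3 + Cc * ENNReal.ofReal (Real.exp (b + 1 - γ * LL)) * 2 ≤ ((η / (2 ^ ℓ) ^ 2 : ℝ≥0) : ℝ≥0∞) := by
    have e4 : (2 ^ ℓ : ℝ≥0∞)⁻¹ = (((2 ^ ℓ : ℝ≥0)⁻¹ : ℝ≥0) : ℝ≥0∞) := by
      rw [ENNReal.coe_inv (by positivity)]
      push_cast
      rfl
    rw [e4, ENNReal.ofReal]
    have : (Cn * ((2 ^ ℓ : ℝ≥0)⁻¹) ^ 3 + Cc * Real.toNNReal (Real.exp (b + 1 - γ * LL)) * 2 : ℝ≥0) ≤ η / (2 ^ ℓ) ^ 2 := by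
      rw [← NNReal.coe_le_coe]
      push_cast
      rw [Real.coe_toNNReal _ (Real.exp_pos _).le]
      exact hnum
    exact_mod_cast this
  calc (Cn : ℝ≥0∞) * u * (2 ^ ℓ : ℝ≥0∞)⁻¹ ^ 3 + Cc * u * ENNReal.ofReal (Real.exp (b + 1 - γ * LL)) * 2
      = ((Cn : ℝ≥0∞) * (2 ^ ℓ : ℝ≥0∞)⁻¹ ^ 3 + Cc * ENNReal.ofReal (Real.exp (b + 1 - γ * LL)) * 2) * u := by ring
    _ ≤ _ := mul_le_mul' hfinal le_rfl

end

end Claimed.Agent.R285.B8
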