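import Claimed.Agent.R285.Map.WEquiv
import Claimed.Agent.R285.Hol.An
import Claimed.Agent.R285.Loc.Core

/-!
# ROW 285, unit MAP, weak step: KIT 4 = Gaussian convolution and charge projections of local functions; second derivatives at `0`             (owner helper202)

`Ctx` = the standing hypotheses on one step.  LEAVES `W-INT-*` (integrability, linearity, sizes), `W-CHG-*` (charge projections), `W-HQ-*` (the functions `H_q^X = E (R X)_q`), `W-D2-*` (the matrices `D^X`).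
All statements are POINTWISE IN THE STRIPS: outside, activities are junk.
Tools: `Hol/Tn.lean` (`strip_add_toC`, `nnnorm_le_fnSize_mul`, `strip_decomp`, `tnorm_I_smul_toC`), `Hol/An.lean` (`hol_integral`, `hol_fderiv`), `B4.hol_conv`, `B4.charge_proj`, `B4.charge_inversion`, `RegStable.main`.
-/

set_option autoImplicit false

namespace Claimed.Agent.R285.B8

open scoped BigOperators ENNReal NNReal
open MeasureTheory
open Claimed.Agent.R285.RG Claimed.Agent.R285.Hol

noncomputable section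

variable {G : Geom} {D0 ℓ : ℕ}

/-- **standing hypotheses on one step** -/
structure Ctx (c : Geo) (p : Par) (gs : Grid G) (S : Step G D0 ℓ) : Prop where
  geo : c.Ok
  ok : StepOK c p gs S
  hω : 0 < p.ω
  hh : 0 < p.h0
  hA : 1 ≤ p.A
  hD : 12 ≤ D0
  hL : c.R ≤ 2 ^ ℓ

variable {c : Geo} {p : Par} {gs : Grid G} {S : Step G D0 ℓ}

theorem Ctx.hM (h : Ctx c p gs S) : 3 ≤ G.M := by
  have h1 := S.P.clear
  have h2 := S.P.ok'.pos
  have h3 := h.hD
  have : 12 * 1 ≤ D0 * S.P.g'.m := Nat.mul_le_mul h3 h2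
  omega

theorem Ctx.psd (h : Ctx c p gs S) : S.Γ.PosSemidef := h.ok.shell.psd

/-! ## integrability (PROVED: `Scal/Conv.lean`) -/

theorem Ctx.hint (h : Ctx c p gs S) (X : Finset S.P.g.I) (φ : G.V → ℝ) :
    ∫⁻ ζ, ENNReal.ofReal (Wt S.P.g p.δ p.κ S.Vf X (φ + ζ)) ∂(gauss G S.Γ) ≠ ⊤ :=
  Scal.lintegral_Wt_ne_top ENNReal.coe_ne_top h.ok.reg X φ

theorem w_integrable (h : Ctx c p gs S) {X : Finset S.P.g.I} {F : Fn G} (hF : Hol p.h0 S.P.g X F) (hfin : fnSize p S.P.g S.Vf X F ≠ ⊤)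
    {z : G.V → ℂ} (hz : z ∈ strip p.h0 S.P.g X) : Integrable (fun ζ => F (z + toC ζ)) (gauss G S.Γ) :=
  Scal.integrable_strip p S.P.g S.Vf X S.Γ F hF hfin (h.hint X) hz

/-- PROVED -/
theorem w_conv_smul (Γ : Matrix G.V G.V ℝ) (a : ℂ) (F : Fn G) : conv Γ (a • F) = a • conv Γ F := by
  funext z
  show ∫ ζ, a • F (z + toC ζ) ∂(gauss G Γ) = a • ∫ ζ, F (z + toC ζ) ∂(gauss G Γ)
  exact integral_smul a _

/-- PROVED from `W-INT-1` -/
theorem w_conv_add (h : Ctx c p gs S) {X : Finset S.P.g.I} {F F' : Fn G} (hF : Hol p.h0 S.P.g X F) (hF' : Hol p.h0 S.P.g X F')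
    (hfin : fnSize p S.P.g S.Vf X F ≠ ⊤) (hfin' : fnSize p S.P.g S.Vf X F' ≠ ⊤) {z : G.V → ℂ} (hz : z ∈ strip p.h0 S.P.g X) :
    conv S.Γ (F + F') z = conv S.Γ F z + conv S.Γ F' z :=
  integral_add (w_integrable h hF hfin hz) (w_integrable h hF' hfin' hz)

/-! ## convolution preserves locality; sizes (PROVED: `Scal/Conv.lean`, `Scal/Local.lean`, `Loc/Core.lean`) -/

theorem w_conv_local (h : Ctx c p gs S) {X : Finset S.P.g.I} {F : Fn G} (hF : LocalFn p c.col S.P.g X F) (hfin : fnSize p S.P.g S.Vf X F ≠ ⊤) :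
    LocalFn p c.col S.P.g X (conv S.Γ F) := Scal.localFn_conv S.Vf S.Γ hF hfin (h.hint X)

/-- a fine local function is a coarse local function -/
theorem w_localFn_coarse (P : Pair G D0 ℓ) (p : Par) (col : ℕ) {X : Finset P.g.I} {Y : Finset P.g'.I} (hXY : P.N.cl X ⊆ Y) {F : Fn G}
    (hF : LocalFn p col P.g X F) : LocalFn p col P.g' Y F := Scal.localFn_coarse P hXY hF

theorem w_conv_size (h : Ctx c p gs S) (X : Finset S.P.g.I) (Y : Finset S.P.g'.I) (hXY : S.P.N.cl X ⊆ Y) (F : Fn G) :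
    fnSize p S.P.g' S.Vc Y (conv S.Γ F) ≤ (c.cst : ℝ≥0∞) ^ X.card * fnSize p S.P.g S.Vf X F := by
  rcases eq_or_ne (fnSize p S.P.g S.Vf X F) ⊤ with htop | htop
  · rw [htop, ENNReal.mul_top (Scal.cst_pow_ne_zero h.ok.adm.δ_pos.le h.ok.adm.κ_pos.le h.ok.reg X)]
    exact le_top
  set u : ℝ≥0∞ := fnSize p S.P.g S.Vf X F with hu
  unfold fnSize
  refine iSup_le fun φ => ?_
  rw [ENNReal.div_le_iff (Scal.ofReal_Wt_ne_zero _ _ _ _ _ _) ENNReal.ofReal_ne_top]
  calc ptNorm p.h0 S.P.g' Y (conv S.Γ F) φ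
      ≤ ptNorm p.h0 S.P.g X (conv S.Γ F) φ := Hol.ptNorm_coarse S.P p.h0 X Y hXY _ φ
    _ ≤ ∫⁻ ζ, ptNorm p.h0 S.P.g X F (φ + ζ) ∂(gauss G S.Γ) := Hol.ptNorm_conv _ _ _ _ _ _
    _ ≤ ∫⁻ ζ, u * ENNReal.ofReal (Wt S.P.g p.δ p.κ S.Vf X (φ + ζ)) ∂(gauss G S.Γ) := lintegral_mono fun ζ =>
        Hol.ptNorm_le_fnSize_mul p S.P.g S.Vf X _ (φ + ζ)
    _ = u * ∫⁻ ζ, ENNReal.ofReal (Wt S.P.g p.δ p.κ S.Vf X (φ + ζ)) ∂(gauss G S.Γ) := lintegral_const_mul' _ _ htop
    _ ≤ u * ((c.cst : ℝ≥0∞) ^ X.card * ENNReal.ofReal (Wt S.P.g' p.δ p.κ S.Vc Y φ)) := mul_le_mul' le_rfl (h.ok.reg.main X Y hXY φ)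
    _ = _ := by ring

/-- the value at `0` is bounded by the size: `Wt (Y, 0) = 1` -/
theorem w_zero_le_fnSize (p : Par) (hh : 0 < p.h0) (g : Grid G) (V : Extra g) (X : Finset g.I) (F : Fn G) : (‖F 0‖₊ : ℝ≥0∞) ≤ fnSize p g V X F := by
  have h1 := Hol.nnnorm_le_fnSize_mul p g V X F 0 0 (by rw [Hol.tnorm_zero]; exact_mod_cast hh)
  rw [Loc.loc_Wt_zero, ENNReal.ofReal_one, mul_one] at h1
  have e : toC (0 : G.V → ℝ) + (0 : G.V → ℂ) = 0 := by funext v; simp [toC]
  rwa [e] at h1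

theorem w_conv_zero_le (h : Ctx c p gs S) (X : Finset S.P.g.I) (F : Fn G) :
    (‖conv S.Γ F 0‖₊ : ℝ≥0∞) ≤ (c.cst : ℝ≥0∞) ^ X.card * fnSize p S.P.g S.Vf X F :=
  (w_zero_le_fnSize p h.hh S.P.g' S.Vc (S.P.N.cl X) _).trans (w_conv_size h X _ (Finset.Subset.refl _) F)

/-! ## LEAF `W-CHG-1`: algebra of the charge projections (one grid, no Gaussian) -/

section charge

variable {g : Grid G} {X : Finset g.I} {col : ℕ}

/-- plan: `t ↦ F (z + t)` is continuous (`hF.hol.continuousOn`, `strip_add_real`), so both integrands are interval integrable. -/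
theorem w_charge_add {F₁ F₂ : Fn G} (hF : LocalFn p col g X F₁) (hF' : LocalFn p col g X F₂) (q : ℤ) {z : G.V → ℂ} (hz : z ∈ strip p.h0 g X) :
    chargeProj p.ω q (F₁ + F₂) z = chargeProj p.ω q F₁ z + chargeProj p.ω q F₂ z := by
  rw [Hol.chargeProj_eq, Hol.chargeProj_eq, Hol.chargeProj_eq, ← mul_add, ← intervalIntegral.integral_add]
  · congr 1
    refine intervalIntegral.integral_congr fun t _ => ?_
    simp only [Pi.add_apply, mul_add]
  · exact (((Hol.chK_continuous p.ω q).comp Complex.continuous_ofReal).mul (Hol.continuous_line hF.hol hz)).intervalIntegrable _ _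
  · exact (((Hol.chK_continuous p.ω q).comp Complex.continuous_ofReal).mul (Hol.continuous_line hF'.hol hz)).intervalIntegrable _ _

theorem w_charge_smul (ω : ℝ) (q : ℤ) (a : ℂ) (F : Fn G) : chargeProj ω q (a • F) = a • chargeProj ω q F := by
  funext z
  rw [Pi.smul_apply, Hol.chargeProj_eq, Hol.chargeProj_eq, smul_eq_mul]
  have e : (fun t : ℝ => Hol.chK ω q t * (a • F) fun v => z v + (t : ℂ)) = fun t : ℝ => a * (Hol.chK ω q t * F fun v => z v + (t : ℂ)) := by
    funext t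
    simp only [Pi.smul_apply, smul_eq_mul]
    ring
  rw [e, intervalIntegral.integral_const_mul]
  ring

/-- translation by a real constant.  plan: unfold; this is `B4.charge_proj` (third assertion) at the point `z`. -/
theorem w_charge_shift (hω : 0 < p.ω) {F : Fn G} (hF : LocalFn p col g X F) (q : ℤ) (a : ℝ) {z : G.V → ℂ} (hz : z ∈ strip p.h0 g X) :
    chargeProj p.ω q (fun w => F fun v => w v + (a : ℂ)) z = Complex.exp (Complex.I * q * ((2 * Real.pi / p.ω : ℝ) : ℂ) * a) * chargeProj p.ω q F z := by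
  rw [← Hol.chargeProj_add_real p hω col g X F hF q hz a, Hol.chargeProj_eq, Hol.chargeProj_eq]
  congr 1
  refine intervalIntegral.integral_congr fun t _ => ?_
  simp only
  congr 2
  funext v
  ring

/-- plan: `t ↦ ω - t` in the interval integral, periodicity of `F` and of the character. -/
theorem w_charge_neg (hω : 0 < p.ω) {F : Fn G} (hF : LocalFn p col g X F) (q : ℤ) {z : G.V → ℂ} (hz : z ∈ strip p.h0 g X) :
    chargeProj p.ω q (fun w => F (-w)) (-z) = chargeProj p.ω (-q) F z := by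
  set h : ℝ → ℂ := fun s => Hol.chK p.ω (-q) s * F fun v => z v + (s : ℂ) with hh
  have hper : Function.Periodic h p.ω := by
    intro s
    simp only [hh]
    have h0 : (F fun v => z v + ((s + p.ω : ℝ) : ℂ)) = F fun v => z v + (s : ℂ) := Hol.line_periodic p col g X F hF hz s
    rw [h0]
    congr 1
    push_cast
    rw [Hol.chK_add, Hol.chK_period p.ω hω.ne', mul_one]
  rw [Hol.chargeProj_eq, Hol.chargeProj_eq]
  congr 1
  have e : ∀ t : ℝ, (Hol.chK p.ω q t * F (-fun v => (-z) v + (t : ℂ))) = h (-t) := by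
    intro t
    simp only [hh]
    congr 1
    · unfold Hol.chK
      congr 1
      push_cast
      ring
    · congr 1
      funext v
      simp only [Pi.neg_apply]
      push_cast
      ring
  simp only [e]
  rw [intervalIntegral.integral_comp_neg, neg_zero]
  have := hper.intervalIntegral_add_eq (-p.ω) 0
  rw [neg_add_cancel, zero_add] at this
  exact this

/-- plan: `intervalIntegral` commutes with `conj` (`intervalIntegral.integral_conj` or through `integral_conj`). -/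
theorem w_charge_conj (ω : ℝ) (q : ℤ) (F : Fn G) (z : G.V → ℂ) :
    chargeProj ω q (fun w => starRingEnd ℂ (F fun v => starRingEnd ℂ (w v))) z = starRingEnd ℂ (chargeProj ω (-q) F fun v => starRingEnd ℂ (z v)) := by
  rw [Hol.chargeProj_eq, Hol.chargeProj_eq, map_mul, Complex.conj_ofReal]
  congr 1
  rw [intervalIntegral.intervalIntegral_eq_integral_uIoc, intervalIntegral.intervalIntegral_eq_integral_uIoc]
  rw [Complex.real_smul, Complex.real_smul, map_mul, Complex.conj_ofReal, ← integral_conj]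
  congr 1
  refine integral_congr_ae (Filter.Eventually.of_forall fun t => ?_)
  simp only [map_mul]
  congr 1
  · unfold Hol.chK
    rw [← Complex.exp_conj]
    congr 1
    simp only [map_neg, map_mul, Complex.conj_I, Complex.conj_ofReal, map_intCast]
    push_cast
    ring
  · congr 2
    funext v
    simp only [map_add, Complex.conj_ofReal]

/-- PROVED: constants are invariant under permutations of the sites -/
theorem w_charge_sym (ω : ℝ) (q : ℤ) (s : GridSym g) (F : Fn G) (z : G.V → ℂ) :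
    chargeProj ω q (fun w => F (symF s w)) z = chargeProj ω q F (symF s z) := rfl

end charge

/-! ## LEAF `W-CHG-2`: charge projection and convolution commute; Fourier series of `E F` -/

/-- joint integrability on `[0, ω] × gauss` -/
theorem w_charge_conv_int (p : Par) (g : Grid G) (V : Extra g) (X : Finset g.I) (Γ : Matrix G.V G.V ℝ) (F : Fn G)
    (hF : Hol p.h0 g X F) (hfin : fnSize p g V X F ≠ ⊤)
    (hint : ∀ φ : G.V → ℝ, ∫⁻ ζ, ENNReal.ofReal (Wt g p.δ p.κ V X (φ + ζ)) ∂(gauss G Γ) ≠ ⊤) (q : ℤ)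
    {z : G.V → ℂ} (hz : z ∈ strip p.h0 g X) :
    Integrable (Function.uncurry fun (t : ℝ) (ζ : G.V → ℝ) => Hol.chK p.ω q t * F ((fun v => z v + (t : ℂ)) + toC ζ))
      ((volume.restrict (Set.Ioc 0 p.ω)).prod (gauss G Γ)) := by
  have hc : Continuous (Function.uncurry fun (t : ℝ) (ζ : G.V → ℝ) => Hol.chK p.ω q t * F ((fun v => z v + (t : ℂ)) + toC ζ)) := by
    unfold Function.uncurry
    refine ((Hol.chK_continuous p.ω q).comp (Complex.continuous_ofReal.comp continuous_fst)).mul ?_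
    refine hF.continuousOn.comp_continuous ?_ fun x => Hol.strip_add_toC (Hol.strip_add_real hz x.1) x.2
    refine Continuous.add (by fun_prop) (Hol.toC_continuous.comp continuous_snd)
  have hm := hc.aestronglyMeasurable (μ := (volume.restrict (Set.Ioc 0 p.ω)).prod (gauss G Γ))
  rw [integrable_prod_iff hm]
  refine ⟨Filter.Eventually.of_forall fun t =>
    (Scal.integrable_strip p g V X Γ F hF hfin hint (Hol.strip_add_real hz t)).const_mul (Hol.chK p.ω q t), ?_⟩
  set C : ℝ≥0∞ := fnSize p g V X F * ∫⁻ ζ, ENNReal.ofReal (Wt g p.δ p.κ V X ((fun v => (z v).re) + ζ)) ∂(gauss G Γ) with hC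
  have hCtop : C ≠ ⊤ := ENNReal.mul_ne_top hfin (hint _)
  refine (integrable_const C.toReal).mono' hm.norm.integral_prod_right' (Filter.Eventually.of_forall fun t => ?_)
  rw [Real.norm_of_nonneg (integral_nonneg fun _ => norm_nonneg _)]
  have e1 : ∀ ζ : G.V → ℝ, ‖Function.uncurry (fun (t : ℝ) (ζ : G.V → ℝ) => Hol.chK p.ω q t * F ((fun v => z v + (t : ℂ)) + toC ζ)) (t, ζ)‖
      = ‖F ((fun v => z v + (t : ℂ)) + toC ζ)‖ := fun ζ => by
    rw [Function.uncurry_apply_pair, norm_mul, Hol.norm_chK_real, one_mul]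
  simp only [e1]
  rw [integral_norm_eq_lintegral_enorm (Hol.continuous_comp_shift hF (Hol.strip_add_real hz t)).aestronglyMeasurable]
  refine ENNReal.toReal_mono hCtop ?_
  refine (lintegral_mono fun ζ => Scal.enorm_strip_le p g V X F (Hol.strip_add_real hz t) ζ).trans ?_
  rw [lintegral_const_mul' _ _ hfin, hC]
  refine mul_le_mul' le_rfl (le_of_eq (lintegral_congr fun ζ => ?_))
  have e2 : ((fun v => (z v + (t : ℂ)).re) + ζ) = fun v => ((fun v => (z v).re) + ζ) v + t := by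
    funext v
    simp only [Pi.add_apply, Complex.add_re, Complex.ofReal_re]
    ring
  rw [e2, Hol.Wt_add_const]

theorem w_charge_conv_gen (p : Par) (hω : 0 < p.ω) (g : Grid G) (V : Extra g) (X : Finset g.I) (Γ : Matrix G.V G.V ℝ) (F : Fn G)
    (hF : Hol p.h0 g X F) (hfin : fnSize p g V X F ≠ ⊤)
    (hint : ∀ φ : G.V → ℝ, ∫⁻ ζ, ENNReal.ofReal (Wt g p.δ p.κ V X (φ + ζ)) ∂(gauss G Γ) ≠ ⊤) (q : ℤ)
    {z : G.V → ℂ} (hz : z ∈ strip p.h0 g X) :
    chargeProj p.ω q (conv Γ F) z = conv Γ (chargeProj p.ω q F) z := by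
  rw [Hol.chargeProj_eq, Scal.conv_apply]
  simp only [Hol.chargeProj_eq, Scal.conv_apply]
  rw [integral_const_mul]
  congr 1
  rw [intervalIntegral.integral_of_le hω.le]
  simp only [intervalIntegral.integral_of_le hω.le, ← integral_const_mul]
  rw [integral_integral_swap (w_charge_conv_int p g V X Γ F hF hfin hint q hz)]
  refine integral_congr_ae (Filter.Eventually.of_forall fun ζ => ?_)
  refine integral_congr_ae (Filter.Eventually.of_forall fun t => ?_)
  simp only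
  congr 2
  funext v
  simp only [Pi.add_apply]
  ring

/-- plan: Fubini (`integral_integral_swap` on `[0, ω] × gauss`); integrability from the bound of `W-INT-1`, uniform in `t` because the regulator is blind to constants (`Extra.const`; `U` only sees differences). -/
theorem w_charge_conv (h : Ctx c p gs S) {X : Finset S.P.g.I} {F : Fn G} (hF : LocalFn p c.col S.P.g X F) (hfin : fnSize p S.P.g S.Vf X F ≠ ⊤) (q : ℤ)
    {z : G.V → ℂ} (hz : z ∈ strip p.h0 S.P.g X) : chargeProj p.ω q (conv S.Γ F) z = conv S.Γ (chargeProj p.ω q F) z :=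
  w_charge_conv_gen p h.hω S.P.g S.Vf X S.Γ F hF.hol hfin (h.hint X) q hz

/-- PROVED from `W-CHG-2`, `W-INT-2`, `B4.charge_inversion` -/
theorem w_conv_hasSum (h : Ctx c p gs S) {X : Finset S.P.g.I} {F : Fn G} (hF : LocalFn p c.col S.P.g X F) (hfin : fnSize p S.P.g S.Vf X F ≠ ⊤)
    {z : G.V → ℂ} (hz : z ∈ strip p.h0 S.P.g X) : HasSum (fun q : ℤ => conv S.Γ (chargeProj p.ω q F) z) (conv S.Γ F z) := by
  have h1 := B4.charge_inversion p h.hω c.col S.P.g X (conv S.Γ F) (w_conv_local h hF hfin) z hz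
  have h2 : (fun q : ℤ => chargeProj p.ω q (conv S.Γ F) z) = fun q : ℤ => conv S.Γ (chargeProj p.ω q F) z :=
    funext fun q => w_charge_conv h hF hfin q hz
  rwa [h2] at h1

/-! ## The functions `H_q^X = E (R X)_q` -/

theorem w_fin (h : Ctx c p gs S) {Rm : Act S.P.g} (hfin : actNorm p S.P.g S.Vf Rm ≠ ⊤) (X : Finset S.P.g.I) : fnSize p S.P.g S.Vf X (Rm X) ≠ ⊤ :=
  ne_top_of_le_ne_top hfin (w_fnSize_le_actNorm p h.hA S.P.g S.Vf Rm X)

/-- PROVED -/
theorem w_Hq_local (h : Ctx c p gs S) {Rm : Act S.P.g} (hR : Adm p c gs Rm) (hfin : actNorm p S.P.g S.Vf Rm ≠ ⊤) (q : ℤ) (X : Finset S.P.g.I) :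
    LocalFn p c.col S.P.g X (S.Hq p.ω q Rm X) := by
  have h1 := B4.charge_proj p h.hω c.col S.P.g S.Vf X (Rm X) (hR.ok.fn X) q
  exact w_conv_local h h1.1 (ne_top_of_le_ne_top (w_fin h hfin X) h1.2.1)

/-- PROVED -/
theorem w_Hq_zero_le (h : Ctx c p gs S) {Rm : Act S.P.g} (hR : Adm p c gs Rm) (q : ℤ) (X : Finset S.P.g.I) :
    (‖S.Hq p.ω q Rm X 0‖₊ : ℝ≥0∞) ≤ (c.cst : ℝ≥0∞) ^ X.card * fnSize p S.P.g S.Vf X (Rm X) :=
  (w_conv_zero_le h X _).trans (mul_le_mul' le_rfl (B4.charge_proj p h.hω c.col S.P.g S.Vf X (Rm X) (hR.ok.fn X) q).2.1)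

/-! ### LEAF `W-HQ-1`: linearity -/

/-- plan: `w_charge_add` at the points `z + ζ`, then `integral_add` (`w_integrable` for the two projections, `B4.charge_proj`). -/
theorem w_Hq_add (h : Ctx c p gs S) {Rm Rm' : Act S.P.g} (hR : Adm p c gs Rm) (hR' : Adm p c gs Rm') (hfin : actNorm p S.P.g S.Vf Rm ≠ ⊤)
    (hfin' : actNorm p S.P.g S.Vf Rm' ≠ ⊤) (q : ℤ) (X : Finset S.P.g.I) {z : G.V → ℂ} (hz : z ∈ strip p.h0 S.P.g X) :
    S.Hq p.ω q (Rm + Rm') X z = S.Hq p.ω q Rm X z + S.Hq p.ω q Rm' X z := by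
  have h1 := B4.charge_proj p h.hω c.col S.P.g S.Vf X (Rm X) (hR.ok.fn X) q
  have h2 := B4.charge_proj p h.hω c.col S.P.g S.Vf X (Rm' X) (hR'.ok.fn X) q
  have e := w_conv_add h h1.1.hol h2.1.hol (ne_top_of_le_ne_top (w_fin h hfin X) h1.2.1)
    (ne_top_of_le_ne_top (w_fin h hfin' X) h2.2.1) hz
  unfold Step.Hq
  rw [← e]
  unfold conv
  refine integral_congr_ae (Filter.Eventually.of_forall fun ζ => ?_)
  simp only [Pi.add_apply]
  exact w_charge_add (hR.ok.fn X) (hR'.ok.fn X) q (Hol.strip_add_toC hz ζ)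

/-- PROVED -/
theorem w_Hq_smul (S : Step G D0 ℓ) (ω : ℝ) (q : ℤ) (a : ℂ) (Rm : Act S.P.g) (X : Finset S.P.g.I) : S.Hq ω q (a • Rm) X = a • S.Hq ω q Rm X := by
  unfold Step.Hq
  rw [Pi.smul_apply, w_charge_smul, w_conv_smul]

/-! ### LEAF `W-HQ-2`: the four symmetries and neutrality -/

/-- evenness.  plan: `w_gauss_neg`, `hR.even`, `w_charge_neg`. -/
theorem w_Hq_neg (h : Ctx c p gs S) {Rm : Act S.P.g} (hR : Adm p c gs Rm) (q : ℤ) (X : Finset S.P.g.I) {z : G.V → ℂ} (hz : z ∈ strip p.h0 S.P.g X) :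
    S.Hq p.ω q Rm X (-z) = S.Hq p.ω (-q) Rm X z := by
  unfold Step.Hq conv
  rw [← w_gauss_neg S.Γ h.psd]
  refine integral_congr_ae (Filter.Eventually.of_forall fun ζ => ?_)
  simp only
  have hzζ := Hol.strip_add_toC hz ζ
  rw [← w_charge_neg h.hω (hR.ok.fn X) q hzζ]
  have e1 : -z + toC (-ζ) = -(z + toC ζ) := by
    funext v
    simp [toC]
    ring
  rw [e1, Hol.chargeProj_eq, Hol.chargeProj_eq]
  congr 1
  refine intervalIntegral.integral_congr fun t _ => ?_
  congr 1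
  exact (hR.even X _ (Hol.strip_add_real (Loc.loc_strip_neg hzζ) t)).symm

/-- half period: `e^{i q α ω/2} = (-1)^q`.  plan: `w_charge_shift` with `a = ω/2`. -/
theorem w_Hq_half (h : Ctx c p gs S) {Rm : Act S.P.g} (hR : Adm p c gs Rm) (q : ℤ) (X : Finset S.P.g.I) {z : G.V → ℂ} (hz : z ∈ strip p.h0 S.P.g X) :
    S.Hq p.ω q (halfShift p.ω Rm) X z = (-1 : ℂ) ^ q.natAbs * S.Hq p.ω q Rm X z := by
  unfold Step.Hq conv
  rw [← integral_const_mul]
  refine integral_congr_ae (Filter.Eventually.of_forall fun ζ => ?_)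
  simp only
  have hzζ := Hol.strip_add_toC hz ζ
  have e := w_charge_shift h.hω (hR.ok.fn X) q (p.ω / 2) hzζ
  have e2 : Complex.exp (Complex.I * q * ((2 * Real.pi / p.ω : ℝ) : ℂ) * ((p.ω / 2 : ℝ) : ℂ)) = (-1 : ℂ) ^ q.natAbs := by
    have hω' : (p.ω : ℂ) ≠ 0 := by exact_mod_cast h.hω.ne'
    have e3 : Complex.I * q * ((2 * Real.pi / p.ω : ℝ) : ℂ) * ((p.ω / 2 : ℝ) : ℂ) = (q : ℂ) * (Real.pi * Complex.I) := by
      push_cast
      field_simp
    rw [e3, Complex.exp_int_mul, Complex.exp_pi_mul_I]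
    rcases Int.natAbs_eq q with hq | hq
    · conv_lhs => rw [hq]
      rw [zpow_natCast]
    · conv_lhs => rw [hq]
      rw [zpow_neg, zpow_natCast, ← inv_pow]
      norm_num
  rw [e2] at e
  exact e

/-- complex conjugation.  plan: `w_charge_conj`, `integral_conj`. -/
theorem w_Hq_conj (S : Step G D0 ℓ) (ω : ℝ) (q : ℤ) (Rm : Act S.P.g) (X : Finset S.P.g.I) (z : G.V → ℂ) :
    S.Hq ω q (conjAct Rm) X z = starRingEnd ℂ (S.Hq ω (-q) Rm X fun v => starRingEnd ℂ (z v)) := by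
  unfold Step.Hq conv
  rw [← integral_conj]
  refine integral_congr_ae (Filter.Eventually.of_forall fun ζ => ?_)
  simp only
  have e := w_charge_conj ω q (Rm X) (z + toC ζ)
  have e1 : (fun v => starRingEnd ℂ ((z + toC ζ) v)) = (fun v => starRingEnd ℂ (z v)) + toC ζ := by
    funext v
    simp [toC]
  rw [e1] at e
  exact e

/-- lattice symmetries.  plan: `w_gauss_sym` (`h.ok.inv`), `w_charge_sym`, `hR.sym` at the points `z + ζ + t` (`w_sym_strip` gives the second strip condition of `Act.Sym`). -/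
theorem w_Hq_sym (h : Ctx c p gs S) {Rm : Act S.P.g} (hR : Adm p c gs Rm) (s : GridSym S.P.g) (hs : s.Pres gs) (q : ℤ) (X : Finset S.P.g.I)
    {z : G.V → ℂ} (hz : z ∈ strip p.h0 S.P.g X) : S.Hq p.ω q Rm (symX s X) (symF s z) = S.Hq p.ω q Rm X z := by
  unfold Step.Hq conv
  rw [← w_gauss_sym S.Γ h.psd s (h.ok.inv s)]
  refine integral_congr_ae (Filter.Eventually.of_forall fun ζ => ?_)
  simp only
  have hzζ := Hol.strip_add_toC hz ζ
  rw [Hol.chargeProj_eq, Hol.chargeProj_eq]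
  congr 1
  refine intervalIntegral.integral_congr fun t _ => ?_
  congr 1
  have hzt := Hol.strip_add_real hzζ t
  have h2 := (w_sym_strip h.ok.per h.hM S.P.ok s p.h0 X _).2 hzt
  have h3 := hR.sym s hs X _ hzt h2
  rw [← h3]
  rfl

/-- neutrality: `H_0` is blind to complex constants.  plan: `B4.charge_proj` (third assertion, `q = 0`) under the integral. -/
theorem w_Hq_const (h : Ctx c p gs S) {Rm : Act S.P.g} (hR : Adm p c gs Rm) (X : Finset S.P.g.I) {z : G.V → ℂ} (a : ℂ) (hz : z ∈ strip p.h0 S.P.g X)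
    (hz' : (fun v => z v + a) ∈ strip p.h0 S.P.g X) : S.Hq p.ω 0 Rm X (fun v => z v + a) = S.Hq p.ω 0 Rm X z := by
  unfold Step.Hq conv
  refine integral_congr_ae (Filter.Eventually.of_forall fun ζ => ?_)
  simp only
  have h1 := (B4.charge_proj p h.hω c.col S.P.g S.Vf X (Rm X) (hR.ok.fn X) 0).2.2 (z + toC ζ) a (Hol.strip_add_toC hz ζ) (by
    have := Hol.strip_add_toC hz' ζ
    have e : (fun v => z v + a) + toC ζ = fun v => (z + toC ζ) v + a := by
      funext v
      simp only [Pi.add_apply]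
      ring
    rwa [e] at this)
  have e : (fun v => z v + a) + toC ζ = fun v => (z + toC ζ) v + a := by
    funext v
    simp only [Pi.add_apply]
    ring
  rw [e, h1]
  simp

/-! ## Second derivatives at `0` -/

/-! general facts, finite dimensional (helper110) -/

section wd2

variable {E : Type} [NormedAddCommGroup E] [NormedSpace ℂ E] [FiniteDimensional ℂ E]

theorem wd2_contDiffOn {U : Set E} (hU : IsOpen U) {H : E → ℂ} (hH : DifferentiableOn ℂ H U) : ContDiffOn ℂ 2 H U := by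
  have h1 := Hol.hol_fderiv U hU H hH
  have h2 := Hol.hol_fderiv U hU _ h1
  have e2 : (2 : WithTop ℕ∞) = 1 + 1 := by norm_num
  have e1 : (1 : WithTop ℕ∞) = 0 + 1 := by norm_num
  rw [e2, contDiffOn_succ_iff_fderiv_of_isOpen hU]
  refine ⟨hH, fun h => absurd h (by simp), ?_⟩
  rw [e1, contDiffOn_succ_iff_fderiv_of_isOpen hU]
  refine ⟨h1, fun h => absurd h (by simp), ?_⟩
  exact contDiffOn_zero.2 h2.continuousOn

theorem wd2_contDiffAt {U : Set E} (hU : IsOpen U) {x : E} (hx : x ∈ U) {H : E → ℂ} (hH : DifferentiableOn ℂ H U) : ContDiffAt ℂ 2 H x :=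
  (wd2_contDiffOn hU hH).contDiffAt (hU.mem_nhds hx)

/-- the mixed second derivative as the derivative of a directional derivative -/
theorem wd2_eq_fderiv {U : Set E} (hU : IsOpen U) (h0 : (0 : E) ∈ U) {H : E → ℂ} (hH : DifferentiableOn ℂ H U) (a b : E) :
    iteratedFDeriv ℂ 2 H 0 ![a, b] = fderiv ℂ (fun z => fderiv ℂ H z b) 0 a := by
  rw [Loc.loc_d2_eq]
  have h1 : DifferentiableAt ℂ (fderiv ℂ H) 0 := (Hol.hol_fderiv U hU H hH 0 h0).differentiableAt (hU.mem_nhds h0)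
  have h2 := h1.hasFDerivAt.clm_apply (hasFDerivAt_const b (0 : E))
  rw [h2.fderiv]
  simp

theorem wd2_symm {U : Set E} (hU : IsOpen U) (h0 : (0 : E) ∈ U) {H : E → ℂ} (hH : DifferentiableOn ℂ H U) (a b : E) :
    iteratedFDeriv ℂ 2 H 0 ![a, b] = iteratedFDeriv ℂ 2 H 0 ![b, a] := by
  rw [Loc.loc_d2_eq, Loc.loc_d2_eq]
  exact (wd2_contDiffAt hU h0 hH).isSymmSndFDerivAt (by simp) a b

theorem wd2_invariant {U : Set E} (hU : IsOpen U) (h0 : (0 : E) ∈ U) {H : E → ℂ} (hH : DifferentiableOn ℂ H U) (a : E)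
    (hinv : ∀ z ∈ U, ∀ s : ℂ, z + s • a ∈ U → H (z + s • a) = H z) (b : E) :
    iteratedFDeriv ℂ 2 H 0 ![b, a] = 0 := by
  rw [wd2_eq_fderiv hU h0 hH]
  have h1 : ∀ z ∈ U, fderiv ℂ H z a = 0 := by
    intro z hz
    have h2 := Hol.line_hasDerivAt_zero (f := H) (z := z) (v := a) ((hH z hz).differentiableAt (hU.mem_nhds hz))
    have hcont : Continuous fun s : ℂ => z + s • a := by fun_prop
    have hnear : ∀ᶠ s : ℂ in nhds 0, z + s • a ∈ U := hcont.continuousAt.eventually_mem (by simpa using hU.mem_nhds hz)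
    have h3 : (fun s : ℂ => H (z + s • a)) =ᶠ[nhds 0] fun _ => H z := by
      filter_upwards [hnear] with s hs using hinv z hz s hs
    have h4 : HasDerivAt (fun s : ℂ => H (z + s • a)) 0 0 := (hasDerivAt_const (0 : ℂ) (H z)).congr_of_eventuallyEq h3
    exact h2.unique h4
  have h5 : (fun z => fderiv ℂ H z a) =ᶠ[nhds 0] fun _ => (0 : ℂ) := by
    filter_upwards [hU.mem_nhds h0] with z hz using h1 z hz
  rw [h5.fderiv_eq]
  simp

theorem wd2_comp {U : Set E} (hU : IsOpen U) (h0 : (0 : E) ∈ U) {H : E → ℂ} (hH : DifferentiableOn ℂ H U) (Λ : E →L[ℂ] E) (a b : E) :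
    iteratedFDeriv ℂ 2 (fun z => H (Λ z)) 0 ![a, b] = iteratedFDeriv ℂ 2 H 0 ![Λ a, Λ b] := by
  have hV : IsOpen (Λ ⁻¹' U) := hU.preimage Λ.continuous
  have h0' : Λ 0 ∈ U := by simpa using h0
  have h1 := Λ.iteratedFDerivWithin_comp_right (wd2_contDiffOn hU hH) hU.uniqueDiffOn hV.uniqueDiffOn (x := 0) h0' (i := 2) le_rfl
  rw [iteratedFDerivWithin_of_isOpen 2 hV h0', iteratedFDerivWithin_of_isOpen 2 hU h0', map_zero] at h1
  have h2 : (fun z => H (Λ z)) = H ∘ Λ := rfl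
  rw [h2, h1, ContinuousMultilinearMap.compContinuousLinearMap_apply]
  congr 1
  funext i
  fin_cases i <;> rfl

end wd2

section wd2c

variable {V : Type} [Fintype V]

/-- the conjugate of a linear form -/
def wd2_cc (T : (V → ℂ) →L[ℂ] ℂ) : (V → ℂ) →L[ℂ] ℂ :=
  LinearMap.toContinuousLinearMap
    { toFun := fun v => starRingEnd ℂ (T fun x => starRingEnd ℂ (v x))
      map_add' := fun v w => by
        have : (fun x => starRingEnd ℂ ((v + w) x)) = (fun x => starRingEnd ℂ (v x)) + fun x => starRingEnd ℂ (w x) := by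
          funext x; simp
        rw [this, map_add, map_add]
      map_smul' := fun k v => by
        have : (fun x => starRingEnd ℂ ((k • v) x)) = starRingEnd ℂ k • fun x => starRingEnd ℂ (v x) := by
          funext x; simp
        rw [this, map_smul, smul_eq_mul, map_mul, Complex.conj_conj, RingHom.id_apply, smul_eq_mul] }

theorem wd2_cc_apply (T : (V → ℂ) →L[ℂ] ℂ) (v : V → ℂ) : wd2_cc T v = starRingEnd ℂ (T fun x => starRingEnd ℂ (v x)) := rfl

theorem wd2_conj_hasFDerivAt {H : (V → ℂ) → ℂ} {z : V → ℂ} (hH : DifferentiableAt ℂ H fun x => starRingEnd ℂ (z x)) :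
    HasFDerivAt (fun w : V → ℂ => starRingEnd ℂ (H fun x => starRingEnd ℂ (w x))) (wd2_cc (fderiv ℂ H fun x => starRingEnd ℂ (z x))) z := by
  set σR : (V → ℂ) →L[ℝ] (V → ℂ) := ContinuousLinearMap.pi fun x => (Complex.conjCLE : ℂ →L[ℝ] ℂ).comp (ContinuousLinearMap.proj x) with hσ
  have h1 : HasFDerivAt H ((fderiv ℂ H fun x => starRingEnd ℂ (z x)).restrictScalars ℝ) (σR z) := hH.hasFDerivAt.restrictScalars ℝ
  have h2 := h1.comp z σR.hasFDerivAt
  have h3 := (Complex.conjCLE : ℂ →L[ℝ] ℂ).hasFDerivAt.comp z h2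
  exact hasFDerivAt_of_restrictScalars ℝ h3 (by ext v; rfl)

theorem wd2_conj {U : Set (V → ℂ)} (hU : IsOpen U) (h0 : (0 : V → ℂ) ∈ U) (hc : ∀ z ∈ U, (fun v => starRingEnd ℂ (z v)) ∈ U) {H : (V → ℂ) → ℂ}
    (hH : DifferentiableOn ℂ H U) (a b : V → ℂ) :
    iteratedFDeriv ℂ 2 (fun z => starRingEnd ℂ (H fun v => starRingEnd ℂ (z v))) 0 ![a, b]
      = starRingEnd ℂ (iteratedFDeriv ℂ 2 H 0 ![fun v => starRingEnd ℂ (a v), fun v => starRingEnd ℂ (b v)]) := by
  have hd : ∀ z ∈ U, DifferentiableAt ℂ H fun x => starRingEnd ℂ (z x) := fun z hz =>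
    (hH _ (hc z hz)).differentiableAt (hU.mem_nhds (hc z hz))
  have hK : DifferentiableOn ℂ (fun z : V → ℂ => starRingEnd ℂ (H fun v => starRingEnd ℂ (z v))) U := fun z hz =>
    (wd2_conj_hasFDerivAt (hd z hz)).differentiableAt.differentiableWithinAt
  rw [wd2_eq_fderiv hU h0 hK, wd2_eq_fderiv hU h0 hH]
  have h1 : (fun z => fderiv ℂ (fun z : V → ℂ => starRingEnd ℂ (H fun v => starRingEnd ℂ (z v))) z b) =ᶠ[nhds 0]
      fun z => starRingEnd ℂ ((fun w => fderiv ℂ H w fun v => starRingEnd ℂ (b v)) fun x => starRingEnd ℂ (z x)) := by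
    filter_upwards [hU.mem_nhds h0] with z hz
    rw [(wd2_conj_hasFDerivAt (hd z hz)).fderiv, wd2_cc_apply]
  have e0 : (fun x => starRingEnd ℂ ((0 : V → ℂ) x)) = 0 := by funext x; simp
  have h2 : DifferentiableAt ℂ (fun w => fderiv ℂ H w fun v => starRingEnd ℂ (b v)) fun x => starRingEnd ℂ ((0 : V → ℂ) x) := by
    rw [e0]
    have h3 : DifferentiableAt ℂ (fderiv ℂ H) 0 := (Hol.hol_fderiv U hU H hH 0 h0).differentiableAt (hU.mem_nhds h0)
    exact (h3.hasFDerivAt.clm_apply (hasFDerivAt_const (fun v => starRingEnd ℂ (b v)) (0 : V → ℂ))).differentiableAt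
  rw [h1.fderiv_eq, (wd2_conj_hasFDerivAt h2).fderiv, wd2_cc_apply, e0]

end wd2c


/-- `D² H (0) [a, b]`; `DX g v₀ H i j = D2 H (ℓ_i) (ℓ_j)` by definition -/
def D2 (H : Fn G) (a b : G.V → ℂ) : ℂ := iteratedFDeriv ℂ 2 H 0 ![a, b]

theorem w_DX_eq (g : Grid G) (v0 : G.V) (H : Fn G) (i j : Fin 2) : DX g v0 H i j = D2 H (toC (ell g v0 i)) (toC (ell g v0 j)) := rfl

/-! ### LEAF `W-D2-1`: general facts (Mathlib level; `U` = an open neighbourhood of `0`) -/

/-- plan: `Hol.hol_fderiv` twice + `contDiffOn_succ_iff_fderiv_of_isOpen`. -/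
theorem w_contDiffAt_two {U : Set (G.V → ℂ)} (hU : IsOpen U) (h0 : (0 : G.V → ℂ) ∈ U) {H : Fn G} (hH : DifferentiableOn ℂ H U) : ContDiffAt ℂ 2 H 0 := by
  exact wd2_contDiffAt hU h0 hH

/-- plan: `Filter.EventuallyEq.iteratedFDeriv_eq`. -/
theorem w_D2_congr {U : Set (G.V → ℂ)} (hU : IsOpen U) (h0 : (0 : G.V → ℂ) ∈ U) {H H' : Fn G} (h : ∀ z ∈ U, H z = H' z) (a b : G.V → ℂ) : D2 H a b = D2 H' a b := by
  unfold D2
  have h1 : H =ᶠ[nhds 0] H' := by
    filter_upwards [hU.mem_nhds h0] with z hz using h z hz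
  rw [(Filter.EventuallyEq.iteratedFDeriv ℂ h1 2).eq_of_nhds]

theorem w_D2_add {U : Set (G.V → ℂ)} (hU : IsOpen U) (h0 : (0 : G.V → ℂ) ∈ U) {H H' : Fn G} (hH : DifferentiableOn ℂ H U) (hH' : DifferentiableOn ℂ H' U)
    (a b : G.V → ℂ) : D2 (H + H') a b = D2 H a b + D2 H' a b := by
  unfold D2
  rw [iteratedFDeriv_add_apply (wd2_contDiffAt hU h0 hH) (wd2_contDiffAt hU h0 hH')]
  rfl

theorem w_D2_smul {U : Set (G.V → ℂ)} (hU : IsOpen U) (h0 : (0 : G.V → ℂ) ∈ U) {H : Fn G} (hH : DifferentiableOn ℂ H U) (k : ℂ) (a b : G.V → ℂ) :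
    D2 (k • H) a b = k * D2 H a b := by
  unfold D2
  rw [iteratedFDeriv_const_smul_apply (wd2_contDiffAt hU h0 hH)]
  rfl

/-- bilinearity in the directions (no hypothesis: a continuous multilinear map) -/
theorem w_D2_bilin (H : Fn G) (a a' b b' : G.V → ℂ) (k k' : ℂ) :
    D2 H (a + k • a') (b + k' • b') = D2 H a b + k' * D2 H a b' + k * D2 H a' b + k * k' * D2 H a' b' := by
  unfold D2
  simp only [Loc.loc_d2_eq, map_add, map_smul, add_apply, smul_apply, smul_eq_mul]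
  ring

/-- plan: `H (z + s a) = H z` near `0` gives `fderiv H z a = 0` near `0`, hence both mixed second derivatives vanish (symmetry: `ContDiffAt.isSymmSndFDerivAt` or differentiate `z ↦ fderiv H z a`;
`iteratedFDeriv_two_apply`). -/
theorem w_D2_invariant {U : Set (G.V → ℂ)} (hU : IsOpen U) (h0 : (0 : G.V → ℂ) ∈ U) {H : Fn G} (hH : DifferentiableOn ℂ H U) (a : G.V → ℂ)
    (hinv : ∀ z ∈ U, ∀ s : ℂ, z + s • a ∈ U → H (z + s • a) = H z) (b : G.V → ℂ) : D2 H a b = 0 ∧ D2 H b a = 0 := by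
  have h1 := wd2_invariant hU h0 hH a hinv b
  exact ⟨(wd2_symm hU h0 hH a b).trans h1, h1⟩

/-- chain rule for a linear change of variables.  plan: `ContinuousLinearMap.iteratedFDeriv_comp_right` (needs `w_contDiffAt_two`); in finite dimension every linear map is continuous (`LinearMap.toContinuousLinearMap`). -/
theorem w_D2_comp {U : Set (G.V → ℂ)} (hU : IsOpen U) (h0 : (0 : G.V → ℂ) ∈ U) {H : Fn G} (hH : DifferentiableOn ℂ H U) (Λ : (G.V → ℂ) →ₗ[ℂ] (G.V → ℂ))
    (a b : G.V → ℂ) : D2 (fun z => H (Λ z)) a b = D2 H (Λ a) (Λ b) := by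
  exact wd2_comp hU h0 hH (LinearMap.toContinuousLinearMap Λ) a b

/-- plan: `z ↦ conj (H (conj z))` is holomorphic with derivative `conj ∘ DH (conj z) ∘ conj`; do it twice; or use the characterisation `D2 H a b = ∂_s ∂_t H (s a + t b)` and one-variable calculus. -/
theorem w_D2_conj {U : Set (G.V → ℂ)} (hU : IsOpen U) (h0 : (0 : G.V → ℂ) ∈ U) (hc : ∀ z ∈ U, (fun v => starRingEnd ℂ (z v)) ∈ U) {H : Fn G} (hH : DifferentiableOn ℂ H U)
    (a b : G.V → ℂ) : D2 (fun z => starRingEnd ℂ (H fun v => starRingEnd ℂ (z v))) a b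
      = starRingEnd ℂ (D2 H (fun v => starRingEnd ℂ (a v)) (fun v => starRingEnd ℂ (b v))) := by
  exact wd2_conj hU h0 hc hH a b

/-! ### LEAF `W-D2-2`: locality + neutrality: `D2 H` only sees the directions near `X`, modulo constants -/

/-- PLAN: `a - a' = (a - a' - k) + k`; the first summand vanishes near `X` (`LocalFn.loc` ⟹ `hinv` of `w_D2_invariant`; the strip is open and `s`-translates which stay in the strip are allowed), the second is a constant (`hn`);
`w_D2_bilin`. -/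
theorem w_D2_local {g : Grid G} {X : Finset g.I} {col : ℕ} (hh : 0 < p.h0) {H : Fn G} (hH : LocalFn p col g X H)
    (hn : ∀ z ∈ strip p.h0 g X, ∀ k : ℂ, (fun v => z v + k) ∈ strip p.h0 g X → H (fun v => z v + k) = H z)
    (a a' b b' : G.V → ℂ) (k k' : ℂ) (ha : ∀ v, (∃ w ∈ g.sites X, G.dist w v ≤ col) → a' v = a v + k)
    (hb : ∀ v, (∃ w ∈ g.sites X, G.dist w v ≤ col) → b' v = b v + k') : D2 H a' b' = D2 H a b := by
  have hU := Hol.strip_isOpen p.h0 g X
  have h0 : (0 : G.V → ℂ) ∈ strip p.h0 g X := by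
    rw [Hol.mem_strip]
    have e : (fun v => ((0 : G.V → ℂ) v).im) = (0 : G.V → ℝ) := by funext v; simp
    rw [e, Hol.tnorm_zero]
    exact hh
  -- directions which vanish near `X`
  have hloc : ∀ e : G.V → ℂ, (∀ v, (∃ w ∈ g.sites X, G.dist w v ≤ col) → e v = 0) → ∀ x, D2 H e x = 0 ∧ D2 H x e = 0 := by
    intro e he x
    refine w_D2_invariant hU h0 hH.hol e (fun z hz s hzs => ?_) x
    refine hH.loc _ hzs _ hz fun v hv => ?_
    simp [he v hv]
  -- the constant direction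
  have hcst : ∀ x, D2 H (fun _ => (1 : ℂ)) x = 0 ∧ D2 H x (fun _ => (1 : ℂ)) = 0 := by
    intro x
    refine w_D2_invariant hU h0 hH.hol _ (fun z hz s hzs => ?_) x
    have e : z + s • (fun _ : G.V => (1 : ℂ)) = fun v => z v + s := by funext v; simp
    rw [e] at hzs ⊢
    exact hn z hz s hzs
  have ea : a' = (a + (1 : ℂ) • (fun v => a' v - a v - k)) + k • (fun _ : G.V => (1 : ℂ)) := by
    funext v
    simp only [Pi.add_apply, Pi.smul_apply, smul_eq_mul]
    ring
  have eb : b' = (b + (1 : ℂ) • (fun v => b' v - b v - k')) + k' • (fun _ : G.V => (1 : ℂ)) := by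
    funext v
    simp only [Pi.add_apply, Pi.smul_apply, smul_eq_mul]
    ring
  have ha' := hloc (fun v => a' v - a v - k) (fun v hv => by rw [ha v hv]; ring)
  have hb' := hloc (fun v => b' v - b v - k') (fun v hv => by rw [hb v hv]; ring)
  rw [ea, eb, w_D2_bilin, (hcst _).1, (hcst _).2, (hcst _).1, w_D2_bilin, (ha' _).1, (hb' _).2, (ha' _).1]
  ring

end

end Claimed.Agent.R285.B8
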