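import Claimed.Agent.R285.Map.WDes

/-!
# ROW 285, unit MAP, weak step: THE TRIANGULAR LINEAR PART (`WeakOK.lin`), the decomposition of `C_j`, linearity                    (owner helper202)

The relocated pieces at a coarse block `b` sum to `(P^t R) e_b / 2 + (P^z R) c_b + a_b`:
 * isotropy `∑_{X ∋ B} D^X / |X| = d · Id`, `d = P^t R` independent of `B` (`w_iso`; reflection + diagonal swap + block translations of `StepOK`),
 * `∑_{X ∋ B} (H_1^X (0) + H_{-1}^X (0)) / |X| = L⁻² P^z R` independent of `B` (`w_fund_tr`),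
 * `B4.loc_isotropic`, `w_sum_eBC`, `w_sum_cBC`.
LEAVES `W-LIN-*`.
-/

set_option autoImplicit false

namespace Claimed.Agent.R285.B8

open scoped BigOperators ENNReal NNReal
open MeasureTheory
open Claimed.Agent.R285.RG Claimed.Agent.R285.Hol

noncomputable section

variable {G : Geom} {D0 ℓ : ℕ} {c : Geo} {p : Par} {gs : Grid G} {S : Step G D0 ℓ}

open Classical in
/-- `M_B = ∑_{X small, X ∋ B} D^X / |X|` -/
def MB (S : Step G D0 ℓ) (c : Geo) (ω : ℝ) (Rm : Act S.P.g) (B : S.P.g.I) (i j : Fin 2) : ℂ :=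
  ∑ X ∈ (S.small c).filter (fun X => B ∈ X), (1 / (X.card : ℂ)) * DX S.P.g (anchor S.P.g X) (S.Hq ω 0 Rm X) i j

open Classical in
/-- `f_B = ∑_{X small, X ∋ B} (H_1^X (0) + H_{-1}^X (0)) / |X|` -/
def FB (S : Step G D0 ℓ) (c : Geo) (ω : ℝ) (Rm : Act S.P.g) (B : S.P.g.I) : ℂ :=
  ∑ X ∈ (S.small c).filter (fun X => B ∈ X), (1 / (X.card : ℂ)) * (S.Hq ω 1 Rm X 0 + S.Hq ω (-1) Rm X 0)

/-! ## LEAF `W-LIN-1`: covariance of `M_B`, `f_B` -/

open Classical in
/-- reindexing of the small polymers through a block by a symmetry -/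
theorem wlin_sum_sym (h : Ctx c p gs S) (s : GridSym S.P.g) (B : S.P.g.I) (f : Finset S.P.g.I → ℂ) :
    ∑ X ∈ (S.small c).filter (fun X => s.τ B ∈ X), f X = ∑ X ∈ (S.small c).filter (fun X => B ∈ X), f (symX s X) := by
  refine (Finset.sum_equiv s.τ.finsetCongr (fun X => ?_) (fun X _ => rfl)).symm
  have e : s.τ.finsetCongr X = symX s X := rfl
  rw [e, Finset.mem_filter, Finset.mem_filter, w_small_sym h s X]
  have e2 : s.τ B ∈ symX s X ↔ B ∈ X := by
    unfold symX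
    exact Finset.mem_map' s.τ.toEmbedding
  rw [e2]

theorem wlin_card_sym (s : GridSym S.P.g) (X : Finset S.P.g.I) : (symX s X).card = X.card := Finset.card_map _

/-- plan: reindex the sum by `X ↦ symX s X` (`w_small_sym`, `Finset.card_map`, `B ∈ X ↔ τ B ∈ symX s X`); `w_DX_sym` with `v0 = anchor X` (`w_anchor_mem`), then `w_DX_anchor` (`σ (anchor X) ∈ sites (sX)` by `w_sym_sites`). -/
theorem w_MB_sym (h : Ctx c p gs S) {Rm : Act S.P.g} (hR : Adm p c gs Rm) (hfin : actNorm p S.P.g S.Vf Rm ≠ ⊤) (s : GridSym S.P.g) (hs : s.Pres gs) (B : S.P.g.I) (i j : Fin 2) :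
    MB S c p.ω Rm (s.τ B) (wAx (s.ρ (wPos i))) (wAx (s.ρ (wPos j))) = (wSg (s.ρ (wPos i)) : ℂ) * (wSg (s.ρ (wPos j)) : ℂ) * MB S c p.ω Rm B i j := by
  classical
  unfold MB
  rw [wlin_sum_sym h s B, Finset.mul_sum]
  refine Finset.sum_congr rfl fun X hX => ?_
  have hXs : X ∈ S.small c := (Finset.mem_filter.1 hX).1
  have hXs' : symX s X ∈ S.small c := (w_small_sym h s X).2 hXs
  have h0 : anchor S.P.g X ∈ S.P.g.sites X := w_anchor_mem h hXs
  have h1 : s.σ (anchor S.P.g X) ∈ S.P.g.sites (symX s X) := by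
    rw [w_sym_sites]
    exact Finset.mem_map_of_mem _ h0
  rw [wlin_card_sym, w_DX_anchor h hR hfin hXs' h1 (w_anchor_mem h hXs'), w_DX_sym h hR hfin s hs hXs h0]
  ring

/-- plan: the same reindexing, `w_Hq_sym` at `z = 0` (`symF s 0 = 0`, `w_zero_mem_strip`). -/
theorem w_FB_sym (h : Ctx c p gs S) {Rm : Act S.P.g} (hR : Adm p c gs Rm) (s : GridSym S.P.g) (hs : s.Pres gs) (B : S.P.g.I) :
    FB S c p.ω Rm (s.τ B) = FB S c p.ω Rm B := by
  classical
  unfold FB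
  rw [wlin_sum_sym h s B]
  refine Finset.sum_congr rfl fun X _ => ?_
  have e : symF s (0 : G.V → ℂ) = 0 := rfl
  have h1 := w_Hq_sym h hR s hs 1 X (w_zero_mem_strip h.hh S.P.g X)
  have h2 := w_Hq_sym h hR s hs (-1) X (w_zero_mem_strip h.hh S.P.g X)
  rw [e] at h1 h2
  rw [wlin_card_sym, h1, h2]

/-! ## LEAF `W-LIN-2`: isotropy -/

/-- plan: `h.ok.square B`: the reflection (`ρ = swap 0 1`: `wAx (ρ (wPos i)) = i`, signs `(-1, 1)`) gives `M 0 1 = - M 0 1`, `M 1 0 = - M 1 0`; the diagonal swap (`ρ 0 = 2`, `ρ 2 = 0`: axes exchanged, signs `(1, 1)`) gives `M 1 1 = M 0 0`;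
`h.ok.trans B0 B` (`ρ = 1`) gives independence of `B`; `Pt = ½ (M_{B0} 0 0 + M_{B0} 1 1)` by definition. -/
theorem w_iso (h : Ctx c p gs S) {Rm : Act S.P.g} (hR : Adm p c gs Rm) (hfin : actNorm p S.P.g S.Vf Rm ≠ ⊤) (B : S.P.g.I) (i j : Fin 2) :
    MB S c p.ω Rm B i j = if i = j then S.Pt c p.ω Rm else 0 := by
  have p0 : wPos 0 = 0 := rfl
  have p1 : wPos 1 = 2 := rfl
  have a0 : wAx 0 = 0 := rfl
  have a1 : wAx 1 = 0 := rfl
  have a2 : wAx 2 = 1 := rfl
  have g0 : wSg 0 = 1 := by simp [wSg]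
  have g1 : wSg 1 = -1 := by simp [wSg]
  have g2 : wSg 2 = 1 := by simp [wSg]
  -- translation
  have htr : ∀ i j, MB S c p.ω Rm B i j = MB S c p.ω Rm S.B0 i j := by
    obtain ⟨s, hs, hB, hρ⟩ := h.ok.trans S.B0 B
    intro i j
    have := w_MB_sym h hR hfin s hs S.B0 i j
    rw [hB, hρ] at this
    fin_cases i <;> fin_cases j <;> simpa [p0, p1, a0, a2, g0, g2] using this
  -- reflection
  obtain ⟨⟨s, hs, hB, hρ⟩, ⟨s', hs', hB', h02, h20, _, _⟩⟩ := h.ok.square S.B0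
  have r0 : s.ρ 0 = 1 := by rw [hρ]; rfl
  have r2 : s.ρ 2 = 2 := by rw [hρ]; decide
  have h01 : MB S c p.ω Rm S.B0 0 1 = 0 := by
    have := w_MB_sym h hR hfin s hs S.B0 0 1
    rw [hB, p0, p1, r0, r2, a1, a2, g1, g2] at this
    have h2 : (2 : ℂ) * MB S c p.ω Rm S.B0 0 1 = 0 := by
      push_cast at this
      linear_combination this
    simpa using h2
  have h10 : MB S c p.ω Rm S.B0 1 0 = 0 := by
    have := w_MB_sym h hR hfin s hs S.B0 1 0
    rw [hB, p0, p1, r0, r2, a1, a2, g1, g2] at this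
    have h2 : (2 : ℂ) * MB S c p.ω Rm S.B0 1 0 = 0 := by
      push_cast at this
      linear_combination this
    simpa using h2
  have h11 : MB S c p.ω Rm S.B0 1 1 = MB S c p.ω Rm S.B0 0 0 := by
    have := w_MB_sym h hR hfin s' hs' S.B0 0 0
    rw [hB', p0, h02, a2, g2] at this
    simpa using this
  have hPt : S.Pt c p.ω Rm = (1 / 2) * (MB S c p.ω Rm S.B0 0 0 + MB S c p.ω Rm S.B0 1 1) := by
    unfold Step.Pt MB
    rw [Fin.sum_univ_two]
  rw [htr, hPt, h11]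
  fin_cases i <;> fin_cases j
  · simp; ring
  · simpa using h01
  · simpa using h10
  · simp [h11]; ring

/-- PROVED from `w_FB_sym` -/
theorem w_fund_tr (h : Ctx c p gs S) {Rm : Act S.P.g} (hR : Adm p c gs Rm) (B : S.P.g.I) : ((2 : ℂ) ^ ℓ) ^ 2 * FB S c p.ω Rm B = S.Pz c p.ω Rm := by
  obtain ⟨s, hs, hB, _⟩ := h.ok.trans S.B0 B
  rw [← hB, w_FB_sym h hR s hs]
  rfl

/-! ## LEAF `W-LIN-3`: the sum of the pieces at one fine block -/

/-- the quadratic form of `Loc` is linear in the matrix -/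
theorem wlin_quad_sum {ι : Type} (s : Finset ι) (a : ι → ℂ) (D : ι → Fin 2 → Fin 2 → ℂ) (k : ℂ) (V : Finset G.V)
    (P : G.V → (Fin 2 → Bool) → Fin 2 → ℂ) :
    ∑ X ∈ s, a X * (k * ∑ v ∈ V, (1 / 4 : ℂ) * ∑ ε : Fin 2 → Bool, ∑ i, ∑ j, P v ε i * D X i j * P v ε j)
      = k * ∑ v ∈ V, (1 / 4 : ℂ) * ∑ ε : Fin 2 → Bool, ∑ i, ∑ j, P v ε i * (∑ X ∈ s, a X * D X i j) * P v ε j := by
  simp only [Finset.mul_sum, Finset.sum_mul]
  rw [Finset.sum_comm]
  refine Finset.sum_congr rfl fun v _ => ?_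
  rw [Finset.sum_comm]
  refine Finset.sum_congr rfl fun ε _ => ?_
  rw [Finset.sum_comm]
  refine Finset.sum_congr rfl fun i _ => ?_
  rw [Finset.sum_comm]
  refine Finset.sum_congr rfl fun j _ => ?_
  refine Finset.sum_congr rfl fun X _ => ?_
  ring

open Classical in
/-- plan: unfold `piece`, `Loc`; exchange the sums so that `MB`, `FB` appear; `w_iso`; `B4.loc_isotropic` with `d = Pt`. -/
theorem w_pieces_at (h : Ctx c p gs S) (cosOn : Bool) {Rm : Act S.P.g} (hR : Adm p c gs Rm) (hfin : actNorm p S.P.g S.Vf Rm ≠ ⊤) (B : S.P.g.I) (z : G.V → ℂ) :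
    ∑ X ∈ (S.small c).filter (fun X => B ∈ X), (S.piece p.ω cosOn Rm X B z - (1 / (X.card : ℂ)) * S.Hq p.ω 0 Rm X 0)
      = S.Pt c p.ω Rm / 2 * eBC S.P.g B z + (if cosOn then FB S c p.ω Rm B else 0) * cBC S.P.g (Step.alpha p.ω) B z := by
  have e1 : ∀ X : Finset S.P.g.I, S.piece p.ω cosOn Rm X B z - (1 / (X.card : ℂ)) * S.Hq p.ω 0 Rm X 0
      = (1 / (X.card : ℂ)) * ((1 / (2 * (S.P.g.m : ℂ) ^ 2)) * ∑ v ∈ S.P.g.sites {B},
          (1 / 4 : ℂ) * ∑ ε : Fin 2 → Bool, ∑ i, ∑ j, pvec S.P.g z v ε i * DX S.P.g (anchor S.P.g X) (S.Hq p.ω 0 Rm X) i j * pvec S.P.g z v ε j)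
        + (if cosOn then (1 / (X.card : ℂ)) * (S.Hq p.ω 1 Rm X 0 + S.Hq p.ω (-1) Rm X 0) else 0) * cBC S.P.g (Step.alpha p.ω) B z := by
    intro X
    unfold Step.piece Loc
    cases cosOn
    · simp only [Pi.add_apply, Bool.false_eq_true, if_false, Pi.zero_apply]
      ring
    · simp only [Pi.add_apply, if_true, Pi.smul_apply, smul_eq_mul]
      ring
  rw [Finset.sum_congr rfl fun X _ => e1 X, Finset.sum_add_distrib, wlin_quad_sum, ← Finset.sum_mul]
  congr 1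
  · rw [← B4.loc_isotropic S.P.g S.P.ok B (S.Pt c p.ω Rm) z]
    congr 1
    refine Finset.sum_congr rfl fun v _ => ?_
    congr 1
    refine Finset.sum_congr rfl fun ε _ => ?_
    refine Finset.sum_congr rfl fun i _ => ?_
    have e2 : ∀ j, (∑ X ∈ (S.small c).filter (fun X => B ∈ X), (1 / (X.card : ℂ)) * DX S.P.g (anchor S.P.g X) (S.Hq p.ω 0 Rm X) i j)
        = if i = j then S.Pt c p.ω Rm else 0 := fun j => w_iso h hR hfin B i j
    simp only [e2, mul_ite, ite_mul, mul_zero, zero_mul, Finset.sum_ite_eq, Finset.mem_univ, if_true]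
  · congr 1
    cases cosOn
    · simp
    · simp only [if_true]
      rfl

/-! ## LEAF `W-LIN-4`: the relocation identity at one coarse block -/

open Classical in
/-- Fubini for (polymer, block) pairs below a coarse block -/
theorem wlin_fub {M : Type} [AddCommMonoid M] (P : Pair G D0 ℓ) (s : Finset (Finset P.g.I)) (b : P.g'.I) (f : Finset P.g.I → P.g.I → M) :
    ∑ X ∈ s, ∑ B ∈ X.filter (fun B => P.N.up B = b), f X B
      = ∑ B ∈ Finset.univ.filter (fun B => P.N.up B = b), ∑ X ∈ s.filter (fun X => B ∈ X), f X B := by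
  have e1 : ∀ X : Finset P.g.I, ∑ B ∈ X.filter (fun B => P.N.up B = b), f X B
      = ∑ B ∈ Finset.univ.filter (fun B => P.N.up B = b), if B ∈ X then f X B else 0 := by
    intro X
    rw [Finset.sum_ite_mem]
    congr 1
    ext B
    simp [and_comm]
  rw [Finset.sum_congr rfl fun X _ => e1 X, Finset.sum_comm]
  refine Finset.sum_congr rfl fun B _ => ?_
  rw [Finset.sum_filter]

open Classical in
/-- the labels `Y' ∋ b` -/
theorem wlin_labels {M : Type} [AddCommMonoid M] (P : Pair G D0 ℓ) (s : Finset (Finset P.g.I)) (b : P.g'.I) (f : Finset P.g.I → P.g.I → M) :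
    (∑ Y' : Finset P.g'.I, if b ∈ Y' then ∑ X ∈ s.filter (fun X => P.N.cl X = Y'), ∑ B ∈ X.filter (fun B => P.N.up B = b), f X B else 0)
      = ∑ X ∈ s, ∑ B ∈ X.filter (fun B => P.N.up B = b), f X B := by
  rw [← Finset.sum_fiberwise s (fun X => P.N.cl X)]
  refine Finset.sum_congr rfl fun Y' _ => ?_
  split_ifs with hb
  · rfl
  · symm
    refine Finset.sum_eq_zero fun X hX => ?_
    have hcl : P.N.cl X = Y' := (Finset.mem_filter.1 hX).2
    have : X.filter (fun B => P.N.up B = b) = ∅ := by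
      rw [Finset.filter_eq_empty_iff]
      intro B hB hup
      apply hb
      rw [← hcl, ← hup]
      exact Finset.mem_image_of_mem _ hB
    rw [this, Finset.sum_empty]

open Classical in
theorem wlin_label_single {M : Type} [AddCommMonoid M] {g' : Grid G} (b : g'.I) (T : M) :
    (∑ Y' : Finset g'.I, if b ∈ Y' then (if Y' = {b} then T else 0) else 0) = T := by
  rw [Finset.sum_eq_single {b}]
  · simp
  · intro Y _ hY
    simp [hY]
  · intro hh; exact absurd (Finset.mem_univ _) hh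

open Classical in
theorem wlin_F_apply (S : Step G D0 ℓ) (c : Geo) (ω : ℝ) (cosOn : Bool) (x : ℂ × ℂ × Act S.P.g) (Y : Finset S.P.g'.I) (b : S.P.g'.I) (z : G.V → ℂ) :
    (S.desig c ω cosOn x).F Y b z
      = (∑ X ∈ (S.small c).filter (fun X => S.P.N.cl X = Y), ∑ B ∈ X.filter (fun B => S.P.N.up B = b), S.piece ω cosOn x.2.2 X B z)
        + if Y = {b} then ∑ B ∈ Finset.univ.filter (fun B => S.P.N.up B = b),
            conv S.Γ ((x.1 / 2) • eBC S.P.g B + x.2.1 • cBC S.P.g (Step.alpha ω) B) z else 0 := by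
  unfold Step.desig
  simp only [Pi.add_apply, Finset.sum_apply]
  congr 1
  split_ifs
  · rw [Finset.sum_apply]
  · rfl

/-- the Gaussian expectation of the fine singletons -/
theorem wlin_conv_sing (h : Ctx c p gs S) (t w : ℂ) (B : S.P.g.I) (z : G.V → ℂ) :
    conv S.Γ ((t / 2) • eBC S.P.g B + w • cBC S.P.g (Step.alpha p.ω) B) z - (t / 2) * conv S.Γ (eBC S.P.g B) 0
      = t / 2 * eBC S.P.g B z + w * ((Real.exp (-(Step.alpha p.ω) ^ 2 * S.Γ (org G) (org G) / 2) : ℝ) * cBC S.P.g (Step.alpha p.ω) B z) := by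
  rw [w_conv_single S.P.g S.Γ h.psd, Pi.add_apply, Pi.smul_apply, Pi.smul_apply, w_conv_eBC S.P.g S.Γ h.psd,
    w_conv_cBC S.P.g S.Γ h.psd _ h.ok.diag, smul_eq_mul, smul_eq_mul]
  ring

open Classical in
/-- **the relocated pieces minus the constant are the two new singletons** (all `z`).
plan: LHS `= ∑_{B : up B = b} ∑_{X small ∋ B} (piece X B z - H_0^X (0) / |X|) + ∑_{B : up B = b} (E (t e_B/2 + z₀ c_B)(z) - (t/2) E e_B (0))` (Fubini for finite sums: `b ∈ cl X` is automatic when `B ∈ X`, `up B = b`);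
`w_pieces_at`, `w_fund_tr`, `w_conv_single`, `w_conv_eBC`, `w_conv_cBC` (`h.ok.diag`), `w_sum_eBC`, `w_sum_cBC`, definition of `lam`. -/
theorem w_reloc (h : Ctx c p gs S) (cosOn : Bool) (x : ℂ × ℂ × Act S.P.g) (hx : Adm p c gs x.2.2) (hfin : actNorm p S.P.g S.Vf x.2.2 ≠ ⊤) (hz : cosOn = false → x.2.1 = 0)
    (b : S.P.g'.I) (z : G.V → ℂ) :
    (∑ Y' : Finset S.P.g'.I, if b ∈ Y' then (S.desig c p.ω cosOn x).F Y' b z else 0) - (S.desig c p.ω cosOn x).a b
      = (S.tz c p.ω cosOn x).1 / 2 * eBC S.P.g' b z + (S.tz c p.ω cosOn x).2 * cBC S.P.g' (Step.alpha p.ω) b z := by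
  have hL : ((2 : ℂ) ^ ℓ) ^ 2 ≠ 0 := pow_ne_zero _ (pow_ne_zero _ two_ne_zero)
  have e1 : ∀ Y' : Finset S.P.g'.I, (if b ∈ Y' then (S.desig c p.ω cosOn x).F Y' b z else 0)
      = (if b ∈ Y' then ∑ X ∈ (S.small c).filter (fun X => S.P.N.cl X = Y'), ∑ B ∈ X.filter (fun B => S.P.N.up B = b), S.piece p.ω cosOn x.2.2 X B z else 0)
        + (if b ∈ Y' then (if Y' = {b} then ∑ B ∈ Finset.univ.filter (fun B => S.P.N.up B = b),
            conv S.Γ ((x.1 / 2) • eBC S.P.g B + x.2.1 • cBC S.P.g (Step.alpha p.ω) B) z else 0) else 0) := by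
    intro Y'
    rw [wlin_F_apply]
    split_ifs <;> simp
  have e2 : (S.desig c p.ω cosOn x).a b
      = (∑ X ∈ S.small c, ∑ B ∈ X.filter (fun B => S.P.N.up B = b), (fun X (_ : S.P.g.I) => (1 / (X.card : ℂ)) * S.Hq p.ω 0 x.2.2 X 0) X B)
        + ∑ B ∈ Finset.univ.filter (fun B => S.P.N.up B = b), (x.1 / 2) * conv S.Γ (eBC S.P.g B) 0 := rfl
  rw [Finset.sum_congr rfl fun Y' _ => e1 Y', Finset.sum_add_distrib, wlin_labels S.P (S.small c) b (fun X B => S.piece p.ω cosOn x.2.2 X B z),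
    wlin_label_single, e2, wlin_fub, wlin_fub, add_sub_add_comm, ← Finset.sum_sub_distrib, ← Finset.sum_sub_distrib, ← Finset.sum_add_distrib]
  have e3 : ∀ B ∈ Finset.univ.filter (fun B => S.P.N.up B = b),
      (∑ X ∈ (S.small c).filter (fun X => B ∈ X), S.piece p.ω cosOn x.2.2 X B z - ∑ X ∈ (S.small c).filter (fun X => B ∈ X), (1 / (X.card : ℂ)) * S.Hq p.ω 0 x.2.2 X 0)
        + (conv S.Γ ((x.1 / 2) • eBC S.P.g B + x.2.1 • cBC S.P.g (Step.alpha p.ω) B) z - (x.1 / 2) * conv S.Γ (eBC S.P.g B) 0)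
      = ((x.1 + S.Pt c p.ω x.2.2) / 2) * eBC S.P.g B z
        + ((if cosOn then S.Pz c p.ω x.2.2 / ((2 : ℂ) ^ ℓ) ^ 2 else 0) + x.2.1 * (Real.exp (-(Step.alpha p.ω) ^ 2 * S.Γ (org G) (org G) / 2) : ℝ)) * cBC S.P.g (Step.alpha p.ω) B z := by
    intro B _
    rw [← Finset.sum_sub_distrib, w_pieces_at h cosOn hx hfin B z, wlin_conv_sing h, ← w_fund_tr h hx B, mul_div_cancel_left₀ _ hL]
    ring
  rw [Finset.sum_congr rfl e3, Finset.sum_add_distrib, ← Finset.mul_sum, ← Finset.mul_sum]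
  have e4 : ∑ B ∈ Finset.univ.filter (fun B => S.P.N.up B = b), eBC S.P.g B z = eBC S.P.g' b z := by
    rw [← w_sum_eBC S.P b, Finset.sum_apply]
  have e5 : ∑ B ∈ Finset.univ.filter (fun B => S.P.N.up B = b), cBC S.P.g (Step.alpha p.ω) B z = ((2 : ℂ) ^ ℓ) ^ 2 * cBC S.P.g' (Step.alpha p.ω) b z := by
    have := congrFun (w_sum_cBC S.P (Step.alpha p.ω) b) z
    rw [Finset.sum_apply] at this
    rw [this]; rfl
  rw [e4, e5]
  unfold Step.tz Step.lam
  cases cosOn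
  · rw [hz rfl]
    simp
  · simp only [if_true]
    push_cast
    field_simp
    ring

/-! ## LEAF `W-LIN-5`: the decomposition of `C_j` -/

open Classical in
/-- the subtracted small inputs -/
def ClinS (S : Step G D0 ℓ) (c : Geo) (ω : ℝ) (cosOn : Bool) (Rm : Act S.P.g) : Act S.P.g' := fun Y =>
  ∑ X ∈ (S.small c).filter (fun X => S.P.N.cl X = Y), (conv S.Γ (Rm X) - ∑ B ∈ X, S.piece ω cosOn Rm X B)

open Classical in
/-- the large inputs -/
def ClinL (S : Step G D0 ℓ) (c : Geo) (Rm : Act S.P.g) : Act S.P.g' := fun Y =>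
  ∑ X ∈ Finset.univ.filter (fun X : Finset S.P.g.I => S.P.g.Conn c.R X ∧ c.n0 < X.card ∧ S.P.N.cl X = Y), conv S.Γ (Rm X)

/-- the closure of a polymer is a polymer.  plan: `Hol.idist_up_le`; map the chains (`Relation.ReflTransGen.lift`). -/
theorem w_conn_cl (P : Pair G D0 ℓ) (R : ℕ) {X : Finset P.g.I} (hX : P.g.Conn R X) : P.g'.Conn R (P.N.cl X) := by
  classical
  refine ⟨hX.1.image _, ?_⟩
  intro a ha b hb
  simp only [Nest.cl, Finset.mem_image] at ha hb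
  obtain ⟨a', ha', rfl⟩ := ha
  obtain ⟨b', hb', rfl⟩ := hb
  have key : ∀ u v, (u ∈ X ∧ v ∈ X ∧ P.g.idist u v ≤ R) → (P.N.up u ∈ P.N.cl X ∧ P.N.up v ∈ P.N.cl X ∧ P.g'.idist (P.N.up u) (P.N.up v) ≤ R) :=
    fun u v huv => ⟨Finset.mem_image_of_mem _ huv.1, Finset.mem_image_of_mem _ huv.2.1, (Hol.idist_up_le P u v).trans huv.2.2⟩
  exact Relation.ReflTransGen.lift (p := fun u v => u ∈ P.N.cl X ∧ v ∈ P.N.cl X ∧ P.g'.idist u v ≤ R) P.N.up key a' b' (hX.2 a' ha' b' hb')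

theorem wlin_conv_zero (Γ : Matrix G.V G.V ℝ) : conv Γ (0 : Fn G) = 0 := by
  funext z
  unfold conv
  simp

open Classical in
/-- the explicit form of the linear part with the designated data of the weak map, at a coarse polymer -/
theorem wlin_klin (h : Ctx c p gs S) (cosOn : Bool) (x : ℂ × ℂ × Act S.P.g) (hx : Adm p c gs x.2.2) (hfin : actNorm p S.P.g S.Vf x.2.2 ≠ ⊤)
    (hz : cosOn = false → x.2.1 = 0) (K : Act S.P.g) (Y : Finset S.P.g'.I) (hY : S.P.g'.Conn c.R Y) (z : G.V → ℂ) :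
    Klin S.P c.R (conv S.Γ) K (S.desig c p.ω cosOn x) Y z
      = (∑ X ∈ Finset.univ.filter (fun X : Finset S.P.g.I => S.P.g.Conn c.R X ∧ S.P.N.cl X = Y), conv S.Γ (K X) z)
        - (∑ X ∈ (S.small c).filter (fun X => S.P.N.cl X = Y), ∑ B ∈ X, S.piece p.ω cosOn x.2.2 X B z)
        - (∑ b ∈ Y, if Y = {b} then ∑ B ∈ Finset.univ.filter (fun B => S.P.N.up B = b),
            conv S.Γ ((x.1 / 2) • eBC S.P.g B + x.2.1 • cBC S.P.g (Step.alpha p.ω) B) z else 0)
        + single S.P.g' (Step.alpha p.ω) (S.tz c p.ω cosOn x).1 (S.tz c p.ω cosOn x).2 Y z := by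
  obtain ⟨d, hd⟩ : ∃ d, d = S.desig c p.ω cosOn x := ⟨_, rfl⟩
  have hK : Klin S.P c.R (conv S.Γ) K d Y
      = (∑ X ∈ Finset.univ.filter (fun X : Finset S.P.g.I => S.P.g.Conn c.R X ∧ S.P.N.cl X = Y), conv S.Γ (K X))
        - (∑ b ∈ Y, d.F Y b)
        + ∑ b ∈ Y, if Y = {b} then (∑ Y' : Finset S.P.g'.I, if b ∈ Y' then d.F Y' b else 0) - d.a b • 1 else 0 := by
    unfold Klin
    rw [if_pos hY]
  have ha : ∑ b ∈ Y, d.F Y b z
      = (∑ X ∈ (S.small c).filter (fun X => S.P.N.cl X = Y), ∑ B ∈ X, S.piece p.ω cosOn x.2.2 X B z)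
        + (∑ b ∈ Y, if Y = {b} then ∑ B ∈ Finset.univ.filter (fun B => S.P.N.up B = b),
            conv S.Γ ((x.1 / 2) • eBC S.P.g B + x.2.1 • cBC S.P.g (Step.alpha p.ω) B) z else 0) := by
    rw [hd, Finset.sum_congr rfl fun b _ => wlin_F_apply S c p.ω cosOn x Y b z, Finset.sum_add_distrib, Finset.sum_comm]
    congr 1
    refine Finset.sum_congr rfl fun X hX => ?_
    have hcl : S.P.N.cl X = Y := (Finset.mem_filter.1 hX).2
    exact Finset.sum_fiberwise_of_maps_to (fun B hB => hcl ▸ Finset.mem_image_of_mem _ hB) _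
  have hb : (∑ b ∈ Y, if Y = {b} then (∑ Y' : Finset S.P.g'.I, if b ∈ Y' then d.F Y' b else 0) - d.a b • 1 else 0) z
      = single S.P.g' (Step.alpha p.ω) (S.tz c p.ω cosOn x).1 (S.tz c p.ω cosOn x).2 Y z := by
    by_cases hs : ∃ b0, Y = {b0}
    · obtain ⟨b0, rfl⟩ := hs
      rw [Finset.sum_singleton, if_pos rfl, w_single_singleton, Pi.sub_apply, Finset.sum_apply, Pi.add_apply, Pi.smul_apply, Pi.smul_apply,
        Pi.smul_apply, smul_eq_mul, smul_eq_mul, smul_eq_mul, Pi.one_apply, mul_one, ← w_reloc h cosOn x hx hfin hz b0 z, hd]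
      congr 1
      refine Finset.sum_congr rfl fun Y' _ => ?_
      split_ifs <;> rfl
    · rw [w_single_of_ne _ _ _ _ _ fun B hB => hs ⟨B, hB⟩, Finset.sum_eq_zero fun b _ => if_neg fun hB => hs ⟨b, hB⟩]
  rw [← hd, hK, Pi.add_apply, Pi.sub_apply, Finset.sum_apply, Finset.sum_apply, ha, hb]
  ring

theorem wlin_klin_zero (P : Pair G D0 ℓ) (R : ℕ) (E : Fn G → Fn G) (K : Act P.g) (d : Desig P.g' (Fn G)) (Y : Finset P.g'.I) (hY : ¬ P.g'.Conn R Y) :
    Klin P R E K d Y = 0 := by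
  unfold Klin
  rw [if_neg hY]

theorem wlin_single_zero (g : Grid G) (α : ℝ) (t w : ℂ) (R : ℕ) (Y : Finset g.I) (hY : ¬ g.Conn R Y) : single g α t w Y = 0 :=
  w_single_of_ne _ _ _ _ _ fun B hB => hY (hB ▸ w_conn_singleton g R B)

theorem wlin_clin_zero (S : Step G D0 ℓ) (c : Geo) (ω : ℝ) (cosOn : Bool) (Rm : Act S.P.g) (Y : Finset S.P.g'.I) (hY : ¬ S.P.g'.Conn c.R Y) :
    S.Clin c ω cosOn Rm Y = 0 := by
  unfold Step.Clin
  rw [Pi.sub_apply, wlin_klin_zero _ _ _ _ _ _ hY, wlin_single_zero _ _ _ _ _ _ hY, sub_zero]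

open Classical in
/-- `C_j R` at a coarse polymer -/
theorem wlin_clin_apply (h : Ctx c p gs S) (cosOn : Bool) {Rm : Act S.P.g} (hR : Adm p c gs Rm) (hfin : actNorm p S.P.g S.Vf Rm ≠ ⊤)
    (Y : Finset S.P.g'.I) (hY : S.P.g'.Conn c.R Y) (z : G.V → ℂ) :
    S.Clin c p.ω cosOn Rm Y z
      = (∑ X ∈ Finset.univ.filter (fun X : Finset S.P.g.I => S.P.g.Conn c.R X ∧ S.P.N.cl X = Y), conv S.Γ (Rm X) z)
        - (∑ X ∈ (S.small c).filter (fun X => S.P.N.cl X = Y), ∑ B ∈ X, S.piece p.ω cosOn Rm X B z) := by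
  unfold Step.Clin
  rw [Pi.sub_apply, Pi.sub_apply, wlin_klin h cosOn (0, 0, Rm) hR hfin (fun _ => rfl) Rm Y hY z]
  have e0 : ∀ B : S.P.g.I, conv S.Γ ((((0 : ℂ), (0 : ℂ), Rm).1 / 2) • eBC S.P.g B + ((0 : ℂ), (0 : ℂ), Rm).2.1 • cBC S.P.g (Step.alpha p.ω) B) z = 0 := by
    intro B
    have : ((((0 : ℂ), (0 : ℂ), Rm).1 / 2) • eBC S.P.g B + ((0 : ℂ), (0 : ℂ), Rm).2.1 • cBC S.P.g (Step.alpha p.ω) B) = 0 := by simp
    rw [this, wlin_conv_zero]; rfl
  have e1 : (∑ b ∈ Y, if Y = {b} then ∑ B ∈ Finset.univ.filter (fun B => S.P.N.up B = b),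
      conv S.Γ ((((0 : ℂ), (0 : ℂ), Rm).1 / 2) • eBC S.P.g B + ((0 : ℂ), (0 : ℂ), Rm).2.1 • cBC S.P.g (Step.alpha p.ω) B) z else 0) = 0 := by
    refine Finset.sum_eq_zero fun b _ => ?_
    split_ifs
    · exact Finset.sum_eq_zero fun B _ => e0 B
    · rfl
  rw [e1]
  ring

open Classical in
theorem wlin_split_sum {M : Type} [AddCommMonoid M] (S : Step G D0 ℓ) (c : Geo) (Y : Finset S.P.g'.I) (f : Finset S.P.g.I → M) :
    ∑ X ∈ Finset.univ.filter (fun X : Finset S.P.g.I => S.P.g.Conn c.R X ∧ S.P.N.cl X = Y), f X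
      = ∑ X ∈ (S.small c).filter (fun X => S.P.N.cl X = Y), f X
        + ∑ X ∈ Finset.univ.filter (fun X : Finset S.P.g.I => S.P.g.Conn c.R X ∧ c.n0 < X.card ∧ S.P.N.cl X = Y), f X := by
  rw [← Finset.sum_filter_add_sum_filter_not (Finset.univ.filter (fun X : Finset S.P.g.I => S.P.g.Conn c.R X ∧ S.P.N.cl X = Y)) (fun X => X.card ≤ c.n0)]
  congr 1
  · refine Finset.sum_congr ?_ fun _ _ => rfl
    ext X
    simp only [Finset.mem_filter, Finset.mem_univ, true_and, w_mem_small]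
    tauto
  · refine Finset.sum_congr ?_ fun _ _ => rfl
    ext X
    simp only [Finset.mem_filter, Finset.mem_univ, true_and, not_le]
    tauto

/-- **`C_j R = ` (subtracted small inputs) + (large inputs)**, an identity of functions (all `z`).
plan: unfold `Clin`, `Klin`.  `Y` not a polymer: both sides vanish (`w_conn_cl`, `w_single_of_ne`).  `Y` a polymer: split the polymers `X` with `cl X = Y` into small and large; `∑_{b ∈ Y} F Y b = ∑_{X small, cl X = Y} ∑_{B ∈ X} piece X B` (+ `0`: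
`conv Γ (0 • e + 0 • c) = 0`); for `Y = {b}` the remaining bracket is cancelled by the singletons: `w_reloc` with `x = (0, 0, R)` and `w_single_singleton`. -/
theorem w_clin_split (h : Ctx c p gs S) (cosOn : Bool) {Rm : Act S.P.g} (hR : Adm p c gs Rm) (hfin : actNorm p S.P.g S.Vf Rm ≠ ⊤) :
    S.Clin c p.ω cosOn Rm = ClinS S c p.ω cosOn Rm + ClinL S c Rm := by
  classical
  funext Y z
  by_cases hY : S.P.g'.Conn c.R Y
  · rw [wlin_clin_apply h cosOn hR hfin Y hY z, wlin_split_sum, Pi.add_apply, Pi.add_apply]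
    unfold ClinS ClinL
    rw [Finset.sum_apply, Finset.sum_apply]
    simp only [Pi.sub_apply, Finset.sum_apply, Finset.sum_sub_distrib]
    ring
  · rw [wlin_clin_zero S c p.ω cosOn Rm Y hY, Pi.add_apply, Pi.add_apply]
    unfold ClinS ClinL
    rw [Finset.sum_eq_zero, Finset.sum_eq_zero]
    · simp
    · intro X hX
      have hX' := (Finset.mem_filter.1 hX).2
      exact absurd (hX'.2.2 ▸ w_conn_cl S.P c.R hX'.1) hY
    · intro X hX
      have hX' := Finset.mem_filter.1 hX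
      exact absurd (hX'.2 ▸ w_conn_cl S.P c.R (w_mem_small.1 hX'.1).1) hY

/-! ## LEAF `W-LIN-6`: `WeakOK.lin` -/

theorem wlin_single_fin (h : Ctx c p gs S) (t w : ℂ) : actNorm p S.P.g S.Vf (single S.P.g (Step.alpha p.ω) t w) ≠ ⊤ := by
  obtain ⟨Cs, hCs⟩ := w_single_norm p.δ p.κ p.h0 h.ok.adm.δ_pos h.ok.adm.κ_pos (Step.alpha p.ω)
  have := hCs p.A p.ω h.hA h.hω G S.P.g S.P.ok S.Vf t w (Or.inr le_rfl)
  exact ne_top_of_le_ne_top (ENNReal.mul_ne_top ENNReal.ofReal_ne_top (ENNReal.mul_ne_top ENNReal.coe_ne_top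
    (ENNReal.add_ne_top.2 ⟨ENNReal.coe_ne_top, ENNReal.coe_ne_top⟩))) this

open Classical in
/-- the singleton inputs -/
theorem wlin_sum_single (S : Step G D0 ℓ) (c : Geo) (α : ℝ) (t w : ℂ) (Y : Finset S.P.g'.I) (z : G.V → ℂ) :
    ∑ X ∈ Finset.univ.filter (fun X : Finset S.P.g.I => S.P.g.Conn c.R X ∧ S.P.N.cl X = Y), conv S.Γ (single S.P.g α t w X) z
      = ∑ b ∈ Y, if Y = {b} then ∑ B ∈ Finset.univ.filter (fun B => S.P.N.up B = b),
            conv S.Γ ((t / 2) • eBC S.P.g B + w • cBC S.P.g α B) z else 0 := by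
  have hcl : ∀ B : S.P.g.I, S.P.N.cl {B} = {S.P.N.up B} := fun B => Finset.image_singleton _ _
  -- reduction to singletons
  have e1 : ∑ X ∈ Finset.univ.filter (fun X : Finset S.P.g.I => S.P.g.Conn c.R X ∧ S.P.N.cl X = Y), conv S.Γ (single S.P.g α t w X) z
      = ∑ B ∈ Finset.univ.filter (fun B : S.P.g.I => {S.P.N.up B} = Y), conv S.Γ ((t / 2) • eBC S.P.g B + w • cBC S.P.g α B) z := by
    have e2 : ∑ B ∈ Finset.univ.filter (fun B : S.P.g.I => {S.P.N.up B} = Y), conv S.Γ ((t / 2) • eBC S.P.g B + w • cBC S.P.g α B) z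
        = ∑ X ∈ (Finset.univ.filter (fun B : S.P.g.I => {S.P.N.up B} = Y)).map ⟨fun B => ({B} : Finset S.P.g.I), Finset.singleton_injective⟩,
            conv S.Γ (single S.P.g α t w X) z := by
      rw [Finset.sum_map]
      refine Finset.sum_congr rfl fun B _ => ?_
      show _ = conv S.Γ (single S.P.g α t w {B}) z
      rw [w_single_singleton]
    rw [e2]
    symm
    refine Finset.sum_subset ?_ ?_
    · intro X hX
      obtain ⟨B, hB, rfl⟩ := Finset.mem_map.1 hX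
      have hB' := (Finset.mem_filter.1 hB).2
      refine Finset.mem_filter.2 ⟨Finset.mem_univ _, w_conn_singleton S.P.g c.R B, ?_⟩
      show S.P.N.cl {B} = Y
      rw [hcl, hB']
    · intro X hX hX'
      have hXY := (Finset.mem_filter.1 hX).2.2
      rw [w_single_of_ne, wlin_conv_zero]; rfl
      intro B hB
      apply hX'
      refine Finset.mem_map.2 ⟨B, Finset.mem_filter.2 ⟨Finset.mem_univ _, ?_⟩, hB.symm⟩
      rw [← hcl, ← hB, hXY]
  rw [e1]
  by_cases hs : ∃ b0, Y = {b0}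
  · obtain ⟨b0, rfl⟩ := hs
    rw [Finset.sum_singleton, if_pos rfl]
    refine Finset.sum_congr ?_ fun _ _ => rfl
    ext B
    simp only [Finset.mem_filter, Finset.mem_univ, true_and]
    exact Finset.singleton_inj
  · rw [Finset.sum_eq_zero fun b _ => if_neg fun hB => hs ⟨b, hB⟩]
    refine Finset.sum_eq_zero fun B hB => ?_
    exact absurd ⟨_, ((Finset.mem_filter.1 hB).2).symm⟩ hs

/-- plan: at `z` in the strip of `Y`: `E (K X)(z) = E (single X)(z) + E (R X)(z)` (`w_conv_add`; `w_strip_coarse`; `single X` has finite size: `w_single_norm` or directly integrable by `w_conv_single`); the singleton inputs `X = {B}`, `cl X = {up B}`, cancel against the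
second part of `F {b} b`; then as in `w_clin_split`, with `w_reloc` for `x`. -/
theorem w_lin (h : Ctx c p gs S) (cosOn : Bool) (x : ℂ × ℂ × Act S.P.g) (hx : Adm p c gs x.2.2) (hfin : actNorm p S.P.g S.Vf x.2.2 ≠ ⊤) (hz : cosOn = false → x.2.1 = 0) :
    EqOn p.h0 (Klin S.P c.R (conv S.Γ) (Kof S.P.g (Step.alpha p.ω) x) (S.desig c p.ω cosOn x))
      (single S.P.g' (Step.alpha p.ω) (S.tz c p.ω cosOn x).1 (S.tz c p.ω cosOn x).2 + S.Clin c p.ω cosOn x.2.2) := by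
  classical
  intro Y z hzY
  by_cases hY : S.P.g'.Conn c.R Y
  · rw [wlin_klin h cosOn x hx hfin hz _ Y hY z, Pi.add_apply, Pi.add_apply, wlin_clin_apply h cosOn hx hfin Y hY z,
      ← wlin_sum_single S c (Step.alpha p.ω) x.1 x.2.1 Y z]
    have e1 : ∀ X ∈ Finset.univ.filter (fun X : Finset S.P.g.I => S.P.g.Conn c.R X ∧ S.P.N.cl X = Y),
        conv S.Γ (Kof S.P.g (Step.alpha p.ω) x X) z = conv S.Γ (single S.P.g (Step.alpha p.ω) x.1 x.2.1 X) z + conv S.Γ (x.2.2 X) z := by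
      intro X hX
      have hXY := (Finset.mem_filter.1 hX).2.2
      have hzX : z ∈ strip p.h0 S.P.g X := w_strip_coarse S.P p.h0 (le_of_eq hXY) hzY
      exact w_conv_add h ((w_single_ok p h.hω c.col c.R h.geo.col_pos S.P.g x.1 x.2.1).fn X).hol (hx.ok.fn X).hol
        (w_fin h (wlin_single_fin h x.1 x.2.1) X) (w_fin h hfin X) hzX
    rw [Finset.sum_congr rfl e1, Finset.sum_add_distrib]
    ring
  · rw [wlin_klin_zero _ _ _ _ _ _ hY, Pi.add_apply, wlin_single_zero _ _ _ _ _ _ hY, wlin_clin_zero S c p.ω cosOn x.2.2 Y hY, add_zero]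

/-! ## LEAF `W-LIN-7`: linearity of `C_j` -/

/-- plan: `w_clin_split`, `w_piece_add`, `w_conv_add` at the points of the strips. -/
theorem w_clin_add (h : Ctx c p gs S) (cosOn : Bool) {Rm Rm' : Act S.P.g} (hR : Adm p c gs Rm) (hR' : Adm p c gs Rm') (hfin : actNorm p S.P.g S.Vf Rm ≠ ⊤)
    (hfin' : actNorm p S.P.g S.Vf Rm' ≠ ⊤) : EqOn p.h0 (S.Clin c p.ω cosOn (Rm + Rm')) (S.Clin c p.ω cosOn Rm + S.Clin c p.ω cosOn Rm') := by
  classical
  intro Y z hzY
  have hRR : Adm p c gs (Rm + Rm') := w_cls_add p c.col c.R gs hR hR'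
  have hff : actNorm p S.P.g S.Vf (Rm + Rm') ≠ ⊤ :=
    ne_top_of_le_ne_top (ENNReal.add_ne_top.2 ⟨hfin, hfin'⟩) (w_actNorm_add_le p S.P.g S.Vf Rm Rm')
  by_cases hY : S.P.g'.Conn c.R Y
  · rw [Pi.add_apply, Pi.add_apply, wlin_clin_apply h cosOn hRR hff Y hY z, wlin_clin_apply h cosOn hR hfin Y hY z, wlin_clin_apply h cosOn hR' hfin' Y hY z]
    have e1 : ∀ X ∈ Finset.univ.filter (fun X : Finset S.P.g.I => S.P.g.Conn c.R X ∧ S.P.N.cl X = Y),
        conv S.Γ ((Rm + Rm') X) z = conv S.Γ (Rm X) z + conv S.Γ (Rm' X) z := by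
      intro X hX
      have hXY := (Finset.mem_filter.1 hX).2.2
      have hzX : z ∈ strip p.h0 S.P.g X := w_strip_coarse S.P p.h0 (le_of_eq hXY) hzY
      exact w_conv_add h (hR.ok.fn X).hol (hR'.ok.fn X).hol (w_fin h hfin X) (w_fin h hfin' X) hzX
    have e2 : ∀ X ∈ (S.small c).filter (fun X => S.P.N.cl X = Y), ∑ B ∈ X, S.piece p.ω cosOn (Rm + Rm') X B z
        = ∑ B ∈ X, S.piece p.ω cosOn Rm X B z + ∑ B ∈ X, S.piece p.ω cosOn Rm' X B z := by
      intro X _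
      rw [← Finset.sum_add_distrib]
      refine Finset.sum_congr rfl fun B _ => ?_
      rw [w_piece_add h cosOn hR hR' hfin hfin' X B, Pi.add_apply]
    rw [Finset.sum_congr rfl e1, Finset.sum_congr rfl e2, Finset.sum_add_distrib, Finset.sum_add_distrib]
    ring
  · rw [Pi.add_apply, wlin_clin_zero S c p.ω cosOn _ Y hY, wlin_clin_zero S c p.ω cosOn _ Y hY, wlin_clin_zero S c p.ω cosOn _ Y hY, add_zero]

theorem w_clin_smul (h : Ctx c p gs S) (cosOn : Bool) (a : ℂ) {Rm : Act S.P.g} (hR : Adm p c gs Rm) (hfin : actNorm p S.P.g S.Vf Rm ≠ ⊤) :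
    EqOn p.h0 (S.Clin c p.ω cosOn (a • Rm)) (a • S.Clin c p.ω cosOn Rm) := by
  classical
  intro Y z _
  have hRR : Adm p c gs (a • Rm) := w_cls_smul p c.col c.R gs a hR
  have hff : actNorm p S.P.g S.Vf (a • Rm) ≠ ⊤ :=
    ne_top_of_le_ne_top (ENNReal.mul_ne_top ENNReal.coe_ne_top hfin) (w_actNorm_smul_le p S.P.g S.Vf a Rm)
  by_cases hY : S.P.g'.Conn c.R Y
  · rw [Pi.smul_apply, Pi.smul_apply, wlin_clin_apply h cosOn hRR hff Y hY z, wlin_clin_apply h cosOn hR hfin Y hY z, smul_eq_mul, mul_sub,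
      Finset.mul_sum, Finset.mul_sum]
    congr 1
    · refine Finset.sum_congr rfl fun X _ => ?_
      rw [Pi.smul_apply, w_conv_smul, Pi.smul_apply, smul_eq_mul]
    · refine Finset.sum_congr rfl fun X _ => ?_
      rw [Finset.mul_sum]
      refine Finset.sum_congr rfl fun B _ => ?_
      rw [w_piece_smul h cosOn a hR hfin X B, Pi.smul_apply, smul_eq_mul]
  · rw [Pi.smul_apply, wlin_clin_zero S c p.ω cosOn _ Y hY, wlin_clin_zero S c p.ω cosOn _ Y hY, smul_zero]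

end

end Claimed.Agent.R285.B8
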