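import Claimed.Agent.R285.Map.WNl
import Claimed.Agent.R285.Map.WGain
import Claimed.Agent.R285.Map.WGap

/-!
# ROW 285, unit MAP: PROPOSITION 8.3 (`weak_step`, `weak_step_gapped`): THE ASSEMBLY                      (owner helper202)

`weak_core`: ONE generic assembly of `WeakOK` from `StepOK` and the gain of the subtracted small inputs (`SmallGain` at `η = c_pl θ / L²`), generic in `cosOn`.  NO LEAF IN THIS FILE.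
Inputs: `w_lin`, `w_clin_add/smul`, `w_Pt_add/smul` (WLin, WDes), `w_proj` (WDes), `w_contr` (WBnd), `w_nl` (WNl, helper90), `w_adm`, `w_adm_lin`, `w_conj`, `w_parity`, `w_exact`, `w_hol` (WFin, helper90).
The variants: `wk_step` (marginal window, `wg_marginal`), `wk_step_gapped` (`w_gain_gapped`, helper14).  `Read/B8.lean` links `weak_step := wk_step` etc.
-/

set_option autoImplicit false

namespace Claimed.Agent.R285.B8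

open scoped BigOperators ENNReal NNReal
open MeasureTheory
open Claimed.Agent.R285.RG Claimed.Agent.R285.Hol

noncomputable section

/-- **the generic assembly.**  Order: (radii, kernels, `n₀`, `cst`), `δ, κ, h₀ > 0`, `αmax`, `θ`; then `c_pl`, `ℓ0`, `D1`; `L = 2^ℓ`; `A ≥ A₀`; `C`, `ε₀`. -/
theorem weak_core (c : Geo) (hc : c.Ok) (δ κ : ℝ) (h0 : ℝ≥0) (hδ : 0 < δ) (hκ : 0 < κ) (hh : 0 < h0) (αmax : ℝ) (θ : ℝ≥0) (hθ : 0 < θ) :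
    ∃ (cpl : ℝ≥0) (ℓ0 D1 : ℕ), 0 < cpl ∧ ∀ ℓ ≥ ℓ0, ∃ A0 : ℝ, ∀ A ≥ A0, ∃ (C ε0 : ℝ≥0), 0 < ε0 ∧ ∀ D0 ≥ D1,
      ∀ (ω : ℝ) (G : Geom) (gs : Grid G) (S : Step G D0 ℓ) (cosOn : Bool), 0 < ω → (cosOn = true → Step.alpha ω ≤ αmax) →
        StepOK c ⟨δ, κ, h0, A, ω⟩ gs S →
        (Ctx c ⟨δ, κ, h0, A, ω⟩ gs S → SmallGain c ⟨δ, κ, h0, A, ω⟩ gs S cosOn (cpl * θ / (2 ^ ℓ) ^ 2)) →
        WeakOK c ⟨δ, κ, h0, A, ω⟩ gs S cosOn θ C ε0 := by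
  obtain ⟨cpl, ℓc, Dc, hcpl, Hc⟩ := w_contr c hc θ hθ
  obtain ⟨ℓn, Dn, Hn⟩ := w_nl c hc δ κ h0 hδ hκ hh αmax
  obtain ⟨ℓp, Dp, Hp⟩ := w_proj c hc δ κ h0 hδ hκ hh
  refine ⟨cpl, max (max ℓc ℓn) (max ℓp c.R), max (max Dc Dn) (max Dp 12), hcpl, fun ℓ hℓ => ?_⟩
  have hℓc : ℓc ≤ ℓ := ((le_max_left _ _).trans (le_max_left _ _)).trans hℓ
  have hℓn : ℓn ≤ ℓ := ((le_max_right _ _).trans (le_max_left _ _)).trans hℓ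
  have hℓp : ℓp ≤ ℓ := ((le_max_left _ _).trans (le_max_right _ _)).trans hℓ
  have hℓR : c.R ≤ 2 ^ ℓ := (((le_max_right _ _).trans (le_max_right _ _)).trans hℓ).trans Nat.lt_two_pow_self.le
  obtain ⟨Ac, hAc1, Hc⟩ := Hc ℓ hℓc
  obtain ⟨An, _, Hn⟩ := Hn ℓ hℓn
  obtain ⟨Cp, _, Hp⟩ := Hp ℓ hℓp
  refine ⟨max Ac An, fun A hA => ?_⟩
  obtain ⟨C, ε0, hε0, Hn⟩ := Hn A ((le_max_right _ _).trans hA)
  refine ⟨max C Cp, ε0, hε0, fun D0 hD ω G gs S cosOn hω hα hS hg => ?_⟩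
  have hDc : Dc ≤ D0 := ((le_max_left _ _).trans (le_max_left _ _)).trans hD
  have hDn : Dn ≤ D0 := ((le_max_right _ _).trans (le_max_left _ _)).trans hD
  have hDp : Dp ≤ D0 := ((le_max_left _ _).trans (le_max_right _ _)).trans hD
  have hD12 : 12 ≤ D0 := ((le_max_right _ _).trans (le_max_right _ _)).trans hD
  have h : Ctx c ⟨δ, κ, h0, A, ω⟩ gs S := ⟨hc, hS, hω, hh, hAc1.trans ((le_max_left _ _).trans hA), hD12, hℓR⟩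
  obtain ⟨hquad, hlip, hcst⟩ := Hn D0 hDn ω G gs S cosOn hα h
  have hC : (C : ℝ≥0∞) ≤ ((max C Cp : ℝ≥0) : ℝ≥0∞) := by exact_mod_cast le_max_left C Cp
  have hCp : (Cp : ℝ≥0∞) ≤ ((max C Cp : ℝ≥0) : ℝ≥0∞) := by exact_mod_cast le_max_right C Cp
  have fin : ∀ x : ℂ × ℂ × Act S.P.g, size3 ⟨δ, κ, h0, A, ω⟩ S.P.g S.Vf x ≤ ε0 → actNorm ⟨δ, κ, h0, A, ω⟩ S.P.g S.Vf x.2.2 ≠ ⊤ :=
    fun x hs => w_fin_of_size3 (ne_top_of_le_ne_top ENNReal.coe_ne_top hs)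
  exact {
    lin := fun x hx hfin hz => w_lin h cosOn x hx hfin hz
    proj := fun Rm hR => (Hp D0 hDp A ω G gs S h Rm hR).trans (mul_le_mul' hCp le_rfl)
    contr := fun Rm hR => Hc A ((le_max_left _ _).trans hA) D0 hDc δ κ h0 ω G gs S cosOn h (hg h) Rm hR
    quad := fun x hx hz hs => (hquad x hx hz hs).trans (mul_le_mul' hC le_rfl)
    lip := fun x y hx hy hz hsx hsy => (hlip x y hx hy hz hsx hsy).trans (mul_le_mul' (mul_le_mul' hC le_rfl) le_rfl)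
    adm := fun x hx hs => w_adm h cosOn x hx (fin x hs)
    conj := fun x hx hs => w_conj h cosOn x hx (fin x hs)
    cst := fun x hx hs b => ⟨((hcst x hx hs b).1).trans (mul_le_mul' hC le_rfl), (hcst x hx hs b).2⟩
    exact := fun x hx hs z hz => w_exact h cosOn x hx (fin x hs) (fun b => (hcst x hx hs b).2) z hz
    parity := fun x hx _ => w_parity h cosOn x hx
    hol := fun x y hx hy hsx hsy => w_hol h cosOn x y hx hy (fin x hsx.le) (w_fin_of_size3 hsy) (fun b => (hcst x hx hsx.le b).2)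
    add := fun Rm Rm' hR hR' hf hf' => ⟨(w_Pt_add h hR hR' hf hf').1, (w_Pt_add h hR hR' hf hf').2, w_clin_add h cosOn hR hR' hf hf'⟩
    smul := fun a Rm hR hf => ⟨(w_Pt_smul h a hR hf).1, (w_Pt_smul h a hR hf).2, w_clin_smul h cosOn a hR hf⟩
    adm_lin := fun Rm hR hf => w_adm_lin h cosOn Rm hR hf }

/-- **Proposition 8.3, marginal window** (= `B8.weak_step`) -/
theorem wk_step (c : Geo) (hc : c.Ok) : ∃ C1 : ℝ≥0, ∀ (δ κ : ℝ) (h0 : ℝ≥0), 0 < δ → 0 < κ → C1 ≤ h0 → ∀ θ : ℝ≥0, 0 < θ →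
    ∃ (ℓ0 D1 : ℕ), ∀ ℓ ≥ ℓ0, ∃ A0 : ℝ, ∀ A ≥ A0, ∃ (C ε0 : ℝ≥0), 0 < ε0 ∧ ∀ D0 ≥ D1, ∀ (ω : ℝ) (G : Geom) (gs : Grid G) (S : Step G D0 ℓ),
      0 < ω → k0 ≤ Step.alpha ω ^ 2 → Step.alpha ω ^ 2 ≤ 4 * k0 → ((2 : ℝ) ^ ℓ) ^ 2 * Real.exp (-k0 * S.Γ (org G) (org G) / 2) ≤ 2 →
      StepOK c ⟨δ, κ, h0, A, ω⟩ gs S →
      WeakOK c ⟨δ, κ, h0, A, ω⟩ gs S true θ C ε0 := by
  obtain ⟨C1, hC1, Hg⟩ := wg_marginal c hc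
  refine ⟨C1, fun δ κ h0 hδ hκ hC θ hθ => ?_⟩
  have hk0 : 0 < k0 := by unfold k0; positivity
  obtain ⟨cpl, ℓa, Da, hcpl, Hw⟩ := weak_core c hc δ κ h0 hδ hκ (hC1.trans_le hC) (2 * Real.sqrt k0) θ hθ
  obtain ⟨ℓb, Db, Hg⟩ := Hg δ κ h0 hδ hκ hC (cpl * θ) (mul_pos hcpl hθ)
  refine ⟨max ℓa ℓb, max Da Db, fun ℓ hℓ => ?_⟩
  obtain ⟨A0, Hw⟩ := Hw ℓ ((le_max_left _ _).trans hℓ)
  refine ⟨A0, fun A hA => ?_⟩
  obtain ⟨C, ε0, hε0, Hw⟩ := Hw A hA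
  refine ⟨C, ε0, hε0, fun D0 hD ω G gs S hω h1 h2 h3 hS => ?_⟩
  refine Hw D0 ((le_max_left _ _).trans hD) ω G gs S true hω (fun _ => ?_) hS
    (fun h => Hg ℓ ((le_max_right _ _).trans hℓ) D0 ((le_max_right _ _).trans hD) A ω G gs S h1 h2 h3 h)
  have : Step.alpha ω ^ 2 ≤ (2 * Real.sqrt k0) ^ 2 := by rw [mul_pow, Real.sq_sqrt hk0.le]; linarith
  exact (abs_le_of_sq_le_sq' this (by positivity)).2

/-- **Proposition 8.3, gapped window** (= `B8.weak_step_gapped`) -/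
theorem wk_step_gapped (c : Geo) (hc : c.Ok) (a1 a2 : ℝ) (h1 : k0 < a1) (_h2 : a1 ≤ a2) :
    ∃ C1 : ℝ≥0, ∀ (δ κ : ℝ) (h0 : ℝ≥0), 0 < δ → 0 < κ → C1 ≤ h0 → ∀ θ : ℝ≥0, 0 < θ →
    ∃ (ℓ0 D1 : ℕ), ∀ ℓ ≥ ℓ0, ∃ A0 : ℝ, ∀ A ≥ A0, ∃ (C ε0 : ℝ≥0), 0 < ε0 ∧ ∀ D0 ≥ D1, ∀ (ω : ℝ) (G : Geom) (gs : Grid G) (S : Step G D0 ℓ),
      0 < ω → a1 ≤ Step.alpha ω ^ 2 → Step.alpha ω ^ 2 ≤ a2 →
      (1 - (a1 - k0) / (2 * a1)) * (ℓ * Real.log 2 / (2 * Real.pi)) ≤ S.Γ (org G) (org G) →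
      StepOK c ⟨δ, κ, h0, A, ω⟩ gs S → WeakOK c ⟨δ, κ, h0, A, ω⟩ gs S false θ C ε0 := by
  obtain ⟨C1, hC1, Hg⟩ := w_gain_gapped c a1 a2 h1
  refine ⟨C1, fun δ κ h0 hδ hκ hC θ hθ => ?_⟩
  obtain ⟨cpl, ℓa, Da, hcpl, Hw⟩ := weak_core c hc δ κ h0 hδ hκ (hC1.trans_le hC) 0 θ hθ
  obtain ⟨ℓb, Db, Hg⟩ := Hg δ κ h0 hδ hκ hC (cpl * θ) (mul_pos hcpl hθ)
  refine ⟨max ℓa ℓb, max Da Db, fun ℓ hℓ => ?_⟩
  obtain ⟨A0, Hw⟩ := Hw ℓ ((le_max_left _ _).trans hℓ)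
  refine ⟨A0, fun A hA => ?_⟩
  obtain ⟨C, ε0, hε0, Hw⟩ := Hw A hA
  refine ⟨C, ε0, hε0, fun D0 hD ω G gs S hω g1 g2 g3 hS => ?_⟩
  exact Hw D0 ((le_max_left _ _).trans hD) ω G gs S false hω (fun hf => by simp at hf) hS
    (fun h => Hg ℓ ((le_max_right _ _).trans hℓ) D0 ((le_max_right _ _).trans hD) A ω G gs S g1 g2 g3 h)

end

end Claimed.Agent.R285.B8
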